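import Crest.Agent.R326.AlongAux

/-!
Applying a line map along every direction of a multi-dimensional array.
-/

set_option autoImplicit false

namespace Crest.Agent.R326

open Crest.Agent.Lib.PT Crest.Agent.Lib.LT

/-- A line met during the `i`-th pass. -/
structure Line {A α : Type} (d ℓ : A → ℕ) (Inv : A → ℕ → α → Prop) : Type where
  /-- the instance -/
  a : A
  /-- the pass -/
  i : ℕ
  hi : i < d a
  /-- the other coordinates -/
  o : List ℕ
  ho : o.length = d a ∧ ∀ e ∈ o, e < 2 ^ ℓ a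
  /-- the entries -/
  v : ℕ → α
  hv : ∀ k, k < 2 ^ ℓ a → Inv a i (v k)

variable {A α γ δ : Type} [Enc α] [Enc γ] [Enc δ] {cur : A → P} {B : A → ℕ} {x : In B}

/-- `d` passes; pass `i` computes a table at cost `tc` and treats each line in the direction
`dim i` at cost `lc`; the entries have size at most `s`. -/
theorem ct_allDims (dim : γ → ℕ → ℕ) (hdim : PT (fun q : γ × ℕ => dim q.1 q.2))
    {d ℓ s : A → ℕ} {ψ : A → ℕ → List ℕ → (ℕ → α) → ℕ → α} {f : ∀ a, (Fin (d a) → ℕ) → α}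
    {par : A → γ} (tab : A → ℕ → δ) (Inv : A → ℕ → α → Prop) (lc tc : A → ℕ)
    (hf : CT cur x (fun a => tarr (d a) (2 ^ ℓ a) (f a)))
    (hp : CT cur x (fun a => (par a, d a, ℓ a, s a)))
    (hlt : ∀ a i, i < d a → dim (par a) i < d a)
    (hInv : ∀ a i, i ≤ d a → ∀ y ∈ box (d a) (2 ^ ℓ a),
      Inv a i (allDims (dim (par a)) (ψ a) (f a) i y))
    (hsz : ∀ a i z, i ≤ d a → Inv a i z → sz z ≤ s a)
    (hs : Sm s (fun a => ℓ a * d a + ℓ a + d a + sz (par a)))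
    (htc : Dom s tc) (hlc : Dom (fun a => 2 ^ ℓ a * s a) lc)
    (htab : ∀ x' : In (fun q : Ix d => tc q.a), CT (fun q => cur q.a) x' (fun q => par q.a) →
      CT (fun q => cur q.a) x' (fun q => q.i) → CT (fun q => cur q.a) x' (fun q => tab q.a q.i))
    (htl : Dom (fun q : Ix d => sz (tab q.a q.i)) (fun q => lc q.a))
    (hline : ∀ x' : In (fun q : Line d ℓ Inv => lc q.a),
      CT (fun q => cur q.a) x' (fun q => par q.a) →
      CT (fun q => cur q.a) x' (fun q => tab q.a q.i) →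
      CT (fun q => cur q.a) x' (fun q => q.i) →
      CT (fun q => cur q.a) x' (fun q => q.o) →
      CT (fun q => cur q.a) x' (fun q => arr (2 ^ ℓ q.a) q.v) →
      CT (fun q => cur q.a) x' (fun q => arr (2 ^ ℓ q.a) (ψ q.a q.i q.o q.v)))
    (hB : Dom (fun a => (d a + 1) * (2 ^ (ℓ a * d a) * s a * pw τ₁ (ℓ a) +
      2 ^ (ℓ a * (d a - 1)) * lc a + tc a)) B) :
    CT cur x (fun a => tarr (d a) (2 ^ ℓ a) (allDims (dim (par a)) (ψ a) (f a) (d a))) := by
  have hspos : ∀ a, 0 < s a := hs.pos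
  have htpos : ∀ a, 0 < 2 ^ ℓ a := fun a => by positivity
  have hslc : Dom s lc := hlc.le_trans fun a => Nat.le_mul_of_pos_left _ (htpos a)
  have hs₁ : Sm s (fun a => ℓ a * d a + ℓ a + d a) := hs.of_le fun a => by omega
  have hlcsm : Sm lc (fun a => ℓ a * d a + ℓ a + d a + sz (par a)) := hs.mono hslc
  -- the cost of one pass
  set B' : A → ℕ := fun a => 2 ^ (ℓ a * d a) * s a * pw τ₁ (ℓ a) +
    2 ^ (ℓ a * (d a - 1)) * lc a + tc a with hB'
  have hmain : Dom (fun a => 2 ^ (ℓ a * d a) * s a * pw τ₁ (ℓ a)) B' :=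
    Dom.of_le fun a => by simp only [hB']; omega
  have hNs : Dom (fun a => 2 ^ (ℓ a * d a) * s a) B' :=
    hmain.le_trans fun a => Nat.le_mul_of_pos_right _ (pw_pos _ _)
  have hsB' : Dom s B' := hNs.le_trans fun a => Nat.le_mul_of_pos_left _ (by positivity)
  have hB'sm : Sm B' (fun a => ℓ a * d a + ℓ a + d a + sz (par a)) := hs.mono hsB'
  -- the line routine on a canonical input
  have hLdom : Dom (fun q : Line d ℓ Inv =>
      sz (par q.a, tab q.a q.i, q.i, q.o, arr (2 ^ ℓ q.a) q.v)) (fun q => lc q.a) := by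
    have e1 : Dom (fun q : Line d ℓ Inv => sz (tab q.a q.i)) (fun q => lc q.a) :=
      htl.comap (fun q : Line d ℓ Inv => (⟨q.a, q.i, q.hi⟩ : Ix d))
    have e2 := (hlcsm.add_const 1).dom.comap (Line.a (d := d) (ℓ := ℓ) (Inv := Inv))
    have e3 := hlc.comap (Line.a (d := d) (ℓ := ℓ) (Inv := Inv))
    refine ((e1.add (e2.const_mul 8)).add (e3.const_mul 2)).le_trans fun q => ?_
    have h1 := sz_nat_le_self q.i
    have h2 := q.hi
    have h3 := sz_list_le q.o (6 * ℓ q.a + 1) fun e he => sz_nat_le_of_lt_two_pow (q.ho.2 e he)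
    rw [q.ho.1] at h3
    have h4 : sz (arr (2 ^ ℓ q.a) q.v) ≤ 2 ^ ℓ q.a * (s q.a + 1) + 1 :=
      sz_arr_le fun k hk => hsz _ _ _ q.hi.le (q.hv k hk)
    have h5 : 2 ^ ℓ q.a * (s q.a + 1) ≤ 2 * (2 ^ ℓ q.a * s q.a) := by
      have := hspos q.a
      nlinarith [htpos q.a]
    simp only [sz_pair]
    nlinarith
  have hLx := CT.of (fun q : Line d ℓ Inv => cur q.a) _ hLdom
  have hL := hline _ hLx.fst hLx.snd.fst hLx.snd.snd.fst hLx.snd.snd.snd.fst hLx.snd.snd.snd.snd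
  -- the table routine on a canonical input
  have hTdom : Dom (fun q : Ix d => sz (par q.a, q.i)) (fun q => tc q.a) := by
    have e2 := (((hs.mono htc).add_const 1).dom.comap (Ix.a (N := d))).const_mul 6
    refine e2.le_trans fun q => ?_
    have h1 := sz_nat_le_self q.i
    have h2 := q.lt
    simp only [sz_pair]
    omega
  have hTx := CT.of (fun q : Ix d => cur q.a) _ hTdom
  have hT := htab _ hTx.fst hTx.snd
  refine CT.for (N := d) (st := fun a i =>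
      tarr (d a) (2 ^ ℓ a) (allDims (dim (par a)) (ψ a) (f a) i))
    hp.snd.fst hp hf (fun a _ => B' a) ?_ (fun x' h₁ h₂ h₃ => ?_)
    (hB.le_trans fun a => by
      rw [Finset.sum_const, Finset.card_range, smul_eq_mul]
      exact Nat.mul_le_mul_right _ (Nat.le_succ _))
  · have e1 := (hNs.comap (Ix.a (N := d))).const_mul 2
    have e2 := ((hB'sm.add_const 1).dom.comap (Ix.a (N := d))).const_mul 12
    have e3 := (hsB'.comap (Ix.a (N := d))).const_mul 6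
    refine ((e1.add e2).add e3).le_trans fun q => ?_
    have h1 := sz_nat_le_self q.i
    have h2 := q.lt
    have h3 := sz_nat_le_self (d q.a)
    have h4 := sz_nat_le_self (ℓ q.a)
    have h5 := sz_nat_le_self (s q.a)
    have h6 : sz (tarr (d q.a) (2 ^ ℓ q.a) (allDims (dim (par q.a)) (ψ q.a) (f q.a) q.i)) ≤
        (2 ^ ℓ q.a) ^ d q.a * (s q.a + 1) + 1 :=
      sz_arr_le fun n _ => hsz _ _ _ q.lt.le (hInv _ _ q.lt.le _ (digs_mem_box (htpos _) _))
    rw [← pow_mul] at h6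
    have h7 : 2 ^ (ℓ q.a * d q.a) * (s q.a + 1) ≤ 2 * (2 ^ (ℓ q.a * d q.a) * s q.a) := by
      have := hspos q.a
      have : 0 < 2 ^ (ℓ q.a * d q.a) := by positivity
      nlinarith
    simp only [sz_pair]
    omega
  -- one pass
  have hsm' := hB'sm.comap (Ix.a (N := d))
  let j : ∀ q : Ix d, Fin (d q.a) := fun q => ⟨dim (par q.a) q.i, hlt _ _ q.lt⟩
  have hj : CT (fun q : Ix d => cur q.a) x' (fun q => (j q : ℕ)) :=
    (h₂.fst.pair h₃).pt hdim (((hsm'.const_mul 6).add_const 2).of_le fun q => by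
      have h1 := sz_nat_le_self q.i
      have h2 := q.lt
      simp only [sz_pair]
      omega)
  have hd' := h₂.snd.fst
  have hℓ' := h₂.snd.snd.fst
  have hs' := h₂.snd.snd.snd
  have htab' : CT (fun q : Ix d => cur q.a) x' (fun q => tab q.a q.i) :=
    hT.via id (fun _ => rfl) (h₂.fst.pair h₃).enc
      (Dom.of_le fun q => by simp only [hB', id]; omega)
  have S₁ := ct_swapDim (d := fun q : Ix d => d q.a) (ℓ := fun q => ℓ q.a) (s := fun q => s q.a) j
    h₁ hj hℓ' hs'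
    (fun q y hy => hsz _ _ _ q.lt.le (hInv _ _ q.lt.le _ hy)) (hs₁.comap Ix.a) (hmain.comap Ix.a)
  have hsplit : ∀ q : Ix d, (2 ^ ℓ q.a) ^ d q.a = 2 ^ (ℓ q.a * (d q.a - 1)) * 2 ^ ℓ q.a := by
    intro q
    have := q.lt
    rw [pow_mul, ← pow_succ]
    congr 1
    omega
  have hK : CT (fun q : Ix d => cur q.a) x' (fun q => 2 ^ (ℓ q.a * (d q.a - 1))) :=
    ((hℓ'.pair hd').pt (f := fun q : ℕ × ℕ => q.1 * (q.2 - 1)) (by fun_prop)
      (((hsm'.const_mul 6).add_const 3).of_le fun q => by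
        have h1 := sz_nat_le_self (ℓ q.a)
        have h2 := sz_nat_le_self (d q.a)
        simp only [sz_pair]
        omega)).two_pow (hsm'.dom.le_trans fun q => by
      have : ℓ q.a * (d q.a - 1) ≤ ℓ q.a * d q.a := Nat.mul_le_mul_left _ (by omega)
      dsimp only
      omega)
  have ht : CT (fun q : Ix d => cur q.a) x' (fun q => 2 ^ ℓ q.a) :=
    hℓ'.two_pow (hsm'.dom.le_trans fun q => by dsimp only; omega)
  set F : ∀ q : Ix d, (Fin (d q.a) → ℕ) → α :=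
    fun q => allDims (dim (par q.a)) (ψ q.a) (f q.a) q.i with hF
  have S₂ := CT.arr_chunks (f := fun (q : Ix d) n => F q (swp (j q) (digs (d q.a) (2 ^ ℓ q.a) n)))
    hK ht (((hNs.comap Ix.a).const_mul 4).le_trans fun q => by
      have h1 := hsplit q
      rw [← pow_mul] at h1
      have h2 : 0 < 2 ^ (ℓ q.a * (d q.a - 1)) := by positivity
      have h3 := htpos q.a
      have h4 := hspos q.a
      rw [h1]
      have h5 : (2 ^ (ℓ q.a * (d q.a - 1)) + 1) * (2 ^ ℓ q.a + 1) ≤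
          4 * (2 ^ (ℓ q.a * (d q.a - 1)) * 2 ^ ℓ q.a) := by nlinarith
      exact h5.trans (Nat.mul_le_mul_left _ (Nat.le_mul_of_pos_right _ h4)))
    (S₁.congr fun q => by rw [← hsplit q]; rfl)
  -- the lines
  let φ : Ix (fun q : Ix d => 2 ^ (ℓ q.a * (d q.a - 1))) → Line d ℓ Inv := fun r =>
    ⟨r.a.a, r.a.i, r.a.lt,
      List.ofFn (Function.update (lbase (2 ^ ℓ r.a.a) (j r.a) r.i) (j r.a) 0),
      ⟨by simp, fun e he => by
        obtain ⟨k, rfl⟩ := List.mem_ofFn.1 he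
        exact mem_box.1 (update_mem_box (lbase_mem_box (htpos _) _ _) _ (htpos _)) k⟩,
      fun k => F r.a (Function.update (lbase (2 ^ ℓ r.a.a) (j r.a) r.i) (j r.a) k),
      fun k hk => hInv _ _ r.a.lt.le _ (update_mem_box (lbase_mem_box (htpos _) _ _) _ hk)⟩
  have S₂' : CT (fun q : Ix d => cur q.a) x' (fun q => arr (2 ^ (ℓ q.a * (d q.a - 1)))
      (fun m => arr (2 ^ ℓ q.a)
        (fun k => F q (Function.update (lbase (2 ^ ℓ q.a) (j q) m) (j q) k)))) :=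
    S₂.congr fun q => arr_congr fun m _ => arr_congr fun k hk => by rw [swp_digs_mul_add _ _ hk]
  have hlcsm' := hlcsm.comap (Ix.a (N := d))
  have S₃ := CT.arr_mapU (out := fun (q : Ix d) m => arr (2 ^ ℓ q.a)
      (ψ q.a q.i (List.ofFn (Function.update (lbase (2 ^ ℓ q.a) (j q) m) (j q) 0))
        (fun k => F q (Function.update (lbase (2 ^ ℓ q.a) (j q) m) (j q) k))))
    S₂' ((h₂.fst.pair (htab'.pair h₃)).pair (hj.pair (hd'.pair hℓ'))) (fun q => lc q.a)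
    ((hLdom.comap φ).le_trans fun r => by simp only [sz_pair, φ]; omega)
    ((htl.add (((hlcsm'.add_const 1).dom).const_mul 18)).le_trans fun q => by
      have h1 := sz_nat_le_self q.i
      have h2 := q.lt
      have h3 := sz_nat_le_self (d q.a)
      have h4 := sz_nat_le_self (ℓ q.a)
      have h5 := sz_nat_le_self (j q : ℕ)
      have h6 := (j q).isLt
      simp only [sz_pair]
      omega)
    ((hlcsm'.add_const 1).sz_of_lt_two_pow fun q => by
      have : ℓ q.a * (d q.a - 1) ≤ ℓ q.a * d q.a := Nat.mul_le_mul_left _ (by omega)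
      exact Nat.pow_lt_pow_right (by norm_num) (by omega)).dom
    (fun x'' g₁ g₂ g₃ => by
      have hsm'' := hlcsm'.comap (Ix.a (N := fun q : Ix d => 2 ^ (ℓ q.a * (d q.a - 1))))
      have g₄ := CT.digitsPow (g₃.mul_two_pow g₂.snd.snd.snd
        (hsm''.dom.le_trans fun r => by dsimp only; omega)) g₂.snd.snd.fst g₂.snd.snd.snd
        ((hsm''.add_const 1).dom.le_trans fun r => by
          have : (d r.a.a + 1) * (ℓ r.a.a + 1) = ℓ r.a.a * d r.a.a + ℓ r.a.a + d r.a.a + 1 := by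
            ring
          dsimp only
          omega)
      have g₅ := (g₄.pair g₂.snd.fst).pt
        (f := fun p : List ℕ × ℕ => (p.1.set 0 (p.1.getD p.2 0)).set p.2 0) (by fun_prop)
        (((hsm''.const_mul 8).add_const 3).of_le fun r => by
          have h1 : sz (arr (d r.a.a) fun i => r.i * 2 ^ ℓ r.a.a / 2 ^ (ℓ r.a.a * i) %
              2 ^ ℓ r.a.a) ≤ d r.a.a * (6 * ℓ r.a.a + 1 + 1) + 1 :=
            sz_arr_le fun i _ => sz_nat_le_of_lt_two_pow (Nat.mod_lt _ (htpos _))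
          have h5 := sz_nat_le_self (j r.a : ℕ)
          have h6 := (j r.a).isLt
          simp only [sz_pair]
          nlinarith)
      have g₆ : CT (fun r : Ix (fun q : Ix d => 2 ^ (ℓ q.a * (d q.a - 1))) => cur r.a.a) x''
          (fun r => (φ r).o) := g₅.congr fun r => ofFn_lbase _ _ _
      exact hL.via φ (fun _ => rfl)
        (g₂.fst.fst.pair (g₂.fst.snd.fst.pair (g₂.fst.snd.snd.pair (g₆.pair g₁)))).enc
        (Dom.refl _))
    (Dom.of_le fun q => by simp only [hB']; omega)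
  have S₄ : CT (fun q : Ix d => cur q.a) x' (fun q => tarr (d q.a) (2 ^ ℓ q.a)
      (fun y => allDims (dim (par q.a)) (ψ q.a) (f q.a) (q.i + 1) (swp (j q) y))) :=
    S₃.arr_flatten.congr fun q => by
      rw [← hsplit q]
      exact arr_congr fun n _ => along_swp_digs (htpos _) (j q) (ψ q.a q.i) (F q) n
  have S₅ := ct_swapDim (d := fun q : Ix d => d q.a) (ℓ := fun q => ℓ q.a) (s := fun q => s q.a) j
    S₄ hj hℓ' hs'
    (fun q y hy => hsz _ _ _ q.lt (hInv _ _ q.lt _ (swp_mem_box _ hy))) (hs₁.comap Ix.a)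
    (hmain.comap Ix.a)
  exact S₅.congr fun q => by simp only [swp_swp]

theorem ct_allLines_pos {φ : RP → (ℕ → GaussianInt) → ℕ → GaussianInt} {w : RP → ℕ} (hφ : LineCT φ w)
    (s : γ → ℕ → ℕ) (hs : PT (fun q : γ × ℕ => s q.1 q.2))
    {d ℓ g p N μ w₀ s₀ : A → ℕ} {par : A → γ} {f : ∀ a, (Fin (d a) → ℕ) → GaussianInt}
    (hd : ∀ a, 0 < d a)
    (hM : ∀ a, MulOK (cur a) (N a) (μ a)) (hN : ∀ a, 2 ^ 20 * p a ^ 2 ≤ N a)
    (hf : CT cur x (fun a => tarr (d a) (2 ^ ℓ a) (f a)))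
    (hp : CT cur x (fun a => (par a, d a, ℓ a, g a, p a)))
    (hv : ∀ a i, i < d a → RP.Valid ⟨2 ^ ℓ a, s (par a) i, g a, d a, p a⟩)
    (hw : ∀ a i, i < d a → w ⟨2 ^ ℓ a, s (par a) i, g a, d a, p a⟩ ≤ w₀ a) (hw₀ : ∀ a, 0 < w₀ a)
    (hb : ∀ a i, i ≤ d a → ∀ y ∈ box (d a) (2 ^ ℓ a),
      ‖(allLines (fun i => φ ⟨2 ^ ℓ a, s (par a) i, g a, d a, p a⟩) (f a) i y : ℂ)‖ ≤ 2 ^ p a)
    (hsm : Sm p (fun a => ℓ a * d a + ℓ a + d a + sz (par a)))
    (hs₀ : Sm s₀ p) (hs₁ : ∀ a, s₀ a ≤ 2 ^ (ℓ a * (d a - 1)))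
    (hB : Dom (fun a => (d a + 1) * 2 ^ (ℓ a * d a) * p a * (pw τ₁ (ℓ a) + w₀ a * μ a)) B) :
    CT cur x (fun a => tarr (d a) (2 ^ ℓ a)
      (allLines (fun i => φ ⟨2 ^ ℓ a, s (par a) i, g a, d a, p a⟩) (f a) (d a))) := by
  obtain ⟨tab, hT₁, hT₂, hT₃⟩ := hφ
  have hppos : ∀ a, 0 < p a := hsm.pos
  have htpos : ∀ a, 0 < 2 ^ ℓ a := fun a => by positivity
  have hμ : ∀ a, 0 < μ a := fun a => (hM a).pos
  have hgp : ∀ a, g a ≤ p a := fun a => by
    have h1 := (hv a 0 (hd a)).g_hi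
    have h2 := hd a
    simp only at h1
    have h3 : g a ≤ g a ^ 2 := Nat.le_self_pow (by norm_num) _
    have h4 : g a ^ 2 ≤ 4 * d a * g a ^ 2 := Nat.le_mul_of_pos_left _ (by omega)
    omega
  have hszp : Sm p (fun a => sz (p a)) :=
    ((Sm.log p hppos).add_const 1).sz_of_lt_two_pow fun a => Nat.lt_pow_succ_log_self one_lt_two _
  have hsm' : Sm p (fun a => ℓ a * d a + ℓ a + d a + sz (par a, d a, ℓ a, g a, p a)) :=
    (((hsm.const_mul 7).add (hszp.const_mul 2)).add_const 6).of_le fun a => by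
      have h1 := sz_nat_le_self (d a)
      have h2 := sz_nat_le_self (ℓ a)
      have h3 := sz_nat_mono (hgp a)
      simp only [sz_pair]
      omega
  have hs'p : Dom (fun a => 12 * p a + 27) p := ⟨39, fun a => by have := hppos a; dsimp only; omega⟩
  have hptc : Dom p (fun a => 2 ^ ℓ a * s₀ a) :=
    hs₀.dom.trans_le fun a => Nat.le_mul_of_pos_left _ (htpos a)
  have hplc : ∀ a, 2 ^ ℓ a * p a ≤ 2 ^ ℓ a * p a * w₀ a * μ a := fun a =>
    (Nat.le_mul_of_pos_right _ (hw₀ a)).trans (Nat.le_mul_of_pos_right _ (hμ a))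
  have hplc' : Dom p (fun a => 2 ^ ℓ a * p a * w₀ a * μ a) :=
    Dom.of_le fun a => (Nat.le_mul_of_pos_left _ (htpos a)).trans (hplc a)
  -- computing the line parameters
  have hr : ∀ (A' : Type) (π : A' → A) (i : A' → ℕ) (B' : A' → ℕ) (x' : In B'),
      (∀ q, i q < d (π q)) → Dom (fun q => p (π q)) B' →
      CT (fun q => cur (π q)) x' (fun q => (par (π q), d (π q), ℓ (π q), g (π q), p (π q))) →
      CT (fun q => cur (π q)) x' i →
      CT (fun q => cur (π q)) x'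
        (fun q => (⟨2 ^ ℓ (π q), s (par (π q)) (i q), g (π q), d (π q), p (π q)⟩ : RP)) := by
    intro A' π i B' x' hi hB' h₁ h₂
    have e := (hsm.comap π).mono hB'
    have h₃ := (h₁.fst.pair h₂).pt hs (((e.const_mul 6).add_const 2).of_le fun q => by
      have h1 := sz_nat_le_self (i q)
      have h2 := hi q
      simp only [sz_pair]
      omega)
    have h₄ := h₁.snd.snd.fst.two_pow (e.dom.le_trans fun q => by dsimp only; omega)
    exact (h₄.pair (h₃.pair (h₁.snd.snd.snd.fst.pair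
      (h₁.snd.fst.pair h₁.snd.snd.snd.snd)))).of_enc fun _ => rfl
  refine ct_allDims (γ := γ × ℕ × ℕ × ℕ × ℕ) (fun _ i => i) (by fun_prop) (d := d) (ℓ := ℓ)
    (s := fun a => 12 * p a + 27)
    (ψ := fun a i _ => φ ⟨2 ^ ℓ a, s (par a) i, g a, d a, p a⟩) (f := f)
    (par := fun a => (par a, d a, ℓ a, g a, p a))
    (fun a i => tab ⟨2 ^ ℓ a, s (par a) i, g a, d a, p a⟩)
    (fun a _ (z : GaussianInt) => ‖(z : ℂ)‖ ≤ 2 ^ p a)
    (fun a => 2 ^ ℓ a * p a * w₀ a * μ a) (fun a => 2 ^ ℓ a * s₀ a) hf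
    (hp.pair (hp.snd.fst.pair (hp.snd.snd.fst.pair
      ((hp.snd.snd.snd.snd.const_mul 12).add (CT.const 27)))))
    (fun _ _ h => h) hb (fun a i z _ hz => sz_gauss_le hz)
    (hsm'.mono (Dom.of_le fun a => by omega)) (hs'p.trans hptc)
    (((Dom.refl fun a => 2 ^ ℓ a).mul hs'p).trans_le hplc)
    (fun x' h₁ h₂ => ?_) ?_ (fun x' h₁ h₂ h₃ _ h₅ => ?_) ?_
  · refine hT₁ (Ix d) _ _ x' _ (fun q => s₀ q.a) (fun q => hv _ _ q.lt)
      (hr _ Ix.a Ix.i _ x' Ix.lt (hptc.comap Ix.a) h₁ h₂) ((hs₀.comap Ix.a).of_dom ?_)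
      (Dom.refl _)
    have e1 := ((hsm'.add_const 1).dom.comap (Ix.a (N := d))).const_mul 18
    refine (e1.add (Dom.refl _)).le_trans fun q => ?_
    have h1 : sz (2 ^ ℓ q.a) ≤ 6 * (ℓ q.a + 1) + 1 :=
      sz_nat_le_of_lt_two_pow (Nat.pow_lt_pow_right (by norm_num) (by omega))
    have h2 : sz (s (par q.a) q.i) ≤ 6 * ℓ q.a + 1 := sz_nat_le_of_lt_two_pow (hv _ _ q.lt).lt
    have h3 : sz (⟨2 ^ ℓ q.a, s (par q.a) q.i, g q.a, d q.a, p q.a⟩ : RP) =
      sz (2 ^ ℓ q.a, s (par q.a) q.i, g q.a, d q.a, p q.a) := rfl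
    rw [h3]
    simp only [sz_pair]
    omega
  · refine (hT₂.comap fun q : Ix d =>
      ⟨⟨2 ^ ℓ q.a, s (par q.a) q.i, g q.a, d q.a, p q.a⟩, hv _ _ q.lt⟩).trans_le fun q => ?_
    exact (Nat.mul_le_mul_left _ (hw _ _ q.lt)).trans (Nat.le_mul_of_pos_right _ (hμ _))
  · exact hT₃ _ _ _ x' _ (fun q => q.v) (fun q => N q.a) (fun q => μ q.a)
      (fun q => hv _ _ q.hi) (fun q => hM _) (fun q => hN _) (fun q k hk => q.hv k hk)
      (hr _ Line.a Line.i _ x' Line.hi (hplc'.comap Line.a) h₁ h₃) h₂ h₅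
      (Dom.of_le fun q => Nat.mul_le_mul_right _ (Nat.mul_le_mul_left _ (hw _ _ q.hi)))
  · refine (hB.const_mul 41).le_trans fun a => ?_
    have e : 2 ^ (ℓ a * d a) = 2 ^ (ℓ a * (d a - 1)) * 2 ^ ℓ a := by
      obtain ⟨k, hk⟩ : ∃ k, d a = k + 1 := ⟨d a - 1, by have := hd a; omega⟩
      rw [hk, ← pow_add, Nat.add_sub_cancel, mul_add, mul_one]
    have h1 := hppos a
    have h2 := pw_pos τ₁ (ℓ a)
    have h3 : 2 ^ (ℓ a * d a) * (12 * p a + 27) * pw τ₁ (ℓ a) ≤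
        39 * (2 ^ (ℓ a * d a) * p a * pw τ₁ (ℓ a)) := by
      calc _ ≤ 2 ^ (ℓ a * d a) * (39 * p a) * pw τ₁ (ℓ a) :=
            Nat.mul_le_mul_right _ (Nat.mul_le_mul_left _ (by omega))
        _ = _ := by ring
    have h4 : 2 ^ (ℓ a * (d a - 1)) * (2 ^ ℓ a * p a * w₀ a * μ a) =
        2 ^ (ℓ a * d a) * p a * (w₀ a * μ a) := by rw [e]; ring
    have h5 : 2 ^ ℓ a * s₀ a ≤ 2 ^ (ℓ a * d a) * p a * pw τ₁ (ℓ a) := by
      calc 2 ^ ℓ a * s₀ a ≤ 2 ^ ℓ a * 2 ^ (ℓ a * (d a - 1)) := Nat.mul_le_mul_left _ (hs₁ a)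
        _ = 2 ^ (ℓ a * d a) * 1 * 1 := by rw [e]; ring
        _ ≤ _ := Nat.mul_le_mul (Nat.mul_le_mul_left _ h1) h2
    rw [h4]
    calc _ ≤ (d a + 1) * (41 * (2 ^ (ℓ a * d a) * p a * pw τ₁ (ℓ a) +
          2 ^ (ℓ a * d a) * p a * (w₀ a * μ a))) := Nat.mul_le_mul_left _ (by omega)
      _ = _ := by ring

/-- A family of line maps with tables, applied in the directions `0, 1, …, d - 1`; the line
parameters in direction `i` are `⟨2 ^ ℓ, s i, g, d, p⟩`. -/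
theorem ct_allLines {φ : RP → (ℕ → GaussianInt) → ℕ → GaussianInt} {w : RP → ℕ} (hφ : LineCT φ w)
    (s : γ → ℕ → ℕ) (hs : PT (fun q : γ × ℕ => s q.1 q.2))
    {d ℓ g p N μ w₀ s₀ : A → ℕ} {par : A → γ} {f : ∀ a, (Fin (d a) → ℕ) → GaussianInt}
    (hM : ∀ a, MulOK (cur a) (N a) (μ a)) (hN : ∀ a, 2 ^ 20 * p a ^ 2 ≤ N a)
    (hf : CT cur x (fun a => tarr (d a) (2 ^ ℓ a) (f a)))
    (hp : CT cur x (fun a => (par a, d a, ℓ a, g a, p a)))
    (hv : ∀ a i, i < d a → RP.Valid ⟨2 ^ ℓ a, s (par a) i, g a, d a, p a⟩)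
    (hw : ∀ a i, i < d a → w ⟨2 ^ ℓ a, s (par a) i, g a, d a, p a⟩ ≤ w₀ a) (hw₀ : ∀ a, 0 < w₀ a)
    (hb : ∀ a i, i ≤ d a → ∀ y ∈ box (d a) (2 ^ ℓ a),
      ‖(allLines (fun i => φ ⟨2 ^ ℓ a, s (par a) i, g a, d a, p a⟩) (f a) i y : ℂ)‖ ≤ 2 ^ p a)
    (hsm : Sm p (fun a => ℓ a * d a + ℓ a + d a + sz (par a)))
    (hs₀ : Sm s₀ p) (hs₁ : ∀ a, s₀ a ≤ 2 ^ (ℓ a * (d a - 1)))
    (hB : Dom (fun a => (d a + 1) * 2 ^ (ℓ a * d a) * p a * (pw τ₁ (ℓ a) + w₀ a * μ a)) B) :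
    CT cur x (fun a => tarr (d a) (2 ^ ℓ a)
      (allLines (fun i => φ ⟨2 ^ ℓ a, s (par a) i, g a, d a, p a⟩) (f a) (d a))) := by
  refine CT.byCases (R := fun a => d a = 0) (hp.snd.fst.decide_eq (CT.const 0)) ?_ ?_
  · refine (hf.comap Subtype.val).congr fun a => ?_
    exact congrArg (fun i => tarr (d a.1) (2 ^ ℓ a.1)
      (allLines (fun i => φ ⟨2 ^ ℓ a.1, s (par a.1) i, g a.1, d a.1, p a.1⟩) (f a.1) i)) a.2
  · exact ct_allLines_pos (A := {a // ¬ d a = 0}) hφ s hs (d := fun a => d a.1)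
      (ℓ := fun a => ℓ a.1) (g := fun a => g a.1) (p := fun a => p a.1) (N := fun a => N a.1)
      (μ := fun a => μ a.1) (w₀ := fun a => w₀ a.1) (s₀ := fun a => s₀ a.1)
      (par := fun a => par a.1) (f := fun a => f a.1)
      (fun a => Nat.pos_of_ne_zero a.2) (fun a => hM a.1) (fun a => hN a.1)
      (hf.comap Subtype.val) (hp.comap Subtype.val) (fun a => hv a.1) (fun a => hw a.1)
      (fun a => hw₀ a.1) (fun a => hb a.1) (hsm.comap Subtype.val) (hs₀.comap Subtype.val)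
      (fun a => hs₁ a.1) (hB.comap Subtype.val)

end Crest.Agent.R326
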