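import Crest.Agent.R326.Defs

/-!
Multi-dimensional arrays: digits, tensor products of matrices, approximation along all directions.
-/

set_option autoImplicit false

namespace Crest.Agent.R326

open Crest.Agent.Lib.PT Crest.Agent.Lib.LT Finset

variable {d t : ℕ}

lemma mem_box {x : Fin d → ℕ} : x ∈ box d t ↔ ∀ j, x j < t := by simp [box]

lemma digs_mem_box (ht : 0 < t) (n : ℕ) : digs d t n ∈ box d t :=
  mem_box.2 fun _ => Nat.mod_lt _ ht

/-- The address of a multi-index. -/
def undigs (t : ℕ) (x : Fin d → ℕ) : ℕ := ∑ j, x j * t ^ (j : ℕ)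

lemma undigs_eq_sum (t : ℕ) (x : Fin d → ℕ) :
    undigs t x = ∑ k ∈ range d, (if h : k < d then x ⟨k, h⟩ else 0) * t ^ k := by
  rw [undigs, ← Fin.sum_univ_eq_sum_range (fun k => (if h : k < d then x ⟨k, h⟩ else 0) * t ^ k)]
  exact Finset.sum_congr rfl fun j _ => by simp [j.isLt]

lemma sum_digs_eq_mod (t n : ℕ) (d : ℕ) :
    ∑ k ∈ range d, n / t ^ k % t * t ^ k = n % t ^ d := by
  induction d with
  | zero => simp [Nat.mod_one]
  | succ d ih => rw [Finset.sum_range_succ, ih, Nat.mod_pow_succ, mul_comm]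

lemma undigs_lt {x : Fin d → ℕ} (hx : x ∈ box d t) : undigs t x < t ^ d := by
  rw [undigs_eq_sum]
  refine sum_digits_lt d fun k hk => ?_
  rw [dif_pos hk]
  exact mem_box.1 hx _

lemma digs_undigs {x : Fin d → ℕ} (hx : x ∈ box d t) : digs d t (undigs t x) = x := by
  funext j
  have ht : 0 < t := lt_of_le_of_lt (Nat.zero_le _) (mem_box.1 hx j)
  rw [digs, undigs_eq_sum, sum_digits_div_mod ht j d (fun k hk => by
    rw [dif_pos hk]; exact mem_box.1 hx _) j.isLt, dif_pos j.isLt]

lemma undigs_digs {n : ℕ} (hn : n < t ^ d) : undigs t (digs d t n) = n := by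
  rw [undigs]
  simp only [digs]
  rw [Fin.sum_univ_eq_sum_range (fun k => n / t ^ k % t * t ^ k), sum_digs_eq_mod,
    Nat.mod_eq_of_lt hn]

lemma tarr_congr {α : Type} {f g : (Fin d → ℕ) → α} (ht : 0 < t) (h : ∀ x ∈ box d t, f x = g x) :
    tarr d t f = tarr d t g := arr_congr fun n _ => h _ (digs_mem_box ht n)

variable {R : Type} [CommSemiring R]

lemma tens_congr {κ κ' : Fin d → ℕ → ℕ → R} {f f' : (Fin d → ℕ) → R} {x : Fin d → ℕ}
    (hκ : ∀ j k, k < t → κ j (x j) k = κ' j (x j) k) (hf : ∀ y ∈ box d t, f y = f' y) :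
    tens t κ f x = tens t κ' f' x := by
  refine Finset.sum_congr rfl fun y hy => ?_
  rw [hf y hy, Finset.prod_congr rfl fun j _ => hκ j (y j) (mem_box.1 hy j)]

lemma tens_tens (κ κ' : Fin d → ℕ → ℕ → R) (f : (Fin d → ℕ) → R) (x : Fin d → ℕ) :
    tens t κ (tens t κ' f) x =
      tens t (fun j a b => ∑ k ∈ range t, κ j a k * κ' j k b) f x := by
  unfold tens
  simp only [Finset.mul_sum]
  rw [Finset.sum_comm]
  refine Finset.sum_congr rfl fun z _ => ?_
  rw [Finset.prod_univ_sum, Finset.sum_mul]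
  refine Finset.sum_congr rfl fun y _ => ?_
  rw [Finset.prod_mul_distrib, mul_assoc]

lemma tens_diag (c : Fin d → ℕ → R) (f : (Fin d → ℕ) → R) {x : Fin d → ℕ} (hx : x ∈ box d t) :
    tens t (fun j a b => if a = b then c j b else 0) f x = (∏ j, c j (x j)) * f x := by
  unfold tens
  rw [Finset.sum_eq_single_of_mem x hx]
  · simp
  · intro y _ hne
    obtain ⟨j, hj⟩ := Function.ne_iff.1 hne
    rw [Finset.prod_eq_zero (Finset.mem_univ j) (if_neg hj.symm), zero_mul]

lemma tens_one (f : (Fin d → ℕ) → R) {x : Fin d → ℕ} (hx : x ∈ box d t) :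
    tens t (fun _ a b => if a = b then 1 else 0) f x = f x := by
  simpa using tens_diag (fun _ _ => (1 : R)) f hx

lemma update_mem_box {x : Fin d → ℕ} (hx : x ∈ box d t) (j : Fin d) {k : ℕ} (hk : k < t) :
    Function.update x j k ∈ box d t := by
  refine mem_box.2 fun i => ?_
  by_cases h : i = j
  · subst h; simpa using hk
  · rw [Function.update_of_ne h]; exact mem_box.1 hx i

/-- A matrix acting in one direction only. -/
lemma tens_single (j : Fin d) (M : ℕ → ℕ → R) (f : (Fin d → ℕ) → R) {x : Fin d → ℕ}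
    (hx : x ∈ box d t) :
    tens t (fun i a b => if i = j then M a b else if a = b then 1 else 0) f x =
      ∑ k ∈ range t, M (x j) k * f (Function.update x j k) := by
  unfold tens
  symm
  refine Finset.sum_of_injOn (fun k => Function.update x j k) ?_ ?_ ?_ ?_
  · intro k _ k' _ h
    simpa using congrFun h j
  · intro k hk
    exact update_mem_box hx j (Finset.mem_range.1 hk)
  · intro y hy hn
    have : ∃ i, i ≠ j ∧ x i ≠ y i := by
      by_contra hc
      push Not at hc
      refine hn ⟨y j, by simpa using mem_box.1 hy j, ?_⟩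
      funext i
      by_cases h : i = j
      · subst h; simp
      · simp only [Function.update_of_ne h]; exact hc i h
    obtain ⟨i, hi, hxy⟩ := this
    rw [Finset.prod_eq_zero (Finset.mem_univ i) (by simp only [if_neg hi, if_neg hxy]), zero_mul]
  · intro k _
    congr 1
    rw [Finset.prod_eq_single j]
    · simp
    · intro i _ hi
      simp [hi]
    · simp

lemma norm_tens_le {κ : Fin d → ℕ → ℕ → ℂ} {f : (Fin d → ℕ) → ℂ} {x : Fin d → ℕ} {Λ r : ℝ}
    (hκ : ∀ j, ∑ k ∈ range t, ‖κ j (x j) k‖ ≤ Λ) (hf : ∀ y ∈ box d t, ‖f y‖ ≤ r) (hr : 0 ≤ r) :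
    ‖tens t κ f x‖ ≤ Λ ^ d * r := by
  unfold tens
  calc ‖∑ y ∈ box d t, (∏ j, κ j (x j) (y j)) * f y‖
      ≤ ∑ y ∈ box d t, (∏ j, ‖κ j (x j) (y j)‖) * r := by
        refine (norm_sum_le _ _).trans (Finset.sum_le_sum fun y hy => ?_)
        rw [norm_mul, norm_prod]
        exact mul_le_mul_of_nonneg_left (hf y hy) (Finset.prod_nonneg fun _ _ => norm_nonneg _)
    _ = (∏ j, ∑ k ∈ range t, ‖κ j (x j) k‖) * r := by
        rw [← Finset.sum_mul, Finset.prod_univ_sum]; rfl
    _ ≤ Λ ^ d * r := by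
        refine mul_le_mul_of_nonneg_right ?_ hr
        calc ∏ j, ∑ k ∈ range t, ‖κ j (x j) k‖ ≤ ∏ _j : Fin d, Λ :=
              Finset.prod_le_prod (fun _ _ => Finset.sum_nonneg fun _ _ => norm_nonneg _)
                fun j _ => hκ j
          _ = Λ ^ d := by simp

/-- One more direction in a partial tensor product. -/
lemma tens_partial_succ (M : ℕ → ℕ → ℕ → R) (f : (Fin d → ℕ) → R) {i : ℕ} (hi : i < d)
    {x : Fin d → ℕ} (hx : x ∈ box d t) :
    tens t (fun (j : Fin d) a b => if (j : ℕ) < i + 1 then M j a b else if a = b then 1 else 0)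
        f x =
      ∑ k ∈ range t, M i (x ⟨i, hi⟩) k *
        tens t (fun (j : Fin d) a b => if (j : ℕ) < i then M j a b else if a = b then 1 else 0)
          f (Function.update x ⟨i, hi⟩ k) := by
  rw [← tens_single ⟨i, hi⟩ (M i) _ hx, tens_tens]
  refine tens_congr (fun j k hk => ?_) fun _ _ => rfl
  have hxj := mem_box.1 hx j
  by_cases h : j = ⟨i, hi⟩
  · subst h
    simp [hk]
  · have h' : (j : ℕ) ≠ i := fun e => h (Fin.ext e)
    have h2 : ((j : ℕ) < i + 1) = ((j : ℕ) < i) := propext ⟨fun _ => by omega, fun _ => by omega⟩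
    simp only [h, if_false, h2, ite_mul, one_mul, zero_mul]
    rw [Finset.sum_ite_eq]
    simp [hxj]

/-- Approximating line maps in all directions approximate the tensor product. -/
theorem allDims_approx {φ : ℕ → (ℕ → GaussianInt) → ℕ → GaussianInt} {M : ℕ → ℕ → ℕ → ℂ}
    {Λ ε r : ℝ} {p : ℕ} (hφ : ∀ i, i < d → LApprox t (φ i) (M i) Λ ε p) (hΛ : 1 ≤ Λ) (hε : 0 ≤ ε)
    {f : (Fin d → ℕ) → GaussianInt} (hf : ∀ y ∈ box d t, ‖(f y : ℂ)‖ ≤ r)
    (hr : Λ ^ d * (r + d * ε) ≤ 2 ^ p) :
    (∀ i, i ≤ d → ∀ y ∈ box d t,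
      ‖(allLines φ f i y : ℂ)‖ ≤ Λ ^ d * (r + d * ε)) ∧
    ∀ y ∈ box d t, ‖(allLines φ f d y : ℂ) -
      tens t (fun j => M j) (fun y => (f y : ℂ)) y‖ ≤ d * ε * Λ ^ d := by
  by_cases hne : (box d t).Nonempty
  swap
  · rw [Finset.not_nonempty_iff_eq_empty] at hne
    simp [hne]
  obtain ⟨y₀, hy₀⟩ := hne
  have hr0 : 0 ≤ r := (norm_nonneg _).trans (hf y₀ hy₀)
  have hΛ0 : 0 ≤ Λ := zero_le_one.trans hΛ
  have mono : ∀ i, i ≤ d → Λ ^ i * (r + i * ε) ≤ Λ ^ d * (r + d * ε) := by
    intro i hi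
    have h1 : (i : ℝ) ≤ d := by exact_mod_cast hi
    exact mul_le_mul (pow_le_pow_right₀ hΛ hi) (by nlinarith) (by positivity) (by positivity)
  have key : ∀ i, i ≤ d → ∀ y ∈ box d t,
      ‖(allLines φ f i y : ℂ)‖ ≤ Λ ^ i * (r + i * ε) ∧
      ‖(allLines φ f i y : ℂ) - tens t (fun (j : Fin d) a b =>
        if (j : ℕ) < i then M j a b else if a = b then 1 else 0) (fun y => (f y : ℂ)) y‖ ≤
        i * ε * Λ ^ i := by
    intro i
    induction i with
    | zero =>
      intro _ y hy
      have e : allLines φ f 0 y = f y := rfl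
      rw [e]
      refine ⟨by simpa using hf y hy, ?_⟩
      simp only [Nat.not_lt_zero, if_false]
      rw [tens_one _ hy]
      simp
    | succ i ih =>
      intro hi y hy
      have hi' : i < d := hi
      have ih' := ih hi'.le
      have e : allLines φ f (i + 1) y =
          φ i (fun k => allLines φ f i (Function.update y ⟨i, hi'⟩ k)) (y ⟨i, hi'⟩) := by
        simp only [allLines, allDims, along, id, dif_pos hi']
      obtain ⟨hM, hφ'⟩ := hφ i hi'
      have hyi := mem_box.1 hy ⟨i, hi'⟩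
      have h1 := hφ' (fun k => allLines φ f i (Function.update y ⟨i, hi'⟩ k))
        (fun k hk => ((ih' _ (update_mem_box hy _ hk)).1.trans (mono i hi'.le)).trans hr) _ hyi
      rw [← e] at h1
      have hrow := hM _ hyi
      have hpow : 1 ≤ Λ ^ (i + 1) := one_le_pow₀ hΛ
      have bound : ∀ (w : ℕ → ℂ) (c : ℝ), 0 ≤ c → (∀ k, k < t → ‖w k‖ ≤ c) →
          ‖∑ k ∈ range t, M i (y ⟨i, hi'⟩) k * w k‖ ≤ Λ * c := by
        intro w c hc hw
        calc ‖∑ k ∈ range t, M i (y ⟨i, hi'⟩) k * w k‖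
            ≤ ∑ k ∈ range t, ‖M i (y ⟨i, hi'⟩) k‖ * c := by
              refine (norm_sum_le _ _).trans (Finset.sum_le_sum fun k hk => ?_)
              rw [norm_mul]
              exact mul_le_mul_of_nonneg_left (hw k (Finset.mem_range.1 hk)) (norm_nonneg _)
          _ ≤ Λ * c := by
              rw [← Finset.sum_mul]
              exact mul_le_mul_of_nonneg_right hrow hc
      constructor
      · have h2 := bound (fun k => (allLines φ f i (Function.update y ⟨i, hi'⟩ k) : ℂ))
          (Λ ^ i * (r + i * ε)) (by positivity) fun k hk => (ih' _ (update_mem_box hy _ hk)).1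
        have h3 := norm_le_norm_add_norm_sub' (allLines φ f (i + 1) y : ℂ)
          (∑ k ∈ range t, M i (y ⟨i, hi'⟩) k *
            (allLines φ f i (Function.update y ⟨i, hi'⟩ k) : ℂ))
        push_cast
        rw [pow_succ] at hpow ⊢
        nlinarith
      · rw [tens_partial_succ M _ hi' hy]
        have h2 := bound (fun k => (allLines φ f i (Function.update y ⟨i, hi'⟩ k) : ℂ) -
          tens t (fun (j : Fin d) a b => if (j : ℕ) < i then M j a b else if a = b then 1 else 0)
            (fun y => (f y : ℂ)) (Function.update y ⟨i, hi'⟩ k))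
          (i * ε * Λ ^ i) (by positivity) fun k hk => (ih' _ (update_mem_box hy _ hk)).2
        simp only [mul_sub, Finset.sum_sub_distrib] at h2
        have h3 := norm_sub_le_norm_sub_add_norm_sub (allLines φ f (i + 1) y : ℂ)
          (∑ k ∈ range t, M i (y ⟨i, hi'⟩) k *
            (allLines φ f i (Function.update y ⟨i, hi'⟩ k) : ℂ))
          (∑ k ∈ range t, M i (y ⟨i, hi'⟩) k * tens t (fun (j : Fin d) a b =>
            if (j : ℕ) < i then M j a b else if a = b then 1 else 0)
            (fun y => (f y : ℂ)) (Function.update y ⟨i, hi'⟩ k))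
        push_cast
        rw [pow_succ] at hpow ⊢
        nlinarith
  refine ⟨fun i hi y hy => (key i hi y hy).1.trans (mono i hi), fun y hy => ?_⟩
  have := (key d le_rfl y hy).2
  simpa only [Fin.is_lt, if_true] using this

end Crest.Agent.R326
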