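import Crest.Agent.R326.Swap
import Crest.Agent.R326.Tensor

/-!
Exchanging the innermost direction of a multi-dimensional array with another one.
-/

set_option autoImplicit false

namespace Crest.Agent.R326

open Crest.Agent.Lib.PT Crest.Agent.Lib.LT

section digits

/-- The digit of index `i` of `n` in base `t`. -/
def dg (t n i : ℕ) : ℕ := n / t ^ i % t

lemma dg_mod (t n : ℕ) {i k : ℕ} (h : i < k) : dg t (n % t ^ k) i = dg t n i := by
  obtain ⟨e, rfl⟩ := Nat.exists_eq_add_of_lt h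
  unfold dg
  rw [add_assoc, pow_add, Nat.mod_mul_right_div_self,
    Nat.mod_mod_of_dvd _ (dvd_pow_self t (Nat.succ_ne_zero e))]

lemma dg_div (t n k i : ℕ) : dg t (n / t ^ k) i = dg t n (k + i) := by
  unfold dg
  rw [Nat.div_div_eq_div_mul, pow_add]

lemma dg_lo (t a : ℕ) {u k i : ℕ} (hu : u < t ^ k) (h : i < k) :
    dg t (a * t ^ k + u) i = dg t u i := by
  rw [← dg_mod t _ h, mul_comm, Nat.mul_add_mod, Nat.mod_eq_of_lt hu]

lemma dg_hi (t a : ℕ) {u k : ℕ} (hu : u < t ^ k) (i : ℕ) :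
    dg t (a * t ^ k + u) (k + i) = dg t a i := by
  have hk : 0 < t ^ k := lt_of_le_of_lt (Nat.zero_le _) hu
  rw [← dg_div, mul_comm, Nat.mul_add_div hk, Nat.div_eq_of_lt hu, add_zero]

lemma dg_zero (t n : ℕ) : dg t n 0 = n % t := by simp [dg]

lemma dg_lt {t : ℕ} (ht : 0 < t) (n i : ℕ) : dg t n i < t := Nat.mod_lt _ ht

lemma dg_swapIdx {t : ℕ} (ht : 0 < t) (j n i : ℕ) :
    dg t (swapIdx t (t ^ j) 1 n) i =
      dg t n (if i = 0 then j + 1 else if i = j + 1 then 0 else i) := by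
  have e : swapIdx t (t ^ j) 1 n =
      ((n / t ^ (j + 2) * t ^ 1 + dg t n 0) * t ^ j + n / t ^ 1 % t ^ j) * t ^ 1 +
        dg t n (j + 1) := by
    unfold swapIdx dg
    simp only [Nat.div_one, Nat.mod_one, mul_one, one_mul, add_zero, pow_one, pow_zero]
    rw [show t * t ^ j * t = t ^ (j + 2) by ring, show t * t ^ j = t ^ (j + 1) by ring]
  have h1 : ∀ m k, dg t m k < t ^ 1 := fun m k => by simpa using dg_lt ht m k
  have h2 : n / t ^ 1 % t ^ j < t ^ j := Nat.mod_lt _ (by positivity)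
  rw [e]
  rcases Nat.eq_zero_or_pos i with rfl | hi
  · rw [dg_lo _ _ (h1 _ _) one_pos, if_pos rfl, dg_zero, Nat.mod_eq_of_lt (dg_lt ht _ _)]
  obtain ⟨i, rfl⟩ : ∃ i', i = 1 + i' := ⟨i - 1, by omega⟩
  rw [dg_hi _ _ (h1 _ _), if_neg (by omega)]
  rcases lt_or_ge i j with h | h
  · rw [dg_lo _ _ h2 h, dg_mod _ _ h, dg_div, if_neg (by omega)]
  obtain ⟨i, rfl⟩ := Nat.exists_eq_add_of_le h
  rw [dg_hi _ _ h2]
  rcases Nat.eq_zero_or_pos i with rfl | hi
  · rw [dg_lo _ _ (h1 _ _) one_pos, if_pos (by omega), dg_zero t (dg t n 0),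
      Nat.mod_eq_of_lt (dg_lt ht _ _)]
  obtain ⟨i, rfl⟩ : ∃ i', i = 1 + i' := ⟨i - 1, by omega⟩
  rw [dg_hi _ _ (h1 _ _), dg_div, if_neg (by omega)]
  congr 1
  omega

end digits

section swp

variable {d t : ℕ}

/-- Exchange of the coordinates `0` and `j`. -/
def swp (j : Fin d) (y : Fin d → ℕ) : Fin d → ℕ := y ∘ Equiv.swap ⟨0, j.pos⟩ j

lemma swp_swp (j : Fin d) (y : Fin d → ℕ) : swp j (swp j y) = y := by
  funext i
  simp [swp]

lemma swp_mem_box (j : Fin d) {y : Fin d → ℕ} (hy : y ∈ box d t) : swp j y ∈ box d t :=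
  mem_box.2 fun _ => mem_box.1 hy _

lemma swp_of_zero {j : Fin d} (hj : (j : ℕ) = 0) (y : Fin d → ℕ) : swp j y = y := by
  have : (⟨0, j.pos⟩ : Fin d) = j := Fin.ext hj.symm
  funext i
  simp [swp, this]

lemma val_swap (j i : Fin d) : ((Equiv.swap ⟨0, j.pos⟩ j i : Fin d) : ℕ) =
    if (i : ℕ) = 0 then (j : ℕ) else if (i : ℕ) = j then 0 else i := by
  rw [Equiv.swap_apply_def]
  simp only [Fin.ext_iff]
  split_ifs <;> rfl

lemma digs_swapIdx (ht : 0 < t) {j : Fin d} (hj : (j : ℕ) ≠ 0) (n : ℕ) :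
    digs d t (swapIdx t (t ^ ((j : ℕ) - 1)) 1 n) = swp j (digs d t n) := by
  funext i
  have := dg_swapIdx ht ((j : ℕ) - 1) n i
  rw [show (j : ℕ) - 1 + 1 = j by omega] at this
  show dg t _ i = dg t n _
  rw [this, val_swap]

lemma swp_update (j : Fin d) (y : Fin d → ℕ) (c : ℕ) :
    swp j (Function.update y ⟨0, j.pos⟩ c) = Function.update (swp j y) j c := by
  unfold swp
  rw [Function.update_comp_equiv]
  simp

lemma digs_mul_add (hd : 0 < d) (m : ℕ) {c : ℕ} (hc : c < t) :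
    digs d t (m * t + c) = Function.update (digs d t (m * t)) ⟨0, hd⟩ c := by
  have ht : 0 < t := lt_of_le_of_lt (Nat.zero_le _) hc
  funext i
  by_cases h : i = ⟨0, hd⟩
  · subst h
    simp [digs, Nat.mod_eq_of_lt hc]
  · rw [Function.update_of_ne h]
    obtain ⟨k, hk⟩ : ∃ k, (i : ℕ) = 1 + k := ⟨(i : ℕ) - 1, by
      have : (i : ℕ) ≠ 0 := fun e => h (Fin.ext e)
      omega⟩
    show dg t _ i = dg t _ i
    have h1 := dg_hi t m (u := c) (k := 1) (by simpa using hc) k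
    have h2 := dg_hi t m (u := 0) (k := 1) (by simpa using ht) k
    rw [pow_one] at h1 h2
    rw [add_zero] at h2
    rw [hk, h1, h2]

/-- The base point of the `m`-th line in direction `j`. -/
def lbase (t : ℕ) (j : Fin d) (m : ℕ) : Fin d → ℕ := swp j (digs d t (m * t))

lemma lbase_mem_box (ht : 0 < t) (j : Fin d) (m : ℕ) : lbase t j m ∈ box d t :=
  swp_mem_box j (digs_mem_box ht _)

lemma swp_digs_mul_add (j : Fin d) (m : ℕ) {c : ℕ} (hc : c < t) :
    swp j (digs d t (m * t + c)) = Function.update (lbase t j m) j c := by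
  rw [digs_mul_add j.pos m hc, swp_update, lbase]

lemma along_swp_digs {α : Type} (ht : 0 < t) (j : Fin d) (ψ : List ℕ → (ℕ → α) → ℕ → α)
    (F : (Fin d → ℕ) → α) (n : ℕ) :
    along j ψ F (swp j (digs d t n)) =
      ψ (List.ofFn (Function.update (lbase t j (n / t)) j 0))
        (fun k => F (Function.update (lbase t j (n / t)) j k)) (n % t) := by
  conv_lhs => rw [← Nat.div_add_mod' n t, swp_digs_mul_add j _ (Nat.mod_lt _ ht)]
  simp [along]

lemma ofFn_lbase (ℓ : ℕ) (j : Fin d) (m : ℕ) :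
    List.ofFn (Function.update (lbase (2 ^ ℓ) j m) j 0) =
      ((arr d fun i => m * 2 ^ ℓ / 2 ^ (ℓ * i) % 2 ^ ℓ).set 0
        ((arr d fun i => m * 2 ^ ℓ / 2 ^ (ℓ * i) % 2 ^ ℓ).getD j 0)).set j 0 := by
  rw [getD_arr _ j.isLt]
  refine List.ext_getElem (by simp) fun i h₁ h₂ => ?_
  have hi : i < d := by simpa using h₁
  rw [List.getElem_ofFn, List.getElem_set, List.getElem_set, getElem_arr]
  by_cases h : (j : ℕ) = i
  · have : (⟨i, hi⟩ : Fin d) = j := Fin.ext h.symm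
    rw [if_pos h]
    simp [this]
  · rw [if_neg h, Function.update_of_ne (fun e => h (by rw [← e]))]
    simp only [lbase, swp, Function.comp, digs, val_swap, pow_mul]
    by_cases h0 : i = 0
    · simp [h0]
    · rw [if_neg h0, if_neg (Ne.symm h), if_neg (Ne.symm h0)]

end swp

lemma pw_succ_le (e : ℕ) : pw τ₁ (e + 1) ≤ 2 * pw τ₁ e := by
  unfold pw
  have h0 : (0 : ℝ) ≤ τ₁ := by unfold τ₁; norm_num
  have h1 : τ₁ ≤ 1 := by unfold τ₁; norm_num
  refine Nat.ceil_le.2 ?_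
  have h2 := Nat.le_ceil (((e : ℝ) + 1) ^ τ₁)
  have h3 : (((e + 1 : ℕ) : ℝ) + 1) ^ τ₁ ≤ (2 * ((e : ℝ) + 1)) ^ τ₁ :=
    Real.rpow_le_rpow (by positivity) (by push_cast; linarith [Nat.cast_nonneg (α := ℝ) e]) h0
  rw [Real.mul_rpow (by norm_num) (by positivity)] at h3
  have h4 : (2 : ℝ) ^ τ₁ ≤ 2 := by
    simpa using Real.rpow_le_rpow_of_exponent_le (by norm_num : (1 : ℝ) ≤ 2) h1
  have h5 : 0 ≤ ((e : ℝ) + 1) ^ τ₁ := by positivity
  push_cast at h3 ⊢
  nlinarith

variable {A α : Type} [Enc α] {cur : A → P} {B : A → ℕ} {x : In B}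

/-- Exchange the innermost direction with the direction `j`. -/
theorem ct_swapDim {d ℓ s : A → ℕ} (j : ∀ a, Fin (d a)) {F : ∀ a, (Fin (d a) → ℕ) → α}
    (hf : CT cur x (fun a => tarr (d a) (2 ^ ℓ a) (F a)))
    (hj : CT cur x (fun a => (j a : ℕ))) (hℓ : CT cur x ℓ) (hs' : CT cur x s)
    (hsz : ∀ a, ∀ y ∈ box (d a) (2 ^ ℓ a), sz (F a y) ≤ s a)
    (hs : Sm s (fun a => ℓ a * d a + ℓ a + d a))
    (hB : Dom (fun a => 2 ^ (ℓ a * d a) * s a * pw τ₁ (ℓ a)) B) :
    CT cur x (fun a => tarr (d a) (2 ^ ℓ a) (fun y => F a (swp (j a) y))) := by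
  have hsB : Dom s B := hB.le_trans fun a => by
    have h1 : 0 < 2 ^ (ℓ a * d a) := by positivity
    have h2 := pw_pos τ₁ (ℓ a)
    calc s a = 1 * s a * 1 := by ring
      _ ≤ _ := Nat.mul_le_mul (Nat.mul_le_mul_right _ h1) h2
  have hsm : Sm B (fun a => ℓ a * d a + ℓ a + d a) := hs.mono hsB
  have hQ : CT cur x (fun a => 2 ^ ℓ a) := hℓ.two_pow (hsm.dom.le_trans fun a => by omega)
  have he : CT cur x (fun a => ℓ a * ((j a : ℕ) - 1)) :=
    (hℓ.pair hj).pt (f := fun q : ℕ × ℕ => q.1 * (q.2 - 1)) (by fun_prop)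
      (((hsm.const_mul 6).add_const 3).of_le fun a => by
        have h1 := sz_nat_le_self (ℓ a)
        have h2 := sz_nat_le_self (j a : ℕ)
        have h3 := (j a).isLt
        simp only [sz_pair]
        omega)
  have hU : CT cur x (fun a => 2 ^ (ℓ a * ((j a : ℕ) - 1))) :=
    he.two_pow (hsm.dom.le_trans fun a => by
      have h3 := (j a).isLt
      have : ℓ a * ((j a : ℕ) - 1) ≤ ℓ a * d a := Nat.mul_le_mul_left _ (by omega)
      omega)
  refine CT.byCases (R := fun a => (j a : ℕ) = 0) (hj.decide_eq (CT.const 0)) ?_ ?_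
  · refine (hf.comap Subtype.val).congr fun a => ?_
    simp only [swp_of_zero a.2]
  · have key := ct_swap (A := {a // ¬ (j a : ℕ) = 0}) (cur := fun a => cur a.1)
      (x := x.comap Subtype.val) (N := fun a => (2 ^ ℓ a.1) ^ d a.1)
      (H := fun a => (2 ^ ℓ a.1) ^ (d a.1 - (j a.1 : ℕ) - 1)) (Q := fun a => 2 ^ ℓ a.1)
      (U := fun a => 2 ^ (ℓ a.1 * ((j a.1 : ℕ) - 1))) (O := fun _ => 1) (s := fun a => s a.1)
      (f := fun a n => F a.1 (digs (d a.1) (2 ^ ℓ a.1) n)) (hf.comap Subtype.val)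
      ((hQ.pair (hU.pair ((CT.const 1).pair hs'))).comap Subtype.val)
      (fun a => by
        have h1 := a.2
        have h3 := (j a.1).isLt
        rw [pow_mul, mul_one, ← pow_succ, ← pow_add, ← pow_succ]
        congr 1
        omega)
      (fun a => by positivity)
      (fun a i _ => hsz a.1 _ (digs_mem_box (by positivity) _))
      (((hs.add_const 1).comap Subtype.val).sz_of_lt_two_pow fun a => by
        rw [← pow_mul]
        exact Nat.pow_lt_pow_right (by norm_num) (by omega))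
      (((hB.comap Subtype.val).const_mul 2).le_trans fun a => by
        rw [Nat.size_pow, ← pow_mul, mul_left_comm]
        exact Nat.mul_le_mul_left _ (pw_succ_le _))
    refine key.congr fun a => arr_congr fun n _ => ?_
    rw [pow_mul, digs_swapIdx (by positivity) a.2]

end Crest.Agent.R326
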