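import Crest.Agent.R326.ConvC

/-!
Input, output and the pointwise products of the synthetic Fourier transform.
-/

set_option autoImplicit false

namespace Crest.Agent.R326

open Crest.Agent.Lib.PT Crest.Agent.Lib.LT Finset

/-- Reduction of Gaussian integers modulo `M`. -/
def cvGk (M : ℕ) : GaussianInt →+* KM M where
  toFun z := ⟨z.re, z.im⟩
  map_one' := by ext <;> simp [QuadraticAlgebra.re_one, QuadraticAlgebra.im_one]
  map_mul' z u := by ext <;> simp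
  map_zero' := by ext <;> simp
  map_add' z u := by ext <;> simp

lemma cvGk_re (M : ℕ) (z : GaussianInt) : (cvGk M z).re = z.re := rfl

lemma cvGk_im (M : ℕ) (z : GaussianInt) : (cvGk M z).im = z.im := rfl

/-- A pair of naturals as a Gaussian integer. -/
def cvUp (p : ℕ × ℕ) : GaussianInt := ⟨p.1, p.2⟩

lemma cvGk_up {M : ℕ} (h : 0 < M) (z : KM M) : cvGk M (cvUp (kv z)) = z := by
  have : NeZero M := ⟨h.ne'⟩
  ext <;> simp [cvGk_re, cvGk_im, cvUp, kv]

lemma cv_norm_up {w : ℕ} (h : 2 ≤ w) (z : KM (2 ^ w - 1)) :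
    ‖(cvUp (kv z) : ℂ)‖ ≤ 2 ^ (w + 1) := by
  refine (Complex.norm_le_abs_re_add_abs_im _).trans ?_
  rw [← GaussianInt.intCast_re, ← GaussianInt.intCast_im]
  have h1 : ((z.re.val : ℕ) : ℝ) ≤ 2 ^ w := by exact_mod_cast (cv_val_lt h z.re).le
  have h2 : ((z.im.val : ℕ) : ℝ) ≤ 2 ^ w := by exact_mod_cast (cv_val_lt h z.im).le
  simp only [cvUp, kv, Int.cast_natCast, Nat.abs_cast]
  rw [pow_succ]
  linarith

lemma cv_norm_aconv {r : ℕ} {u v : ℕ → GaussianInt} {s : ℝ} (hs : 0 ≤ s)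
    (hu : ∀ i, ‖(u i : ℂ)‖ ≤ s) (hv : ∀ i, ‖(v i : ℂ)‖ ≤ s) (k : ℕ) :
    ‖((aconv r r u v k : GaussianInt) : ℂ)‖ ≤ r * (s * s) := by
  rw [cv_map_aconv, aconv]
  refine (norm_sum_le _ _).trans ?_
  refine (sum_le_card_nsmul _ _ (s * s) fun i _ => ?_).trans (by simp)
  split_ifs
  · rw [norm_mul]
    exact mul_le_mul (hu _) (hv _) (norm_nonneg _) hs
  · simpa using mul_nonneg hs hs

/-- The representative of least absolute value. -/
def cvLift (M v : ℕ) : ℤ := if v + v ≤ M then v else (v : ℤ) - M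

lemma cvLift_val {M : ℕ} {z : ℤ} (h : 2 * z.natAbs < M) : cvLift M (z : ZMod M).val = z := by
  have : NeZero M := ⟨by omega⟩
  have h1 := ZMod.val_intCast (n := M) z
  unfold cvLift
  rcases le_or_gt 0 z with h0 | h0
  · rw [Int.emod_eq_of_lt h0 (by omega)] at h1
    split_ifs <;> omega
  · rw [← Int.add_emod_right, Int.emod_eq_of_lt (by omega) (by omega)] at h1
    split_ifs <;> omega

lemma cv_norm_nconv {d r : ℕ} {f g : (Fin d → ℕ) → GaussianInt} {s : ℝ} (hr : 0 < r) (hs : 0 ≤ s)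
    (hf : ∀ y ∈ box d r, ‖(f y : ℂ)‖ ≤ s) (hg : ∀ y ∈ box d r, ‖(g y : ℂ)‖ ≤ s)
    (x : Fin d → ℕ) : ‖((nconv r f g x : GaussianInt) : ℂ)‖ ≤ r ^ d * (s * s) := by
  rw [cv_map_nconv, nconv]
  refine (norm_sum_le _ _).trans ?_
  refine (sum_le_card_nsmul _ _ (s * s) fun y hy => ?_).trans (by simp [box])
  rw [norm_mul, norm_mul, norm_prod, prod_eq_one (fun j _ => by split_ifs <;> simp), one_mul]
  exact mul_le_mul (hf _ hy) (hg _ (mem_box.2 fun j => Nat.mod_lt _ hr)) (norm_nonneg _) hs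

variable {A : Type} {cur : A → P} {B : A → ℕ} {x : In B}

lemma ct_red (c : ℕ) {w : A → ℕ} {z : A → ℤ} (hz : CT cur x z) (hw : CT cur x w) (hB : Dom w B)
    (h2 : ∀ a, 2 ≤ w a) (h : ∀ a, (z a).natAbs < 2 ^ (c * w a)) :
    CT cur x (fun a => (z a : ZMod (2 ^ w a - 1)).val) := by
  have k1 := CT.mod_mersenne c hz.toNat hw hB h2 fun a => lt_of_le_of_lt (by omega) (h a)
  have k2 := CT.mod_mersenne c hz.toNat_neg hw hB h2 fun a => lt_of_le_of_lt (by omega) (h a)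
  refine (CT.mod_mersenne 2 (k1.add ((ct_mers hw hB).sub k2)) hw hB h2 fun a => ?_).congr
    fun a => ?_
  · have h3 := cv_one_lt_mers (h2 a)
    have h4 : (z a).toNat % (2 ^ w a - 1) < 2 ^ w a - 1 := Nat.mod_lt _ (by omega)
    have h5 : 2 ^ (w a + 1) ≤ 2 ^ (2 * w a) :=
      Nat.pow_le_pow_right (by norm_num) (by have := h2 a; omega)
    rw [pow_succ] at h5
    omega
  · have h3 := cv_one_lt_mers (h2 a)
    generalize 2 ^ w a - 1 = M at h3
    have h4 : (-z a).toNat % M ≤ M := (Nat.mod_lt _ (by omega)).le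
    rw [← ZMod.val_natCast]
    congr 1
    rw [Nat.cast_add, Nat.cast_sub h4, ZMod.natCast_self, ZMod.natCast_mod, ZMod.natCast_mod]
    conv_lhs => rw [← Int.toNat_sub_toNat_neg (z a)]
    push_cast
    ring

lemma ct_gk (c : ℕ) {w n : A → ℕ} {z : A → GaussianInt} (hz : CT cur x z) (hw : CT cur x w)
    (hB : Dom w B) (h2 : ∀ a, 2 ≤ w a) (h : ∀ a, ‖(z a : ℂ)‖ ≤ 2 ^ n a)
    (hn : ∀ a, n a + 1 ≤ c * w a) : CT cur x (fun a => kv (cvGk (2 ^ w a - 1) (z a))) :=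
  (ct_red c hz.gre hw hB h2 fun a => (natAbs_lt_of_abs_le (abs_re_le_of_norm_le (h a))).trans_le
    (Nat.pow_le_pow_right (by norm_num) (hn a))).pair
  (ct_red c hz.gim hw hB h2 fun a => (natAbs_lt_of_abs_le (abs_im_le_of_norm_le (h a))).trans_le
    (Nat.pow_le_pow_right (by norm_num) (hn a)))

variable {ℓ D w : A → ℕ}

lemma cv_pow_split (ℓ D : ℕ) : (2 ^ ℓ) ^ (D + 1) = 2 ^ (ℓ * D) * 2 ^ ℓ := by
  rw [pow_succ, ← pow_mul]

lemma ct_in {k : A → ℕ} {f : ∀ a, (Fin (D a + 1) → ℕ) → GaussianInt}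
    (ok : ∀ a, CvOK (ℓ a) (D a) (w a))
    (hf : CT cur x (fun a => tarr (D a + 1) (2 ^ ℓ a) (f a)))
    (hp : CT cur x (fun a => (ℓ a, D a, w a))) (hk : CT cur x k) (hkw : ∀ a, k a ≤ w a)
    (h₁ : ∀ a, ∀ y ∈ box (D a + 1) (2 ^ ℓ a), ‖(f a y : ℂ)‖ ≤ 2 ^ w a)
    (hB : Dom (fun a => 2 ^ (ℓ a * D a) * 2 ^ ℓ a * w a) B) :
    CT cur x (fun a => arr (2 ^ (ℓ a * D a)) fun i => arr (2 ^ ℓ a) fun c =>
      kv (cvRec (D a) (2 ^ ℓ a) (fun u => cvGk (2 ^ w a - 1) (f a u) * 2 ^ k a) i c)) := by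
  have h2 : ∀ a, 2 ≤ w a := fun a => by have := (ok a).six_le; omega
  have hl : CT cur x ℓ := hp.fst
  have hD : CT cur x D := hp.snd.fst
  have hw : CT cur x w := hp.snd.snd
  have hb := fun a n => h₁ a _ (digs_mem_box (d := D a + 1) (t := 2 ^ ℓ a) (by positivity) n)
  have k1 := CT.arr_mapU hf (hw.pair hk) w ⟨20, fun q => by
      have := sz_gauss_le (hb q.a q.i)
      have := (ok q.a).six_le
      dsimp only
      omega⟩ ⟨14, fun a => by
      have := sz_nat_le_self (w a)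
      have := sz_nat_le_self (k a)
      have := hkw a
      have := (ok a).six_le
      simp only [sz_pair]
      omega⟩ ⟨8, fun a => by
      have := cv_sz_two_pow (ℓ a * (D a + 1))
      have := (ok a).lo
      have := (ok a).six_le
      simp only [← pow_mul]
      omega⟩
    (out := fun a n => kv (cvGk (2 ^ w a - 1) (f a (digs (D a + 1) (2 ^ ℓ a) n) * 2 ^ k a)))
    (fun x' g₁ g₂ _ => ct_gk 3 (n := fun q => w q.a + k q.a)
      (g₁.gmul_two_pow g₂.snd (Dom.of_le fun q => hkw q.a)) g₂.fst (Dom.refl _) (fun q => h2 q.a)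
      (fun q => by
        rw [map_mul, norm_mul, pow_add]
        refine mul_le_mul (hb q.a q.i) (le_of_eq ?_) (norm_nonneg _) (by positivity)
        simp [map_ofNat])
      (fun q => by have := hkw q.a; have := h2 q.a; omega))
    (hB.le_trans fun a => le_of_eq (by rw [cv_pow_split]))
  have hs : Sm B ℓ := cv_sm (hB.le_trans fun a =>
    (Nat.le_mul_of_pos_left _ (by positivity)).trans
      (Nat.le_mul_of_pos_right _ (by have := h2 a; omega)))
  have hwB : Dom w B := hB.le_trans fun a => Nat.le_mul_of_pos_left _ (by positivity)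
  have hlD : CT cur x (fun a => ℓ a * D a) :=
    (CS.pt₂ (⟨hl, hs.sz_self⟩ : CS cur x ℓ) (⟨hD, (hs.of_le fun a => by
      have := (ok a).D_le; omega).sz_self⟩ : CS cur x D) (fun u v => u * v) (by fun_prop)).ct
  refine (CT.arr_chunks (hlD.two_pow (hwB.le_trans fun a => by have := (ok a).lD_le; omega))
    (hl.two_pow hs.dom) (hB.le_trans fun a => ?_)
    (k1.congr fun a => by rw [cv_pow_split])).congr fun a => ?_
  · have h3 : 0 < 2 ^ (ℓ a * D a) := by positivity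
    have h4 : 0 < 2 ^ ℓ a := by positivity
    calc (2 ^ (ℓ a * D a) + 1) * (2 ^ ℓ a + 1) ≤ (2 * 2 ^ (ℓ a * D a)) * (2 * 2 ^ ℓ a) :=
          Nat.mul_le_mul (by omega) (by omega)
      _ = 2 ^ (ℓ a * D a) * 2 ^ ℓ a * 4 := by ring
      _ ≤ _ := Nat.mul_le_mul_left _ (by have := (ok a).six_le; omega)
  · refine arr_congr fun i _ => arr_congr fun c hc => ?_
    rw [cv_digs_succ i hc, map_mul, map_pow, map_ofNat]
    rfl

lemma ct_pm₀ {N μ : A → ℕ} {u v : ∀ a, ℕ → KM (2 ^ w a - 1)}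
    (hM : ∀ a, MulOK (cur a) (N a) (μ a)) (hN : ∀ a, 2 ^ ℓ a * (4 * w a + 2 * ℓ a + 12) ≤ N a)
    (h6 : ∀ a, 6 ≤ w a) (hlw : ∀ a, ℓ a ≤ w a)
    (hu : CT cur x (fun a => arr (2 ^ ℓ a) fun c => kv (u a c)))
    (hv : CT cur x (fun a => arr (2 ^ ℓ a) fun c => kv (v a c)))
    (hw : CT cur x w) (hB : Dom (fun a => 2 ^ ℓ a * w a * μ a) B) :
    CT cur x (fun a => arr (2 ^ ℓ a) fun c => kv (cvPm (2 ^ ℓ a) (u a) (v a) c)) := by
  have h2 : ∀ a, 2 ≤ w a := fun a => by have := h6 a; omega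
  have lup : LT cvUp := LT.intro fun _ h => h.fst.natCast.gmk h.snd.natCast
  have hB₀ : Dom (fun a => 2 ^ ℓ a * w a) B :=
    hB.le_trans fun a => Nat.le_mul_of_pos_right _ (hM a).pos
  have hrB : Dom (fun a => 2 ^ ℓ a) B :=
    hB₀.le_trans fun a => Nat.le_mul_of_pos_right _ (by have := h2 a; omega)
  have hr : CT cur x (fun a => 2 ^ ℓ a) := hu.length.congr fun a => by simp
  have k1 := CT.kron hM (hu.arr_map_lt lup) (hv.arr_map_lt lup) (hw.add (CT.const 1))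
    (fun a => le_of_eq_of_le (by rw [Nat.size_pow]; ring) (hN a))
    (fun a i _ => cv_norm_up (h2 a) _) (fun a i _ => cv_norm_up (h2 a) _)
    ((hB.const_mul 9).le_trans fun a => by
      rw [Nat.size_pow, ← mul_assoc]
      refine Nat.mul_le_mul_right _ ?_
      have h3 : 0 < 2 ^ ℓ a := by positivity
      have := h6 a
      have := hlw a
      calc (2 ^ ℓ a + 2 ^ ℓ a + 1) * (w a + 1 + (ℓ a + 1) + 1) ≤ (3 * 2 ^ ℓ a) * (3 * w a) :=
            Nat.mul_le_mul (by omega) (by omega)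
        _ = _ := by ring)
  set u' : A → ℕ → GaussianInt := fun a i => cvUp (kv (u a i)) with hu'
  set v' : A → ℕ → GaussianInt := fun a i => cvUp (kv (v a i)) with hv'
  have k2 : CT cur x (fun a => arr (2 ^ ℓ a) (aconv (2 ^ ℓ a) (2 ^ ℓ a) (u' a) (v' a))) :=
    (CT.take hr hrB k1).congr fun a => by rw [take_arr, min_eq_left (Nat.le_add_right _ _)]
  have k3 : CT cur x (fun a => arr (2 ^ ℓ a)
      fun i => aconv (2 ^ ℓ a) (2 ^ ℓ a) (u' a) (v' a) (2 ^ ℓ a + i)) :=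
    (CT.drop hr hrB k1).congr fun a => by rw [drop_arr, Nat.add_sub_cancel]
  have k4 : CT cur x (fun a => arr (2 ^ ℓ a) (cvPm (2 ^ ℓ a) (u' a) (v' a))) :=
    (k2.arr_zip k3).arr_map_lt (f := fun p : GaussianInt × GaussianInt => p.1 - p.2)
      (LT.intro fun _ h => h.fst.gsub h.snd)
  have hb : ∀ a i, ‖((cvPm (2 ^ ℓ a) (u' a) (v' a) i : GaussianInt) : ℂ)‖
      ≤ 2 ^ (ℓ a + 2 * w a + 3) := by
    intro a i
    have h3 := fun k => cv_norm_aconv (r := 2 ^ ℓ a) (u := u' a) (v := v' a) (by positivity)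
      (fun i => cv_norm_up (h2 a) _) (fun i => cv_norm_up (h2 a) _) k
    rw [cvPm, map_sub]
    refine (norm_sub_le _ _).trans ((add_le_add (h3 _) (h3 _)).trans (le_of_eq ?_))
    push_cast
    ring
  refine (CT.arr_mapU k4 hw w ⟨50, fun q => ?_⟩ ⟨7, fun a => ?_⟩ ⟨8, fun a => ?_⟩
    (out := fun a c => kv (cvGk (2 ^ w a - 1) (cvPm (2 ^ ℓ a) (u' a) (v' a) c)))
    (fun x' g₁ g₂ _ => ct_gk 4 g₁ g₂ (Dom.refl _) (fun q => h2 q.a) (fun q => hb q.a q.i)
      fun q => by have := h6 q.a; have := hlw q.a; omega) hB₀).congr fun a => ?_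
  · have := sz_gauss_le (hb q.a q.i)
    have := h6 q.a
    have := hlw q.a
    dsimp only
    omega
  · have := sz_nat_le_self (w a)
    have := h6 a
    dsimp only
    omega
  · have := cv_sz_two_pow (ℓ a)
    have := h6 a
    have := hlw a
    dsimp only
    omega
  · have h0 : 0 < 2 ^ w a - 1 := by have := cv_one_lt_mers (h2 a); omega
    refine arr_congr fun c _ => ?_
    simp only [cvPm, map_sub, cv_map_aconv, hu', hv', cvGk_up h0]

lemma ct_pm {N μ : A → ℕ} {F G : ∀ a, ℕ → ℕ → KM (2 ^ w a - 1)}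
    (hM : ∀ a, MulOK (cur a) (N a) (μ a)) (hN : ∀ a, 2 ^ ℓ a * (4 * w a + 2 * ℓ a + 12) ≤ N a)
    (ok : ∀ a, CvOK (ℓ a) (D a) (w a))
    (hF : CT cur x (fun a => arr (2 ^ (ℓ a * D a)) fun i => arr (2 ^ ℓ a) fun c => kv (F a i c)))
    (hG : CT cur x (fun a => arr (2 ^ (ℓ a * D a)) fun i => arr (2 ^ ℓ a) fun c => kv (G a i c)))
    (hw : CT cur x w) (hB : Dom (fun a => 2 ^ (ℓ a * D a) * (2 ^ ℓ a * w a * μ a)) B) :
    CT cur x (fun a => arr (2 ^ (ℓ a * D a)) fun i => arr (2 ^ ℓ a) fun c =>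
      kv (cvPm (2 ^ ℓ a) (F a i) (G a i) c)) := by
  have h2 : ∀ a, 2 ≤ w a := fun a => by have := (ok a).six_le; omega
  have h3 : ∀ a, w a ≤ 2 ^ ℓ a * w a := fun a => Nat.le_mul_of_pos_left _ (by positivity)
  have h4 : ∀ a, 2 ^ ℓ a * w a ≤ 2 ^ ℓ a * w a * μ a := fun a =>
    Nat.le_mul_of_pos_right _ (hM a).pos
  refine CT.arr_mapU (hF.arr_zip hG) hw (fun a => 2 ^ ℓ a * w a * μ a) ⟨33, fun q => ?_⟩
    ⟨7, fun a => ?_⟩ ⟨8, fun a => ?_⟩ (fun x' g₁ g₂ _ => ?_) hB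
  · have := cv_sz_rec (h2 q.a) (r := 2 ^ ℓ q.a) (by positivity) (F q.a q.i)
    have := cv_sz_rec (h2 q.a) (r := 2 ^ ℓ q.a) (by positivity) (G q.a q.i)
    have := h2 q.a
    have := h3 q.a
    have := h4 q.a
    simp only [sz_pair]
    omega
  · have := sz_nat_le_self (w a)
    have := h2 a
    have := h3 a
    have := h4 a
    dsimp only
    omega
  · have := cv_sz_two_pow (ℓ a * D a)
    have := (ok a).lD_le
    have := (ok a).six_le
    have := h3 a
    have := h4 a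
    dsimp only
    omega
  · have g₃ := g₁.fst
    have g₄ := g₁.snd
    dsimp only at g₃ g₄
    exact ct_pm₀ (ℓ := fun q : Ix (fun a => 2 ^ (ℓ a * D a)) => ℓ q.a) (w := fun q => w q.a)
      (N := fun q => N q.a) (μ := fun q => μ q.a)
      (u := fun q => F q.a q.i) (v := fun q => G q.a q.i) (fun q => hM q.a) (fun q => hN q.a)
      (fun q => (ok q.a).six_le) (fun q => (ok q.a).l_le) g₃ g₄ g₂ (Dom.refl _)

lemma ct_out {f : ∀ a, (Fin (D a + 1) → ℕ) → GaussianInt} (ok : ∀ a, CvOK (ℓ a) (D a) (w a))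
    (hf : CT cur x (fun a => arr (2 ^ (ℓ a * D a)) fun i => arr (2 ^ ℓ a) fun c =>
      kv (cvRec (D a) (2 ^ ℓ a) (fun u => cvGk (2 ^ w a - 1) (f a u)) i c)))
    (hw : CT cur x w) (h₁ : ∀ a y, ‖(f a y : ℂ)‖ ≤ 2 ^ (w a - 2))
    (hB : Dom (fun a => 2 ^ (ℓ a * D a) * 2 ^ ℓ a * w a) B) :
    CT cur x (fun a => tarr (D a + 1) (2 ^ ℓ a) (f a)) := by
  have h2 : ∀ a, 2 ≤ w a := fun a => by have := (ok a).six_le; omega
  have hwB : Dom w B := hB.le_trans fun a => Nat.le_mul_of_pos_left _ (by positivity)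
  have ll : LT (fun q : ℕ × ℕ => cvLift q.1 q.2) := LT.intro fun _ h =>
    CT.ite ((h.snd.add h.snd).decide_le h.fst) h.snd.natCast (h.snd.natCast.intSub h.fst.natCast)
  have lg : LT (fun q : ℕ × ℕ × ℕ => (⟨cvLift q.1 q.2.1, cvLift q.1 q.2.2⟩ : GaussianInt)) :=
    LT.intro fun _ h => (ll.ct (h.fst.pair h.snd.fst)).gmk (ll.ct (h.fst.pair h.snd.snd))
  refine (CT.map_lt₂ (f := fun (M : ℕ) (p : ℕ × ℕ) =>
    (⟨cvLift M p.1, cvLift M p.2⟩ : GaussianInt)) lg hf.arr_flatten (ct_mers hw hwB)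
    ((hB.const_mul 7).le_trans fun a => ?_)).congr fun a => ?_
  · have h3 := sz_nat_le_of_lt_two_pow (cv_mers_lt (w a))
    have := h2 a
    rw [length_arr, mul_left_comm]
    exact Nat.mul_le_mul_left _ (by omega)
  · rw [map_arr, tarr, cv_pow_split]
    refine arr_congr fun n _ => ?_
    have hr : 0 < 2 ^ ℓ a := by positivity
    have e : ∀ z : ℤ, |(z : ℝ)| ≤ 2 ^ (w a - 2) → 2 * z.natAbs < 2 ^ w a - 1 := by
      intro z hz
      have h3 : z.natAbs ≤ 2 ^ (w a - 2) := by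
        rw [← Int.cast_abs, ← Int.natCast_natAbs, Int.cast_natCast] at hz
        exact_mod_cast hz
      have h4 : 2 ^ w a = 4 * 2 ^ (w a - 2) := by
        conv_lhs => rw [show w a = 2 + (w a - 2) by have := h2 a; omega, pow_add]
        rfl
      have h5 : 0 < 2 ^ (w a - 2) := by positivity
      omega
    rw [cvRec, ← cv_digs_succ _ (Nat.mod_lt n hr), Nat.div_add_mod']
    simp only [kv, cvGk_re, cvGk_im]
    rw [cvLift_val (e _ (abs_re_le_of_norm_le (h₁ a _))),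
      cvLift_val (e _ (abs_im_le_of_norm_le (h₁ a _)))]

end Crest.Agent.R326
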