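import Crest.Agent.R326.Gam
import Crest.Agent.R326.Tensor
import Crest.Agent.R326.ConvD

/-!
Exact multi-dimensional negacyclic convolution by synthetic Fourier transforms modulo `2 ^ P - 1`.
-/

set_option autoImplicit false

namespace Crest.Agent.R326

open Crest.Agent.Lib.PT Crest.Agent.Lib.LT

variable {A : Type} {cur : A → P} {B : A → ℕ} {x : In B}

theorem ct_nconv {d ℓ p N μ : A → ℕ} {f g : ∀ a, (Fin (d a) → ℕ) → GaussianInt}
    (hM : ∀ a, MulOK (cur a) (N a) (μ a)) (hN : ∀ a, 64 * 2 ^ ℓ a * p a ≤ N a)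
    (hf : CT cur x (fun a => tarr (d a) (2 ^ ℓ a) (f a)))
    (hg : CT cur x (fun a => tarr (d a) (2 ^ ℓ a) (g a)))
    (hp : CT cur x (fun a => (d a, ℓ a, p a)))
    (hd : ∀ a, d a % 8 = 1) (hfit : ∀ a, 2 * (d a).size * d a + 4 ≤ ℓ a)
    (hp₁ : ∀ a, ℓ a * d a ≤ p a) (hp₂ : ∀ a, p a ≤ 2 ^ ℓ a)
    (h₁ : ∀ a, ∀ y ∈ box (d a) (2 ^ ℓ a), ‖(f a y : ℂ)‖ ≤ 2 ^ p a)
    (h₂ : ∀ a, ∀ y ∈ box (d a) (2 ^ ℓ a), ‖(g a y : ℂ)‖ ≤ 2 ^ p a)
    (hB : Dom (fun a => 2 ^ (ℓ a * d a) * p a * (ℓ a * pw τ₂ (d a) + μ a)) B) :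
    CT cur x (fun a => tarr (d a) (2 ^ ℓ a) (nconv (2 ^ ℓ a) (f a) (g a))) := by
  obtain ⟨D, rfl⟩ : ∃ D : A → ℕ, d = fun a => D a + 1 :=
    ⟨fun a => d a - 1, funext fun a => by have := hd a; dsimp only; omega⟩
  dsimp only at *
  set w : A → ℕ := fun a => 2 * p a + ℓ a * (D a + 1) + 2 with hw
  have hl6 : ∀ a, 6 ≤ ℓ a := fun a => by
    have h1 : 0 < (D a + 1).size := Nat.size_pos.2 (D a).succ_pos
    have := hfit a
    nlinarith
  have hlp : ∀ a, ℓ a * D a + ℓ a ≤ p a := fun a => by have := hp₁ a; nlinarith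
  have hwp : ∀ a, w a ≤ 4 * p a := fun a => by
    have := hp₁ a
    have := hlp a
    have := hl6 a
    simp only [hw]
    omega
  have ok : ∀ a, CvOK (ℓ a) (D a) (w a) := fun a =>
    ⟨hfit a, by simp only [hw]; omega, (hwp a).trans (Nat.mul_le_mul_left _ (hp₂ a))⟩
  have hB' : Dom (fun a => 2 ^ (ℓ a * D a) * 2 ^ ℓ a * w a * (ℓ a * pw τ₂ (D a) + μ a)) B :=
    (hB.const_mul 4).le_trans fun a => by
      have h1 : pw τ₂ (D a) ≤ pw τ₂ (D a + 1) := pw_mono (by unfold τ₂; norm_num) (D a).le_succ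
      calc _ ≤ 2 ^ (ℓ a * D a) * 2 ^ ℓ a * (4 * p a) * (ℓ a * pw τ₂ (D a + 1) + μ a) :=
            Nat.mul_le_mul (Nat.mul_le_mul_left _ (hwp a))
              (Nat.add_le_add_right (Nat.mul_le_mul_left _ h1) _)
        _ = _ := by ring
  have hB₀ : Dom (fun a => 2 ^ (ℓ a * D a) * 2 ^ ℓ a * w a) B :=
    hB'.le_trans fun a => Nat.le_mul_of_pos_right _ (by have := (hM a).pos; omega)
  have hB₁ : Dom (fun a => ℓ a * (2 ^ (ℓ a * D a) * 2 ^ ℓ a * w a * pw τ₂ (D a))) B :=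
    hB'.le_trans fun a => by
      rw [mul_add (2 ^ (ℓ a * D a) * 2 ^ ℓ a * w a)]
      exact le_add_right (le_of_eq (by ring))
  have hB₂ : Dom (fun a => 2 ^ (ℓ a * D a) * (2 ^ ℓ a * w a * μ a)) B :=
    hB'.le_trans fun a => by
      rw [mul_add (2 ^ (ℓ a * D a) * 2 ^ ℓ a * w a)]
      exact le_add_left (le_of_eq (by ring))
  have hs : Sm B ℓ := cv_sm (hB₀.le_trans fun a =>
    (Nat.le_mul_of_pos_left _ (by positivity)).trans
      (Nat.le_mul_of_pos_right _ (by have := (ok a).six_le; omega)))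
  have cl : CS cur x ℓ := ⟨hp.snd.fst, hs.sz_self⟩
  have cD : CS cur x D := ⟨(hp.fst.sub (CT.const 1)).congr fun a => rfl,
    (hs.of_le fun a => by have := (ok a).D_le; omega).sz_self⟩
  have cp : CT cur x p := hp.snd.snd
  have cw : CT cur x w :=
    ((cp.const_mul 2).add (CS.pt₂ cl cD (fun u v => u * (v + 1)) (by fun_prop)).ct).add
      (CT.const 2)
  have ck : CT cur x (fun a => ℓ a * D a / 2) :=
    (CS.pt₂ cl cD (fun u v => u * v / 2) (by fun_prop)).ct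
  have cpar := cl.ct.pair (cD.ct.pair cw)
  have hpw : ∀ a, (2 : ℝ) ^ p a ≤ 2 ^ w a := fun a =>
    pow_le_pow_right₀ (by norm_num) (by simp only [hw]; omega)
  have k1 := ct_lp false ok (ct_in ok hf cpar (CT.const 0) (fun a => Nat.zero_le _)
    (fun a y hy => (h₁ a y hy).trans (hpw a)) hB₀) cpar hB₁
  have k2 := ct_lp false ok (ct_in ok hg cpar ck (fun a => by have := (ok a).lD_le; omega)
    (fun a y hy => (h₂ a y hy).trans (hpw a)) hB₀) cpar hB₁
  have k3 := ct_lp true ok (ct_pm hM (fun a => le_trans (by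
    have := hwp a
    have := hlp a
    have := hl6 a
    rw [mul_comm 64, mul_assoc]
    exact Nat.mul_le_mul_left _ (by omega)) (hN a)) ok k1 k2 cw hB₂) cpar hB₁
  refine ct_out ok (k3.congr fun a => ?_) cw (fun a y => ?_) hB₀
  · have h2 : 2 ≤ w a := by have := (ok a).six_le; omega
    refine arr_congr fun i _ => arr_congr fun c hc => ?_
    simp only [pow_zero, mul_one, cv_map_nconv]
    rw [cv_main (cv_odd_mers (by omega)) (cv_one_lt_mers h2) (by have := hd a; omega) _ _ i hc]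
  · refine (cv_norm_nconv (by positivity) (by positivity) (h₁ a) (h₂ a) y).trans (le_of_eq ?_)
    simp only [hw, Nat.add_sub_cancel]
    push_cast
    ring

end Crest.Agent.R326
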