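import Crest.Agent.R326.Tensor

/-!
The synthetic Fourier transform over a ring with a root `y` of `X ^ r + 1`.
-/

set_option autoImplicit false

namespace Crest.Agent.R326

open Crest.Agent.Lib.PT Crest.Agent.Lib.LT Finset

/-- Bit `π` of `a`, as a number. -/
def cvBt (π a : ℕ) : ℕ := (a.testBit π).toNat

/-- The odd exponent attached to the top `i` bits of `a`. -/
def cvOd (ℓ i a : ℕ) : ℕ := ofBits (true :: (List.range i).map fun k => a.testBit (ℓ - 1 - k))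

/-- The exponent of the twiddle factor in one coordinate. -/
def cvEx (ℓ π a : ℕ) : ℕ := cvBt π a * (2 ^ π * cvOd ℓ (ℓ - 1 - π) a)

/-- The sum of `φ` over the digits of `n`. -/
def cvSum (ℓ D : ℕ) (φ : ℕ → ℕ) (n : ℕ) : ℕ :=
  ∑ j ∈ range D, φ (n / (2 ^ ℓ) ^ min j D % 2 ^ ℓ)

lemma cvSum_eq (ℓ D : ℕ) (φ : ℕ → ℕ) (n : ℕ) :
    cvSum ℓ D φ n = ∑ j : Fin D, φ (digs D (2 ^ ℓ) n j) := by
  rw [cvSum, Finset.sum_range]
  exact sum_congr rfl fun j _ => by rw [min_eq_left j.2.le]; rfl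

lemma cvOd_zero (ℓ a : ℕ) : cvOd ℓ 0 a = 1 := rfl

lemma cvOd_succ (ℓ i a : ℕ) : cvOd ℓ (i + 1) a = cvOd ℓ i a + 2 ^ (i + 1) * cvBt (ℓ - 1 - i) a := by
  rw [cvOd, cvOd, List.range_succ, List.map_append, ← List.cons_append, ofBits_append]
  cases h : a.testBit (ℓ - 1 - i) <;> simp [cvBt, h]

lemma cvOd_odd (ℓ i a : ℕ) : Odd (cvOd ℓ i a) := by
  induction i with
  | zero => exact odd_one
  | succ i ih =>
    rw [cvOd_succ]
    exact ih.add_even ((Nat.even_pow.2 ⟨even_two, i.succ_ne_zero⟩).mul_right _)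

lemma cvOd_xor {ℓ i π : ℕ} (h : π + i + 1 = ℓ) (a : ℕ) :
    cvOd ℓ i (a ^^^ 2 ^ π) = cvOd ℓ i a := by
  unfold cvOd
  congr 2
  refine List.map_congr_left fun k hk => ?_
  have := List.mem_range.1 hk
  rw [Nat.testBit_xor, Nat.testBit_two_pow, decide_eq_false (by omega), Bool.xor_false]

lemma cvBt_xor (π a : ℕ) : cvBt π (a ^^^ 2 ^ π) = 1 - cvBt π a := by
  unfold cvBt
  rw [Nat.testBit_xor, Nat.testBit_two_pow]
  cases a.testBit π <;> simp

lemma cvBt_le (π a : ℕ) : cvBt π a = 0 ∨ cvBt π a = 1 := by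
  unfold cvBt
  cases a.testBit π <;> simp

lemma cv_mod_succ (π a : ℕ) : a % 2 ^ (π + 1) = a % 2 ^ π + 2 ^ π * cvBt π a := by
  rw [Nat.mod_pow_succ, cvBt, Nat.toNat_testBit]

lemma cv_div_succ (π a : ℕ) : a / 2 ^ π = 2 * (a / 2 ^ (π + 1)) + cvBt π a := by
  rw [cvBt, Nat.toNat_testBit, pow_succ, ← Nat.div_div_eq_div_mul, Nat.div_add_mod]

lemma cv_xor_mod (π a : ℕ) : (a ^^^ 2 ^ π) % 2 ^ π = a % 2 ^ π := by
  rw [Nat.xor_mod_two_pow, Nat.mod_self, Nat.xor_zero]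

lemma cv_mod_succ_iff (π a b : ℕ) : a % 2 ^ (π + 1) = b % 2 ^ (π + 1) ↔
    a % 2 ^ π = b % 2 ^ π ∧ cvBt π a = cvBt π b := by
  rw [cv_mod_succ, cv_mod_succ]
  have h1 : a % 2 ^ π < 2 ^ π := Nat.mod_lt _ (by positivity)
  have h2 : b % 2 ^ π < 2 ^ π := Nat.mod_lt _ (by positivity)
  rcases cvBt_le π a with h | h <;> rcases cvBt_le π b with h' | h' <;> rw [h, h'] <;> omega

lemma cv_digs_xor {D ℓ π : ℕ} (hπ : π < ℓ) (k : Fin D) (n : ℕ) :
    digs D (2 ^ ℓ) (n ^^^ 2 ^ (π + ℓ * k))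
      = Function.update (digs D (2 ^ ℓ) n) k (digs D (2 ^ ℓ) n k ^^^ 2 ^ π) := by
  funext j
  refine Nat.eq_of_testBit_eq fun t => ?_
  by_cases hj : j = k
  · subst hj
    simp only [Function.update_self, digs, ← pow_mul, Nat.testBit_xor, Nat.testBit_mod_two_pow,
      Nat.testBit_div_two_pow, Nat.testBit_two_pow]
    by_cases ht : t < ℓ
    · simp [ht]
    · have : π ≠ t := by omega
      simp [ht, this]
  · rw [Function.update_of_ne hj]
    simp only [digs, ← pow_mul, Nat.testBit_xor, Nat.testBit_mod_two_pow,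
      Nat.testBit_div_two_pow, Nat.testBit_two_pow]
    by_cases ht : t < ℓ
    · have : π + ℓ * k ≠ t + ℓ * j := by
        intro h
        have h1 := congrArg (· / ℓ) h
        have hl : 0 < ℓ := by omega
        simp only [Nat.add_mul_div_left _ _ hl, Nat.div_eq_of_lt hπ, Nat.div_eq_of_lt ht,
          zero_add] at h1
        exact hj (Fin.ext h1.symm)
      simp [this]
    · simp [ht]

section ring

variable {R : Type} [CommRing R]

lemma cv_sgn_pow {r : ℕ} {ω : R} (hω : ω ^ r = -1) {u x : ℕ} (hu : u < r) (hx : x < r) :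
    ω ^ x * (if u ≤ x then 1 else -1) = ω ^ u * ω ^ ((x + r - u) % r) := by
  split_ifs with h
  · rw [show x + r - u = x - u + r by omega, Nat.add_mod_right, Nat.mod_eq_of_lt (by omega),
      ← pow_add, mul_one]
    congr 1
    omega
  · rw [Nat.mod_eq_of_lt (by omega), ← pow_add, ← hω, ← pow_add]
    congr 1
    omega

lemma cv_sub_add_mod {r u x : ℕ} (hu : u < r) (hx : x < r) : ((x + r - u) % r + u) % r = x := by
  rw [Nat.mod_add_mod, show x + r - u + u = x + r by omega, Nat.add_mod_right,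
    Nat.mod_eq_of_lt hx]

lemma cv_add_sub_mod {r u v : ℕ} (hu : u < r) (hv : v < r) : ((v + u) % r + r - u) % r = v := by
  rw [show (v + u) % r + r - u = (v + u) % r + (r - u) by omega, Nat.mod_add_mod,
    show v + u + (r - u) = v + r by omega, Nat.add_mod_right, Nat.mod_eq_of_lt hv]

/-- Evaluation at roots of `X ^ r + 1` turns negacyclic convolution into a product. -/
lemma cv_eval_nconv {d r : ℕ} (ω : Fin d → R) (hω : ∀ j, ω j ^ r = -1)
    (f g : (Fin d → ℕ) → R) :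
    ∑ x ∈ box d r, (∏ j, ω j ^ x j) * nconv r f g x
      = (∑ x ∈ box d r, (∏ j, ω j ^ x j) * f x) * ∑ x ∈ box d r, (∏ j, ω j ^ x j) * g x := by
  simp only [nconv, mul_sum]
  rw [sum_comm, sum_comm (s := box d r) (t := box d r), sum_comm]
  simp only [sum_mul]
  rw [sum_comm (s := box d r) (t := box d r)
    (f := fun v u => (∏ j, ω j ^ u j) * f u * ((∏ j, ω j ^ v j) * g v))]
  refine sum_congr rfl fun u hu => ?_
  have hu' := mem_box.1 hu
  refine sum_nbij' (fun x j => (x j + r - u j) % r) (fun v j => (v j + u j) % r) ?_ ?_ ?_ ?_ ?_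
  · exact fun x _ => mem_box.2 fun j => Nat.mod_lt _ ((Nat.zero_le _).trans_lt (hu' j))
  · exact fun x _ => mem_box.2 fun j => Nat.mod_lt _ ((Nat.zero_le _).trans_lt (hu' j))
  · exact fun x hx => funext fun j => cv_sub_add_mod (hu' j) (mem_box.1 hx j)
  · exact fun x hx => funext fun j => cv_add_sub_mod (hu' j) (mem_box.1 hx j)
  · intro x hx
    have h1 : (∏ j, ω j ^ x j) * ∏ j, (if u j ≤ x j then (1 : R) else -1)
        = (∏ j, ω j ^ u j) * ∏ j, ω j ^ ((x j + r - u j) % r) := by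
      rw [← prod_mul_distrib, ← prod_mul_distrib]
      exact prod_congr rfl fun j _ => cv_sgn_pow (hω j) (hu' j) (mem_box.1 hx j)
    rw [← mul_assoc, h1]
    ring

lemma cv_sum_box_succ {D r : ℕ} (F : (Fin (D + 1) → ℕ) → R) :
    ∑ x ∈ box (D + 1) r, F x = ∑ x ∈ box D r, ∑ c ∈ range r, F (Fin.cons c x) := by
  rw [← sum_product']
  refine sum_nbij' (fun x => (Fin.tail x, x 0)) (fun p => Fin.cons p.2 p.1) ?_ ?_ ?_ ?_ ?_
  · intro x hx
    have := mem_box.1 hx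
    exact mem_product.2 ⟨mem_box.2 fun j => this _, mem_range.2 (this 0)⟩
  · intro p hp
    obtain ⟨h1, h2⟩ := mem_product.1 hp
    refine mem_box.2 fun j => ?_
    refine Fin.cases ?_ (fun j => ?_) j
    · simpa using h2
    · simpa using mem_box.1 h1 j
  · intro x _; simp
  · intro p _; simp
  · intro x _; simp

variable (al be io y : R)

/-- The butterfly on the address bit `pos`. -/
def cvBfly (pos : ℕ) (f : ℕ → R) (x : ℕ) : R := al * f x + be * f (x ^^^ 2 ^ pos)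

/-- The butterflies on the address bits `π + ℓ * j`, `j < k`. -/
def cvGam (π ℓ : ℕ) : ℕ → (ℕ → R) → ℕ → R
  | 0, f => f
  | k + 1, f => cvBfly al be (π + ℓ * k) (cvGam π ℓ k f)

lemma cvGam_zero (π ℓ : ℕ) (f : ℕ → R) : cvGam al be π ℓ 0 f = f := rfl

lemma cvGam_succ (π ℓ k : ℕ) (f : ℕ → R) (x : ℕ) : cvGam al be π ℓ (k + 1) f x =
    al * cvGam al be π ℓ k f x + be * cvGam al be π ℓ k f (x ^^^ 2 ^ (π + ℓ * k)) := rfl

/-- The matrix of a butterfly. -/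
def cvBm (π a k : ℕ) : R := (if a = k then al else 0) + (if a ^^^ 2 ^ π = k then be else 0)

lemma cv_sum_Bm {ℓ π a : ℕ} (hπ : π < ℓ) (ha : a < 2 ^ ℓ) (v : ℕ → R) :
    ∑ k ∈ range (2 ^ ℓ), cvBm al be π a k * v k = al * v a + be * v (a ^^^ 2 ^ π) := by
  have h : a ^^^ 2 ^ π < 2 ^ ℓ := Nat.xor_lt_two_pow ha (Nat.pow_lt_pow_right (by norm_num) hπ)
  simp [cvBm, add_mul, sum_add_distrib, ha, h]

lemma cvGam_tens {D ℓ π : ℕ} (hπ : π < ℓ) (f : (Fin D → ℕ) → R) (k : ℕ) (hk : k ≤ D) (n : ℕ) :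
    cvGam al be π ℓ k (fun i => f (digs D (2 ^ ℓ) i)) n
      = tens (2 ^ ℓ) (fun j a b => if (j : ℕ) < k then cvBm al be π a b
          else if a = b then 1 else 0) f (digs D (2 ^ ℓ) n) := by
  have hr : 0 < 2 ^ ℓ := by positivity
  induction k generalizing n with
  | zero =>
    simp only [cvGam_zero, Nat.not_lt_zero, if_false]
    exact (tens_one f (digs_mem_box hr n)).symm
  | succ k ih =>
    have hx := digs_mem_box (d := D) hr n
    rw [cvGam_succ, ih (by omega), ih (by omega), cv_digs_xor hπ (⟨k, hk⟩ : Fin D) n]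
    set x := digs D (2 ^ ℓ) n
    set G := tens (2 ^ ℓ) (fun (j : Fin D) a b => if (j : ℕ) < k then cvBm al be π a b
      else if a = b then 1 else 0) f with hG
    have h1 := cv_sum_Bm al be hπ (mem_box.1 hx ⟨k, hk⟩)
      (fun b => G (Function.update x ⟨k, hk⟩ b))
    simp only [Function.update_eq_self] at h1
    rw [← h1, ← tens_single ⟨k, hk⟩ (cvBm al be π) G hx, hG, tens_tens]
    refine tens_congr (fun j b hb => ?_) fun _ _ => rfl
    by_cases hj : j = ⟨k, hk⟩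
    · subst hj
      simp [hb]
    · have h2 : (j : ℕ) ≠ k := fun h => hj (Fin.ext h)
      have h3 : (j : ℕ) < k + 1 ↔ (j : ℕ) < k := by omega
      simp [hj, h3, hb, mem_box.1 hx j]

/-- One round on address-indexed data. -/
def cvRndR (ℓ D π c₁ c₂ : ℕ) (φ : ℕ → R) (n : ℕ) : R :=
  io ^ cvSum ℓ D (cvBt π) n * y ^ (c₂ * cvSum ℓ D (cvEx ℓ π) n) *
    cvGam al be π ℓ D
      (fun i => io ^ cvSum ℓ D (cvBt π) i * y ^ (c₁ * cvSum ℓ D (cvEx ℓ π) i) * φ i) n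

/-- The matrix of one round in one coordinate. -/
def cvTm (ℓ π c₁ c₂ a b : ℕ) : R :=
  io ^ cvBt π a * y ^ (c₂ * cvEx ℓ π a) * cvBm al be π a b * (io ^ cvBt π b * y ^ (c₁ * cvEx ℓ π b))

lemma cvRndR_tens {D ℓ π : ℕ} (hπ : π < ℓ) (c₁ c₂ : ℕ) {φ : ℕ → R} {f : (Fin D → ℕ) → R}
    (h : ∀ i, φ i = f (digs D (2 ^ ℓ) i)) (n : ℕ) :
    cvRndR al be io y ℓ D π c₁ c₂ φ n
      = tens (2 ^ ℓ) (fun _ => cvTm al be io y ℓ π c₁ c₂) f (digs D (2 ^ ℓ) n) := by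
  have e : ∀ c i, io ^ cvSum ℓ D (cvBt π) i * y ^ (c * cvSum ℓ D (cvEx ℓ π) i)
      = ∏ j, (io ^ cvBt π (digs D (2 ^ ℓ) i j) * y ^ (c * cvEx ℓ π (digs D (2 ^ ℓ) i j))) := by
    intro c i
    rw [cvSum_eq, cvSum_eq, mul_sum, prod_mul_distrib, prod_pow_eq_pow_sum, prod_pow_eq_pow_sum]
  simp only [cvRndR, e, h]
  rw [cvGam_tens al be hπ
    (fun x => (∏ j, (io ^ cvBt π (x j) * y ^ (c₁ * cvEx ℓ π (x j)))) * f x) D le_rfl n]
  simp only [tens, cvTm, Fin.is_lt, if_true, mul_sum, prod_mul_distrib]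
  exact sum_congr rfl fun u _ => by ring

lemma cv_sum_Tm {ℓ π a : ℕ} (hπ : π < ℓ) (ha : a < 2 ^ ℓ) (c₁ c₂ : ℕ) (v : ℕ → R) :
    ∑ k ∈ range (2 ^ ℓ), cvTm al be io y ℓ π c₁ c₂ a k * v k
      = io ^ cvBt π a * y ^ (c₂ * cvEx ℓ π a) *
        (al * (io ^ cvBt π a * y ^ (c₁ * cvEx ℓ π a) * v a) +
          be * (io ^ cvBt π (a ^^^ 2 ^ π) * y ^ (c₁ * cvEx ℓ π (a ^^^ 2 ^ π)) *
            v (a ^^^ 2 ^ π))) := by
  rw [← cv_sum_Bm al be hπ ha (fun k => io ^ cvBt π k * y ^ (c₁ * cvEx ℓ π k) * v k), mul_sum]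
  exact sum_congr rfl fun k _ => by rw [cvTm]; ring

/-- The matrix of the first `i` rounds. -/
def cvFm (ℓ : ℕ) : ℕ → ℕ → ℕ → R
  | 0, a, b => if a = b then 1 else 0
  | i + 1, a, b => ∑ k ∈ range (2 ^ ℓ), cvTm al be io y ℓ (ℓ - 1 - i) 1 0 a k * cvFm ℓ i k b

lemma cvFm_zero (ℓ a b : ℕ) : cvFm al be io y ℓ 0 a b = if a = b then 1 else 0 := rfl

lemma cvFm_succ (ℓ i a b : ℕ) : cvFm al be io y ℓ (i + 1) a b =
    ∑ k ∈ range (2 ^ ℓ), cvTm al be io y ℓ (ℓ - 1 - i) 1 0 a k * cvFm al be io y ℓ i k b := rfl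

variable {al be io y}

lemma cvFm_eq {ℓ : ℕ} (hy : y ^ 2 ^ ℓ = -1) (hio : io * io = -1) (hal : be * io = al) {b : ℕ}
    (hb : b < 2 ^ ℓ) (i : ℕ) (hi : i ≤ ℓ) : ∀ a, a < 2 ^ ℓ → cvFm al be io y ℓ i a b =
      if a % 2 ^ (ℓ - i) = b % 2 ^ (ℓ - i) then
        al ^ i * (y ^ (2 ^ (ℓ - i) * cvOd ℓ i a)) ^ (b / 2 ^ (ℓ - i)) else 0 := by
  induction i with
  | zero =>
    intro a ha
    simp [cvFm_zero, Nat.mod_eq_of_lt ha, Nat.mod_eq_of_lt hb, Nat.div_eq_of_lt hb]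
  | succ i ih =>
    intro a ha
    obtain ⟨π, hπ⟩ : ∃ π, π + i + 1 = ℓ := ⟨ℓ - (i + 1), by omega⟩
    have e1 : ℓ - 1 - i = π := by omega
    have e2 : ℓ - i = π + 1 := by omega
    have e3 : ℓ - (i + 1) = π := by omega
    have e4 : ℓ - 1 - π = i := by omega
    have hπ' : π < ℓ := by omega
    have ha' : a ^^^ 2 ^ π < 2 ^ ℓ :=
      Nat.xor_lt_two_pow ha (Nat.pow_lt_pow_right (by norm_num) hπ')
    rw [cvFm_succ, e1, cv_sum_Tm al be io y hπ' ha, ih (by omega) a ha, ih (by omega) _ ha', e2, e3,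
      cvOd_succ, e1]
    simp only [cvEx, e4, cvOd_xor hπ, cv_mod_succ_iff, cv_xor_mod, cvBt_xor]
    rw [cv_div_succ π b]
    have hY : y ^ (2 ^ (π + 1) * cvOd ℓ i a) = (y ^ (2 ^ π * cvOd ℓ i a)) ^ 2 := by
      rw [← pow_mul]; congr 1; ring
    have hZ : y ^ (2 ^ π * (cvOd ℓ i a + 2 ^ (i + 1) * cvBt π a))
        = y ^ (2 ^ π * cvOd ℓ i a) * (-1) ^ cvBt π a := by
      rw [mul_add, pow_add, ← mul_assoc, ← pow_add 2 π, ← add_assoc, hπ, pow_mul y (2 ^ ℓ), hy]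
    rw [hY, hZ]
    simp only [one_mul, zero_mul, pow_zero, mul_one, mul_comm (cvBt π a), mul_comm (1 - cvBt π a),
      pow_mul y (2 ^ π * cvOd ℓ i a)]
    generalize y ^ (2 ^ π * cvOd ℓ i a) = Y
    generalize b / 2 ^ (π + 1) = q
    by_cases hm : a % 2 ^ π = b % 2 ^ π
    · rcases cvBt_le π a with h | h <;> rcases cvBt_le π b with h' | h' <;>
        simp only [hm, h, h', true_and, if_true] <;> norm_num
      · ring
      · linear_combination (Y * al ^ i * Y ^ (2 * q)) * hal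
      · linear_combination (al ^ i * Y ^ (2 * q)) * hal
      · rw [pow_succ (-Y), Even.neg_pow (even_two_mul q)]
        linear_combination (al * Y * al ^ i * Y ^ (2 * q)) * hio
    · simp [hm]

lemma cvFm_top {ℓ : ℕ} (hy : y ^ 2 ^ ℓ = -1) (hio : io * io = -1) (hal : be * io = al) {a b : ℕ}
    (ha : a < 2 ^ ℓ) (hb : b < 2 ^ ℓ) :
    cvFm al be io y ℓ ℓ a b = al ^ ℓ * (y ^ cvOd ℓ ℓ a) ^ b := by
  rw [cvFm_eq hy hio hal hb ℓ le_rfl a ha]
  simp [Nat.mod_one]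

lemma cv_inv_Tm {ℓ π a : ℕ} (hy : y ^ 2 ^ ℓ = -1) (hio : io * io = -1) (hal : be * io = al)
    (h2 : 2 * al * be = 1) (hπ : π < ℓ) (ha : a < 2 ^ ℓ) (v : ℕ → R) :
    ∑ k ∈ range (2 ^ ℓ), cvTm al be io y ℓ π 0 (2 ^ (ℓ + 1) - 1) a k *
      ∑ k' ∈ range (2 ^ ℓ), cvTm al be io y ℓ π 1 0 k k' * v k' = io * v a := by
  have ha' : a ^^^ 2 ^ π < 2 ^ ℓ :=
    Nat.xor_lt_two_pow ha (Nat.pow_lt_pow_right (by norm_num) hπ)
  have e : (a ^^^ 2 ^ π) ^^^ 2 ^ π = a := by rw [Nat.xor_assoc, Nat.xor_self, Nat.xor_zero]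
  rw [cv_sum_Tm al be io y hπ ha, cv_sum_Tm al be io y hπ ha, cv_sum_Tm al be io y hπ ha', e]
  have hu : y ^ ((2 ^ (ℓ + 1) - 1) * cvEx ℓ π a) * y ^ cvEx ℓ π a = 1 := by
    have : 1 ≤ 2 ^ (ℓ + 1) := Nat.one_le_two_pow
    rw [← pow_add, ← Nat.succ_mul, Nat.succ_eq_add_one, Nat.sub_add_cancel this, pow_succ,
      pow_mul, pow_mul, hy]
    simp
  simp only [one_mul, zero_mul, pow_zero, mul_one, cvBt_xor]
  generalize y ^ ((2 ^ (ℓ + 1) - 1) * cvEx ℓ π a) = U at hu ⊢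
  generalize y ^ cvEx ℓ π a = V at hu ⊢
  generalize y ^ cvEx ℓ π (a ^^^ 2 ^ π) = W
  generalize v (a ^^^ 2 ^ π) = w
  generalize v a = u
  subst hal
  rcases cvBt_le π a with h | h <;> simp only [h] <;> norm_num
  · linear_combination (io * u * U * V) * h2 + (io * u) * hu + (U * W * w * be ^ 2 * io ^ 2) * hio
  · linear_combination (io * u * U * V) * h2 + (io * u) * hu
      + (U * V * u * be ^ 2 * io ^ 2 * (io ^ 2 - 1) + U * W * w * be ^ 2 * io ^ 2) * hio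

end ring

end Crest.Agent.R326
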