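import Crest.Agent.R326.ConvA

/-!
The synthetic Fourier transform on records of Gaussian integers modulo `M`.
-/

set_option autoImplicit false

namespace Crest.Agent.R326

open Crest.Agent.Lib.PT Crest.Agent.Lib.LT Finset

/-- The imaginary unit modulo `M`. -/
def cvIo (M : ℕ) : KM M := ⟨0, 1⟩

variable {M : ℕ}

/-- Multiplication of a record by `i ^ m * y ^ e`. -/
def cvTw (r m e : ℕ) (g : ℕ → KM M) (c : ℕ) : KM M :=
  cvIo M ^ (m + if c < e then 2 else 0) * g ((c + (r - e)) % r)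

/-- The twiddle factors of one round. -/
def cvTwd (ℓ D π c₀ : ℕ) (F : ℕ → ℕ → KM M) (n : ℕ) : ℕ → KM M :=
  cvTw (2 ^ ℓ) (cvSum ℓ D (cvBt π) n + 2 * (c₀ * cvSum ℓ D (cvEx ℓ π) n / 2 ^ ℓ))
    (c₀ * cvSum ℓ D (cvEx ℓ π) n % 2 ^ ℓ) (F n)

/-- One round. -/
def cvRnd (ℓ D π c₁ c₂ : ℕ) (F : ℕ → ℕ → KM M) : ℕ → ℕ → KM M :=
  cvTwd ℓ D π c₂ fun i c => gam π ℓ D (fun i' => cvTwd ℓ D π c₁ F i' c) i

/-- The forward (`false`) and the backward (`true`) rounds. -/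
def cvLp (b : Bool) (ℓ D : ℕ) (F : ℕ → ℕ → KM M) : ℕ → ℕ → ℕ → KM M
  | 0 => F
  | t + 1 => cvRnd ℓ D (cond b t (ℓ - 1 - t)) (cond b 0 1) (cond b (2 ^ (ℓ + 1) - 1) 0)
      (cvLp b ℓ D F t)

lemma cvLp_zero (b : Bool) (ℓ D : ℕ) (F : ℕ → ℕ → KM M) : cvLp b ℓ D F 0 = F := rfl

lemma cvLp_succ (b : Bool) (ℓ D : ℕ) (F : ℕ → ℕ → KM M) (t : ℕ) : cvLp b ℓ D F (t + 1) =
    cvRnd ℓ D (cond b t (ℓ - 1 - t)) (cond b 0 1) (cond b (2 ^ (ℓ + 1) - 1) 0)
      (cvLp b ℓ D F t) := rfl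

/-- The negacyclic product of two records. -/
def cvPm {K : Type} [Ring K] (r : ℕ) (u v : ℕ → K) (k : ℕ) : K :=
  aconv r r u v k - aconv r r u v (r + k)

/-- An array as a family of records. -/
def cvRec {α : Type} (D r : ℕ) (f : (Fin (D + 1) → ℕ) → α) (i c : ℕ) : α :=
  f (Fin.cons c (digs D r i))

lemma cv_digs_succ {D r : ℕ} (i : ℕ) {c : ℕ} (hc : c < r) :
    digs (D + 1) r (i * r + c) = Fin.cons c (digs D r i) := by
  have hr : 0 < r := by omega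
  funext j
  refine Fin.cases ?_ (fun j => ?_) j
  · simp [digs, Nat.mod_eq_of_lt hc]
  · simp only [digs, Fin.val_succ, Fin.cons_succ, pow_succ']
    rw [← Nat.div_div_eq_div_mul, add_comm, Nat.add_mul_div_right _ _ hr, Nat.div_eq_of_lt hc,
      zero_add]

lemma cvIo_mul_self : cvIo M * cvIo M = -1 := by
  ext <;> simp [cvIo, QuadraticAlgebra.re_one, QuadraticAlgebra.im_one]

lemma cv_bet_mul_io : bet M * cvIo M = alp M := by
  ext <;> simp [cvIo, bet, alp]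

lemma cv_two_hf (hM : Odd M) : 2 * hf M = 1 := by
  obtain ⟨k, hk⟩ := hM
  have h1 : 2 * ((M + 1) / 2) = M + 1 := by omega
  have h2 := congrArg (Nat.cast : ℕ → ZMod M) h1
  rw [Nat.cast_mul, Nat.cast_add, ZMod.natCast_self, zero_add, Nat.cast_one] at h2
  exact h2

lemma cv_two_alp_bet (hM : Odd M) : 2 * alp M * bet M = 1 := by
  have h := cv_two_hf hM
  rw [two_mul]
  ext
  · simp only [alp, bet, QuadraticAlgebra.re_mul, QuadraticAlgebra.re_add, QuadraticAlgebra.im_add,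
      QuadraticAlgebra.re_one]
    linear_combination (2 * hf M + 1) * h
  · simp only [alp, bet, QuadraticAlgebra.im_mul, QuadraticAlgebra.re_add, QuadraticAlgebra.im_add,
      QuadraticAlgebra.im_one]
    ring

section toR

variable {R : Type} [CommRing R] (φ : KM M →+* R) (y : R)

/-- The element of `R` given by a record. -/
def cvToR (r : ℕ) (g : ℕ → KM M) : R := ∑ c ∈ range r, φ (g c) * y ^ c

variable {φ y}

lemma cv_io_sq : φ (cvIo M) * φ (cvIo M) = -1 := by rw [← map_mul, cvIo_mul_self]; simp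

lemma cv_be_io : φ (bet M) * φ (cvIo M) = φ (alp M) := by rw [← map_mul, cv_bet_mul_io]

lemma cv_al_be (hM : Odd M) : 2 * φ (alp M) * φ (bet M) = 1 := by
  have := congrArg φ (cv_two_alp_bet hM)
  simpa [map_ofNat] using this

lemma cvToR_tw {r m e : ℕ} (hy : y ^ r = -1) (he : e < r) (g : ℕ → KM M) :
    cvToR φ y r (cvTw r m e g) = φ (cvIo M) ^ m * y ^ e * cvToR φ y r g := by
  rw [cvToR, cvToR, mul_sum]
  refine sum_nbij' (fun c => (c + r - e) % r) (fun v => (v + e) % r) ?_ ?_ ?_ ?_ ?_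
  · exact fun c _ => mem_range.2 (Nat.mod_lt _ (by omega))
  · exact fun c _ => mem_range.2 (Nat.mod_lt _ (by omega))
  · exact fun c hc => cv_sub_add_mod he (mem_range.1 hc)
  · exact fun c hc => cv_add_sub_mod he (mem_range.1 hc)
  · intro c hc
    have h1 := cv_sgn_pow hy he (mem_range.1 hc)
    have h2 : φ (cvIo M) ^ (if c < e then 2 else 0) = if e ≤ c then 1 else -1 := by
      by_cases h : c < e
      · rw [if_pos h, if_neg (by omega), sq, cv_io_sq]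
      · rw [if_neg h, if_pos (by omega), pow_zero]
    rw [cvTw, map_mul, map_pow, pow_add, h2, show c + (r - e) = c + r - e by omega]
    linear_combination (φ (cvIo M) ^ m * φ (g ((c + r - e) % r))) * h1

lemma cvToR_twd {ℓ : ℕ} (hy : y ^ 2 ^ ℓ = -1) (D π c₀ : ℕ) (F : ℕ → ℕ → KM M) (n : ℕ) :
    cvToR φ y (2 ^ ℓ) (cvTwd ℓ D π c₀ F n) = φ (cvIo M) ^ cvSum ℓ D (cvBt π) n *
      y ^ (c₀ * cvSum ℓ D (cvEx ℓ π) n) * cvToR φ y (2 ^ ℓ) (F n) := by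
  rw [cvTwd, cvToR_tw hy (Nat.mod_lt _ (by positivity))]
  congr 1
  conv_rhs => rw [← Nat.div_add_mod (c₀ * cvSum ℓ D (cvEx ℓ π) n) (2 ^ ℓ)]
  rw [pow_add, pow_add, pow_mul, pow_mul y, hy, sq, cv_io_sq, mul_assoc]

lemma cvToR_gam (r π ℓ k : ℕ) (F : ℕ → ℕ → KM M) (n : ℕ) :
    cvToR φ y r (fun c => gam π ℓ k (fun i => F i c) n)
      = cvGam (φ (alp M)) (φ (bet M)) π ℓ k (fun i => cvToR φ y r (F i)) n := by
  induction k generalizing n with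
  | zero => rfl
  | succ k ih =>
    rw [cvGam_succ, ← ih, ← ih, cvToR, cvToR, cvToR, mul_sum, mul_sum, ← sum_add_distrib]
    refine sum_congr rfl fun c _ => ?_
    change φ (alp M * gam π ℓ k (fun i => F i c) n
      + bet M * gam π ℓ k (fun i => F i c) (n ^^^ 2 ^ (π + ℓ * k))) * _ = _
    rw [map_add, map_mul, map_mul]
    ring

lemma cvToR_rnd {ℓ : ℕ} (hy : y ^ 2 ^ ℓ = -1) (D π c₁ c₂ : ℕ) (F : ℕ → ℕ → KM M) (n : ℕ) :
    cvToR φ y (2 ^ ℓ) (cvRnd ℓ D π c₁ c₂ F n)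
      = cvRndR (φ (alp M)) (φ (bet M)) (φ (cvIo M)) y ℓ D π c₁ c₂
          (fun i => cvToR φ y (2 ^ ℓ) (F i)) n := by
  rw [cvRnd, cvToR_twd hy, cvToR_gam, cvRndR]
  simp only [cvToR_twd hy]

lemma cvToR_fwd {ℓ D : ℕ} (hy : y ^ 2 ^ ℓ = -1) {F : ℕ → ℕ → KM M} {f : (Fin D → ℕ) → R}
    (h : ∀ i, cvToR φ y (2 ^ ℓ) (F i) = f (digs D (2 ^ ℓ) i)) (t : ℕ) (ht : t ≤ ℓ) (n : ℕ) :
    cvToR φ y (2 ^ ℓ) (cvLp false ℓ D F t n)
      = tens (2 ^ ℓ) (fun _ => cvFm (φ (alp M)) (φ (bet M)) (φ (cvIo M)) y ℓ t) f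
          (digs D (2 ^ ℓ) n) := by
  induction t generalizing n with
  | zero =>
    rw [cvLp_zero, h]
    exact (tens_one f (digs_mem_box (by positivity) n)).symm
  | succ t ih =>
    rw [cvLp_succ, cvToR_rnd hy, cvRndR_tens _ _ _ _ (by simp; omega) _ _ (ih (by omega)),
      tens_tens]
    rfl

lemma cv_tens_smul {D r : ℕ} (c : R) (κ : Fin D → ℕ → ℕ → R) (f : (Fin D → ℕ) → R)
    (x : Fin D → ℕ) : tens r (fun j a b => c * κ j a b) f x = c ^ D * tens r κ f x := by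
  simp [tens, prod_mul_distrib, mul_sum, mul_assoc]

lemma cvToR_bwd (hM : Odd M) {ℓ D : ℕ} (hD : 4 ∣ D) (hy : y ^ 2 ^ ℓ = -1) {F : ℕ → ℕ → KM M}
    {f : (Fin D → ℕ) → R}
    (h : ∀ i, cvToR φ y (2 ^ ℓ) (F i)
      = tens (2 ^ ℓ) (fun _ => cvFm (φ (alp M)) (φ (bet M)) (φ (cvIo M)) y ℓ ℓ) f
          (digs D (2 ^ ℓ) i)) (t : ℕ) (ht : t ≤ ℓ) (n : ℕ) :
    cvToR φ y (2 ^ ℓ) (cvLp true ℓ D F t n)
      = tens (2 ^ ℓ) (fun _ => cvFm (φ (alp M)) (φ (bet M)) (φ (cvIo M)) y ℓ (ℓ - t)) f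
          (digs D (2 ^ ℓ) n) := by
  induction t generalizing n with
  | zero => rw [cvLp_zero, h, Nat.sub_zero]
  | succ t ih =>
    rw [cvLp_succ, cvToR_rnd hy, cvRndR_tens _ _ _ _ (by simp; omega) _ _ (ih (by omega)),
      tens_tens]
    have h4 : φ (cvIo M) ^ D = 1 := by
      obtain ⟨k, rfl⟩ := hD
      rw [pow_mul, show φ (cvIo M) ^ 4 = (φ (cvIo M) * φ (cvIo M)) ^ 2 by ring, cv_io_sq]
      simp
    rw [← one_mul (tens (2 ^ ℓ) (fun _ => cvFm _ _ _ y ℓ (ℓ - (t + 1))) f _), ← h4,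
      ← cv_tens_smul]
    refine tens_congr (fun j b _ => ?_) fun _ _ => rfl
    have e1 : ℓ - t = ℓ - (t + 1) + 1 := by omega
    have e2 : ℓ - 1 - (ℓ - (t + 1)) = t := by omega
    simp only [e1, cvFm_succ, e2, cond_true]
    exact cv_inv_Tm hy cv_io_sq cv_be_io (cv_al_be hM) (by omega)
      (mem_box.1 (digs_mem_box (by positivity) n) j) _

lemma cv_map_aconv {K : Type} [Semiring K] {S : Type} [Semiring S] (ψ : K →+* S) (r r' : ℕ)
    (u v : ℕ → K) (k : ℕ) :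
    ψ (aconv r r' u v k) = aconv r r' (fun i => ψ (u i)) (fun i => ψ (v i)) k := by
  simp only [aconv, map_sum]
  exact sum_congr rfl fun i _ => by split_ifs <;> simp

lemma cvToR_pm {r : ℕ} (hy : y ^ r = -1) (u v : ℕ → KM M) :
    cvToR φ y r (cvPm r u v) = cvToR φ y r u * cvToR φ y r v := by
  rw [cvToR, cvToR, cvToR, sum_mul_sum_eq_aconv, sum_range_add, ← sum_add_distrib]
  refine sum_congr rfl fun k _ => ?_
  rw [cvPm, map_sub, cv_map_aconv, cv_map_aconv, pow_add, hy]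
  ring

lemma cv_map_nconv {K S : Type} [CommRing K] [CommRing S] (ψ : K →+* S) {d : ℕ} (r : ℕ)
    (f g : (Fin d → ℕ) → K) (x : Fin d → ℕ) :
    ψ (nconv r f g x) = nconv r (fun u => ψ (f u)) (fun u => ψ (g u)) x := by
  simp only [nconv, map_sum, map_mul, map_prod]
  exact sum_congr rfl fun u _ => by
    congr 1
    exact prod_congr rfl fun j _ => by split_ifs <;> simp

lemma cv_tens_top {ℓ D : ℕ} (hy : y ^ 2 ^ ℓ = -1) (f : (Fin (D + 1) → ℕ) → KM M)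
    {x : Fin D → ℕ} (hx : x ∈ box D (2 ^ ℓ)) :
    tens (2 ^ ℓ) (fun _ => cvFm (φ (alp M)) (φ (bet M)) (φ (cvIo M)) y ℓ ℓ)
        (fun u => cvToR φ y (2 ^ ℓ) fun c => f (Fin.cons c u)) x
      = φ (alp M) ^ (ℓ * D) * ∑ u ∈ box (D + 1) (2 ^ ℓ),
        (∏ j, (Fin.cons y (fun j => y ^ cvOd ℓ ℓ (x j)) : Fin (D + 1) → R) j ^ u j) * φ (f u) := by
  rw [tens_congr (κ' := fun _ a b => φ (alp M) ^ ℓ * (y ^ cvOd ℓ ℓ a) ^ b)
    (fun j k hk => cvFm_top hy cv_io_sq cv_be_io (mem_box.1 hx j) hk) (fun _ _ => rfl),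
    cv_tens_smul, ← pow_mul, cv_sum_box_succ, tens]
  congr 1
  refine sum_congr rfl fun u _ => ?_
  rw [cvToR, mul_sum]
  refine sum_congr rfl fun c _ => ?_
  simp only [Fin.prod_univ_succ, Fin.cons_zero, Fin.cons_succ]
  ring

lemma cvToR_main (hM : Odd M) {ℓ D : ℕ} (hD : 8 ∣ D) (hy : y ^ 2 ^ ℓ = -1)
    (f g : (Fin (D + 1) → ℕ) → KM M) (n : ℕ) :
    cvToR φ y (2 ^ ℓ) (cvLp true ℓ D (fun i => cvPm (2 ^ ℓ)
        (cvLp false ℓ D (cvRec D (2 ^ ℓ) f) ℓ i)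
        (cvLp false ℓ D (cvRec D (2 ^ ℓ) fun u => g u * 2 ^ (ℓ * D / 2)) ℓ i)) ℓ n)
      = cvToR φ y (2 ^ ℓ) (cvRec D (2 ^ ℓ) (nconv (2 ^ ℓ) f g) n) := by
  have hr : 0 < 2 ^ ℓ := by positivity
  rw [cvToR_bwd hM (Dvd.dvd.trans (by norm_num) hD) hy
    (f := fun u => cvToR φ y (2 ^ ℓ) fun c => nconv (2 ^ ℓ) f g (Fin.cons c u)) _ ℓ le_rfl,
    Nat.sub_self]
  · exact tens_one _ (digs_mem_box hr n)
  intro i
  have hx := digs_mem_box (d := D) hr i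
  rw [cvToR_pm hy,
    cvToR_fwd hy (F := cvRec D (2 ^ ℓ) f)
      (f := fun u => cvToR φ y (2 ^ ℓ) fun c => f (Fin.cons c u)) (fun _ => rfl) ℓ le_rfl,
    cvToR_fwd hy (F := cvRec D (2 ^ ℓ) fun u => g u * 2 ^ (ℓ * D / 2))
      (f := fun u => cvToR φ y (2 ^ ℓ) fun c => g (Fin.cons c u) * 2 ^ (ℓ * D / 2))
      (fun _ => rfl) ℓ le_rfl,
    cv_tens_top hy f hx, cv_tens_top hy (fun u => g u * 2 ^ (ℓ * D / 2)) hx,
    cv_tens_top hy (nconv (2 ^ ℓ) f g) hx]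
  simp only [cv_map_nconv]
  rw [cv_eval_nconv]
  · have h1 : φ (alp M) ^ (ℓ * D) * 2 ^ (ℓ * D / 2) = 1 := by
      obtain ⟨k, rfl⟩ := hD
      have e1 : ℓ * (8 * k) / 2 = 4 * (ℓ * k) := by
        rw [show ℓ * (8 * k) = 2 * (4 * (ℓ * k)) by ring, Nat.mul_div_cancel_left _ two_pos]
      rw [e1, show ℓ * (8 * k) = 8 * (ℓ * k) by ring, pow_mul _ 8, pow_mul _ 4, ← mul_pow]
      have h2 := cv_al_be (φ := φ) hM
      have h3 := cv_be_io (φ := φ) (M := M)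
      have h4 := cv_io_sq (φ := φ) (M := M)
      have h5 : φ (alp M) ^ 2 * 2 = φ (cvIo M) := by
        linear_combination (φ (cvIo M)) * h2 - (2 * φ (alp M)) * h3
      have h6 : φ (alp M) ^ 8 * 2 ^ 4 = 1 := by
        calc φ (alp M) ^ 8 * 2 ^ 4 = (φ (alp M) ^ 2 * 2) ^ 4 := by ring
          _ = (φ (cvIo M) * φ (cvIo M)) ^ 2 := by rw [h5]; ring
          _ = 1 := by rw [h4]; simp
      rw [h6, one_pow]
    simp only [map_mul, map_pow, map_ofNat, ← mul_assoc, ← sum_mul]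
    generalize (∑ u ∈ box (D + 1) (2 ^ ℓ), _ * φ (f u)) = X
    generalize (∑ u ∈ box (D + 1) (2 ^ ℓ), _ * φ (g u)) = Y
    linear_combination (φ (alp M) ^ (ℓ * D) * X * Y) * h1
  · intro j
    refine Fin.cases hy (fun j => ?_) j
    rw [Fin.cons_succ, ← pow_mul, mul_comm, pow_mul, hy]
    exact (cvOd_odd _ _ _).neg_one_pow

end toR

open Polynomial in
lemma cvToR_inj (hM : 1 < M) {r : ℕ} (hr : 0 < r) {u v : ℕ → KM M}
    (h : cvToR (AdjoinRoot.of (X ^ r + 1 : (KM M)[X])) (AdjoinRoot.root _) r u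
      = cvToR (AdjoinRoot.of (X ^ r + 1 : (KM M)[X])) (AdjoinRoot.root _) r v) {c : ℕ}
    (hc : c < r) : u c = v c := by
  have : Fact (1 < M) := ⟨hM⟩
  have hmon : (X ^ r + 1 : (KM M)[X]).Monic := by
    simpa using monic_X_pow_add_C (1 : KM M) hr.ne'
  have hdeg : (X ^ r + 1 : (KM M)[X]).degree = r := by
    simpa using degree_X_pow_add_C hr (1 : KM M)
  have e : ∀ w : ℕ → KM M,
      cvToR (AdjoinRoot.of (X ^ r + 1 : (KM M)[X])) (AdjoinRoot.root _) r w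
        = AdjoinRoot.mk (X ^ r + 1) (∑ c ∈ range r, C (w c) * X ^ c) := by
    intro w
    simp [cvToR]
  rw [e, e, AdjoinRoot.mk_eq_mk, ← sum_sub_distrib] at h
  simp only [← sub_mul, ← C_sub] at h
  have h0 : ∑ c ∈ range r, C (u c - v c) * X ^ c = 0 := by
    by_contra hne
    refine hmon.not_dvd_of_degree_lt hne ?_ h
    rw [hdeg]
    refine (degree_sum_le _ _).trans_lt ((Finset.sup_lt_iff (WithBot.bot_lt_coe _)).2 fun k hk => ?_)
    exact (degree_C_mul_X_pow_le _ _).trans_lt (by exact_mod_cast mem_range.1 hk)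
  have h1 := congrArg (fun q => coeff q c) h0
  simp only [finsetSum_coeff, coeff_C_mul_X_pow, sum_ite_eq, mem_range, hc, if_true,
    coeff_zero] at h1
  exact sub_eq_zero.1 h1

open Polynomial in
theorem cv_main (hM : Odd M) (hM' : 1 < M) {ℓ D : ℕ} (hD : 8 ∣ D)
    (f g : (Fin (D + 1) → ℕ) → KM M) (n : ℕ) {c : ℕ} (hc : c < 2 ^ ℓ) :
    cvLp true ℓ D (fun i => cvPm (2 ^ ℓ) (cvLp false ℓ D (cvRec D (2 ^ ℓ) f) ℓ i)
        (cvLp false ℓ D (cvRec D (2 ^ ℓ) fun u => g u * 2 ^ (ℓ * D / 2)) ℓ i)) ℓ n c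
      = cvRec D (2 ^ ℓ) (nconv (2 ^ ℓ) f g) n c := by
  refine cvToR_inj hM' (by positivity) (cvToR_main hM hD ?_ f g n) hc
  have := AdjoinRoot.eval₂_root (X ^ 2 ^ ℓ + 1 : (KM M)[X])
  simp only [eval₂_add, eval₂_X_pow, eval₂_one] at this
  exact eq_neg_of_add_eq_zero_left this

end Crest.Agent.R326
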