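import Crest.Agent.R326.Net

/-!
Numerical estimates for the recursion of the fast butterflies.
-/

set_option autoImplicit false

namespace Crest.Agent.R326

lemma exists_gamL {W m r : ℕ} (h : NetNum W m r) : ∃ L : ℕ, r < L ∧
    (∀ j D : ℕ, m ^ j ≤ D + 1 → L ^ j ≤ W ^ j * pw τ₂ D) ∧
    ∃ C₀ : ℕ, ∀ j k : ℕ, k < m ^ (j + 1) → W ^ j * pw τ₁ (k * (k.size + 1) + 1) ≤ C₀ * L ^ j := by
  have hm1 : (2 : ℝ) ^ 19 ≤ m := by exact_mod_cast h.m_lo
  have hm2 : (m : ℝ) ≤ 2 ^ 20 := by exact_mod_cast h.m_hi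
  have hW1 : (2 : ℝ) ^ 46 ≤ W := by exact_mod_cast h.W_lo
  have hW2 : (W : ℝ) ≤ 2 ^ 62 := by exact_mod_cast h.W_hi
  have hs : (r : ℝ) + 2 ^ 42 ≤ W * m := by exact_mod_cast h.save
  have hm0 : (0 : ℝ) < m := by linarith [show (0 : ℝ) < 2 ^ 19 by norm_num]
  have hW0 : (0 : ℝ) < W := by linarith [show (0 : ℝ) < 2 ^ 46 by norm_num]
  have hlog1 : 1 ≤ Real.log m := by
    rw [Real.le_log_iff_exp_le hm0]
    have := Real.exp_one_lt_three
    linarith [show (3 : ℝ) ≤ 2 ^ 19 by norm_num]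
  have hlog2 : Real.log m ≤ 20 := by
    have h1 := Real.log_le_log hm0 hm2
    rw [Real.log_pow] at h1
    have h2 := Real.log_le_sub_one_of_pos (show (0 : ℝ) < 2 by norm_num)
    push_cast at h1
    linarith
  have hτ1 : (1 / 2 : ℝ) ≤ τ₁ := by unfold τ₁; norm_num
  have hτ1' : τ₁ ≤ 1 := by unfold τ₁; norm_num
  have hτ2 : (0 : ℝ) ≤ τ₂ := by unfold τ₂; norm_num
  have e1 : (m : ℝ) ^ τ₂ = m * Real.exp (-(Real.log m / 2 ^ 47)) := by
    rw [τ₂, Real.rpow_sub hm0, Real.rpow_one, Real.rpow_def_of_pos hm0, Real.exp_neg,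
      div_eq_mul_inv, mul_one_div]
  have e2 : (m : ℝ) ^ τ₂ = (m : ℝ) ^ τ₁ * Real.exp (Real.log m / 2 ^ 47) := by
    rw [show τ₂ = τ₁ + 1 / 2 ^ 47 by unfold τ₁ τ₂; norm_num, Real.rpow_add hm0,
      Real.rpow_def_of_pos hm0 (1 / 2 ^ 47), mul_one_div]
  have h2 : (2 : ℝ) ≤ (m : ℝ) ^ τ₁ := by
    calc (2 : ℝ) = (4 : ℝ) ^ (1 / 2 : ℝ) := by
          rw [show (4 : ℝ) = 2 ^ (2 : ℝ) by norm_num, ← Real.rpow_mul (by norm_num)]; norm_num
      _ ≤ (m : ℝ) ^ (1 / 2 : ℝ) :=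
          Real.rpow_le_rpow (by norm_num) (by linarith [show (4 : ℝ) ≤ 2 ^ 19 by norm_num])
            (by norm_num)
      _ ≤ _ := Real.rpow_le_rpow_of_exponent_le
          (by linarith [show (1 : ℝ) ≤ 2 ^ 19 by norm_num]) hτ1
  set L := ⌊(W : ℝ) * (m : ℝ) ^ τ₂⌋₊ with hL
  have hL1 : (L : ℝ) ≤ W * (m : ℝ) ^ τ₂ := Nat.floor_le (by positivity)
  have hL2 : W * (m : ℝ) ^ τ₂ < L + 1 := Nat.lt_floor_add_one _
  have hL3 : W * (m : ℝ) ^ τ₁ < L := by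
    have h3 := Real.add_one_le_exp (Real.log m / 2 ^ 47)
    have h4 : 1 / 2 ^ 47 ≤ Real.log m / 2 ^ 47 := div_le_div_of_nonneg_right hlog1 (by norm_num)
    have h5 : (2 : ℝ) ^ 46 * 2 ≤ W * (m : ℝ) ^ τ₁ := mul_le_mul hW1 h2 (by norm_num) hW0.le
    have h6 := mul_le_mul_of_nonneg_left (show 1 / 2 ^ 47 + 1 ≤ Real.exp (Real.log m / 2 ^ 47) by
      linarith) (show 0 ≤ W * (m : ℝ) ^ τ₁ by positivity)
    rw [e2, ← mul_assoc] at hL2
    linarith
  refine ⟨L, ?_, fun j D hD => ?_, ?_⟩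
  · refine Nat.lt_of_succ_le (Nat.le_floor ?_)
    have h3 := Real.add_one_le_exp (-(Real.log m / 2 ^ 47))
    have h4 : Real.log m / 2 ^ 47 ≤ 20 / 2 ^ 47 := div_le_div_of_nonneg_right hlog2 (by norm_num)
    have h5 : (W : ℝ) * m ≤ 2 ^ 62 * 2 ^ 20 := mul_le_mul hW2 hm2 hm0.le (by norm_num)
    have h6 := mul_le_mul_of_nonneg_left
      (show 1 - 20 / 2 ^ 47 ≤ Real.exp (-(Real.log m / 2 ^ 47)) by linarith)
      (show 0 ≤ (W : ℝ) * m by positivity)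
    rw [e1, ← mul_assoc]
    push_cast
    linarith
  · have h3 : ((L ^ j : ℕ) : ℝ) ≤ ((W ^ j * pw τ₂ D : ℕ) : ℝ) := by
      push_cast
      calc (L : ℝ) ^ j ≤ (W * (m : ℝ) ^ τ₂) ^ j := pow_le_pow_left₀ (by positivity) hL1 j
        _ = W ^ j * ((m : ℝ) ^ j) ^ τ₂ := by
            rw [mul_pow, ← Real.rpow_natCast ((m : ℝ) ^ τ₂), ← Real.rpow_mul hm0.le, mul_comm τ₂,
              Real.rpow_mul hm0.le, Real.rpow_natCast]
        _ ≤ W ^ j * ((D : ℝ) + 1) ^ τ₂ := mul_le_mul_of_nonneg_left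
            (Real.rpow_le_rpow (by positivity) (by exact_mod_cast hD) hτ2) (by positivity)
        _ ≤ _ := mul_le_mul_of_nonneg_left (Nat.le_ceil _) (by positivity)
    exact_mod_cast h3
  · set t := (W : ℝ) * (m : ℝ) ^ τ₁ with ht
    have ht0 : 0 < t := by positivity
    obtain ⟨δ, hδ0, hδ⟩ : ∃ δ : ℝ, 0 < δ ∧ (L : ℝ) = t * (1 + δ) :=
      ⟨L / t - 1, by rw [sub_pos, lt_div_iff₀ ht0]; linarith, by field_simp; ring⟩
    refine ⟨⌈46 * m * (1 + 1 / δ)⌉₊, fun j k hk => ?_⟩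
    have h3 : k.size ≤ 20 * (j + 1) := by
      rw [Nat.size_le, pow_mul]
      exact hk.trans_le (Nat.pow_le_pow_left h.m_hi _)
    have h4 : k * (k.size + 1) + 1 + 1 ≤ m ^ (j + 1) * (23 * (j + 1)) := by
      have h5 := Nat.mul_le_mul hk.le (show k.size + 1 ≤ 20 * (j + 1) + 1 by omega)
      have h6 : 1 ≤ m ^ (j + 1) := by omega
      nlinarith
    have h5 : (((k * (k.size + 1) + 1 : ℕ) : ℝ) + 1) ^ τ₁
        ≤ ((m : ℝ) ^ τ₁) ^ j * m * (23 * (j + 1)) := by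
      calc _ ≤ ((m : ℝ) ^ (j + 1) * (23 * (j + 1))) ^ τ₁ :=
            Real.rpow_le_rpow (by positivity) (by exact_mod_cast h4) (by linarith)
        _ = ((m : ℝ) ^ τ₁) ^ j * (m : ℝ) ^ τ₁ * (23 * (j + 1) : ℝ) ^ τ₁ := by
            rw [Real.mul_rpow (by positivity) (by positivity), ← pow_succ,
              ← Real.rpow_natCast ((m : ℝ) ^ τ₁), ← Real.rpow_mul hm0.le, mul_comm τ₁,
              Real.rpow_mul hm0.le, Real.rpow_natCast]
        _ ≤ _ := by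
            refine mul_le_mul (mul_le_mul_of_nonneg_left ?_ (by positivity)) ?_ (by positivity)
              (by positivity)
            · conv_rhs => rw [← Real.rpow_one (m : ℝ)]
              exact Real.rpow_le_rpow_of_exponent_le
                (by linarith [show (1 : ℝ) ≤ 2 ^ 19 by norm_num]) hτ1'
            · conv_rhs => rw [← Real.rpow_one (23 * (j + 1) : ℝ)]
              exact Real.rpow_le_rpow_of_exponent_le
                (by linarith [Nat.cast_nonneg (α := ℝ) j]) hτ1'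
    have h6 : (pw τ₁ (k * (k.size + 1) + 1) : ℝ)
        ≤ 2 * (((m : ℝ) ^ τ₁) ^ j * m * (23 * (j + 1))) := by
      have h7 := Nat.ceil_lt_add_one
        (show 0 ≤ (((k * (k.size + 1) + 1 : ℕ) : ℝ) + 1) ^ τ₁ by positivity)
      have h8 : 1 ≤ (((k * (k.size + 1) + 1 : ℕ) : ℝ) + 1) ^ τ₁ :=
        Real.one_le_rpow (by linarith [Nat.cast_nonneg (α := ℝ) (k * (k.size + 1) + 1)])
          (by linarith)
      unfold pw
      linarith
    have h7 : (j : ℝ) + 1 ≤ (1 + 1 / δ) * (1 + δ) ^ j := by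
      have h8 := one_add_mul_le_pow (show (-2 : ℝ) ≤ δ by linarith) j
      have h9 : (j : ℝ) ≤ 1 / δ * (1 + δ) ^ j := by
        rw [one_div_mul_eq_div, le_div_iff₀ hδ0]; linarith
      have h10 : (0 : ℝ) ≤ j * δ := by positivity
      linarith
    have h8 : ((W ^ j * pw τ₁ (k * (k.size + 1) + 1) : ℕ) : ℝ)
        ≤ ((⌈46 * m * (1 + 1 / δ)⌉₊ * L ^ j : ℕ) : ℝ) := by
      push_cast
      calc (W : ℝ) ^ j * (pw τ₁ (k * (k.size + 1) + 1) : ℝ)
          ≤ W ^ j * (2 * (((m : ℝ) ^ τ₁) ^ j * m * (23 * (j + 1)))) :=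
            mul_le_mul_of_nonneg_left h6 (by positivity)
        _ = 46 * m * t ^ j * (j + 1) := by rw [ht, mul_pow]; ring
        _ ≤ 46 * m * t ^ j * ((1 + 1 / δ) * (1 + δ) ^ j) :=
            mul_le_mul_of_nonneg_left h7 (by positivity)
        _ = 46 * m * (1 + 1 / δ) * (L : ℝ) ^ j := by rw [hδ, mul_pow t]; ring
        _ ≤ _ := mul_le_mul_of_nonneg_right (Nat.le_ceil _) (by positivity)
    exact_mod_cast h8

end Crest.Agent.R326
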