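import Crest.Agent.R326.GamNode
import Crest.Agent.R326.GamNum

/-!
The recursion for the fast butterflies.
-/

set_option autoImplicit false

namespace Crest.Agent.R326

open Crest.Agent.Lib.PT Crest.Agent.Lib.LT Finset

/-- An instance of the recursion. -/
structure GN (m : ℕ) {A : Type} (M n ℓ D J : A → ℕ) : Type where
  /-- the outer instance -/
  a : A
  /-- the first position -/
  π : ℕ
  /-- the number of positions -/
  k : ℕ
  /-- the level -/
  j : ℕ
  /-- the data -/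
  f : ℕ → ℕ → KM (M a)
  fit : π + ℓ a * k + k.size * k ≤ n a
  kD : k ≤ D a
  kj : k < m ^ (j + 1)
  jJ : j ≤ J a

lemma size_mul_mono {k k' : ℕ} (h : k ≤ k') : k.size * k ≤ k'.size * k' :=
  Nat.mul_le_mul (Nat.size_le_size h) h

variable {A : Type} {M p n ℓ D J R₀ s : A → ℕ}

theorem closed_gam {W m r L C₀ : ℕ} (hW : 0 < W) (hm : 0 < m) (hnet : NetB W m r) (hL : r < L)
    (hC₀ : ∀ j k : ℕ, k < m ^ (j + 1) → W ^ j * pw τ₁ (k * (k.size + 1) + 1) ≤ C₀ * L ^ j)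
    (hodd : ∀ a, Odd (M a)) (hM : ∀ a, M a < 2 ^ p a) (hgap : ∀ a, 2 * (D a).size + 2 ≤ ℓ a)
    (hR : ∀ a, s a * 2 ^ ((D a).size * D a) ≤ R₀ a)
    (hs : Sm s fun a => n a + ℓ a + sz (W ^ J a * R₀ a) + sz (p a)) :
    Closed (fun g : GN m M n ℓ D J => (grep (n g.a) (W ^ g.j * R₀ g.a) g.f, M g.a,
        p g.a, n g.a, ℓ g.a, g.π, g.k, W ^ g.j * R₀ g.a))
      (fun g => grep (n g.a) (W ^ g.j * R₀ g.a) (gamV g.π (ℓ g.a) g.k g.f))
      (fun g => 2 ^ n g.a * R₀ g.a * p g.a * L ^ g.j) := by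
  have hsR : ∀ a, s a ≤ R₀ a := fun a =>
    (Nat.le_mul_of_pos_right _ (by positivity)).trans (hR a)
  have hsR' : ∀ a j, s a ≤ W ^ j * R₀ a := fun a j =>
    (hsR a).trans (Nat.le_mul_of_pos_left _ (by positivity))
  have hR0 : ∀ a j, 0 < W ^ j * R₀ a := fun a j => (hs.pos a).trans_le (hsR' a j)
  have hp1 : ∀ a, 1 ≤ p a := fun a => gp_pos (hodd a) (hM a)
  have hτ : 0 ≤ τ₁ := by unfold τ₁; norm_num
  set B : GN m M n ℓ D J → ℕ := fun g =>
    2 ^ n g.a * (W ^ g.j * R₀ g.a) * p g.a * pw τ₁ (g.k * (g.k.size + 1) + 1) with hBdef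
  have hV : Dom (fun g : GN m M n ℓ D J => 2 ^ n g.a * (W ^ g.j * R₀ g.a) * p g.a) B :=
    Dom.of_le fun g => Nat.le_mul_of_pos_right _ (pw_pos _ _)
  have hsB : Dom (fun g : GN m M n ℓ D J => s g.a) B := hV.le_trans fun g =>
    ((hsR' g.a g.j).trans (Nat.le_mul_of_pos_left _ (by positivity))).trans
      (Nat.le_mul_of_pos_right _ (hp1 g.a))
  have hsj : ∀ j : GN m M n ℓ D J → ℕ, (∀ g, j g ≤ g.j) → Sm (fun g : GN m M n ℓ D J => s g.a)
      fun g => n g.a + ℓ g.a + sz (W ^ j g * R₀ g.a) + sz (p g.a) := fun j hj =>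
    (hs.comap GN.a).of_le fun g => by
      have := sz_nat_mono (Nat.mul_le_mul_right (R₀ g.a)
        (Nat.pow_le_pow_right hW ((hj g).trans g.jJ)))
      omega
  have hsn : Sm s n := hs.of_le fun a => by omega
  have hsm : Sm B fun g : GN m M n ℓ D J =>
      sz (p g.a, n g.a, ℓ g.a, g.π, g.k, W ^ g.j * R₀ g.a) := by
    refine ((((hsj GN.j fun _ => le_rfl).const_mul 18).add_const 9).of_le fun g => ?_).mono hsB
    have h1 := g.fit
    have h2 := hgap g.a
    have h3 : 1 * g.k ≤ ℓ g.a * g.k := Nat.mul_le_mul_right _ (by omega)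
    have h4 := sz_nat_le_self g.π
    have h5 := sz_nat_le_self (ℓ g.a)
    have h6 := sz_nat_le_self g.k
    have h7 := sz_nat_le_self (n g.a)
    simp only [sz_pair]
    omega
  refine Closed.fix GN.j _ B
    (fun c g => if g.j = 0 then 0 else r * (c * (2 ^ n g.a * R₀ g.a * p g.a * L ^ (g.j - 1))))
    ?_ (fun x hx => ?_) (fun C => ⟨C * C₀ * L, fun g => ?_⟩)
  · refine (((hV.const_mul 26).add hsm.dom).add (Dom.const 2 hsm.pos)).le_trans fun g => ?_
    have h1 := sz_grep_le (n g.a) (hodd g.a) (hM g.a) (hR0 g.a g.j) g.f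
    have h2 := sz_M_le (hodd g.a) (hM g.a)
    have h3 : p g.a ≤ 2 ^ n g.a * (W ^ g.j * R₀ g.a) * p g.a :=
      Nat.le_mul_of_pos_left _ (Nat.mul_pos (by positivity) (hR0 g.a g.j))
    rw [sz_pair, sz_pair]
    omega
  · have hf := hx.fst
    have hMc := hx.snd.fst
    have hcs : CS Rec.cur x _ := ⟨hx.snd.snd, hsm.comap Rec.a⟩
    refine CTQ.byCases (R := fun ρ => ρ.a.k < m)
      (hx.snd.snd.snd.snd.snd.snd.fst.decide_lt (CT.const m)) ?_ ?_
    · refine CT.toQ (ct_gam_slow m (hf.comap _) (hMc.comap _)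
        (hx.snd.snd.snd.snd.snd.fst.comap _) (hx.snd.snd.snd.snd.fst.comap _)
        (hx.snd.snd.snd.snd.snd.snd.fst.comap _) (fun ρ => ρ.2.le) (fun ρ j hj => ?_)
        (fun ρ => hodd _) (fun ρ => hM _)
        (((hsn.comap GN.a).comap Rec.a).comap Subtype.val) (fun ρ => hsR' _ _)
        ((hV.comap Rec.a).comap Subtype.val)) _
      replace hj : j < ρ.1.a.k := hj
      show ρ.1.a.π + ℓ ρ.1.a.a * j < n ρ.1.a.a
      have h1 := ρ.1.a.fit
      have h2 := hgap ρ.1.a.a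
      have h3 := Nat.mul_le_mul_left (ℓ ρ.1.a.a) (Nat.succ_le_of_lt hj)
      rw [Nat.mul_succ] at h3
      omega
    · have hj : ∀ g : GN m M n ℓ D J, ¬ g.k < m → g.j ≠ 0 := by
        intro g hg h0
        have := g.kj
        rw [h0, zero_add, pow_one] at this
        exact hg this
      have hWj : ∀ g : GN m M n ℓ D J, ¬ g.k < m →
          W ^ g.j * R₀ g.a = W * (W ^ (g.j - 1) * R₀ g.a) := by
        intro g hg
        rw [← mul_assoc, ← pow_succ', Nat.sub_add_cancel (Nat.pos_of_ne_zero (hj g hg))]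
      have hmk : ∀ k : ℕ, m * (k / m) ≤ k := fun k => Nat.mul_div_le k m
      set A' := {ρ : Rec (fun g : GN m M n ℓ D J => (grep (n g.a) (W ^ g.j * R₀ g.a) g.f, M g.a,
        p g.a, n g.a, ℓ g.a, g.π, g.k, W ^ g.j * R₀ g.a))
        (fun g => grep (n g.a) (W ^ g.j * R₀ g.a) (gamV g.π (ℓ g.a) g.k g.f)) GN.j
        (fun g => 2 ^ n g.a * R₀ g.a * p g.a * L ^ g.j) // ¬ ρ.a.k < m} with hA'
      have hcs' := hcs.comap (Subtype.val : A' → _)
      have hMc' := hMc.comap (Subtype.val : A' → _)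
      have hV' : Dom (fun ρ : A' => 2 ^ n ρ.1.a.a * (W ^ (ρ.1.a.j - 1) * R₀ ρ.1.a.a) * p ρ.1.a.a)
          (fun ρ => B ρ.1.a) := (hV.comap fun ρ : A' => ρ.1.a).le_trans fun ρ =>
        Nat.mul_le_mul_right _ (Nat.mul_le_mul_left _ (Nat.mul_le_mul_right _
          (Nat.pow_le_pow_right hW (Nat.sub_le _ _))))
      have hnode := ctq_node (cur := fun ρ : A' => ρ.1.cur) (x := x.comap Subtype.val)
        (Q := fun ρ => ρ.1.c * (2 ^ n ρ.1.a.a * R₀ ρ.1.a.a * p ρ.1.a.a * L ^ (ρ.1.a.j - 1)))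
        (p := fun ρ => p ρ.1.a.a) (n := fun ρ => n ρ.1.a.a) (ℓ := fun ρ => ℓ ρ.1.a.a)
        (π := fun ρ => ρ.1.a.π) (k := fun ρ => ρ.1.a.k / m)
        (R := fun ρ => W ^ (ρ.1.a.j - 1) * R₀ ρ.1.a.a) (s := fun ρ => s ρ.1.a.a)
        (f := fun ρ => ρ.1.a.f) hW hm hnet
        ((hf.comap _).congr fun ρ => by rw [hWj _ ρ.2]) hMc'
        ((hcs'.pt (fun q : ℕ × ℕ × ℕ × ℕ × ℕ × ℕ => (q.1, q.2.1, q.2.2.1, q.2.2.2.1,
          q.2.2.2.2.1 / m, q.2.2.2.2.2 / W)) (by fun_prop)).ct.congr fun ρ => by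
            simp only [hWj _ ρ.2, Nat.mul_div_cancel_left _ hW])
        (fun ρ => hodd _) (fun ρ => hM _)
        (fun ρ => by
          have h1 := ρ.1.a.fit
          have h2 := size_mul_mono (hmk ρ.1.a.k)
          have h3 := Nat.mul_le_mul_left (ℓ ρ.1.a.a) (hmk ρ.1.a.k)
          omega)
        (fun ρ => by
          have h1 := hgap ρ.1.a.a
          have h2 := Nat.size_le_size ((hmk ρ.1.a.k).trans ρ.1.a.kD)
          omega)
        (fun ρ => ((Nat.mul_le_mul_left _ (Nat.pow_le_pow_right (by norm_num)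
          (size_mul_mono ((hmk ρ.1.a.k).trans ρ.1.a.kD)))).trans (hR _)).trans
          (Nat.le_mul_of_pos_left _ (by positivity)))
        ((hsj (fun g => g.j - 1) fun _ => Nat.sub_le _ _).comap fun ρ : A' => ρ.1.a)
        (Dom.of_le fun ρ => Nat.mul_le_mul (Nat.mul_le_mul_right _ (Nat.mul_le_mul_left _
          (Nat.mul_le_mul_right _ (Nat.pow_le_pow_right hW (Nat.sub_le _ _)))))
          (pw_mono hτ (Nat.succ_le_succ (Nat.mul_le_mul (hmk _)
            (Nat.succ_le_succ (Nat.size_le_size (hmk _)))))))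
        (fun a₀ h₀ x' z h hz => by
          let g' : A' → GN m M n ℓ D J := fun ρ =>
            { a := ρ.1.a.a
              π := ρ.1.a.π + ℓ ρ.1.a.a * (a₀ * (ρ.1.a.k / m))
              k := ρ.1.a.k / m
              j := ρ.1.a.j - 1
              f := z ρ
              fit := by
                have h1 := ρ.1.a.fit
                have h2 := size_mul_mono (Nat.div_le_self ρ.1.a.k m)
                have h3 := Nat.mul_le_mul_left (ℓ ρ.1.a.a) ((Nat.mul_le_mul_right (ρ.1.a.k / m)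
                  (Nat.succ_le_of_lt h₀)).trans (hmk ρ.1.a.k))
                rw [Nat.succ_mul, mul_add] at h3
                omega
              kD := (Nat.div_le_self _ _).trans ρ.1.a.kD
              kj := by
                rw [Nat.sub_add_cancel (Nat.pos_of_ne_zero (hj _ ρ.2)),
                  Nat.div_lt_iff_lt_mul hm, ← pow_succ]
                exact ρ.1.a.kj
              jJ := (Nat.sub_le _ _).trans ρ.1.a.jJ }
          refine CTQ.call (hz.pair ((h.trans hMc').pair (((CS.trans h hcs').pt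
            (fun q : ℕ × ℕ × ℕ × ℕ × ℕ × ℕ => (q.1, q.2.1, q.2.2.1,
              q.2.2.2.1 + q.2.2.1 * (a₀ * (q.2.2.2.2.1 / m)),
              q.2.2.2.2.1 / m, q.2.2.2.2.2 / W)) (by fun_prop)).ct.congr fun ρ => ?_)))
            (fun ρ => ρ.1.ok (g' ρ) (Nat.sub_lt (Nat.pos_of_ne_zero (hj _ ρ.2)) one_pos))
            ((hV'.const_mul 19).le_trans fun ρ => sz_grep_le _ (hodd _) (hM _) (hR0 _ _) _)
          simp only [g', hWj _ ρ.2, Nat.mul_div_cancel_left _ hW])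
      refine ((hnode.bind₀ fun x' h₁ h₂ => ct_gam_slow m
        (π := fun ρ : A' => ρ.1.a.π + ℓ ρ.1.a.a * (m * (ρ.1.a.k / m)))
        (k := fun ρ => ρ.1.a.k % m) h₂ (h₁.trans hMc')
        ((CS.trans h₁ hcs').pt (fun q : ℕ × ℕ × ℕ × ℕ × ℕ × ℕ =>
          q.2.2.2.1 + q.2.2.1 * (m * (q.2.2.2.2.1 / m))) (by fun_prop)).ct
        (CS.trans h₁ hcs').ct.snd.snd.fst
        ((CS.trans h₁ hcs').pt (fun q : ℕ × ℕ × ℕ × ℕ × ℕ × ℕ => q.2.2.2.2.1 % m) (by fun_prop)).ct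
        (fun ρ => (Nat.mod_lt _ hm).le) (fun ρ j hj => ?_) (fun ρ => hodd _) (fun ρ => hM _)
        (hsn.comap fun ρ : A' => ρ.1.a.a) (fun ρ => by rw [← hWj _ ρ.2]; exact hsR' _ _)
        ((hV.comap fun ρ : A' => ρ.1.a).le_trans fun ρ => by rw [← hWj _ ρ.2])).mono
        fun ρ => by rw [if_neg (hj _ ρ.2)]).congr fun ρ => ?_
      · show ρ.1.a.π + ℓ ρ.1.a.a * (m * (ρ.1.a.k / m)) + ℓ ρ.1.a.a * j < n ρ.1.a.a
        have h1 := ρ.1.a.fit
        have h2 := hgap ρ.1.a.a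
        have h3 := Nat.div_add_mod ρ.1.a.k m
        have h4 := Nat.mul_le_mul_left (ℓ ρ.1.a.a)
          (show m * (ρ.1.a.k / m) + j + 1 ≤ ρ.1.a.k by omega)
        rw [mul_add, mul_add] at h4
        omega
      · rw [← gamV_add, Nat.div_add_mod, hWj _ ρ.2]
  · have h1 := Nat.mul_le_mul_left (C * (2 ^ n g.a * R₀ g.a * p g.a)) (hC₀ g.j g.k g.kj)
    have h2 : C * B g = C * (2 ^ n g.a * R₀ g.a * p g.a)
        * (W ^ g.j * pw τ₁ (g.k * (g.k.size + 1) + 1)) := by rw [hBdef]; ring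
    rw [h2]
    generalize 2 ^ n g.a * R₀ g.a * p g.a = V at *
    obtain ⟨d, rfl⟩ := Nat.exists_eq_add_of_lt hL
    split_ifs with h0
    · rw [h0] at h1 ⊢
      nlinarith [Nat.zero_le (C * C₀ * (r + d) * V)]
    · obtain ⟨j, hj⟩ := Nat.exists_eq_succ_of_ne_zero h0
      rw [hj] at h1 ⊢
      rw [Nat.succ_sub_one, pow_succ (r + d + 1)] at *
      generalize (r + d + 1) ^ j = E at *
      nlinarith [Nat.zero_le (C * C₀ * (r + d + 1) * V * E * d)]

end Crest.Agent.R326
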