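import Crest.Agent.R326.Xor
import Crest.Agent.R326.GamCore

/-!
One butterfly in each of `D` dimensions, faster than `D` passes.
-/

set_option autoImplicit false

namespace Crest.Agent.R326

open Crest.Agent.Lib.PT Crest.Agent.Lib.LT

lemma gam_log_le_size {m : ℕ} (hm : 1 < m) (D : ℕ) : Nat.log m D ≤ D.size := by
  rcases Nat.eq_zero_or_pos D with rfl | hD
  · simp
  · have h1 : Nat.log m D ≤ Nat.log 2 D := Nat.log_anti_left (by norm_num) hm
    have h2 : Nat.log 2 D < D.size :=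
      (Nat.log_lt_iff_lt_pow (by norm_num) hD.ne').2 (Nat.lt_size_self D)
    omega

lemma gam_pt_log {m : ℕ} (hm : 1 < m) : PT (fun D : ℕ => Nat.log m D) := by
  have h : PT (fun D : ℕ => ∑ i ∈ Finset.range D.size,
      if m ^ (min (i + 1) D.size) ≤ D then 1 else 0) := by
    refine PT.sum_range (by fun_prop) (by fun_prop) ?_
    have h1 : PT (fun q : ℕ × ℕ => m ^ (min (q.2 + 1) q.1.size)) :=
      PT.pow (by fun_prop) (by fun_prop) (PB.min_right _ (by fun_prop))
    fun_prop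
  refine h.congr fun D => ?_
  rcases Nat.eq_zero_or_pos D with rfl | hD
  · simp
  · have h1 := gam_log_le_size hm D
    rw [Finset.sum_congr rfl (g := fun i => if i < Nat.log m D then 1 else 0), Finset.sum_boole,
      show (Finset.range D.size).filter (fun i => i < Nat.log m D) = Finset.range (Nat.log m D) by
        ext i; simp only [Finset.mem_filter, Finset.mem_range]; omega]
    · simp
    · intro i hi
      rw [Finset.mem_range] at hi
      rw [min_eq_left (by omega)]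
      simp only [← Nat.le_log_iff_pow_le hm hD.ne', Nat.succ_le_iff]

lemma gam_pt_pow_log {m : ℕ} (hm : 1 < m) (W : ℕ) : PT (fun D : ℕ => W ^ Nat.log m D) :=
  PT.pow (by fun_prop) (gam_pt_log hm)
    ((PB.size (n := fun D : ℕ => D) (by fun_prop)).of_le (gam_log_le_size hm))

lemma gam_sm_div {A : Type} {s N w : A → ℕ} (hs : Sm s N) (hw : ∀ a, 0 < w a)
    (hN : ∀ a, w a ≤ N a ^ 4) : Sm (fun a => s a / w a + 1) N := fun k => by
  obtain ⟨c, hc⟩ := hs (k + 4)
  refine ⟨c, fun a => Nat.le_of_mul_le_mul_right ?_ (hw a)⟩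
  have h1 : s a ≤ (s a / w a + 1) * w a := by
    have := Nat.div_add_mod (s a) (w a)
    have := Nat.mod_lt (s a) (hw a)
    nlinarith
  calc N a ^ k * w a ≤ N a ^ k * N a ^ 4 := Nat.mul_le_mul_left _ (hN a)
    _ = N a ^ (k + 4) := (pow_add _ _ _).symm
    _ ≤ c * s a := hc a
    _ ≤ c * ((s a / w a + 1) * w a) := Nat.mul_le_mul_left _ h1
    _ = _ := by ring

variable {A : Type} {cur : A → P} {B : A → ℕ} {x : In B}

/-- The butterflies on the bits `π₀ + ℓ * j`, `j < D`, of an address of `ℓ * D` bits; the records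
are vectors of `R` Gaussian integers modulo the odd number `M < 2 ^ p`. -/
theorem ct_gam {M p π₀ ℓ D R s₀ : A → ℕ} {f : ∀ a, ℕ → ℕ → KM (M a)}
    (hf : CT cur x (fun a => arr (2 ^ (ℓ a * D a)) (fun i => arr (R a) (fun c => kv (f a i c)))))
    (hp : CT cur x (fun a => (M a, p a, π₀ a, ℓ a, D a, R a)))
    (hodd : ∀ a, Odd (M a)) (hM : ∀ a, M a < 2 ^ p a) (hπ : ∀ a, π₀ a < ℓ a)
    (hfit : ∀ a, (D a).size * D a ≤ ℓ a) (hgap : ∀ a, 2 * (D a).size + 2 ≤ ℓ a)
    (hR : ∀ a, s₀ a * 2 ^ ((D a).size * D a) ≤ R a)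
    (hs₀ : Sm s₀ (fun a => ℓ a * D a + ℓ a + sz (R a) + sz (p a)))
    (hB : Dom (fun a => 2 ^ (ℓ a * D a) * R a * p a * pw τ₂ (D a)) B) :
    CT cur x (fun a => arr (2 ^ (ℓ a * D a)) (fun i => arr (R a)
      (fun c => kv (gam (π₀ a) (ℓ a) (D a) (fun i' => f a i' c) i)))) := by
  obtain ⟨W, m, r, hnum, hnet⟩ := net_bfly'
  obtain ⟨L, hL, hL₂, C₀, hC₀⟩ := exists_gamL hnum
  have hm1 : 1 < m := lt_of_lt_of_le (by norm_num) hnum.m_lo
  have hW : 0 < W := lt_of_lt_of_le (by norm_num) hnum.W_lo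
  have hWm : W ≤ m ^ 4 := hnum.W_hi.trans
    (le_trans (by norm_num) (Nat.pow_le_pow_left hnum.m_lo 4))
  have hp1 : ∀ a, 1 ≤ p a := fun a => gp_pos (hodd a) (hM a)
  have hsR : ∀ a, s₀ a ≤ R a := fun a =>
    (Nat.le_mul_of_pos_right _ (by positivity)).trans (hR a)
  have hR0 : ∀ a, 0 < R a := fun a => (hs₀.pos a).trans_le (hsR a)
  have hD : ∀ a, D a ≤ ℓ a * D a := fun a =>
    Nat.le_mul_of_pos_left _ (by have := hgap a; omega)
  have hV : Dom (fun a => 2 ^ (ℓ a * D a) * R a * p a) B :=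
    hB.le_trans fun a => Nat.le_mul_of_pos_right _ (pw_pos _ _)
  have hsB : Dom s₀ B := hV.le_trans fun a =>
    ((hsR a).trans (Nat.le_mul_of_pos_left _ (by positivity))).trans
      (Nat.le_mul_of_pos_right _ (hp1 a))
  have hsn : Sm s₀ fun a => ℓ a * D a := hs₀.of_le fun a => by omega
  set J : A → ℕ := fun a => Nat.log m (D a) with hJ
  have hw0 : ∀ a, 0 < W ^ J a := fun a => by positivity
  have hw4 : ∀ a, W ^ J a ≤ (ℓ a * D a + ℓ a + sz (R a) + sz (p a)) ^ 4 := fun a => by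
    have h1 := hD a
    have h2 := hgap a
    calc W ^ J a ≤ (m ^ 4) ^ J a := Nat.pow_le_pow_left hWm _
      _ = (m ^ J a) ^ 4 := by rw [← pow_mul, ← pow_mul, mul_comm]
      _ ≤ _ := Nat.pow_le_pow_left ((Nat.pow_log_le_add_one m (D a)).trans (by omega)) 4
  obtain ⟨c, hc⟩ := hs₀ 4
  set R₀ : A → ℕ := fun a => R a / W ^ J a + 2 ^ ((D a).size * D a) with hR₀
  have hlo : ∀ a, R a < W ^ J a * R₀ a := fun a => by
    have h1 := Nat.div_add_mod (R a) (W ^ J a)
    have h2 := Nat.mod_lt (R a) (hw0 a)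
    have h3 : W ^ J a * 1 ≤ W ^ J a * 2 ^ ((D a).size * D a) :=
      Nat.mul_le_mul_left _ Nat.one_le_two_pow
    simp only [hR₀, mul_add]
    omega
  have hhi : ∀ a, W ^ J a * R₀ a ≤ (c + 1) * R a := fun a => by
    have h1 := Nat.mul_div_le (R a) (W ^ J a)
    have h2 := Nat.mul_le_mul_right (2 ^ ((D a).size * D a)) ((hw4 a).trans (hc a))
    have h3 := Nat.mul_le_mul_left c (hR a)
    simp only [hR₀, mul_add, add_mul, one_mul]
    rw [mul_assoc] at h2
    omega
  have hVp : Dom (fun a => 2 ^ (ℓ a * D a) * (W ^ J a * R₀ a) * p a) B :=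
    (hV.const_mul (c + 1)).le_trans fun a =>
      (Nat.mul_le_mul_right _ (Nat.mul_le_mul_left _ (hhi a))).trans (le_of_eq (by ring))
  have hclosed := closed_gam (M := M) (p := p) (n := fun a => ℓ a * D a) (ℓ := ℓ) (D := D)
    (J := J) (R₀ := R₀) (s := fun a => s₀ a / W ^ J a + 1) hW (by omega) hnet hL hC₀ hodd hM hgap
    (fun a => by
      simp only [hR₀, add_mul, one_mul]
      refine Nat.add_le_add_right ((Nat.le_div_iff_mul_le (hw0 a)).2 (le_trans ?_ (hR a))) _
      rw [mul_right_comm]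
      exact Nat.mul_le_mul_right _ (Nat.div_mul_le_self _ _))
    (((gam_sm_div hs₀ hw0 hw4).add_const (sz (c + 1))).of_le fun a => by
      have h1 := (sz_nat_mono (hhi a)).trans (sz_mul_le _ _)
      omega)
  have hMc := hp.fst
  have hcs₀ : CS cur x fun a => (p a, π₀ a, ℓ a, D a, R a) := by
    refine ⟨hp.snd, (((hs₀.const_mul 12).add_const 7).of_le fun a => ?_).mono hsB⟩
    have h1 := hD a
    have h2 := hπ a
    have h4 := sz_nat_le_self (π₀ a)
    have h5 := sz_nat_le_self (ℓ a)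
    have h6 := sz_nat_le_self (D a)
    simp only [sz_pair]
    omega
  have hsm : Sm B fun a => (D a).size * D a + 1 :=
    ((hs₀.add_const 1).of_le fun a => by have := hfit a; omega).mono hsB
  have hT : CS cur x fun a => 2 ^ ((D a).size * D a) :=
    ⟨(hcs₀.pt (fun q : ℕ × ℕ × ℕ × ℕ × ℕ => q.2.2.2.1.size * q.2.2.2.1)
        (by fun_prop)).ct.two_pow (hsm.dom.le_trans fun a => Nat.le_succ _),
      hsm.sz_of_lt_two_pow fun a => Nat.pow_lt_pow_right (by norm_num) (Nat.lt_succ_self _)⟩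
  have hwc : CS cur x fun a => W ^ J a := hcs₀.snd.snd.snd.fst.pt _ (gam_pt_pow_log hm1 W)
  have hRp : CS cur x fun a => W ^ J a * R₀ a :=
    (hwc.pair (hcs₀.snd.snd.snd.snd.pair hT)).pt
      (fun q : ℕ × ℕ × ℕ => q.1 * (q.2.1 / q.1 + q.2.2)) (by fun_prop)
  have hRc := hcs₀.ct.snd.snd.snd.snd
  have hn : CT cur x fun a => ℓ a * D a :=
    (hcs₀.pt (fun q : ℕ × ℕ × ℕ × ℕ × ℕ => q.2.2.1 * q.2.2.2.1) (by fun_prop)).ct
  have hpad := ct_concat (n := fun a => ℓ a * D a) (f := f) hf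
    (ct_grep_zero (M := M) (p := p) hn (hRp.ct.sub hRc) hp1
      (fun a => Nat.sub_pos_of_lt (hlo a))
      (hVp.le_trans fun a => Nat.mul_le_mul_right _ (Nat.mul_le_mul_left _ (Nat.sub_le _ _))))
  let g : A → GN m M (fun a => ℓ a * D a) ℓ D J := fun a =>
    { a := a
      π := min (π₀ a) (ℓ a * D a)
      k := D a - 2
      j := J a
      f := fun i c => if c < R a then f a i c else (0 : ℕ → ℕ → KM (M a)) i (c - R a)
      fit := by
        rcases Nat.lt_or_ge (D a) 2 with h | h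
        · rw [show D a - 2 = 0 by omega]
          simp
        · obtain ⟨d, hd⟩ := Nat.exists_eq_add_of_le' h
          have h1 := (size_mul_mono (Nat.sub_le (D a) 2)).trans (hfit a)
          have h2 := hπ a
          have h3 : ℓ a * D a = ℓ a * (D a - 2) + 2 * ℓ a := by
            rw [hd, Nat.add_sub_cancel]; ring
          have h4 := min_le_left (π₀ a) (ℓ a * D a)
          omega
      kD := Nat.sub_le _ _
      kj := (Nat.sub_le _ _).trans_lt (Nat.lt_pow_succ_log_self hm1 _)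
      jJ := le_rfl }
  have hmain := hclosed.ct g
    ((hpad.congr fun a => by rw [Nat.add_sub_cancel' (hlo a).le]).pair (hMc.pair
      (hcs₀.ct.fst.pair (hn.pair (hcs₀.ct.snd.snd.fst.pair ((hcs₀.ct.snd.fst.min hn).pair
        ((hcs₀.ct.snd.snd.snd.fst.sub (CT.const 2)).pair hRp.ct)))))))
    ((hB.const_mul (c + 1)).le_trans fun a => by
      have h1 := hL₂ (J a) (D a) (Nat.pow_log_le_add_one m (D a))
      calc 2 ^ (ℓ a * D a) * R₀ a * p a * L ^ J a
          ≤ 2 ^ (ℓ a * D a) * R₀ a * p a * (W ^ J a * pw τ₂ (D a)) := Nat.mul_le_mul_left _ h1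
        _ = 2 ^ (ℓ a * D a) * (W ^ J a * R₀ a) * (p a * pw τ₂ (D a)) := by ring
        _ ≤ 2 ^ (ℓ a * D a) * ((c + 1) * R a) * (p a * pw τ₂ (D a)) :=
          Nat.mul_le_mul_right _ (Nat.mul_le_mul_left _ (hhi a))
        _ = _ := by ring)
  have hsl : CT cur x fun a => grep (ℓ a * D a) (R a) (gamV (π₀ a) (ℓ a) (D a - 2) (f a)) := by
    refine (ct_slice (p := p) hmain (CT.const 0) hRc (fun a => by simpa using (hlo a).le) hodd hM
      (fun a => (hR0 a).trans (hlo a)) hVp).congr fun a => grep_congr fun i c hc => ?_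
    simp only [g, gamV, zero_add, if_pos hc]
    rcases Nat.lt_or_ge (D a) 2 with h | h
    · rw [show D a - 2 = 0 by omega]
      rfl
    · rw [min_eq_left]
      have h1 := hπ a
      have h2 : ℓ a * 1 ≤ ℓ a * D a := Nat.mul_le_mul_left _ (by omega)
      omega
  refine (ct_gam_slow 2 (π := fun a => π₀ a + ℓ a * (D a - 2)) (k := fun a => D a - (D a - 2)) hsl
    hMc (hcs₀.pt (fun q : ℕ × ℕ × ℕ × ℕ × ℕ => q.2.1 + q.2.2.1 * (q.2.2.2.1 - 2))
      (by fun_prop)).ct hcs₀.ct.snd.snd.fst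
    (hcs₀.pt (fun q : ℕ × ℕ × ℕ × ℕ × ℕ => q.2.2.2.1 - (q.2.2.2.1 - 2)) (by fun_prop)).ct
    (fun a => by omega) (fun a j hj => ?_) hodd hM hsn hsR hV).congr fun a => ?_
  · show π₀ a + ℓ a * (D a - 2) + ℓ a * j < ℓ a * D a
    have h1 := hπ a
    have h2 := Nat.mul_le_mul_left (ℓ a) (show D a - 2 + j + 1 ≤ D a by omega)
    rw [mul_add, mul_add] at h2
    omega
  · rw [← gamV_add, Nat.add_sub_cancel' (Nat.sub_le _ _)]
    rfl

end Crest.Agent.R326
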