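import Crest.Agent.R326.ConvB
import Crest.Agent.R326.Gam

/-!
The cost of the rounds of the synthetic Fourier transform.
-/

set_option autoImplicit false

namespace Crest.Agent.R326

open Crest.Agent.Lib.PT Crest.Agent.Lib.LT Finset

/-- Admissible parameters. -/
structure CvOK (ℓ D w : ℕ) : Prop where
  fit : 2 * (D + 1).size * (D + 1) + 4 ≤ ℓ
  lo : ℓ * (D + 1) ≤ w
  hi : w ≤ 4 * 2 ^ ℓ

namespace CvOK

variable {ℓ D w : ℕ} (h : CvOK ℓ D w)
include h

lemma D_le : 2 * (D + 1) + 4 ≤ ℓ := by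
  have h1 : 0 < (D + 1).size := Nat.size_pos.2 D.succ_pos
  have := h.fit
  nlinarith

lemma lD_le : ℓ * D + ℓ ≤ w := by have := h.lo; nlinarith

lemma l_le : ℓ ≤ w := le_trans (Nat.le_add_left _ _) h.lD_le

lemma six_le : 6 ≤ w := by have := h.D_le; have := h.l_le; omega

lemma size_le : 2 * (D.size * D) + 2 * D.size + 4 ≤ ℓ := by
  have h1 : D.size ≤ (D + 1).size := Nat.size_le_size D.le_succ
  have := h.fit
  nlinarith [Nat.mul_le_mul_right (D + 1) h1]

end CvOK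

lemma cv_one_lt_mers {w : ℕ} (h : 2 ≤ w) : 1 < 2 ^ w - 1 := by
  have : 2 ^ 2 ≤ 2 ^ w := Nat.pow_le_pow_right (by norm_num) h
  omega

lemma cv_mers_lt (w : ℕ) : 2 ^ w - 1 < 2 ^ w := Nat.sub_lt (by positivity) one_pos

lemma cv_odd_mers {w : ℕ} (h : 1 ≤ w) : Odd (2 ^ w - 1) :=
  Nat.Even.sub_odd Nat.one_le_two_pow (Nat.even_pow.2 ⟨even_two, by omega⟩) odd_one

lemma cv_val_lt {w : ℕ} (h : 2 ≤ w) (z : ZMod (2 ^ w - 1)) : z.val < 2 ^ w := by
  have : NeZero (2 ^ w - 1) := ⟨by have := cv_one_lt_mers h; omega⟩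
  exact z.val_lt.trans (cv_mers_lt w)

lemma cv_sz_kv {w : ℕ} (h : 2 ≤ w) (z : KM (2 ^ w - 1)) : sz (kv z) ≤ 14 * w := by
  have h1 := sz_nat_le_of_lt_two_pow (cv_val_lt h z.re)
  have h2 := sz_nat_le_of_lt_two_pow (cv_val_lt h z.im)
  rw [kv, sz_pair]
  omega

lemma cv_sz_rec {w r : ℕ} (h : 2 ≤ w) (hr : 0 < r) (g : ℕ → KM (2 ^ w - 1)) :
    sz (arr r fun c => kv (g c)) ≤ 16 * (r * w) := by
  have := sz_arr_le (n := r) (f := fun c => kv (g c)) fun i _ => cv_sz_kv h (g i)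
  nlinarith

lemma cv_sz_all {w r N : ℕ} (h : 2 ≤ w) (hr : 0 < r) (hN : 0 < N)
    (F : ℕ → ℕ → KM (2 ^ w - 1)) :
    sz (arr N fun i => arr r fun c => kv (F i c)) ≤ 18 * (N * r * w) := by
  have h1 := sz_arr_le (n := N) (f := fun i => arr r fun c => kv (F i c))
    fun i _ => cv_sz_rec h hr (F i)
  have h2 : 1 ≤ r * w := Nat.mul_pos hr (by omega)
  have h3 : N ≤ N * (r * w) := Nat.le_mul_of_pos_right _ h2
  rw [mul_assoc N]
  nlinarith

lemma cv_sz_two_pow (k : ℕ) : sz (2 ^ k) ≤ 6 * k + 7 := by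
  have := sz_nat_le_of_lt_two_pow (Nat.pow_lt_pow_right (a := 2) (by norm_num) k.lt_succ_self)
  omega

lemma cvIo_pow_mod (M m : ℕ) : cvIo M ^ (m % 4) = cvIo M ^ m := by
  conv_rhs => rw [← Nat.div_add_mod m 4, pow_add, pow_mul,
    show cvIo M ^ 4 = (cvIo M * cvIo M) ^ 2 by ring, cvIo_mul_self]
  simp

lemma cvTw_mod {M : ℕ} (r m e : ℕ) (g : ℕ → KM M) : cvTw r (m % 4) e g = cvTw r m e g := by
  funext c
  rw [cvTw, cvTw, pow_add, pow_add, cvIo_pow_mod]

variable {A : Type} {cur : A → P} {B : A → ℕ} {x : In B}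

lemma cv_sm {ℓ : A → ℕ} (h : Dom (fun a => 2 ^ ℓ a) B) : Sm B ℓ :=
  Sm.of_le_log_pow 1 (fun _ => by positivity) h fun a => by
    rw [Nat.log_pow (by norm_num), pow_one]

lemma cv_cs_un {n : A → ℕ} (hn : CT cur x n) (hs : Sm B n) : CS cur x (fun a => un (n a)) :=
  CS.un ⟨hn, hs.sz_self⟩ hs

lemma ct_neg_val {M : A → ℕ} {z : ∀ a, ZMod (M a)} (h0 : ∀ a, 0 < M a) (hM : CT cur x M)
    (hz : CT cur x (fun a => (z a).val)) : CT cur x (fun a => (-z a).val) := by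
  refine (CT.ite (hz.decide_eq (CT.const 0)) (CT.const 0) (hM.sub hz)).congr fun a => ?_
  have : NeZero (M a) := ⟨(h0 a).ne'⟩
  rw [ZMod.neg_val]
  simp only [ZMod.val_eq_zero]

lemma ct_mulI {M : A → ℕ} {z : ∀ a, KM (M a)} (h0 : ∀ a, 0 < M a) (hM : CT cur x M)
    (hz : CT cur x (fun a => kv (z a))) : CT cur x (fun a => kv (cvIo (M a) * z a)) :=
  ((ct_neg_val (z := fun a => (z a).im) h0 hM hz.snd).pair hz.fst).congr fun a => by
    simp [kv, cvIo]

lemma ct_mulIpow {M m : A → ℕ} {z : ∀ a, KM (M a)} (h0 : ∀ a, 0 < M a) (hM : CT cur x M)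
    (hm : CT cur x m) (hz : CT cur x (fun a => kv (z a))) :
    CT cur x (fun a => kv (cvIo (M a) ^ m a * z a)) := by
  have h1 : CT cur x (fun a => kv (cvIo (M a) ^ (m a).bodd.toNat * z a)) :=
    (hm.bodd.cond (ct_mulI h0 hM hz) hz).congr fun a => by cases (m a).bodd <;> simp
  refine (hm.div2.bodd.cond (ct_mulI h0 hM (ct_mulI h0 hM h1)) h1).congr fun a => ?_
  have e : m a % 4 = 2 * (m a).div2.bodd.toNat + (m a).bodd.toNat := by
    have h2 := Nat.bodd_add_div2 (m a)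
    have h3 := Nat.bodd_add_div2 (m a).div2
    have h4 := Bool.toNat_le (m a).bodd
    have h5 := Bool.toNat_le (m a).div2.bodd
    omega
  rw [← cvIo_pow_mod, e, pow_add]
  cases (m a).div2.bodd
  · simp
  · simp only [Bool.toNat_true, mul_one, cond_true]
    congr 1
    ring

lemma ct_mers {w : A → ℕ} (hw : CT cur x w) (hB : Dom w B) : CT cur x (fun a => 2 ^ w a - 1) :=
  (hw.two_pow hB).sub (CT.const 1)

lemma ct_tw {w r m e : A → ℕ} {g : ∀ a, ℕ → KM (2 ^ w a - 1)}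
    (hg : CT cur x (fun a => arr (r a) fun c => kv (g a c)))
    (hw : CT cur x w) (hr : CT cur x r) (hm : CT cur x m) (he : CT cur x e)
    (h2 : ∀ a, 2 ≤ w a) (her : ∀ a, e a < r a) (hsz : Dom (fun a => sz (r a)) w)
    (hB : Dom (fun a => r a * w a) B) :
    CT cur x (fun a => arr (r a) fun c => kv (cvTw (r a) (m a) (e a) (g a) c)) := by
  have hwB : Dom w B := hB.le_trans fun a => Nat.le_mul_of_pos_left _ (by have := her a; omega)
  have hm4 : CT cur x (fun a => m a % 4) :=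
    hm.mod_two_pow (CT.const 2) (Dom.const 2 x.pos)
  have h1 := CT.arr_rotate (hr.sub he) (fun a => Nat.sub_le _ _) hg
  refine (CT.arr_mapU h1 ((ct_mers hw hwB).pair (hm4.pair he)) w
    ⟨14, fun q => cv_sz_kv (h2 _) _⟩ ?_ hsz (fun x' h₁ h₂ h₃ => ?_) hB
    (out := fun a c => kv (cvTw (r a) (m a % 4) (e a) (g a) c))).congr fun a => by rw [cvTw_mod]
  · refine (hsz.add ((Dom.refl w).const_mul 30)).le_trans fun a => ?_
    have h3 := sz_nat_le_of_lt_two_pow (cv_mers_lt (w a))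
    have h4 := sz_nat_le_of_lt_two_pow (show m a % 4 < 2 ^ 2 from Nat.mod_lt _ (by norm_num))
    have h5 := sz_nat_mono (her a).le
    have := h2 a
    simp only [sz_pair]
    omega
  · exact ct_mulIpow (fun q => by have := cv_one_lt_mers (h2 q.a); omega) h₂.fst
      (h₂.snd.fst.add (CT.ite (h₃.decide_lt h₂.snd.snd) (CT.const 2) (CT.const 0))) h₁

lemma pt_cvBt : PT (fun q : ℕ × ℕ => cvBt q.1 q.2) := by
  unfold cvBt
  fun_prop

lemma pt_cvEx : PT (fun q : (List Unit × List Unit) × ℕ =>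
    cvEx q.1.1.length q.1.2.length q.2) := by
  unfold cvEx cvBt cvOd
  fun_prop

lemma pt_cvSum₁ : PT (fun q : (List Unit × List Unit × List Unit) × ℕ =>
    cvSum q.1.1.length q.1.2.1.length (cvBt q.1.2.2.length) q.2) := by
  unfold cvSum cvBt
  fun_prop

lemma pt_cvSum₂ : PT (fun q : (List Unit × List Unit × List Unit) × ℕ =>
    cvSum q.1.1.length q.1.2.1.length (cvEx q.1.1.length q.1.2.2.length) q.2) := by
  unfold cvSum cvEx cvBt cvOd
  fun_prop

variable {ℓ D w : A → ℕ}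

lemma ct_twd {π c₀ : A → ℕ} {F : ∀ a, ℕ → ℕ → KM (2 ^ w a - 1)}
    (ok : ∀ a, CvOK (ℓ a) (D a) (w a)) (hπ : ∀ a, π a ≤ ℓ a) (hc : ∀ a, c₀ a < 2 ^ (ℓ a + 1))
    (hF : CT cur x (fun a => arr (2 ^ (ℓ a * D a)) fun i => arr (2 ^ ℓ a) fun c => kv (F a i c)))
    (hp : CT cur x (fun a => (ℓ a, D a, w a))) (hπ' : CT cur x π) (hc' : CT cur x c₀)
    (hB : Dom (fun a => 2 ^ (ℓ a * D a) * 2 ^ ℓ a * w a) B) :
    CT cur x (fun a => arr (2 ^ (ℓ a * D a)) fun i => arr (2 ^ ℓ a) fun c =>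
      kv (cvTwd (ℓ a) (D a) (π a) (c₀ a) (F a) i c)) := by
  have h2 : ∀ a, 2 ≤ w a := fun a => by have := (ok a).six_le; omega
  have hws : ∀ a, w a ≤ 2 ^ ℓ a * w a := fun a => Nat.le_mul_of_pos_left _ (by positivity)
  refine CT.arr_mapU hF (hp.pair (hπ'.pair hc')) (fun a => 2 ^ ℓ a * w a)
    ⟨16, fun q => cv_sz_rec (h2 _) (by positivity) _⟩ ⟨40, fun a => ?_⟩ ⟨8, fun a => ?_⟩
    (fun x' h₁ h₂ h₃ => ?_) (hB.le_trans fun a => le_of_eq (by ring))
  · have h3 := sz_nat_le_self (ℓ a)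
    have h4 := sz_nat_le_self (D a)
    have h5 := sz_nat_le_self (w a)
    have h6 := sz_nat_le_self (π a)
    have h7 := sz_nat_le_of_lt_two_pow (hc a)
    have := (ok a).l_le
    have := (ok a).D_le
    have := hπ a
    have := hws a
    have := (ok a).six_le
    simp only [sz_pair]
    omega
  · have h3 := cv_sz_two_pow (ℓ a * D a)
    have := (ok a).lD_le
    have := hws a
    have := (ok a).six_le
    dsimp only
    omega
  · have hs : Sm (fun q : Ix (fun a => 2 ^ (ℓ a * D a)) => 2 ^ ℓ q.a * w q.a) (fun q => ℓ q.a) :=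
      cv_sm (Dom.of_le fun q => Nat.le_mul_of_pos_right _ (by have := h2 q.a; omega))
    have hD := hs.of_le (n := fun q => D q.a) fun q => by have := (ok q.a).D_le; omega
    have u1 := cv_cs_un h₂.fst.fst hs
    have u2 := cv_cs_un h₂.fst.snd.fst hD
    have u3 := cv_cs_un h₂.snd.fst (hs.of_le fun q => hπ q.a)
    have u4 : CS _ x' (fun q => q.i) := ⟨h₃, (hs.mul hD).sz_of_lt_two_pow fun q => q.lt⟩
    have u5 : CS _ x' (fun q => c₀ q.a) :=
      ⟨h₂.snd.snd, (hs.add_const 1).sz_of_lt_two_pow fun q => hc q.a⟩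
    have v1 := ((u1.pair (u2.pair u3)).pair u4).pt _ pt_cvSum₁
    have v2 := ((u1.pair (u2.pair u3)).pair u4).pt _ pt_cvSum₂
    have v3 := u1.pt (fun u : List Unit => 2 ^ u.length) (by fun_prop)
    have v4 := CS.pt₃ u5 v2 v3 (fun c E r => 2 * (c * E / r)) (by fun_prop)
    have v5 := CS.pt₃ u5 v2 v3 (fun c E r => c * E % r) (by fun_prop)
    simp only [length_un] at v1 v3 v4 v5
    exact ct_tw h₁ h₂.fst.snd.snd v3.ct (v1.ct.add v4.ct) v5.ct (fun q => h2 q.a)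
      (fun q => Nat.mod_lt _ (by positivity))
      ⟨8, fun q => by
        have := cv_sz_two_pow (ℓ q.a)
        have := (ok q.a).l_le
        have := (ok q.a).six_le
        dsimp only
        omega⟩ (Dom.refl _)

lemma ct_rnd {π c₁ c₂ : A → ℕ} {F : ∀ a, ℕ → ℕ → KM (2 ^ w a - 1)}
    (ok : ∀ a, CvOK (ℓ a) (D a) (w a)) (hπ : ∀ a, π a < ℓ a) (hc₁ : ∀ a, c₁ a < 2 ^ (ℓ a + 1))
    (hc₂ : ∀ a, c₂ a < 2 ^ (ℓ a + 1))
    (hF : CT cur x (fun a => arr (2 ^ (ℓ a * D a)) fun i => arr (2 ^ ℓ a) fun c => kv (F a i c)))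
    (hp : CT cur x (fun a => (ℓ a, D a, w a))) (hπ' : CT cur x π) (h₁ : CT cur x c₁)
    (h₂ : CT cur x c₂)
    (hB : Dom (fun a => 2 ^ (ℓ a * D a) * 2 ^ ℓ a * w a * pw τ₂ (D a)) B) :
    CT cur x (fun a => arr (2 ^ (ℓ a * D a)) fun i => arr (2 ^ ℓ a) fun c =>
      kv (cvRnd (ℓ a) (D a) (π a) (c₁ a) (c₂ a) (F a) i c)) := by
  have hB₀ : Dom (fun a => 2 ^ (ℓ a * D a) * 2 ^ ℓ a * w a) B :=
    hB.le_trans fun a => Nat.le_mul_of_pos_right _ (pw_pos _ _)
  have hwB : Dom w B := hB₀.le_trans fun a => Nat.le_mul_of_pos_left _ (by positivity)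
  have hlB : Dom ℓ B := hwB.le_trans fun a => (ok a).l_le
  have k1 := ct_twd ok (fun a => (hπ a).le) hc₁ hF hp hπ' h₁ hB₀
  have hs : Sm (fun a => 2 ^ (ℓ a - (D a).size * D a)) ℓ :=
    ((cv_sm (Dom.refl fun a => 2 ^ (ℓ a - (D a).size * D a))).const_mul 2).of_le fun a => by
      have := (ok a).size_le
      omega
  have hl : CT cur x ℓ := hp.fst
  have hD : CT cur x D := hp.snd.fst
  have hw : CT cur x w := hp.snd.snd
  have k2 := ct_gam (s₀ := fun a => 2 ^ (ℓ a - (D a).size * D a)) k1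
    ((ct_mers hw hwB).pair (hw.pair (hπ'.pair (hl.pair (hD.pair (hl.two_pow hlB))))))
    (fun a => cv_odd_mers (by have := (ok a).six_le; omega)) (fun a => cv_mers_lt _) hπ
    (fun a => by have := (ok a).size_le; omega) (fun a => by have := (ok a).size_le; omega)
    (fun a => by
      have := (ok a).size_le
      rw [← pow_add, Nat.sub_add_cancel (by omega)])
    (((hs.mul hs).add ((hs.const_mul 13).add_const 30)).of_le fun a => by
      have h3 := cv_sz_two_pow (ℓ a)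
      have h4 : sz (w a) ≤ 6 * (ℓ a + 3) + 1 := sz_nat_le_of_lt_two_pow (by
        have := (ok a).hi
        have h5 : 0 < 2 ^ ℓ a := by positivity
        rw [pow_add]
        omega)
      have h5 : ℓ a * D a ≤ ℓ a * ℓ a :=
        Nat.mul_le_mul_left _ (by have := (ok a).D_le; omega)
      omega) hB
  exact ct_twd ok (fun a => (hπ a).le) hc₂ k2 hp hπ' h₂ hB₀

lemma ct_lp (b : Bool) {F : ∀ a, ℕ → ℕ → KM (2 ^ w a - 1)} (ok : ∀ a, CvOK (ℓ a) (D a) (w a))
    (hF : CT cur x (fun a => arr (2 ^ (ℓ a * D a)) fun i => arr (2 ^ ℓ a) fun c => kv (F a i c)))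
    (hp : CT cur x (fun a => (ℓ a, D a, w a)))
    (hB : Dom (fun a => ℓ a * (2 ^ (ℓ a * D a) * 2 ^ ℓ a * w a * pw τ₂ (D a))) B) :
    CT cur x (fun a => arr (2 ^ (ℓ a * D a)) fun i => arr (2 ^ ℓ a) fun c =>
      kv (cvLp b (ℓ a) (D a) (F a) (ℓ a) i c)) := by
  have h2 : ∀ a, 2 ≤ w a := fun a => by have := (ok a).six_le; omega
  have hws : ∀ a, w a ≤ 2 ^ (ℓ a * D a) * 2 ^ ℓ a * w a := fun a =>
    Nat.le_mul_of_pos_left _ (by positivity)
  have hpw : ∀ a, 2 ^ (ℓ a * D a) * 2 ^ ℓ a * w a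
      ≤ 2 ^ (ℓ a * D a) * 2 ^ ℓ a * w a * pw τ₂ (D a) := fun a =>
    Nat.le_mul_of_pos_right _ (pw_pos _ _)
  refine CT.for (st := fun a t => arr (2 ^ (ℓ a * D a)) fun i => arr (2 ^ ℓ a) fun c =>
      kv (cvLp b (ℓ a) (D a) (F a) t i c)) hp.fst hp hF
    (fun a _ => 2 ^ (ℓ a * D a) * 2 ^ ℓ a * w a * pw τ₂ (D a)) ⟨50, fun q => ?_⟩
    (fun x' h₁ h₂ h₃ => ?_) (hB.le_trans fun a => by simp)
  · have h3 := cv_sz_all (h2 q.a) (r := 2 ^ ℓ q.a) (N := 2 ^ (ℓ q.a * D q.a)) (by positivity)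
      (by positivity) (cvLp b (ℓ q.a) (D q.a) (F q.a) q.i)
    have h4 := sz_nat_le_self (ℓ q.a)
    have h5 := sz_nat_le_self (D q.a)
    have h6 := sz_nat_le_self (w q.a)
    have h7 := sz_nat_le_self q.i
    have := q.lt
    have := (ok q.a).l_le
    have := (ok q.a).D_le
    have := (ok q.a).six_le
    have := hws q.a
    have := hpw q.a
    simp only [sz_pair]
    omega
  · have hl : CT (fun q : Ix ℓ => cur q.a) x' (fun q => ℓ q.a) := h₂.fst
    cases b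
    · exact (ct_rnd (ℓ := fun q : Ix ℓ => ℓ q.a) (D := fun q => D q.a) (w := fun q => w q.a)
        (F := fun q => cvLp false (ℓ q.a) (D q.a) (F q.a) q.i)
        (π := fun q => ℓ q.a - 1 - q.i) (c₁ := fun _ => 1) (c₂ := fun _ => 0)
        (fun q => ok q.a) (fun q => by have := q.lt; omega)
        (fun q => Nat.one_lt_two_pow (by omega)) (fun q => by positivity) h₁ h₂
        ((hl.sub (CT.const 1)).sub h₃) (CT.const 1) (CT.const 0) (Dom.refl _)).congr
        fun q => by rw [cvLp_succ]; rfl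
    · exact (ct_rnd (ℓ := fun q : Ix ℓ => ℓ q.a) (D := fun q => D q.a) (w := fun q => w q.a)
        (F := fun q => cvLp true (ℓ q.a) (D q.a) (F q.a) q.i)
        (π := fun q => q.i) (c₁ := fun _ => 0) (c₂ := fun q => 2 ^ (ℓ q.a + 1) - 1)
        (fun q => ok q.a) (fun q => q.lt)
        (fun q => by positivity) (fun q => cv_mers_lt _) h₁ h₂ h₃ (CT.const 0)
        (ct_mers (hl.add (CT.const 1)) ⟨2, fun q => by
          have := (ok q.a).l_le
          have := (ok q.a).six_le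
          have := hws q.a
          have := hpw q.a
          dsimp only
          omega⟩) (Dom.refl _)).congr fun q => by rw [cvLp_succ]; rfl

end Crest.Agent.R326
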