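import Crest.Agent.R326.Tensor

/-!
Chinese remaindering: arithmetic of the coordinates and the convolution theorem.
-/

set_option autoImplicit false

namespace Crest.Agent.R326

open Crest.Agent.Lib.PT Crest.Agent.Lib.LT Finset

/-- Admissible moduli. -/
structure Moduli (s : ℕ → ℕ) (d t : ℕ) : Prop where
  pos : ∀ a, a < d → 0 < s a
  le : ∀ a, a < d → s a ≤ t
  cop : ∀ a b, a < d → b < d → a ≠ b → (s a).Coprime (s b)

variable {s : ℕ → ℕ} {d t : ℕ}

lemma spre_succ (s : ℕ → ℕ) (a : ℕ) : spre s (a + 1) = spre s a * s a := Finset.prod_range_succ _ _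

lemma spre_dvd (s : ℕ → ℕ) {a b : ℕ} (h : a ≤ b) : spre s a ∣ spre s b :=
  Finset.prod_dvd_prod_of_subset _ _ _ (Finset.range_subset_range.2 h)

lemma Moduli.mono (h : Moduli s d t) {e : ℕ} (he : e ≤ d) : Moduli s e t :=
  ⟨fun a ha => h.pos a (by omega), fun a ha => h.le a (by omega),
    fun a b ha hb => h.cop a b (by omega) (by omega)⟩

lemma Moduli.spre_pos (h : Moduli s d t) {a : ℕ} (ha : a ≤ d) : 0 < spre s a :=
  Finset.prod_pos fun b hb => h.pos b (by have := Finset.mem_range.1 hb; omega)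

lemma Moduli.spre_le (h : Moduli s d t) : spre s d ≤ t ^ d := by
  have := Finset.prod_le_pow_card (range d) s t fun a ha => h.le a (Finset.mem_range.1 ha)
  rwa [Finset.card_range] at this

lemma Moduli.cop_spre (h : Moduli s d t) {a : ℕ} (ha : a < d) : (spre s a).Coprime (s a) :=
  Nat.Coprime.prod_left fun b hb => by
    have := Finset.mem_range.1 hb
    exact h.cop b a (by omega) ha (by omega)

lemma Moduli.modEq (h : Moduli s d t) {x y : ℕ} (H : ∀ a, a < d → x ≡ y [MOD s a]) :
    x ≡ y [MOD spre s d] := by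
  induction d with
  | zero => simp [spre, Nat.modEq_one]
  | succ d ih =>
    rw [spre_succ]
    exact (Nat.modEq_and_modEq_iff_modEq_mul (h.cop_spre (Nat.lt_succ_self d))).1
      ⟨ih (h.mono (Nat.le_succ d)) fun a ha => H a (by omega), H d (Nat.lt_succ_self d)⟩

lemma dvd_spre (s : ℕ → ℕ) {a d : ℕ} (ha : a < d) : s a ∣ spre s d :=
  Finset.dvd_prod_of_mem _ (Finset.mem_range.2 ha)

/-- One coordinate of `mi`. -/
def crd (s : ℕ → ℕ) (a n : ℕ) : ℕ := (((spre s a : ℕ) : ZMod (s a))⁻¹ * (n : ZMod (s a))).val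

lemma mi_eq (n : ℕ) (a : Fin d) : mi s d n a = crd s a n := rfl

lemma Moduli.crd_lt (h : Moduli s d t) {a : ℕ} (ha : a < d) (n : ℕ) : crd s a n < s a := by
  have : NeZero (s a) := ⟨(h.pos a ha).ne'⟩
  exact ZMod.val_lt _

lemma Moduli.crd_spec (h : Moduli s d t) {a : ℕ} (ha : a < d) (n : ℕ) :
    spre s a * crd s a n ≡ n [MOD s a] := by
  have : NeZero (s a) := ⟨(h.pos a ha).ne'⟩
  rw [← ZMod.natCast_eq_natCast_iff]
  unfold crd
  rw [Nat.cast_mul, ZMod.natCast_zmod_val, ← mul_assoc,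
    ZMod.coe_mul_inv_eq_one _ (h.cop_spre ha), one_mul]

lemma Moduli.crd_unique (h : Moduli s d t) {a : ℕ} (ha : a < d) {n k : ℕ} (hk : k < s a)
    (H : spre s a * k ≡ n [MOD s a]) : crd s a n = k :=
  Nat.ModEq.eq_of_lt_of_lt
    (Nat.ModEq.cancel_left_of_coprime (h.cop_spre ha).symm ((h.crd_spec ha n).trans H.symm))
    (h.crd_lt ha n) hk

lemma Moduli.crd_eq_iff (h : Moduli s d t) {a : ℕ} (ha : a < d) {n m : ℕ} :
    crd s a n = crd s a m ↔ n ≡ m [MOD s a] :=
  ⟨fun e => (h.crd_spec ha n).symm.trans (e ▸ h.crd_spec ha m),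
    fun e => h.crd_unique ha (h.crd_lt ha m) ((h.crd_spec ha m).trans e.symm)⟩

lemma Moduli.crd_add (h : Moduli s d t) {a : ℕ} (ha : a < d) (n m : ℕ) :
    crd s a (n + m) = (crd s a n + crd s a m) % s a := by
  refine h.crd_unique ha (Nat.mod_lt _ (h.pos a ha)) ?_
  refine ((Nat.mod_modEq _ _).mul_left _).trans ?_
  rw [mul_add]
  exact (h.crd_spec ha n).add (h.crd_spec ha m)

lemma Moduli.mi_inj (h : Moduli s d t) {n m : ℕ} (hn : n < spre s d) (hm : m < spre s d)
    (e : mi s d n = mi s d m) : n = m :=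
  Nat.ModEq.eq_of_lt_of_lt (h.modEq fun a ha => (h.crd_eq_iff ha).1 (congrFun e ⟨a, ha⟩)) hn hm

lemma Moduli.mi_surj (h : Moduli s d t) {y : Fin d → ℕ} (hy : ∀ a, y a < s a) :
    ∃ n, n < spre s d ∧ mi s d n = y := by
  have h1 : ∀ a ∈ (Finset.univ : Finset (Fin d)), s a ≠ 0 := fun a _ => (h.pos a a.2).ne'
  have h2 : Set.Pairwise (↑(Finset.univ : Finset (Fin d)))
      (Function.onFun Nat.Coprime fun a : Fin d => s a) :=
    fun a _ b _ hab => h.cop a b a.2 b.2 fun e => hab (Fin.ext e)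
  refine ⟨Nat.chineseRemainderOfFinset (fun a : Fin d => spre s a * y a) (fun a => s a) _ h1 h2,
    ?_, funext fun a => h.crd_unique a.2 (hy a) ?_⟩
  · have := Nat.chineseRemainderOfFinset_lt_prod (fun a : Fin d => spre s a * y a)
      (fun a => s a) h1 h2
    rwa [Fin.prod_univ_eq_prod_range s d] at this
  · exact ((Nat.chineseRemainderOfFinset (fun a : Fin d => spre s a * y a) (fun a => s a) _
      h1 h2).2 a (Finset.mem_univ a)).symm

lemma mi_mem_box' (h : Moduli s d t) (n : ℕ) : mi s d n ∈ box d t :=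
  mem_box.2 fun a => (h.crd_lt a.2 n).trans_le (h.le a a.2)

lemma Moduli.spread_mi (h : Moduli s d t) (u : ℕ → GaussianInt) {n : ℕ} (hn : n < spre s d) :
    spread s d u (mi s d n) = u n := by
  have hex : ∃ m, m < spre s d ∧ mi s d m = mi s d n := ⟨n, hn, rfl⟩
  unfold spread
  rw [dif_pos hex, h.mi_inj hex.choose_spec.1 hn hex.choose_spec.2]

lemma spread_of_not (u : ℕ → GaussianInt) {y : Fin d → ℕ}
    (hy : ¬ ∃ n, n < spre s d ∧ mi s d n = y) : spread s d u y = 0 := by
  unfold spread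
  rw [dif_neg hy]

/-! ### mixed-radix digits -/

/-- The mixed-radix digits of `n`. -/
def nd (s : ℕ → ℕ) (n a : ℕ) : ℕ := n / spre s a % s a

lemma sum_nd (s : ℕ → ℕ) (n d : ℕ) : ∑ a ∈ range d, nd s n a * spre s a = n % spre s d := by
  induction d with
  | zero => simp [spre, Nat.mod_one]
  | succ d ih => rw [Finset.sum_range_succ, ih, spre_succ, Nat.mod_mul, nd, mul_comm]

lemma nd_mod (s : ℕ → ℕ) (n : ℕ) {a d : ℕ} (ha : a < d) : nd s (n % spre s d) a = nd s n a := by
  unfold nd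
  rw [← Nat.mod_mul_right_div_self, ← Nat.mod_mul_right_div_self, ← spre_succ,
    Nat.mod_mod_of_dvd _ (spre_dvd s ha)]

lemma Moduli.nd_lt (h : Moduli s d t) (n : ℕ) {a : ℕ} (ha : a < d) : nd s n a < s a :=
  Nat.mod_lt _ (h.pos a ha)

lemma Moduli.crd_eq_nd (h : Moduli s d t) (n : ℕ) {a : ℕ} (ha : a < d) :
    crd s a n = (nd s n a + crd s a (n % spre s a)) % s a := by
  refine h.crd_unique ha (Nat.mod_lt _ (h.pos a ha)) ?_
  refine ((Nat.mod_modEq _ _).mul_left _).trans ?_
  rw [mul_add]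
  refine ((Nat.ModEq.refl _).add (h.crd_spec ha _)).trans ?_
  rw [add_comm, nd, ← Nat.mod_mul]
  exact (Nat.mod_modEq _ _).of_mul_left _

lemma exists_nd (y : ℕ → ℕ) (hy : ∀ a, a < d → y a < s a) :
    ∃ n, n < spre s d ∧ ∀ a, a < d → nd s n a = y a := by
  induction d with
  | zero => exact ⟨0, by simp [spre], fun a ha => absurd ha (Nat.not_lt_zero a)⟩
  | succ d ih =>
    obtain ⟨n, hn, h⟩ := ih fun a ha => hy a (by omega)
    have hd := hy d (Nat.lt_succ_self d)
    refine ⟨n + spre s d * y d, by rw [spre_succ]; nlinarith, fun a ha => ?_⟩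
    rcases Nat.lt_succ_iff_lt_or_eq.1 ha with ha | rfl
    · rw [← nd_mod s _ ha, Nat.add_mul_mod_self_left, Nat.mod_eq_of_lt hn, h a ha]
    · unfold nd
      rw [Nat.add_mul_div_left _ _ (by omega), Nat.div_eq_of_lt hn, zero_add, Nat.mod_eq_of_lt hd]

/-- The address of the `n`-th entry before the rotations. -/
def ckey (s : ℕ → ℕ) (d t n : ℕ) : ℕ := ∑ a ∈ range d, nd s n a * t ^ a

lemma ckey_eq (n : ℕ) : ckey s d t n = undigs t fun a : Fin d => nd s n a :=
  (Fin.sum_univ_eq_sum_range (fun a => nd s n a * t ^ a) d).symm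

lemma Moduli.nd_mem_box (h : Moduli s d t) (n : ℕ) : (fun a : Fin d => nd s n a) ∈ box d t :=
  mem_box.2 fun a => (h.nd_lt n a.2).trans_le (h.le a a.2)

lemma Moduli.ckey_lt (h : Moduli s d t) (n : ℕ) : ckey s d t n < t ^ d := by
  rw [ckey_eq]; exact undigs_lt (h.nd_mem_box n)

lemma Moduli.digs_ckey (h : Moduli s d t) (n : ℕ) :
    digs d t (ckey s d t n) = fun a : Fin d => nd s n a := by
  rw [ckey_eq]; exact digs_undigs (h.nd_mem_box n)

lemma Moduli.ckey_mono (h : Moduli s d t) {n m : ℕ} (hnm : n < m) (hm : m < spre s d) :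
    ckey s d t n < ckey s d t m := by
  induction d generalizing n m with
  | zero => simp [spre] at hm; omega
  | succ d ih =>
    have h' := h.mono (Nat.le_succ d)
    have hP := h.spre_pos (Nat.le_succ d)
    have e : ∀ k, k < spre s (d + 1) →
        ckey s (d + 1) t k = ckey s d t (k % spre s d) + k / spre s d * t ^ d := by
      intro k hk
      unfold ckey
      rw [Finset.sum_range_succ]
      congr 1
      · exact Finset.sum_congr rfl fun a ha => by rw [nd_mod s k (Finset.mem_range.1 ha)]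
      · rw [nd, Nat.mod_eq_of_lt]
        rw [spre_succ] at hk
        exact Nat.div_lt_of_lt_mul hk
    rw [e n (hnm.trans hm), e m hm]
    rcases (Nat.div_le_div_right (c := spre s d) hnm.le).lt_or_eq with hq | hq
    · have h1 := h'.ckey_lt (n % spre s d)
      have h2 : (n / spre s d + 1) * t ^ d ≤ m / spre s d * t ^ d := Nat.mul_le_mul_right _ hq
      nlinarith [Nat.zero_le (ckey s d t (m % spre s d))]
    · have h1 := Nat.div_add_mod n (spre s d)
      have h2 := Nat.div_add_mod m (spre s d)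
      rw [hq] at h1 ⊢
      have := ih h' (n := n % spre s d) (m := m % spre s d) (by omega) (Nat.mod_lt _ hP)
      omega

lemma exists_ckey {j : ℕ} (hj : j < t ^ d)
    (H : ∀ a, a < d → j / t ^ a % t < s a) : ∃ n, n < spre s d ∧ ckey s d t n = j := by
  obtain ⟨n, hn, h⟩ := exists_nd (fun a => j / t ^ a % t) H
  refine ⟨n, hn, ?_⟩
  rw [ckey_eq, ← undigs_digs hj]
  congr 1
  funext a
  exact h a a.2

/-! ### the convolution theorem -/

lemma Fm_eq {s j k : ℕ} (hj : j < s) (hk : k < s) : Fm s j k = ee (-(1 / s)) ^ (j * k) := by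
  unfold Fm ee
  rw [if_pos ⟨hj, hk⟩, ← Complex.exp_nat_mul]
  congr 1
  push_cast
  ring

lemma ee_prim {s : ℕ} (hs : 0 < s) : IsPrimitiveRoot (ee (-(1 / s))) s := by
  have := (Complex.isPrimitiveRoot_exp s hs.ne').inv
  rw [← Complex.exp_neg] at this
  have e : ee (-(1 / s)) = Complex.exp (-(2 * Real.pi * Complex.I / s)) := by
    unfold ee
    congr 1
    push_cast
    ring
  rwa [e]

lemma conj_ee (x : ℝ) : (starRingEnd ℂ) (ee x) = (ee x)⁻¹ := by
  unfold ee
  rw [← Complex.exp_conj, ← Complex.exp_neg]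
  congr 1
  simp [map_ofNat]

lemma Fm_orth {s t x y z : ℕ} (hst : s ≤ t) (hx : x < s) (hy : y < s) (hz : z < s) :
    ∑ k ∈ range t, Fm s x k * (starRingEnd ℂ) (Fm s k y * Fm s k z) =
      if x = (y + z) % s then (s : ℂ) else 0 := by
  have hs : 0 < s := by omega
  have hω := ee_prim hs
  set ω := ee (-(1 / s)) with hωd
  have hω0 : ω ≠ 0 := hω.ne_zero hs.ne'
  set w := ω ^ x * (ω ^ (y + z))⁻¹ with hw
  have e1 : ∑ k ∈ range t, Fm s x k * (starRingEnd ℂ) (Fm s k y * Fm s k z) =
      ∑ k ∈ range s, w ^ k := by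
    rw [← Finset.sum_subset (Finset.range_subset_range.2 hst)]
    · refine Finset.sum_congr rfl fun k hk => ?_
      have hk' := Finset.mem_range.1 hk
      rw [Fm_eq hx hk', Fm_eq hk' hy, Fm_eq hk' hz, ← pow_add, map_pow, conj_ee, ← hωd, hw,
        mul_pow, ← pow_mul, ← inv_pow, ← pow_mul]
      congr 2
      ring
    · intro k _ hk
      unfold Fm
      rw [if_neg (fun h => hk (Finset.mem_range.2 h.2)), zero_mul]
  have e2 : ω ^ (y + z) = ω ^ ((y + z) % s) := by
    conv_lhs => rw [← Nat.div_add_mod (y + z) s, pow_add, pow_mul, hω.pow_eq_one, one_pow, one_mul]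
  rw [e1]
  split_ifs with h
  · have : w = 1 := by rw [hw, e2, ← h, mul_inv_cancel₀ (pow_ne_zero _ hω0)]
    simp [this]
  · have h1 : w ≠ 1 := by
      intro h1
      rw [hw, e2, mul_inv_eq_one₀ (pow_ne_zero _ hω0)] at h1
      exact h (hω.pow_inj hx (Nat.mod_lt _ hs) h1)
    have h2 : w ^ s = 1 := by
      rw [hw, mul_pow, inv_pow, ← pow_mul, ← pow_mul, mul_comm x, mul_comm (y + z), pow_mul,
        pow_mul, hω.pow_eq_one]
      simp
    rw [geom_sum_eq h1, h2, sub_self, zero_div]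

lemma Moduli.tens_spread (h : Moduli s d t) (κ : Fin d → ℕ → ℕ → ℂ) (u : ℕ → GaussianInt)
    (ξ : Fin d → ℕ) : tens t κ (fun y => (spread s d u y : ℂ)) ξ =
      ∑ n ∈ range (spre s d), (∏ a, κ a (ξ a) (mi s d n a)) * (u n : ℂ) := by
  classical
  unfold tens
  rw [← Finset.sum_subset (s₁ := (range (spre s d)).image (mi s d))]
  · rw [Finset.sum_image fun n hn m hm e =>
      h.mi_inj (Finset.mem_range.1 hn) (Finset.mem_range.1 hm) e]
    exact Finset.sum_congr rfl fun n hn => by
      simp only [h.spread_mi u (Finset.mem_range.1 hn)]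
  · intro y hy
    obtain ⟨n, -, rfl⟩ := Finset.mem_image.1 hy
    exact mi_mem_box' h n
  · intro y _ hy
    beta_reduce
    rw [spread_of_not, GaussianInt.toComplex_zero, mul_zero]
    rintro ⟨n, hn, rfl⟩
    exact hy (Finset.mem_image_of_mem _ (Finset.mem_range.2 hn))

theorem crt_conv' (h : Moduli s d t) (u v : ℕ → GaussianInt) {n : ℕ}
    (hn : n < spre s d) :
    tens t (fun a : Fin d => Fm (s a)) (fun ξ => (starRingEnd ℂ)
      (tens t (fun a : Fin d => Fm (s a)) (fun y => (spread s d u y : ℂ)) ξ *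
        tens t (fun a : Fin d => Fm (s a)) (fun y => (spread s d v y : ℂ)) ξ)) (mi s d n) =
      spre s d * (starRingEnd ℂ) (cyc (spre s d) u v n : GaussianInt) := by
  simp only [h.tens_spread]
  set S := spre s d with hS
  have key : ∀ i, i < S → ∀ j, j < S → ∑ ξ ∈ box d t, ∏ a : Fin d,
      (Fm (s a) (mi s d n a) (ξ a) *
        (starRingEnd ℂ) (Fm (s a) (ξ a) (mi s d i a) * Fm (s a) (ξ a) (mi s d j a))) =
      if j = (n + S - i) % S then (S : ℂ) else 0 := by
    intro i hi j hj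
    unfold box
    rw [← Finset.prod_univ_sum (fun _ : Fin d => range t) (fun a k => Fm (s a) (mi s d n a) k *
      (starRingEnd ℂ) (Fm (s a) k (mi s d i a) * Fm (s a) k (mi s d j a)))]
    have e : ∀ a : Fin d, ∑ k ∈ range t, Fm (s a) (mi s d n a) k *
        (starRingEnd ℂ) (Fm (s a) k (mi s d i a) * Fm (s a) k (mi s d j a)) =
        if n ≡ i + j [MOD s a] then (s a : ℂ) else 0 := by
      intro a
      simp only [mi_eq]
      rw [Fm_orth (h.le a a.2) (h.crd_lt a.2 n) (h.crd_lt a.2 i) (h.crd_lt a.2 j)]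
      refine if_congr ?_ rfl rfl
      rw [← h.crd_eq_iff a.2, h.crd_add a.2]
    simp only [e]
    have e2 : j = (n + S - i) % S ↔ n ≡ i + j [MOD S] := by
      have h1 : i + (n + S - i) ≡ n [MOD S] := by
        rw [show i + (n + S - i) = n + S by omega]; simp
      constructor
      · rintro rfl
        exact (((Nat.mod_modEq _ _).add_left i).trans h1).symm
      · intro h2
        exact Nat.ModEq.eq_of_lt_of_lt
          ((Nat.ModEq.add_left_cancel' i (h2.symm.trans h1.symm)).trans (Nat.mod_modEq _ _).symm)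
          hj (Nat.mod_lt _ (by omega))
    by_cases h2 : n ≡ i + j [MOD S]
    · rw [if_pos (e2.2 h2), hS, spre, ← Fin.prod_univ_eq_prod_range s d, Nat.cast_prod]
      exact Finset.prod_congr rfl fun a _ => if_pos (h2.of_dvd (dvd_spre s a.2))
    · rw [if_neg (fun h3 => h2 (e2.1 h3))]
      by_contra h3
      refine h2 (h.modEq fun a ha => ?_)
      by_contra h4
      exact h3 (Finset.prod_eq_zero (Finset.mem_univ ⟨a, ha⟩) (if_neg h4))
  unfold tens
  calc ∑ ξ ∈ box d t, (∏ a : Fin d, Fm (s a) (mi s d n a) (ξ a)) * (starRingEnd ℂ)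
        ((∑ i ∈ range S, (∏ a : Fin d, Fm (s a) (ξ a) (mi s d i a)) * (u i : ℂ)) *
          ∑ j ∈ range S, (∏ a : Fin d, Fm (s a) (ξ a) (mi s d j a)) * (v j : ℂ))
      = ∑ ξ ∈ box d t, ∑ i ∈ range S, ∑ j ∈ range S, (∏ a : Fin d,
          (Fm (s a) (mi s d n a) (ξ a) *
            (starRingEnd ℂ) (Fm (s a) (ξ a) (mi s d i a) * Fm (s a) (ξ a) (mi s d j a)))) *
          (starRingEnd ℂ) ((u i : ℂ) * v j) := by
        refine Finset.sum_congr rfl fun ξ _ => ?_
        rw [Finset.sum_mul_sum, map_sum, Finset.mul_sum]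
        refine Finset.sum_congr rfl fun i _ => ?_
        rw [map_sum, Finset.mul_sum]
        refine Finset.sum_congr rfl fun j _ => ?_
        rw [Finset.prod_mul_distrib, ← map_prod, Finset.prod_mul_distrib]
        simp only [map_mul]
        ring
    _ = ∑ i ∈ range S, ∑ j ∈ range S, (if j = (n + S - i) % S then (S : ℂ) else 0) *
          (starRingEnd ℂ) ((u i : ℂ) * v j) := by
        rw [Finset.sum_comm]
        refine Finset.sum_congr rfl fun i hi => ?_
        rw [Finset.sum_comm]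
        refine Finset.sum_congr rfl fun j hj => ?_
        rw [← Finset.sum_mul, key i (Finset.mem_range.1 hi) j (Finset.mem_range.1 hj)]
    _ = _ := by
        unfold cyc
        rw [map_sum, map_sum, Finset.mul_sum]
        refine Finset.sum_congr rfl fun i _ => ?_
        rw [Finset.sum_eq_single ((n + S - i) % S)]
        · rw [if_pos rfl, map_mul GaussianInt.toComplex]
        · intro j _ hj; rw [if_neg hj, zero_mul]
        · intro hj
          exact absurd (Finset.mem_range.2 (Nat.mod_lt _ (by omega))) hj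

end Crest.Agent.R326
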