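import Crest.Agent.R326.Along
import Crest.Agent.R326.CrtAux

/-!
Chinese remaindering: moving between a sequence and a multi-dimensional array, and the
convolution theorem.
-/

set_option autoImplicit false

namespace Crest.Agent.R326

open Crest.Agent.Lib.PT Crest.Agent.Lib.LT Finset

lemma mi_mem_box {s : ℕ → ℕ} {d t : ℕ} (h : Moduli s d t) (n : ℕ) : mi s d n ∈ box d t :=
  mi_mem_box' h n

lemma norm_spread_le {s : ℕ → ℕ} {d : ℕ} {u : ℕ → GaussianInt} {r : ℝ} (hr : 0 ≤ r)
    (hu : ∀ n, n < spre s d → ‖(u n : ℂ)‖ ≤ r) (y : Fin d → ℕ) : ‖(spread s d u y : ℂ)‖ ≤ r := by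
  unfold spread
  split_ifs with h
  · exact hu _ h.choose_spec.1
  · simpa using hr

/-- The convolution theorem. -/
theorem crt_conv {s : ℕ → ℕ} {d t : ℕ} (h : Moduli s d t) (u v : ℕ → GaussianInt) {n : ℕ}
    (hn : n < spre s d) :
    tens t (fun a : Fin d => Fm (s a)) (fun ξ => (starRingEnd ℂ)
      (tens t (fun a : Fin d => Fm (s a)) (fun y => (spread s d u y : ℂ)) ξ *
        tens t (fun a : Fin d => Fm (s a)) (fun y => (spread s d v y : ℂ)) ξ)) (mi s d n) =
      spre s d * (starRingEnd ℂ) (cyc (spre s d) u v n : GaussianInt) :=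
  crt_conv' h u v hn

/-! ### rotations of lines -/

section rot
variable {α : Type} {s : ℕ → ℕ} {d t : ℕ}

/-- Rotate the first `m` entries by `r`. -/
def rotL (m r : ℕ) (v : ℕ → α) (k : ℕ) : α := if k < m then v ((k + r) % m) else v k

/-- The value of the digits below `j`. -/
def low (s : ℕ → ℕ) (j : ℕ) (o : List ℕ) : ℕ := ∑ b ∈ range j, o.getD b 0 * spre s b

/-- The rotation of a line in direction `j`. -/
def rotP (s : ℕ → ℕ) (fl : Bool) (j : ℕ) (o : List ℕ) (v : ℕ → α) : ℕ → α :=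
  rotL (s j) (cond fl (s j - crd s j (low s j o)) (crd s j (low s j o))) v

lemma arr_rotL {m : ℕ} (hm : m ≤ t) (r : ℕ) (v : ℕ → α) :
    arr t (rotL m r v) = arr m (fun k => v ((k + r) % m)) ++ (arr t v).drop m := by
  obtain ⟨e, rfl⟩ := Nat.exists_eq_add_of_le hm
  rw [arr_add, drop_arr, Nat.add_sub_cancel_left]
  congr 1
  · exact arr_congr fun i hi => if_pos hi
  · exact arr_congr fun i _ => if_neg (by omega)

lemma update_mem_box' {y : Fin d → ℕ} (hy : y ∈ box d t) (j : Fin d) {k : ℕ} (hk : k < t) :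
    Function.update y j k ∈ box d t := by
  refine mem_box.2 fun a => ?_
  by_cases h : a = j
  · subst h; simpa using hk
  · rw [Function.update_of_ne h]; exact mem_box.1 hy a

lemma rot_inv (h : Moduli s d t) (fl : Bool) (dim : ℕ → ℕ) (Inv : α → Prop)
    {f : (Fin d → ℕ) → α} (hf : ∀ y ∈ box d t, Inv (f y)) (i : ℕ) :
    ∀ y ∈ box d t, Inv (allDims dim (fun i => rotP s fl (dim i)) f i y) := by
  induction i with
  | zero => exact hf
  | succ i ih =>
    intro y hy
    simp only [allDims, along]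
    split_ifs with hj
    · unfold rotP rotL
      split_ifs with hk
      · exact ih _ (update_mem_box' hy _ ((Nat.mod_lt _ (by omega)).trans_le (h.le _ hj)))
      · exact ih _ (update_mem_box' hy _ (mem_box.1 hy _))
    · exact ih y hy

lemma rot_zero (fl : Bool) (dim : ℕ → ℕ) (z : α)
    {f : (Fin d → ℕ) → α} (hf : ∀ y : Fin d → ℕ, (∃ a : Fin d, s a ≤ y a) → f y = z) (i : ℕ) :
    ∀ y : Fin d → ℕ, (∃ a : Fin d, s a ≤ y a) →
      allDims dim (fun i => rotP s fl (dim i)) f i y = z := by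
  induction i with
  | zero => exact hf
  | succ i ih =>
    rintro y ⟨a, ha⟩
    simp only [allDims, along]
    split_ifs with hj
    · unfold rotP rotL
      split_ifs with hk
      · refine ih _ ⟨a, ?_⟩
        rw [Function.update_of_ne]
        · exact ha
        · rintro rfl; exact absurd hk (not_lt.2 ha)
      · beta_reduce
        rw [Function.update_eq_self]; exact ih _ ⟨a, ha⟩
    · exact ih y ⟨a, ha⟩

/-- The position of the `n`-th entry when the directions `≥ i` are in residue form. -/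
def posn (s : ℕ → ℕ) (d n i : ℕ) : Fin d → ℕ := fun a => if (a : ℕ) < i then nd s n a else crd s a n

lemma posn_zero (n : ℕ) : posn s d n 0 = mi s d n := by
  funext a; simp [posn, mi_eq]

lemma posn_top (n : ℕ) : posn s d n d = fun a : Fin d => nd s n a := by
  funext a; simp [posn]

lemma low_ofFn {x : Fin d → ℕ} {j : ℕ} (hj : j < d) (n : ℕ)
    (hx : ∀ b : Fin d, (b : ℕ) < j → x b = nd s n b) :
    low s j (List.ofFn (Function.update x ⟨j, hj⟩ 0)) = n % spre s j := by
  rw [← sum_nd]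
  refine Finset.sum_congr rfl fun b hb => ?_
  have hb' := Finset.mem_range.1 hb
  have hbd : b < d := hb'.trans hj
  congr 1
  rw [List.getD_eq_getElem?_getD, List.getElem?_eq_getElem (by simpa using hbd),
    List.getElem_ofFn, Option.getD_some, Function.update_of_ne, hx _ hb']
  intro e
  have := congrArg Fin.val e
  simp only at this
  omega

lemma along_down (h : Moduli s d t) {j : ℕ} (hj : j < d) (F : (Fin d → ℕ) → α) (n : ℕ) :
    along j (rotP s true j) F (posn s d n j) = F (posn s d n (j + 1)) := by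
  have e : posn s d n j ⟨j, hj⟩ = crd s j n := by simp [posn]
  unfold along
  rw [dif_pos hj, e]
  unfold rotP rotL
  rw [if_pos (h.crd_lt hj n), low_ofFn hj n (fun b hb => by simp [posn, hb]), cond_true]
  have h1 := h.crd_lt hj (n % spre s j)
  have e2 : (crd s j n + (s j - crd s j (n % spre s j))) % s j = nd s n j := by
    rw [h.crd_eq_nd n hj, Nat.mod_add_mod,
      show nd s n j + crd s j (n % spre s j) + (s j - crd s j (n % spre s j)) = nd s n j + s j by
        omega, Nat.add_mod_right, Nat.mod_eq_of_lt (h.nd_lt n hj)]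
  rw [e2]
  beta_reduce
  congr 1
  funext a
  by_cases ha : a = ⟨j, hj⟩
  · subst ha; simp [posn]
  · rw [Function.update_of_ne ha]
    have : (a : ℕ) ≠ j := fun e => ha (Fin.ext e)
    unfold posn
    exact if_congr (by omega) rfl rfl

lemma along_up (h : Moduli s d t) {j : ℕ} (hj : j < d) (F : (Fin d → ℕ) → α) (n : ℕ) :
    along j (rotP s false j) F (posn s d n (j + 1)) = F (posn s d n j) := by
  have e : posn s d n (j + 1) ⟨j, hj⟩ = nd s n j := by simp [posn]
  unfold along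
  rw [dif_pos hj, e]
  unfold rotP rotL
  rw [if_pos (h.nd_lt n hj), low_ofFn hj n (fun b hb => by
    simp [posn, Nat.lt_succ_of_lt hb]), cond_false, ← h.crd_eq_nd n hj]
  beta_reduce
  congr 1
  funext a
  by_cases ha : a = ⟨j, hj⟩
  · subst ha; simp [posn]
  · rw [Function.update_of_ne ha]
    have : (a : ℕ) ≠ j := fun e => ha (Fin.ext e)
    unfold posn
    exact if_congr (by omega) rfl rfl

lemma allDims_down (h : Moduli s d t) (f : (Fin d → ℕ) → α) (n : ℕ) : ∀ i, i ≤ d →
    allDims (fun i => d - 1 - i) (fun i => rotP s true (d - 1 - i)) f i (posn s d n (d - i)) =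
      f fun a : Fin d => nd s n a
  | 0, _ => by simp only [allDims, Nat.sub_zero, posn_top]
  | i + 1, hi => by
      simp only [allDims]
      rw [show d - (i + 1) = d - 1 - i by omega, along_down h (by omega),
        show d - 1 - i + 1 = d - i by omega]
      exact allDims_down h f n i (by omega)

lemma allDims_up (h : Moduli s d t) (f : (Fin d → ℕ) → α) (n : ℕ) : ∀ i, i ≤ d →
    allDims (fun i => i) (fun i => rotP s false i) f i (posn s d n i) = f (mi s d n)
  | 0, _ => by simp only [allDims, posn_zero]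
  | i + 1, hi => by
      simp only [allDims]
      rw [along_up h (by omega)]
      exact allDims_up h f n i (by omega)

end rot

/-! ### the programs -/

variable {A γ : Type} [Enc γ] {cur : A → P} {B : A → ℕ} {x : In B}

lemma pt_spre {α : Type} [Enc α] {s : γ → ℕ → ℕ} (hs : PT (fun q : γ × ℕ => s q.1 q.2))
    {par : α → γ} {n : α → ℕ} (hp : PT par) (hn : PT n) (hb : Lib.PT.PB n) :
    PT (fun a => spre (s (par a)) (n a)) :=
  PT.prod_range hn hb (hs.comp ((hp.comp PT.id.fst).pair PT.id.snd))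

/-- The rotation amount, found by a search. -/
lemma ct_crd (s : γ → ℕ → ℕ) (hs : PT (fun q : γ × ℕ => s q.1 q.2)) {par : A → γ}
    {j d t p : A → ℕ} {o : A → List ℕ} (hW : CT cur x (fun a => (par a, j a, o a)))
    (hm : ∀ a, Moduli (s (par a)) (d a) (t a)) (hj : ∀ a, j a < d a)
    (ho : ∀ a, (o a).length = d a)
    (hsm : Sm p (fun a => sz (par a, j a, o a) + sz (s (par a) (j a))))
    (hB : Dom (fun a => t a * p a) B) :
    CT cur x (fun a => s (par a) (j a)) ∧
      CT cur x (fun a => crd (s (par a)) (j a) (low (s (par a)) (j a) (o a))) := by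
  have ht : ∀ a, 0 < t a := fun a => ((hm a).pos _ (hj a)).trans_le ((hm a).le _ (hj a))
  have hpB : Dom p B := hB.le_trans fun a => Nat.le_mul_of_pos_left _ (ht a)
  have hM : PT (fun W : γ × ℕ × List ℕ => s W.1 W.2.1) :=
    hs.comp (PT.id.fst.pair PT.id.snd.fst)
  have hN : CT cur x (fun a => s (par a) (j a)) :=
    hW.pt hM ((hsm.mono hpB).of_le fun a => Nat.le_add_right _ _)
  refine ⟨hN, ?_⟩
  have hP : PT (fun W : γ × ℕ × List ℕ => spre (s W.1) (min W.2.1 W.2.2.length)) :=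
    pt_spre hs (by fun_prop) (by fun_prop) (by fun_prop)
  have hP' : PT (fun q : (γ × ℕ × List ℕ) × ℕ => spre (s q.1.1) (min q.2 q.1.2.2.length)) :=
    pt_spre hs (by fun_prop) (by fun_prop) (by fun_prop)
  have hL : PT (fun W : γ × ℕ × List ℕ => ∑ b ∈ range (min W.2.1 W.2.2.length),
      W.2.2.getD b 0 * spre (s W.1) (min b W.2.2.length)) :=
    PT.sum_range (by fun_prop) (by fun_prop) (PT.mul (by fun_prop) hP')
  have hF : PT (fun q : (γ × ℕ × List ℕ) × ℕ =>
      if spre (s q.1.1) (min q.1.2.1 q.1.2.2.length) * q.2 % s q.1.1 q.1.2.1 =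
        (∑ b ∈ range (min q.1.2.1 q.1.2.2.length),
          q.1.2.2.getD b 0 * spre (s q.1.1) (min b q.1.2.2.length)) % s q.1.1 q.1.2.1
      then some q.2 else none) :=
    PT.ite (PT.decide_eq (((hP.comp PT.id.fst).mul PT.id.snd).mod (hM.comp PT.id.fst))
      ((hL.comp PT.id.fst).mod (hM.comp PT.id.fst))) PT.id.snd.some (PT.const _)
  have hT := CT.tabulate_pt (fun (W : γ × ℕ × List ℕ) (k : ℕ) =>
      if spre (s W.1) (min W.2.1 W.2.2.length) * k % s W.1 W.2.1 =
        (∑ b ∈ range (min W.2.1 W.2.2.length),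
          W.2.2.getD b 0 * spre (s W.1) (min b W.2.2.length)) % s W.1 W.2.1
      then some k else none) hF hN hW p hsm
    (hB.le_trans fun a => Nat.mul_le_mul_right _ ((hm a).le _ (hj a)))
  refine (hT.reduceOption.headD (CT.const 0)).congr fun a => ?_
  have e1 : min (j a) (o a).length = j a := min_eq_left (by rw [ho]; exact (hj a).le)
  have e2 : ∑ b ∈ range (j a), (o a).getD b 0 * spre (s (par a)) (min b (o a).length) =
      low (s (par a)) (j a) (o a) := Finset.sum_congr rfl fun b hb => by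
    have := Finset.mem_range.1 hb
    have := hj a
    rw [min_eq_left (by rw [ho]; omega)]
  simp only [e1, e2]
  rw [reduceOption_arr (n := 1)
    (out := fun k => if spre (s (par a)) (j a) * k % s (par a) (j a) =
      low (s (par a)) (j a) (o a) % s (par a) (j a) then some k else none)
    (key := fun _ => crd (s (par a)) (j a) (low (s (par a)) (j a) (o a)))
    (f := fun _ => crd (s (par a)) (j a) (low (s (par a)) (j a) (o a)))
    (fun _ _ _ _ => by omega) (fun _ _ => (hm a).crd_lt (hj a) _)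
    (fun _ _ => if_pos ((hm a).crd_spec (hj a) _))
    (fun k hk h => if_neg fun e => h 0 one_pos ((hm a).crd_unique (hj a) hk e))]
  rfl

theorem ct_rotPass₀ (s : γ → ℕ → ℕ) (hs : PT (fun q : γ × ℕ => s q.1 q.2))
    (dim : ℕ → ℕ → ℕ) (hdim : PT (fun q : ℕ × ℕ => dim q.1 q.2))
    (hlt : ∀ d i, i < d → dim d i < d) (fl : Bool) {d ℓ p : A → ℕ}
    {par : A → γ} {f : ∀ a, (Fin (d a) → ℕ) → GaussianInt} (hd : ∀ a, d a ≠ 0)
    (hf : CT cur x (fun a => tarr (d a) (2 ^ ℓ a) (f a)))
    (hp : CT cur x (fun a => (par a, d a, ℓ a, p a)))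
    (hm : ∀ a, Moduli (s (par a)) (d a) (2 ^ ℓ a))
    (hb : ∀ a, ∀ y ∈ box (d a) (2 ^ ℓ a), ‖(f a y : ℂ)‖ ≤ 2 ^ p a)
    (hsm : Sm p (fun a => ℓ a * d a + ℓ a + d a + sz (par a)))
    (hB : Dom (fun a => (d a + 1) * 2 ^ (ℓ a * d a) * p a * pw τ₁ (ℓ a)) B) :
    CT cur x (fun a => tarr (d a) (2 ^ ℓ a) (allDims (dim (d a))
      (fun i => rotP (s (par a)) fl (dim (d a) i)) (f a) (d a))) := by
  have hp0 := hsm.pos
  have hps : Dom p (fun a => 12 * p a + 27) := Dom.of_le fun a => by omega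
  refine ct_allDims (γ := γ × ℕ) (fun q => dim q.2) (hdim.comp (PT.id.fst.snd.pair PT.id.snd))
    (par := fun a => (par a, d a)) (s := fun a => 12 * p a + 27)
    (ψ := fun a i => rotP (s (par a)) fl (dim (d a) i)) (fun _ _ => ())
    (fun a _ z => ‖(z : ℂ)‖ ≤ 2 ^ p a) (fun a => 2 ^ ℓ a * (12 * p a + 27))
    (fun a => 12 * p a + 27) hf
    ((hp.fst.pair hp.snd.fst).pair (hp.snd.fst.pair (hp.snd.snd.fst.pair
      ((hp.snd.snd.snd.const_mul 12).add (CT.const 27)))))
    (fun a i hi => hlt _ i hi)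
    (fun a i _ => rot_inv (hm a) fl (dim (d a))
      (fun z : GaussianInt => ‖(z : ℂ)‖ ≤ 2 ^ p a) (hb a) i)
    (fun a _ z _ hz => sz_gauss_le hz)
    ((((hsm.const_mul 7).add_const 2).of_le fun a => ?_).mono hps) (Dom.refl _) (Dom.refl _)
    (fun _ _ _ => CT.const ()) (Dom.const 1 fun q => by positivity)
    (fun x' h₁ _ h₃ h₄ h₅ => ?_) ?_
  · have := sz_nat_le_self (d a)
    rw [sz_pair]; omega
  · set L := Line d ℓ (fun a (_ : ℕ) (z : GaussianInt) => ‖(z : ℂ)‖ ≤ 2 ^ p a)
    have hpL : Dom (fun q : L => 2 ^ ℓ q.a * p q.a) (fun q => 2 ^ ℓ q.a * (12 * p q.a + 27)) :=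
      Dom.of_le fun q => Nat.mul_le_mul_left _ (by omega)
    have hpL' : Dom (fun q : L => p q.a) (fun q => 2 ^ ℓ q.a * (12 * p q.a + 27)) :=
      hpL.le_trans fun q => Nat.le_mul_of_pos_left _ (by positivity)
    have hj : ∀ q : L, dim (d q.a) q.i < d q.a := fun q => hlt _ _ q.hi
    have hJ : CT (fun q : L => cur q.a) x' (fun q => dim (d q.a) q.i) :=
      (h₁.snd.pair h₃).pt hdim (((((hsm.comap Line.a).const_mul 12).add_const 3).of_le
        fun q => by
          have := sz_nat_le_self (d q.a)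
          have := sz_nat_le_self q.i
          have := q.hi
          simp only [sz_pair]; omega).mono hpL')
    have hle : ∀ q : L, s (par q.a) (dim (d q.a) q.i) ≤ 2 ^ ℓ q.a := fun q => (hm q.a).le _ (hj q)
    obtain ⟨hM, hg⟩ := ct_crd s hs (h₁.fst.pair (hJ.pair h₄)) (fun q => hm q.a) hj
      (fun q => q.ho.1) (p := fun q => p q.a)
      ((((hsm.comap Line.a).const_mul 8).add_const 11).of_le fun q => by
        have h1 := sz_nat_le_self (dim (d q.a) q.i)
        have h2 := hj q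
        have h3 := sz_list_le q.o (6 * ℓ q.a + 1) fun e he => sz_nat_le_of_lt_two_pow (q.ho.2 e he)
        have h4 : sz (s (par q.a) (dim (d q.a) q.i)) ≤ 6 * (ℓ q.a + 1) + 1 :=
          sz_nat_le_of_lt_two_pow ((hle q).trans_lt (Nat.pow_lt_pow_right (by norm_num)
            (Nat.lt_succ_self _)))
        rw [q.ho.1] at h3
        simp only [sz_pair]
        nlinarith) hpL
    have hMB : Dom (fun q : L => s (par q.a) (dim (d q.a) q.i))
        (fun q => 2 ^ ℓ q.a * (12 * p q.a + 27)) :=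
      Dom.of_le fun q => (hle q).trans (Nat.le_mul_of_pos_right _ (by omega))
    have hr := (CT.const fl).cond (hM.sub hg) hg
    have h6 : CT (fun q : L => cur q.a) x' (fun q => arr (s (par q.a) (dim (d q.a) q.i)) q.v) :=
      (CT.take hM hMB h₅).congr fun q => by rw [take_arr, min_eq_left (hle q)]
    refine ((CT.arr_rotate hr (fun q => ?_) h6).append (CT.drop hM hMB h₅)).congr
      fun q => arr_rotL (hle q) _ _
    have := (hm q.a).crd_lt (hj q) (low (s (par q.a)) (dim (d q.a) q.i) q.o)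
    cases fl
    · exact this.le
    · exact Nat.sub_le _ _
  · refine (hB.const_mul 117).le_trans fun a => ?_
    have h1 := pw_pos τ₁ (ℓ a)
    have h2 := hp0 a
    have h3 : 2 ^ (ℓ a * (d a - 1)) * 2 ^ ℓ a = 2 ^ (ℓ a * d a) := by
      rw [← pow_add, ← Nat.mul_succ, Nat.succ_eq_add_one, Nat.sub_add_cancel
        (Nat.pos_of_ne_zero (hd a))]
    rw [← mul_assoc (2 ^ (ℓ a * (d a - 1))), h3]
    have h4 : 0 < 2 ^ (ℓ a * d a) := by positivity
    set T := 2 ^ (ℓ a * d a)
    set w := pw τ₁ (ℓ a)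
    have h5 : 12 * p a + 27 ≤ 39 * p a := by omega
    have h6 : T * (12 * p a + 27) * w ≤ T * (39 * p a) * w := by gcongr
    have h7 : T * (12 * p a + 27) ≤ T * (12 * p a + 27) * w := Nat.le_mul_of_pos_right _ h1
    have h8 : 12 * p a + 27 ≤ T * (12 * p a + 27) := Nat.le_mul_of_pos_left _ h4
    calc _ ≤ (d a + 1) * (3 * (T * (39 * p a) * w)) := Nat.mul_le_mul_left _ (by omega)
      _ = _ := by ring

theorem ct_rotPass (s : γ → ℕ → ℕ) (hs : PT (fun q : γ × ℕ => s q.1 q.2))
    (dim : ℕ → ℕ → ℕ) (hdim : PT (fun q : ℕ × ℕ => dim q.1 q.2))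
    (hlt : ∀ d i, i < d → dim d i < d) (fl : Bool) {d ℓ p : A → ℕ}
    {par : A → γ} {f : ∀ a, (Fin (d a) → ℕ) → GaussianInt}
    (hf : CT cur x (fun a => tarr (d a) (2 ^ ℓ a) (f a)))
    (hp : CT cur x (fun a => (par a, d a, ℓ a, p a)))
    (hm : ∀ a, Moduli (s (par a)) (d a) (2 ^ ℓ a))
    (hb : ∀ a, ∀ y ∈ box (d a) (2 ^ ℓ a), ‖(f a y : ℂ)‖ ≤ 2 ^ p a)
    (hsm : Sm p (fun a => ℓ a * d a + ℓ a + d a + sz (par a)))
    (hB : Dom (fun a => (d a + 1) * 2 ^ (ℓ a * d a) * p a * pw τ₁ (ℓ a)) B) :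
    CT cur x (fun a => tarr (d a) (2 ^ ℓ a) (allDims (dim (d a))
      (fun i => rotP (s (par a)) fl (dim (d a) i)) (f a) (d a))) := by
  refine CT.byCases (R := fun a => d a = 0) (hp.snd.fst.decide_eq (CT.const 0)) ?_ ?_
  · refine (hf.comap Subtype.val).congr fun a => ?_
    have : ∀ i, i = 0 → allDims (dim (d a.1)) (fun i => rotP (s (par a.1)) fl (dim (d a.1) i))
        (f a.1) i = f a.1 := by
      rintro _ rfl; rfl
    rw [this _ a.2]
  · exact ct_rotPass₀ s hs dim hdim hlt fl (fun a : {a // ¬ d a = 0} => a.2) (hf.comap _)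
      (hp.comap _) (fun a => hm a.1) (fun a => hb a.1) (hsm.comap _) (hB.comap _)

/-- The parameters in the form used by the index computations. -/
lemma ct_crtPar {d ℓ p : A → ℕ} {par : A → γ}
    (hp : CT cur x (fun a => (par a, d a, ℓ a, p a)))
    (hsm : Sm p (fun a => ℓ a * d a + ℓ a + d a + sz (par a)))
    (hB : Dom (fun a => (d a + 1) * 2 ^ (ℓ a * d a) * p a * pw τ₁ (ℓ a)) B) :
    CT cur x (fun a => (par a, un (d a), 2 ^ ℓ a)) ∧ CT cur x (fun a => (2 ^ ℓ a) ^ d a) ∧
      Dom (fun a => (2 ^ ℓ a) ^ d a * p a) B ∧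
      Sm p (fun a => sz (par a, un (d a), 2 ^ ℓ a) + sz ((2 ^ ℓ a) ^ d a)) := by
  have h1 : Dom (fun a => (2 ^ ℓ a) ^ d a * p a) B := hB.le_trans fun a => by
    have := pw_pos τ₁ (ℓ a)
    rw [← pow_mul]
    calc _ = 1 * 2 ^ (ℓ a * d a) * p a * 1 := by ring
      _ ≤ _ := by gcongr <;> omega
  have hpB : Dom p B := h1.le_trans fun a => Nat.le_mul_of_pos_left _ (by positivity)
  have h2 : Sm p (fun a => sz (par a, un (d a), 2 ^ ℓ a) + sz ((2 ^ ℓ a) ^ d a)) :=
    ((hsm.const_mul 6).add_const 17).of_le fun a => by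
      have h3 : sz (2 ^ ℓ a) ≤ 6 * (ℓ a + 1) + 1 :=
        sz_nat_le_of_lt_two_pow (Nat.pow_lt_pow_right (by norm_num) (Nat.lt_succ_self _))
      have h4 : sz ((2 ^ ℓ a) ^ d a) ≤ 6 * (ℓ a * d a + 1) + 1 := by
        rw [← pow_mul]
        exact sz_nat_le_of_lt_two_pow (Nat.pow_lt_pow_right (by norm_num) (Nat.lt_succ_self _))
      simp only [sz_pair, sz_un]
      omega
  have h3 : CT cur x (fun a => (par a, un (d a), 2 ^ ℓ a)) :=
    hp.fst.pair ((CT.un (n := d) hp.snd.fst ((hsm.dom.le_trans fun a => by omega).trans hpB)).pair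
      (CT.two_pow (k := ℓ) hp.snd.snd.fst ((hsm.dom.le_trans fun a => by omega).trans hpB)))
  refine ⟨h3, ?_, h1, h2⟩
  exact (h3.pt (f := fun W : γ × List Unit × ℕ => W.2.2 ^ W.2.1.length) (by fun_prop)
    ((h2.of_le fun a => Nat.le_add_right _ _).mono hpB)).congr fun a => by simp

theorem ct_spread (s : γ → ℕ → ℕ) (hs : PT (fun q : γ × ℕ => s q.1 q.2)) {d ℓ p : A → ℕ}
    {par : A → γ} {u : A → ℕ → GaussianInt}
    (hu : CT cur x (fun a => arr (spre (s (par a)) (d a)) (u a)))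
    (hp : CT cur x (fun a => (par a, d a, ℓ a, p a)))
    (hm : ∀ a, Moduli (s (par a)) (d a) (2 ^ ℓ a))
    (hb : ∀ a n, n < spre (s (par a)) (d a) → ‖(u a n : ℂ)‖ ≤ 2 ^ p a)
    (hsm : Sm p (fun a => ℓ a * d a + ℓ a + d a + sz (par a)))
    (hB : Dom (fun a => (d a + 1) * 2 ^ (ℓ a * d a) * p a * pw τ₁ (ℓ a)) B) :
    CT cur x (fun a => tarr (d a) (2 ^ ℓ a) (spread (s (par a)) (d a) (u a))) := by
  classical
  obtain ⟨hW, hN, hNB, hWs⟩ := ct_crtPar hp hsm hB
  have hP : PT (fun q : ((γ × List Unit × ℕ) × ℕ) × ℕ =>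
      spre (s q.1.1.1) (min q.2 q.1.1.2.1.length)) :=
    pt_spre hs (by fun_prop) (by fun_prop) (by fun_prop)
  have hS : PT (fun q : ((γ × List Unit × ℕ) × ℕ) × ℕ => s q.1.1.1 q.2) :=
    hs.comp (PT.id.fst.fst.fst.pair PT.id.snd)
  have hK : PT (fun q : (γ × List Unit × ℕ) × ℕ => ∑ b ∈ range q.1.2.1.length,
      q.2 / spre (s q.1.1) (min b q.1.2.1.length) % s q.1.1 b * q.1.2.2 ^ min b q.1.2.1.length) :=
    PT.sum_range (by fun_prop) (by fun_prop)
      (((PT.id.fst.snd.div hP).mod hS).mul (by fun_prop))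
  have hkey : CT cur x (fun a => arr (spre (s (par a)) (d a))
      (ckey (s (par a)) (d a) (2 ^ ℓ a))) := by
    refine (CT.tabulate_pt (N := fun a => spre (s (par a)) (d a))
      (fun (W : γ × List Unit × ℕ) (n : ℕ) => ∑ b ∈ range W.2.1.length,
        n / spre (s W.1) (min b W.2.1.length) % s W.1 b * W.2.2 ^ min b W.2.1.length) hK
      (hu.length.congr fun a => by simp) hW p
      (hWs.of_le fun a => Nat.add_le_add_left (sz_nat_mono (hm a).spre_le) _)
      (hNB.le_trans fun a => Nat.mul_le_mul_right _ (hm a).spre_le)).congr fun a => ?_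
    refine arr_congr fun n _ => ?_
    simp only [length_un]
    exact Finset.sum_congr rfl fun b hb => by
      rw [min_eq_left (Finset.mem_range.1 hb).le]; rfl
  let f₀ : ∀ a, (Fin (d a) → ℕ) → GaussianInt := fun a y =>
    if ∀ b : Fin (d a), y b < s (par a) b then u a (∑ b : Fin (d a), y b * spre (s (par a)) b)
    else 0
  have hf₀ : ∀ a n, n < spre (s (par a)) (d a) →
      f₀ a (fun b => nd (s (par a)) n b) = u a n := by
    intro a n hn
    simp only [f₀]
    rw [if_pos fun b : Fin (d a) => (hm a).nd_lt n b.2,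
      Fin.sum_univ_eq_sum_range (fun b => nd (s (par a)) n b * spre (s (par a)) b), sum_nd,
      Nat.mod_eq_of_lt hn]
  have hf₁ : ∀ a (y : Fin (d a) → ℕ), (∃ b : Fin (d a), s (par a) b ≤ y b) → f₀ a y = 0 := by
    rintro a y ⟨b, hb⟩
    exact if_neg fun h => absurd (h b) (not_lt.2 hb)
  have h0 : CT cur x (fun a => tarr (d a) (2 ^ ℓ a) (f₀ a)) := by
    refine CT.scatter_aux 0 (hkey.arr_zip hu) hN
      (hNB.le_trans fun a => Nat.le_mul_of_pos_right _ (hsm.pos a))
      (fun a i j hij hj => (hm a).ckey_mono hij hj) (fun a i _ => (hm a).ckey_lt i)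
      (fun a i hi => ?_) (fun a j hj h => ?_)
    · rw [(hm a).digs_ckey, hf₀ a i hi]
    · refine if_neg fun H => ?_
      obtain ⟨n, hn, e⟩ := exists_ckey (s := s (par a)) hj fun b hb => H ⟨b, hb⟩
      exact h n hn e
  have hb₀ : ∀ a, ∀ y ∈ box (d a) (2 ^ ℓ a), ‖(f₀ a y : ℂ)‖ ≤ 2 ^ p a := by
    intro a y _
    by_cases H : ∀ b : Fin (d a), y b < s (par a) b
    · obtain ⟨n, hn, e⟩ := exists_nd (s := s (par a)) (d := d a)
        (fun b => if h : b < d a then y ⟨b, h⟩ else 0) fun b hb => by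
          rw [dif_pos hb]; exact H ⟨b, hb⟩
      have : y = fun b : Fin (d a) => nd (s (par a)) n b := funext fun b => by
        rw [e b b.2, dif_pos b.2]
      rw [this, hf₀ a n hn]
      exact hb a n hn
    · rw [hf₁ a y (by simpa using H)]; simp
  refine (ct_rotPass s hs (fun d i => d - 1 - i) (by fun_prop) (fun d i hi => by omega) true
    h0 hp hm hb₀ hsm hB).congr fun a => tarr_congr (by positivity) fun y _ => ?_
  by_cases H : ∃ n, n < spre (s (par a)) (d a) ∧ mi (s (par a)) (d a) n = y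
  · obtain ⟨n, hn, rfl⟩ := H
    have := allDims_down (hm a) (f₀ a) n (d a) le_rfl
    rw [Nat.sub_self, posn_zero] at this
    rw [(hm a).spread_mi _ hn, this, hf₀ a n hn]
  · rw [spread_of_not _ H]
    refine (rot_zero true _ 0 (hf₁ a) _ y ?_).symm
    by_contra H'
    exact H ((hm a).mi_surj fun b => not_le.1 fun hb => H' ⟨b, hb⟩)

theorem ct_collect (s : γ → ℕ → ℕ) (hs : PT (fun q : γ × ℕ => s q.1 q.2)) {d ℓ p : A → ℕ}
    {par : A → γ} {f : ∀ a, (Fin (d a) → ℕ) → GaussianInt}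
    (hf : CT cur x (fun a => tarr (d a) (2 ^ ℓ a) (f a)))
    (hp : CT cur x (fun a => (par a, d a, ℓ a, p a)))
    (hm : ∀ a, Moduli (s (par a)) (d a) (2 ^ ℓ a))
    (hb : ∀ a, ∀ y ∈ box (d a) (2 ^ ℓ a), ‖(f a y : ℂ)‖ ≤ 2 ^ p a)
    (hsm : Sm p (fun a => ℓ a * d a + ℓ a + d a + sz (par a)))
    (hB : Dom (fun a => (d a + 1) * 2 ^ (ℓ a * d a) * p a * pw τ₁ (ℓ a)) B) :
    CT cur x (fun a => arr (spre (s (par a)) (d a)) (fun n => f a (mi (s (par a)) (d a) n))) := by
  obtain ⟨hW, hN, hNB, hWs⟩ := ct_crtPar hp hsm hB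
  have h1 := ct_rotPass s hs (fun _ i => i) (by fun_prop) (fun d i hi => hi) false
    hf hp hm hb hsm hB
  have hS : PT (fun q : ((γ × List Unit × ℕ) × ℕ) × ℕ => s q.1.1.1 q.2) :=
    hs.comp (PT.id.fst.fst.fst.pair PT.id.snd)
  have hK : PT (fun q : (γ × List Unit × ℕ) × ℕ => decide (∀ b < q.1.2.1.length,
      q.2 / q.1.2.2 ^ min b q.1.2.1.length % q.1.2.2 < s q.1.1 b)) :=
    PT.decide_forall_lt (by fun_prop) (by fun_prop) (PT.decide_lt (by fun_prop) hS)
  have h2 : CT cur x (fun a => arr ((2 ^ ℓ a) ^ d a) (fun j =>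
      decide (∀ b < d a, j / (2 ^ ℓ a) ^ b % 2 ^ ℓ a < s (par a) b))) := by
    refine (CT.tabulate_pt (fun (W : γ × List Unit × ℕ) (j : ℕ) => decide (∀ b < W.2.1.length,
      j / W.2.2 ^ min b W.2.1.length % W.2.2 < s W.1 b)) hK hN hW p hWs hNB).congr fun a => ?_
    refine arr_congr fun j _ => ?_
    simp only [length_un]
    exact decide_eq_decide.2 (forall₂_congr fun b hb => by rw [min_eq_left hb.le])
  have h3 := ((h2.arr_zip h1).arr_map_lt (f := fun e : Bool × GaussianInt =>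
    cond e.1 (some e.2) none) (LT.intro fun _ h => h.fst.cond h.snd.some (CT.const _))).reduceOption
  refine h3.congr fun a => (reduceOption_arr (key := ckey (s (par a)) (d a) (2 ^ ℓ a))
    (fun i j hij hj => (hm a).ckey_mono hij hj) (fun i _ => (hm a).ckey_lt i)
    (fun i _ => ?_) (fun j hj h => ?_)).symm
  · have e := (hm a).digs_ckey i
    have e2 : ∀ b < d a, ckey (s (par a)) (d a) (2 ^ ℓ a) i / (2 ^ ℓ a) ^ b % 2 ^ ℓ a <
        s (par a) b := fun b hb => (congrFun e ⟨b, hb⟩).trans_lt ((hm a).nd_lt i hb)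
    have e3 := allDims_up (hm a) (f a) i (d a) le_rfl
    rw [posn_top] at e3
    simp only [decide_eq_true e2, cond_true, e, e3]
  · have e2 : ¬ ∀ b < d a, j / (2 ^ ℓ a) ^ b % 2 ^ ℓ a < s (par a) b := fun H => by
      obtain ⟨n, hn, e⟩ := exists_ckey (s := s (par a)) hj H
      exact h n hn e
    simp only [decide_eq_false e2, cond_false]

end Crest.Agent.R326
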