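import Crest.Agent.Lib.LT.Mul

/-!
Shared definitions for fast integer multiplication (row 326).
-/

set_option autoImplicit false

namespace Crest.Agent.R326

open Crest.Agent.Lib.PT Crest.Agent.Lib.LT Finset

/-- `⌈(e + 1) ^ τ⌉`. -/
noncomputable def pw (τ : ℝ) (e : ℕ) : ℕ := ⌈((e : ℝ) + 1) ^ τ⌉₊

/-- The exponent of the swap routine. -/
noncomputable def τ₁ : ℝ := 1 - 1 / 2 ^ 46

/-- The exponent of the butterfly routine. -/
noncomputable def τ₂ : ℝ := 1 - 1 / 2 ^ 47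

lemma pw_pos (τ : ℝ) (e : ℕ) : 0 < pw τ e := Nat.ceil_pos.2 (by positivity)

lemma pw_mono {τ : ℝ} (hτ : 0 ≤ τ) {e e' : ℕ} (h : e ≤ e') : pw τ e ≤ pw τ e' :=
  Nat.ceil_mono (Real.rpow_le_rpow (by positivity) (by exact_mod_cast Nat.succ_le_succ h) hτ)

/-- Exchange of the fields `x` and `y` in the address `(((p * Q + x) * U + u) * Q + y) * O + o`. -/
def swapIdx (Q U O i : ℕ) : ℕ :=
  (((i / (O * Q * U * Q) * Q + i / O % Q) * U + i / (O * Q) % U) * Q + i / (O * Q * U) % Q) * O +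
    i % O

/-! ### Gaussian integers modulo `M` and butterflies -/

/-- Gaussian integers modulo `M`. -/
abbrev KM (M : ℕ) : Type := QuadraticAlgebra (ZMod M) (-1) 0

/-- The representation of an element of `KM M`. -/
def kv {M : ℕ} (z : KM M) : ℕ × ℕ := (z.re.val, z.im.val)

/-- One half, for odd `M`. -/
def hf (M : ℕ) : ZMod M := ((M + 1) / 2 : ℕ)

/-- `(1 + i) / 2`. -/
def alp (M : ℕ) : KM M := ⟨hf M, hf M⟩

/-- `(1 - i) / 2`. -/
def bet (M : ℕ) : KM M := ⟨hf M, -hf M⟩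

/-- The butterfly on the address bit `pos`. -/
def bfly {M : ℕ} (pos : ℕ) (f : ℕ → KM M) (x : ℕ) : KM M :=
  alp M * f x + bet M * f (x ^^^ 2 ^ pos)

/-- The butterflies on the address bits `π₀ + ℓ * j`, `j < k`. -/
def gam {M : ℕ} (π₀ ℓ : ℕ) : ℕ → (ℕ → KM M) → ℕ → KM M
  | 0, f => f
  | k + 1, f => bfly (π₀ + ℓ * k) (gam π₀ ℓ k f)

/-! ### multi-dimensional arrays -/

/-- The digits of `n` in base `t`, least significant first. -/
def digs (d t n : ℕ) : Fin d → ℕ := fun j => n / t ^ (j : ℕ) % t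

/-- The multi-indices with all coordinates below `t`. -/
def box (d t : ℕ) : Finset (Fin d → ℕ) := Fintype.piFinset fun _ => range t

/-- A `d`-dimensional array of side `t`; coordinate `0` is the innermost one. -/
def tarr {α : Type} (d t : ℕ) (f : (Fin d → ℕ) → α) : List α :=
  arr (t ^ d) fun n => f (digs d t n)

/-- The tensor product of the `t × t` matrices `κ j` applied to an array. -/
def tens {R : Type} [CommSemiring R] {d : ℕ} (t : ℕ) (κ : Fin d → ℕ → ℕ → R)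
    (f : (Fin d → ℕ) → R) (x : Fin d → ℕ) : R :=
  ∑ y ∈ box d t, (∏ j, κ j (x j) (y j)) * f y

/-- Negacyclic convolution in every coordinate. -/
def nconv {R : Type} [CommRing R] {d : ℕ} (t : ℕ) (f g : (Fin d → ℕ) → R) (x : Fin d → ℕ) : R :=
  ∑ y ∈ box d t, (∏ j, if y j ≤ x j then (1 : R) else -1) *
    (f y * g fun j => (x j + t - y j) % t)

/-- Apply the map `ψ` to every line in direction `j`; `ψ` also sees the other coordinates. -/
def along {α : Type} {d : ℕ} (j : ℕ) (ψ : List ℕ → (ℕ → α) → ℕ → α) (f : (Fin d → ℕ) → α)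
    (x : Fin d → ℕ) : α :=
  if h : j < d then
    ψ (List.ofFn (Function.update x ⟨j, h⟩ 0)) (fun k => f (Function.update x ⟨j, h⟩ k)) (x ⟨j, h⟩)
  else f x

/-- Apply `ψ i` along the direction `dim i`, for `i = 0, 1, …` in turn. -/
def allDims {α : Type} {d : ℕ} (dim : ℕ → ℕ) (ψ : ℕ → List ℕ → (ℕ → α) → ℕ → α)
    (f : (Fin d → ℕ) → α) : ℕ → (Fin d → ℕ) → α
  | 0 => f
  | i + 1 => along (dim i) (ψ i) (allDims dim ψ f i)

/-- Apply the line map `φ i` along the direction `i`, for `i = 0, 1, …` in turn. -/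
def allLines {d : ℕ} (φ : ℕ → (ℕ → GaussianInt) → ℕ → GaussianInt)
    (f : (Fin d → ℕ) → GaussianInt) (i : ℕ) : (Fin d → ℕ) → GaussianInt :=
  allDims id (fun i _ => φ i) f i

/-- `φ` approximates the `t × t` matrix `M` (row sums at most `Λ`) within `ε` on vectors bounded
by `2 ^ p`. -/
def LApprox (t : ℕ) (φ : (ℕ → GaussianInt) → ℕ → GaussianInt) (M : ℕ → ℕ → ℂ) (Λ ε : ℝ) (p : ℕ) :
    Prop :=
  (∀ j, j < t → ∑ k ∈ range t, ‖M j k‖ ≤ Λ) ∧
    ∀ v : ℕ → GaussianInt, (∀ k, k < t → ‖(v k : ℂ)‖ ≤ 2 ^ p) →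
      ∀ j, j < t → ‖(φ v j : ℂ) - ∑ k ∈ range t, M j k * v k‖ ≤ ε

/-! ### resampling -/

/-- Parameters of the operations on one line. -/
structure RP : Type where
  /-- the long length -/
  t : ℕ
  /-- the short length -/
  s : ℕ
  /-- the width of the Gaussian -/
  g : ℕ
  /-- the dimension -/
  d : ℕ
  /-- the precision -/
  p : ℕ

instance : Enc RP := Enc.ofInj (fun r : RP => (r.t, r.s, r.g, r.d, r.p)) (by
  rintro ⟨_, _, _, _, _⟩ ⟨_, _, _, _, _⟩ h
  simp only [Prod.mk.injEq] at h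
  simp [h])

/-- Admissible parameters. -/
structure RP.Valid (r : RP) : Prop where
  even : Even r.t
  lt : r.s < r.t
  gap_lo : r.t ≤ 4 * r.d * (r.t - r.s)
  gap_hi : 2 * r.d * (r.t - r.s) ≤ r.t
  d_pos : 1 ≤ r.d
  p_lo : 2048 * r.d ^ 2 ≤ r.p
  g_lo : r.p ≤ 256 * r.d * r.g ^ 2
  g_hi : 4 * r.d * r.g ^ 2 ≤ r.p
  p_hi : 8 * r.p ≤ r.t

section RP
variable {α : Type} [Enc α] {r : α → RP}

lemma pt_rp (h : PT r) : PT (fun a => ((r a).t, (r a).s, (r a).g, (r a).d, (r a).p)) :=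
  h.of_enc fun _ => rfl
@[fun_prop] lemma PT.rp_t (h : PT r) : PT (fun a => (r a).t) := (pt_rp h).fst
@[fun_prop] lemma PT.rp_s (h : PT r) : PT (fun a => (r a).s) := (pt_rp h).snd.fst
@[fun_prop] lemma PT.rp_g (h : PT r) : PT (fun a => (r a).g) := (pt_rp h).snd.snd.fst
@[fun_prop] lemma PT.rp_d (h : PT r) : PT (fun a => (r a).d) := (pt_rp h).snd.snd.snd.fst
@[fun_prop] lemma PT.rp_p (h : PT r) : PT (fun a => (r a).p) := (pt_rp h).snd.snd.snd.snd
@[fun_prop] lemma PT.rp_mk {t s g d p : α → ℕ} (ht : PT t) (hs : PT s) (hg : PT g) (hd : PT d)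
    (hp : PT p) : PT (fun a => (⟨t a, s a, g a, d a, p a⟩ : RP)) :=
  (ht.pair (hs.pair (hg.pair (hd.pair hp)))).of_enc fun _ => rfl

variable {A : Type} {cur : A → P} {B : A → ℕ} {x : In B} {q : A → RP}

lemma ct_rp (h : CT cur x q) :
    CT cur x (fun a => ((q a).t, (q a).s, (q a).g, (q a).d, (q a).p)) := h.of_enc fun _ => rfl
@[fun_prop] lemma CT.rp_t (h : CT cur x q) : CT cur x (fun a => (q a).t) := (ct_rp h).fst
@[fun_prop] lemma CT.rp_s (h : CT cur x q) : CT cur x (fun a => (q a).s) := (ct_rp h).snd.fst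
@[fun_prop] lemma CT.rp_g (h : CT cur x q) : CT cur x (fun a => (q a).g) := (ct_rp h).snd.snd.fst
@[fun_prop] lemma CT.rp_d (h : CT cur x q) : CT cur x (fun a => (q a).d) :=
  (ct_rp h).snd.snd.snd.fst
@[fun_prop] lemma CT.rp_p (h : CT cur x q) : CT cur x (fun a => (q a).p) :=
  (ct_rp h).snd.snd.snd.snd

end RP

/-- The line map `φ r` is computed from a precomputed table at cost `t * p * w * μ`, where `μ` is
the cost per bit of multiplying numbers of `2 ^ 20 * p ^ 2` bits. -/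
def LineCT (φ : RP → (ℕ → GaussianInt) → ℕ → GaussianInt) (w : RP → ℕ) : Prop :=
  ∃ tab : RP → List (List GaussianInt),
    (∀ (A : Type) (cur : A → P) (B : A → ℕ) (x : In B) (r : A → RP) (s : A → ℕ),
      (∀ a, (r a).Valid) → CT cur x r → Sm s (fun a => (r a).p + sz (r a)) →
      Dom (fun a => (r a).t * s a) B → CT cur x (fun a => tab (r a))) ∧
    Dom (fun r : {r : RP // r.Valid} => sz (tab r.1)) (fun r => r.1.t * r.1.p * w r.1) ∧
    (∀ (A : Type) (cur : A → P) (B : A → ℕ) (x : In B) (r : A → RP) (v : A → ℕ → GaussianInt)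
      (N μ : A → ℕ), (∀ a, (r a).Valid) → (∀ a, MulOK (cur a) (N a) (μ a)) →
      (∀ a, 2 ^ 20 * (r a).p ^ 2 ≤ N a) → (∀ a k, k < (r a).t → ‖(v a k : ℂ)‖ ≤ 2 ^ (r a).p) →
      CT cur x r → CT cur x (fun a => tab (r a)) → CT cur x (fun a => arr (r a).t (v a)) →
      Dom (fun a => (r a).t * (r a).p * w (r a) * μ a) B →
      CT cur x (fun a => arr (r a).t (φ (r a) (v a))))

/-- `exp (2 π i x)`. -/
noncomputable def ee (x : ℝ) : ℂ := Complex.exp (2 * Real.pi * Complex.I * x)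

/-- The Gaussian resampling matrix from the grid of size `t` to the grid of size `s`. -/
noncomputable def Gm (r : RP) (j k : ℕ) : ℂ :=
  if j < r.s then
    ((1 / r.g * ∑' κ : ℤ, Real.exp (-Real.pi * ((r.t : ℝ) * j / r.s - k - κ * r.t) ^ 2 / r.g ^ 2)
      : ℝ) : ℂ)
  else 0

/-- The diagonal matrix of a chirp. -/
noncomputable def chirpM (e₁ e₂ : ℤ) (t j k : ℕ) : ℂ :=
  if j = k then ee ((e₁ * (k : ℝ) ^ 2 + e₂ * k) / (2 * t)) else 0

/-- The Fourier matrix of size `s`, padded with zeros. -/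
noncomputable def Fm (s j k : ℕ) : ℂ := if j < s ∧ k < s then ee (-((j : ℝ) * k / s)) else 0

/-! ### Chinese remaindering -/

/-- `s 0 * ⋯ * s (a - 1)`. -/
def spre (s : ℕ → ℕ) (a : ℕ) : ℕ := ∏ b ∈ range a, s b

/-- The coordinates of `n` under the isomorphism `ℤ / ∏ s a ≃ ∏ ℤ / s a` that is used. -/
def mi (s : ℕ → ℕ) (d n : ℕ) : Fin d → ℕ :=
  fun a => (((spre s a : ℕ) : ZMod (s a))⁻¹ * (n : ZMod (s a))).val

open Classical in
/-- A sequence of length `∏ s a` as a `d`-dimensional array, padded with zeros. -/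
noncomputable def spread (s : ℕ → ℕ) (d : ℕ) (u : ℕ → GaussianInt) (y : Fin d → ℕ) : GaussianInt :=
  if h : ∃ n, n < spre s d ∧ mi s d n = y then u h.choose else 0

/-- Cyclic convolution of length `S`. -/
def cyc {R : Type} [Semiring R] (S : ℕ) (u v : ℕ → R) (n : ℕ) : R :=
  ∑ i ∈ range S, u i * v ((n + S - i) % S)

end Crest.Agent.R326
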