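import Crest.Agent.R326.LineAErr

/-!
The line map before the long Fourier transform: Neumann iteration, division by the Gaussian,
padding.
-/

set_option autoImplicit false

namespace Crest.Agent.R326

open Crest.Agent.Lib.PT Crest.Agent.Lib.LT Finset

namespace LA

/-- The rows of aliasing coefficients. -/
noncomputable def rows (r : RP) : List (List GaussianInt) :=
  arr (512 * r.d + 1) fun k => arr r.s (ent r (un (r.p + 2)) k)

/-- The precomputed table. -/
noncomputable def tabA (r : RP) : List (List GaussianInt) :=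
  arr r.s (dent r (un (r.p + 2))) :: rows r

section pt
variable {α : Type} [Enc α]

@[fun_prop] lemma pt_cidx {s m : α → ℕ} (hs : PT s) (hm : PT m) :
    PT (fun a => cidx (s a) (m a)) := by
  unfold cidx; fun_prop

@[fun_prop] lemma pt_rho {r : α → RP} {k : α → ℕ} (hr : PT r) (hk : PT k) :
    PT (fun a => rho (r a) (k a)) := by
  unfold rho; fun_prop

@[fun_prop] lemma pt_idx {r : α → RP} {k : α → ℕ} (hr : PT r) (hk : PT k) :
    PT (fun a => idx (r a) (k a)) := by
  unfold idx; fun_prop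

@[fun_prop] lemma pt_qe {r : α → RP} {m : α → ℕ} {i : α → ℤ} (hr : PT r) (hm : PT m)
    (hi : PT i) : PT (fun a => qe (r a) (m a) (i a)) := by
  unfold qe; fun_prop

@[fun_prop] lemma pt_qd {r : α → RP} {m : α → ℕ} (hr : PT r) (hm : PT m) :
    PT (fun a => qd (r a) (m a)) := by
  unfold qd; fun_prop

lemma pt_ent {r : α → RP} {u : α → List Unit} {k m : α → ℕ} (hr : PT r) (hu : PT u) (hk : PT k)
    (hm : PT m) : PT (fun a => ent (r a) (u a) (k a) (m a)) := by
  unfold ent; fun_prop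

lemma pt_dent {r : α → RP} {u : α → List Unit} {m : α → ℕ} (hr : PT r) (hu : PT u)
    (hm : PT m) : PT (fun a => dent (r a) (u a) (m a)) := by
  unfold dent; fun_prop

end pt

lemma sz_rp (r : RP) : sz r = sz r.t + (sz r.s + (sz r.g + (sz r.d + sz r.p + 1) + 1) + 1) + 1 :=
  rfl

section valid
variable {r : RP} (hr : r.Valid)
include hr

lemma K_le : 512 * r.d + 1 ≤ r.p := by have := d_le hr; have := hr.d_pos; omega

lemma p_le : r.p ≤ r.t := by have := hr.p_hi; omega

lemma sz_rp_le : sz r ≤ 5 * sz r.t + 4 := by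
  have h1 := sz_nat_mono hr.lt.le
  have h2 : sz r.g ≤ sz r.t := sz_nat_mono (by
    have := g_sq_le hr; have := p_le hr; nlinarith)
  have h3 : sz r.d ≤ sz r.t := sz_nat_mono (by have := K_le hr; have := p_le hr; omega)
  have h4 := sz_nat_mono (p_le hr)
  rw [sz_rp]; omega

lemma t_le_tp : r.t ≤ r.t * r.p := Nat.le_mul_of_pos_right _ (by have := hr.p_pos; omega)

lemma sz_rp_le' : sz r ≤ 39 * (r.t * r.p) := by
  have := sz_rp_le hr
  have := sz_nat_le_self r.t
  have := hr.t_pos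
  have := t_le_tp hr
  omega

lemma sz_vec {f : ℕ → GaussianInt} (h : ∀ m, m < r.s → ‖(f m : ℂ)‖ ≤ 2 ^ (3 * r.p)) :
    sz (arr r.s f) ≤ 65 * (r.t * r.p) := by
  have h1 := sz_arr_le fun m hm => sz_gauss_le (h m hm)
  have h2 := hr.p_pos
  have h3 : r.s * (12 * (3 * r.p) + 27 + 1) ≤ r.t * (64 * r.p) :=
    Nat.mul_le_mul hr.lt.le (by omega)
  have h4 := t_le_tp hr
  have h5 := hr.t_pos
  nlinarith

lemma pow_le_three {c : ℝ} (h : c ≤ 2 ^ (r.p + 2)) : c ≤ 2 ^ (3 * r.p) :=
  h.trans (pow_le_pow_right₀ (by norm_num) (by have := hr.p_pos; omega))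

lemma pow_le_three' {c : ℝ} (h : c ≤ 2 ^ r.p) : c ≤ 2 ^ (3 * r.p) :=
  h.trans (pow_le_pow_right₀ (by norm_num) (by omega))

lemma sz_rows : sz (rows r) ≤ 40000 * (r.t * r.p * r.d) := by
  have h1 : sz (rows r) ≤ (512 * r.d + 1) * (65 * (r.t * r.p) + 1) + 1 :=
    sz_arr_le fun k _ => sz_vec hr fun m _ => pow_le_three hr (norm_ent_le hr k m)
  have h2 := t_le_tp hr
  have h3 := hr.t_pos
  have h4 := hr.d_pos
  generalize r.t * r.p = T at *
  have h5 : (512 * r.d + 1) * (65 * T + 1) ≤ (513 * r.d) * (66 * T) :=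
    Nat.mul_le_mul (by omega) (by omega)
  have h6 : 1 ≤ T * r.d := Nat.mul_pos (by omega) h4
  nlinarith

end valid

lemma arr_ins {r : RP} (h : r.s ≤ r.t) (y : ℕ → GaussianInt) :
    arr r.t (ins r y 0) = (arr r.s y).take ((r.s + 1) / 2) ++
      (List.replicate (r.t - r.s) 0 ++ (arr r.s y).drop ((r.s + 1) / 2)) := by
  have e1 : r.t = (r.s + 1) / 2 + ((r.t - r.s) + (r.s - (r.s + 1) / 2)) := by omega
  rw [take_arr, drop_arr, replicate_eq_arr, min_eq_left (by omega)]
  conv_lhs => rw [e1]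
  rw [arr_add, arr_add]
  congr 1
  · exact arr_congr fun i hi => if_pos hi
  congr 1
  · refine arr_congr fun i hi => ?_
    rw [ins, if_neg (by omega), if_pos (by omega)]
  · refine arr_congr fun i hi => ?_
    rw [ins, if_neg (by omega), if_neg (by omega)]
    congr 1
    omega

lemma sm_sz {A : Type} {B t : A → ℕ} (ht : ∀ a, 0 < t a) (hB : Dom t B) :
    Sm B (fun a => sz (t a)) :=
  ((((Sm.log t ht).const_mul 6).add_const 7).of_le fun a => by
    have := log2_eq_size_sub_one (t a)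
    rw [sz_nat]
    omega).mono hB

lemma sm_div {A : Type} {s n K : A → ℕ} (h : Sm s n) (h0 : ∀ a, 0 < K a) (hK : ∀ a, K a ≤ n a) :
    Sm (fun a => s a / K a + 1) n := fun k => by
  obtain ⟨c, hc⟩ := h (k + 1)
  refine ⟨c, fun a => Nat.le_of_mul_le_mul_left ?_ (h0 a)⟩
  have h1 := hc a
  have h2 : s a ≤ K a * (s a / K a + 1) := (Nat.lt_mul_div_succ _ (h0 a)).le
  calc K a * n a ^ k ≤ n a * n a ^ k := Nat.mul_le_mul_right _ (hK a)
    _ = n a ^ (k + 1) := by ring
    _ ≤ c * (K a * (s a / K a + 1)) := h1.trans (Nat.mul_le_mul_left _ h2)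
    _ = _ := by ring

section ct
variable {A : Type} {cur : A → P} {B : A → ℕ} {x : In B} {r : A → RP}

lemma sm_rp (hr : ∀ a, (r a).Valid) (hB : Dom (fun a => (r a).t) B) :
    Sm B (fun a => sz (r a)) :=
  (((sm_sz (fun a => (hr a).t_pos) hB).const_mul 5).add_const 4).of_le fun a => sz_rp_le (hr a)

theorem ct_tab (hr : ∀ a, (r a).Valid) (hc : CT cur x r) {s : A → ℕ}
    (hs : Sm s (fun a => (r a).p + sz (r a))) (hB : Dom (fun a => (r a).t * s a) B) :
    CT cur x (fun a => tabA (r a)) := by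
  have hsB : Dom s B := hB.le_trans fun a => Nat.le_mul_of_pos_left _ (hr a).t_pos
  have hsm := hs.mono hsB
  have hcs : CS cur x r := ⟨hc, hsm.of_le fun a => Nat.le_add_left _ _⟩
  have hu : CT cur x (fun a => un ((r a).p + 2)) :=
    ((CT.rp_p hc).add (CT.const 2)).un
      ((hsm.add_const 2).dom.le_trans fun a => by omega)
  have hp := hc.pair hu
  have hK0 : ∀ a, 0 < 512 * (r a).d + 1 := fun a => Nat.succ_pos _
  have hKn : ∀ a, 512 * (r a).d + 1 ≤ (r a).p + sz (r a) := fun a =>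
    (K_le (hr a)).trans (Nat.le_add_right _ _)
  have h1 := CT.tabulate_pt (fun (q : RP × List Unit) m => dent q.1 q.2 m)
    (pt_dent (by fun_prop) (by fun_prop) (by fun_prop)) (CT.rp_s hc) hp s
    (((hs.const_mul 2).add_const 6).of_le fun a => by
      have := sz_rp (r a)
      simp only [sz_pair, sz_un]; omega)
    (hB.le_trans fun a => Nat.mul_le_mul_right _ (hr a).lt.le)
  have hK : CT cur x (fun a => 512 * (r a).d + 1) := ((CT.rp_d hc).const_mul 512).add (CT.const 1)
  have hps : Dom (fun a => (r a).p) s := hs.dom.le_trans fun a => Nat.le_add_right _ _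
  have h2 := CT.tabulate_pt (N := fun a => (512 * (r a).d + 1) * (r a).s)
    (fun (q : RP × List Unit) i => ent q.1 q.2 (i / q.1.s) (i % q.1.s))
    (pt_ent (by fun_prop) (by fun_prop) (by fun_prop) (by fun_prop))
    (hcs.pt (fun r => (512 * r.d + 1) * r.s) (by fun_prop)).ct hp
    (fun a => s a / (512 * (r a).d + 1) + 1)
    ((((sm_div hs hK0 hKn).const_mul 8).add_const 7).of_le fun a => by
      have h1 := sz_rp (r a)
      have h2 := sz_mul_le (512 * (r a).d + 1) (r a).s
      have h3 := sz_nat_le_self (512 * (r a).d + 1)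
      have h4 := K_le (hr a)
      simp only [sz_pair, sz_un]; omega)
    ((((Dom.refl fun a => (r a).t).mul ((Dom.refl s).add hps)).trans hB).le_trans fun a => by
      have h1 : (512 * (r a).d + 1) * (s a / (512 * (r a).d + 1) + 1) ≤ s a + (r a).p := by
        have := Nat.mul_div_le (s a) (512 * (r a).d + 1)
        have := K_le (hr a)
        rw [mul_add_one]; omega
      calc _ = (r a).s * ((512 * (r a).d + 1) * (s a / (512 * (r a).d + 1) + 1)) := by ring
        _ ≤ _ := Nat.mul_le_mul (hr a).lt.le h1)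
  have h3 := CT.arr_chunks hK (CT.rp_s hc)
    (((((Dom.refl fun a => (r a).t).mul hps).trans hB).const_mul 2).le_trans fun a => by
      have := K_le (hr a)
      have := (hr a).lt
      calc _ ≤ (2 * (r a).p) * (r a).t := Nat.mul_le_mul (by omega) (by omega)
        _ = _ := by ring) h2
  refine (h1.cons h3).congr fun a => ?_
  unfold tabA rows
  congr 1
  refine arr_congr fun k _ => arr_congr fun m hm => ?_
  rw [add_comm (k * _), Nat.add_mul_div_right _ _ (hr a).s_pos, Nat.div_eq_of_lt hm, zero_add,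
    Nat.add_mul_mod_self_right, Nat.mod_eq_of_lt hm]

variable {N μ : A → ℕ}

theorem ct_fmul (hr : ∀ a, (r a).Valid) (hM : ∀ a, MulOK (cur a) (N a) (μ a))
    (hN : ∀ a, 2 ^ 20 * (r a).p ^ 2 ≤ N a) (hc : CT cur x r) {u v : A → ℕ → GaussianInt}
    (hu : CT cur x (fun a => arr (r a).s (u a))) (hv : CT cur x (fun a => arr (r a).s (v a)))
    (h₁ : ∀ a m, m < (r a).s → ‖(u a m : ℂ)‖ ≤ 2 ^ (3 * (r a).p))
    (h₂ : ∀ a m, m < (r a).s → ‖(v a m : ℂ)‖ ≤ 2 ^ (3 * (r a).p))
    (hB : Dom (fun a => (r a).t * (r a).p * μ a) B) :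
    CT cur x (fun a => arr (r a).s (fun m => fmul ((r a).p + 2) (u a m) (v a m))) :=
  CT.arr_fmul hM (fun a => 3 * (r a).p) hu hv ((CT.rp_p hc).add (CT.const 2))
    (fun a => by have := (hr a).p_pos; omega)
    (fun a => by have := (hr a).p_pos; have := hN a; nlinarith) h₁ h₂
    ((hB.const_mul 4).le_trans fun a => by
      have := (hr a).p_pos
      calc _ ≤ (r a).t * ((4 * (r a).p) * μ a) :=
            Nat.mul_le_mul (hr a).lt.le (Nat.mul_le_mul_right _ (by omega))
        _ = _ := by ring)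

theorem ct_acc (hr : ∀ a, (r a).Valid) (hM : ∀ a, MulOK (cur a) (N a) (μ a))
    (hN : ∀ a, 2 ^ 20 * (r a).p ^ 2 ≤ N a) (hc : CT cur x r)
    (hrows : CT cur x (fun a => rows (r a))) {u v : A → ℕ → GaussianInt}
    (hu : CT cur x (fun a => arr (r a).s (u a))) (hv : CT cur x (fun a => arr (r a).s (v a)))
    (h₁ : ∀ a m, m < (r a).s → ‖(u a m : ℂ)‖ ≤ 2 ^ (r a).p)
    (h₂ : ∀ a m, m < (r a).s → ‖(v a m : ℂ)‖ ≤ 2 ^ ((r a).p + 2))
    (hB : Dom (fun a => (r a).t * (r a).p * (r a).d * μ a) B) :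
    CT cur x (fun a => arr (r a).s (accA (r a) (u a) (v a) (512 * (r a).d + 1))) := by
  have hle : ∀ a, (r a).t * (r a).p ≤ (r a).t * (r a).p * μ a := fun a =>
    Nat.le_mul_of_pos_right _ (hM a).pos
  refine (CT.scan (N := fun a => 512 * (r a).d + 1)
    (el := fun a k => arr (r a).s (ent (r a) (un ((r a).p + 2)) k))
    (st := fun a k => (arr (r a).s (accA (r a) (u a) (v a) k), arr (r a).s (v a), r a, k))
    (out := fun _ _ => ()) hrows (hu.pair (hv.pair (hc.pair (CT.const 0))))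
    (fun a _ => (r a).t * (r a).p * μ a) ⟨250, fun q => ?_⟩ (fun x' e₁ e₂ => ?_)
    ((hB.const_mul 513).le_trans fun a => ?_)).snd.fst
  · have a1 := sz_vec (hr q.a) fun m _ => pow_le_three (hr q.a) (norm_ent_le (hr q.a) q.i m)
    have a2 := sz_vec (hr q.a) (f := accA (r q.a) (u q.a) (v q.a) q.i) fun m hm =>
      pow_le_three (hr q.a) (norm_acc_le (hr q.a) (h₁ q.a m hm) (h₂ q.a) q.lt.le)
    have a3 := sz_vec (hr q.a) fun m hm => pow_le_three (hr q.a) (h₂ q.a m hm)
    have a4 := sz_rp_le' (hr q.a)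
    have a5 := sz_nat_le_self q.i
    have a6 := q.lt
    have a7 := K_le (hr q.a)
    have a8 := p_le (hr q.a)
    have a9 := t_le_tp (hr q.a)
    have a10 := hle q.a
    simp only [sz_pair]
    omega
  · have htB : Dom (fun q : Ix (fun a => 512 * (r a).d + 1) => (r q.a).t)
        (fun q => (r q.a).t * (r q.a).p * μ q.a) :=
      Dom.of_le fun q => (t_le_tp (hr q.a)).trans (hle q.a)
    have hrho : CT (fun q => cur q.a) x' (fun q => rho (r q.a) q.i) :=
      e₂.snd.snd.pt (f := fun q : RP × ℕ => rho q.1 q.2) (by fun_prop)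
        ((((sm_rp (fun q => hr q.a) htB).add
          (sm_sz (fun q => (hr q.a).t_pos) htB)).add_const 1).of_le fun q => by
          have : sz q.i ≤ sz (r q.a).t := sz_nat_mono (by
            have := q.lt; have := K_le (hr q.a); have := p_le (hr q.a); omega)
          simp only [sz_pair]; omega)
    have hrot := CT.arr_rotate hrho (fun q => (rho_lt (hr q.a) q.i).le) e₂.snd.fst
    have hmul := ct_fmul (x := x') (N := fun q => N q.a) (μ := fun q => μ q.a) (fun q => hr q.a)
      (fun q => hM q.a) (fun q => hN q.a) e₂.snd.snd.fst hrot e₁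
      (fun q m _ => pow_le_three (hr q.a) (h₂ q.a _ (Nat.mod_lt _ (hr q.a).s_pos)))
      (fun q m _ => pow_le_three (hr q.a) (norm_ent_le (hr q.a) q.i m)) (Dom.refl _)
    have hsub := (e₂.fst.arr_zip hmul).arr_map_lt
      (f := fun p : GaussianInt × GaussianInt => p.1 - p.2) (LT.intro fun _ h => h.fst.gsub h.snd)
    exact (CT.const ()).pair (hsub.pair (e₂.snd.fst.pair (e₂.snd.snd.fst.pair
      (e₂.snd.snd.snd.add (CT.const 1)))))
  · have := (hr a).d_pos
    rw [Finset.sum_const, Finset.card_range, smul_eq_mul]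
    calc _ ≤ (513 * (r a).d) * ((r a).t * (r a).p * μ a) := Nat.mul_le_mul_right _ (by omega)
      _ = _ := by ring

theorem ct_phi (hr : ∀ a, (r a).Valid) (hM : ∀ a, MulOK (cur a) (N a) (μ a))
    (hN : ∀ a, 2 ^ 20 * (r a).p ^ 2 ≤ N a) {v : A → ℕ → GaussianInt}
    (h₁ : ∀ a k, k < (r a).t → ‖(v a k : ℂ)‖ ≤ 2 ^ (r a).p) (hc : CT cur x r)
    (htab : CT cur x (fun a => tabA (r a))) (hv : CT cur x (fun a => arr (r a).t (v a)))
    (hB : Dom (fun a => (r a).t * (r a).p * (r a).d ^ 3 * μ a) B) :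
    CT cur x (fun a => arr (r a).t (phiA (r a) (v a))) := by
  have hd1 : ∀ a, 1 ≤ (r a).d ^ 3 := fun a => Nat.one_le_pow _ _ (hr a).d_pos
  have hB₁ : Dom (fun a => (r a).t * (r a).p * μ a) B :=
    hB.le_trans fun a => Nat.mul_le_mul_right _ (Nat.le_mul_of_pos_right _ (hd1 a))
  have htB : Dom (fun a => (r a).t) B := hB₁.le_trans fun a =>
    (t_le_tp (hr a)).trans (Nat.le_mul_of_pos_right _ (hM a).pos)
  have hcs : CS cur x r := ⟨hc, sm_rp hr htB⟩
  have h₂ : ∀ a m, m < (r a).s → ‖(v a m : ℂ)‖ ≤ 2 ^ (r a).p := fun a m hm =>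
    h₁ a m (hm.trans (hr a).lt)
  have hu : CT cur x (fun a => arr (r a).s (v a)) :=
    (CT.take (CT.rp_s hc) (htB.le_trans fun a => (hr a).lt.le) hv).congr fun a => by
      rw [take_arr, min_eq_left (hr a).lt.le]
  have hrows : CT cur x (fun a => rows (r a)) := htab.tail
  have hdt : CT cur x (fun a => arr (r a).s (dent (r a) (un ((r a).p + 2)))) := htab.head_of_cons
  have hit : CT cur x (fun a => arr (r a).s (itA (r a) (v a) (1024 * (r a).d ^ 2))) := by
    refine CT.for (N := fun a => 1024 * (r a).d ^ 2)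
      (st := fun a n => arr (r a).s (itA (r a) (v a) n))
      (par := fun a => (r a, rows (r a), arr (r a).s (v a)))
      (hcs.pt (fun r => 1024 * r.d ^ 2) (by fun_prop)).ct (hc.pair (hrows.pair hu)) hu
      (fun a _ => (r a).t * (r a).p * (r a).d * μ a) ⟨41000, fun q => ?_⟩
      (fun x' e₁ e₂ _ => ?_) ((hB.const_mul 1024).le_trans fun a => ?_)
    · have a1 := sz_rows (hr q.a)
      have a2 := sz_vec (hr q.a) fun m hm => pow_le_three (hr q.a)
        (norm_it_le (hr q.a) (h₂ q.a) q.i m hm)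
      have a3 := sz_vec (hr q.a) fun m hm => pow_le_three' (hr q.a) (h₂ q.a m hm)
      have a4 := sz_rp_le' (hr q.a)
      have a5 := sz_nat_le_self q.i
      have a6 := q.lt
      have a7 := (hr q.a).p_lo
      have a8 := p_le (hr q.a)
      have a9 := t_le_tp (hr q.a)
      have a10 : (r q.a).t * (r q.a).p ≤ (r q.a).t * (r q.a).p * (r q.a).d :=
        Nat.le_mul_of_pos_right _ (hr q.a).d_pos
      have a11 : (r q.a).t * (r q.a).p * (r q.a).d ≤ (r q.a).t * (r q.a).p * (r q.a).d * μ q.a :=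
        Nat.le_mul_of_pos_right _ (hM q.a).pos
      simp only [sz_pair]
      omega
    · exact ct_acc (x := x') (N := fun q => N q.a) (μ := fun q => μ q.a) (fun q => hr q.a)
        (fun q => hM q.a) (fun q => hN q.a) e₂.fst e₂.snd.fst e₂.snd.snd e₁ (fun q => h₂ q.a)
        (fun q => norm_it_le (hr q.a) (h₂ q.a) q.i) (Dom.refl _)
    · rw [Finset.sum_const, Finset.card_range, smul_eq_mul]
      exact le_of_eq (by ring)
  have hout : CT cur x (fun a => arr (r a).s (outA (r a) (v a))) :=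
    ct_fmul hr hM hN hc hit hdt
      (fun a m hm => pow_le_three (hr a) (norm_it_le (hr a) (h₂ a) _ m hm))
      (fun a m hm => norm_dent_le (hr a) hm) hB₁
  have hh : CT cur x (fun a => ((r a).s + 1) / 2) :=
    (hcs.pt (fun r => (r.s + 1) / 2) (by fun_prop)).ct
  have hhB : Dom (fun a => ((r a).s + 1) / 2) B :=
    htB.le_trans fun a => by have := (hr a).lt; omega
  refine ((CT.take hh hhB hout).append ((CT.replicate ((CT.rp_t hc).sub (CT.rp_s hc))
    (CT.const (0 : GaussianInt)) ((htB.mul_const (sz (0 : GaussianInt))).le_trans fun a =>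
      Nat.mul_le_mul_right _ (Nat.sub_le _ _))).append (CT.drop hh hhB hout))).congr fun a => ?_
  exact arr_ins (hr a).lt.le _

end ct

end LA

theorem line_A : ∃ (φ : RP → (ℕ → GaussianInt) → ℕ → GaussianInt) (M : RP → ℕ → ℕ → ℂ),
    (∀ r : RP, r.Valid → LApprox r.t (φ r) (M r) (2 ^ (2 * r.g ^ 2)) (2 ^ (2 * r.g ^ 2) * r.p) r.p ∧
      ∀ j m, j < r.t → m < r.t →
        ∑ k ∈ range r.t, Gm r j k * ∑ k' ∈ range r.t, Fm r.t k k' * M r k' m = Fm r.s j m) ∧
    LineCT φ (fun r => r.d ^ 3) := by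
  have h : ∀ r : RP, ∃ M : ℕ → ℕ → ℂ, r.Valid →
      LApprox r.t (LA.phiA r) M (2 ^ (2 * r.g ^ 2)) (2 ^ (2 * r.g ^ 2) * r.p) r.p ∧
      ∀ j m, j < r.t → m < r.t →
        ∑ k ∈ range r.t, Gm r j k * ∑ k' ∈ range r.t, Fm r.t k k' * M k' m = Fm r.s j m := by
    intro r
    by_cases hr : r.Valid
    · obtain ⟨M, hM⟩ := LA.approx hr
      exact ⟨M, fun _ => hM⟩
    · exact ⟨0, fun h => absurd h hr⟩
  choose M hM using h
  refine ⟨LA.phiA, M, hM, LA.tabA, fun A cur B x r s hr hc hs hB => LA.ct_tab hr hc hs hB,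
    ⟨41000, fun r => ?_⟩,
    fun A cur B x r v N μ hr hM hN hv hc htab hv' hB => LA.ct_phi hr hM hN hv hc htab hv' hB⟩
  have a1 := LA.sz_rows r.2
  have a2 := LA.sz_vec r.2 (f := LA.dent r.1 (un (r.1.p + 2))) fun m hm => LA.norm_dent_le r.2 hm
  have a3 := LA.t_le_tp r.2
  have a4 := r.2.t_pos
  have a5 : r.1.t * r.1.p ≤ r.1.t * r.1.p * r.1.d := Nat.le_mul_of_pos_right _ r.2.d_pos
  have a6 : r.1.t * r.1.p * r.1.d ≤ r.1.t * r.1.p * r.1.d ^ 3 :=
    Nat.mul_le_mul_left _ (Nat.le_self_pow (by norm_num) _)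
  simp only [LA.tabA, sz_cons]
  omega

end Crest.Agent.R326
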