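import Crest.Agent.R326.Defs

/-!
Polynomial-time approximation of `exp (π (q₁ + i q₂))`, tables, and chirps.
-/

set_option autoImplicit false

namespace Crest.Agent.R326

open Crest.Agent.Lib.PT Crest.Agent.Lib.LT

/-- Partial sums of the arctangent series. -/
def epAtan (x : ℚ) (n : ℕ) : ℚ :=
  ∑ k ∈ Finset.range n, (-1) ^ min k n * x ^ (2 * min k n + 1) / ((2 * k + 1 : ℕ) : ℚ)

/-- A rational approximation of `π`. -/
def epPi (n : ℕ) : ℚ := 4 * (epAtan 2⁻¹ n + epAtan 3⁻¹ n)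

/-- Real part of `i ^ l`. -/
def epC (l : ℕ) : ℚ := if l % 4 = 0 then 1 else if l % 4 = 2 then -1 else 0

/-- Imaginary part of `i ^ l`. -/
def epS (l : ℕ) : ℚ := if l % 4 = 1 then 1 else if l % 4 = 3 then -1 else 0

/-- Weighted partial sums of the exponential series. -/
def epT (c : ℕ → ℚ) (x : ℚ) (n : ℕ) : ℚ :=
  ∑ l ∈ Finset.range n, c l * (x ^ min l n / ((min l n).factorial : ℚ))

/-- The approximation with `n` terms. -/
def epEx (q₁ q₂ : ℚ) (P n : ℕ) : GaussianInt :=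
  ⟨⌊2 ^ P * (epT (fun _ => 1) (epPi n * q₁) n * epT epC (epPi n * q₂) n) + 1 / 2⌋,
    ⌊2 ^ P * (epT (fun _ => 1) (epPi n * q₁) n * epT epS (epPi n * q₂) n) + 1 / 2⌋⟩

section pt
variable {α : Type} [Enc α]

lemma pt_epAtan (x : ℚ) {n : α → ℕ} (hn : PT n) (hb : PB n) : PT fun a => epAtan x (n a) := by
  have hb' : PB fun p : α × ℕ => min p.2 (n p.1) := PB.min_right _ (hb.comp (by fun_prop))
  have hn' : PT fun p : α × ℕ => min p.2 (n p.1) := by fun_prop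
  refine PT.rat_sum_range hn hb (PT.ratDiv (PT.ratMul (PT.ratPow (PT.const _) hn' hb')
    (PT.ratPow (PT.const _) (by fun_prop) (((PB.const 2).mul hb').add (PB.const 1)))) ?_)
  fun_prop

lemma pt_epPi {n : α → ℕ} (hn : PT n) (hb : PB n) : PT fun a => epPi (n a) :=
  (PT.const 4).ratMul ((pt_epAtan _ hn hb).ratAdd (pt_epAtan _ hn hb))

lemma pt_epT {c : ℕ → ℚ} (hc : PT c) {x : α → ℚ} (hx : PT x) {n : α → ℕ} (hn : PT n) (hb : PB n) :
    PT fun a => epT c (x a) (n a) := by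
  have hb' : PB fun p : α × ℕ => min p.2 (n p.1) := PB.min_right _ (hb.comp (by fun_prop))
  have hn' : PT fun p : α × ℕ => min p.2 (n p.1) := by fun_prop
  exact PT.rat_sum_range hn hb (PT.ratMul (hc.comp (by fun_prop))
    (PT.ratDiv (PT.ratPow (hx.comp (by fun_prop)) hn' hb') (hn'.factorial hb').ratNatCast))

lemma pt_epC : PT epC := by unfold epC; fun_prop

lemma pt_epS : PT epS := by unfold epS; fun_prop

lemma pt_epEx {q₁ q₂ : α → ℚ} (h₁ : PT q₁) (h₂ : PT q₂) {P n : α → ℕ} (hP : PT P) (hPb : PB P)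
    (hn : PT n) (hb : PB n) : PT fun a => epEx (q₁ a) (q₂ a) (P a) (n a) := by
  have e := pt_epT (c := fun _ => 1) (PT.const _) ((pt_epPi hn hb).ratMul h₁) hn hb
  have c := pt_epT pt_epC ((pt_epPi hn hb).ratMul h₂) hn hb
  have s := pt_epT pt_epS ((pt_epPi hn hb).ratMul h₂) hn hb
  have p := PT.ratPow (PT.const (2 : ℚ)) hP hPb
  exact PT.gmk ((p.ratMul (e.ratMul c)).ratAdd (PT.const _)).ratFloor
    ((p.ratMul (e.ratMul s)).ratAdd (PT.const _)).ratFloor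

end pt

lemma epAtan_spec {x : ℚ} (h0 : 0 ≤ x) (h1 : x ≤ 2⁻¹) (n : ℕ) :
    |(epAtan x n : ℝ) - Real.arctan x| ≤ 1 / 2 ^ n := by
  have h0' : (0 : ℝ) ≤ x := by exact_mod_cast h0
  have h1' : (x : ℝ) ≤ 2⁻¹ := by
    have : ((x : ℚ) : ℝ) ≤ ((2⁻¹ : ℚ) : ℝ) := by exact_mod_cast h1
    simpa using this
  have hs := Real.hasSum_arctan (x := x) (by rw [Real.norm_eq_abs, abs_of_nonneg h0']; linarith)
  have h := norm_sub_le_of_geometric_bound_of_hasSum (r := 2⁻¹) (C := 2⁻¹) (by norm_num)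
    (fun k => ?_) hs n
  · have e : (epAtan x n : ℝ) =
        ∑ k ∈ Finset.range n, (-1) ^ k * (x : ℝ) ^ (2 * k + 1) / ((2 * k + 1 : ℕ) : ℝ) := by
      unfold epAtan
      push_cast
      refine Finset.sum_congr rfl fun k hk => ?_
      rw [min_eq_left (Finset.mem_range.1 hk).le]
    rw [e]
    refine h.trans (le_of_eq ?_)
    rw [inv_pow]; field_simp; norm_num
  · rw [norm_div, norm_mul, norm_pow, norm_pow, norm_neg, norm_one, one_pow, one_mul,
      Real.norm_eq_abs, abs_of_nonneg h0', Real.norm_natCast]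
    refine (div_le_self (by positivity) (by exact_mod_cast Nat.le_add_left 1 _)).trans ?_
    calc (x : ℝ) ^ (2 * k + 1) ≤ 2⁻¹ ^ (2 * k + 1) := pow_le_pow_left₀ h0' h1' _
      _ ≤ 2⁻¹ ^ (k + 1) := pow_le_pow_of_le_one (by norm_num) (by norm_num) (by omega)
      _ = _ := by ring

lemma epPi_spec (n : ℕ) : |(epPi n : ℝ) - Real.pi| ≤ 8 / 2 ^ n := by
  have h1 := abs_le.1 (epAtan_spec (x := 2⁻¹) (by norm_num) le_rfl n)
  have h2 := abs_le.1 (epAtan_spec (x := 3⁻¹) (by norm_num) (by norm_num) n)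
  have h3 := Real.arctan_inv_2_add_arctan_inv_3
  simp only [Rat.cast_inv, Rat.cast_ofNat] at h1 h2
  have e : (8 : ℝ) / 2 ^ n = 8 * (1 / 2 ^ n) := by ring
  unfold epPi
  push_cast
  rw [e, abs_le]
  constructor <;> linarith [h1.1, h1.2, h2.1, h2.2]

lemma ep_exp_le (m : ℕ) : Real.exp m ≤ 2 ^ (2 * m) := by
  rw [pow_mul, ← Real.exp_one_pow]
  exact pow_le_pow_left₀ (Real.exp_pos _).le (by linarith [Real.exp_one_lt_d9]) _

lemma ep_taylor {x : ℂ} {P n : ℕ} (hx : ‖x‖ ≤ 4 * P) (hn : 8 * P ≤ n) :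
    ‖Complex.exp x - ∑ m ∈ Finset.range n, x ^ m / m.factorial‖ ≤ 2 * 2 ^ (16 * P) / 2 ^ n := by
  have hn' : (8 * P : ℝ) ≤ n := by exact_mod_cast hn
  refine (Complex.exp_bound' ?_).trans ?_
  · rw [div_le_iff₀ (by positivity)]; push_cast; linarith
  · have h1 := Real.pow_div_factorial_le_exp (2 * ‖x‖) (by positivity) n
    have h2 : Real.exp (2 * ‖x‖) ≤ 2 ^ (16 * P) := by
      have := ep_exp_le (8 * P)
      rw [show 2 * (8 * P) = 16 * P by ring] at this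
      refine le_trans (Real.exp_le_exp.2 ?_) this
      push_cast; linarith
    rw [le_div_iff₀ (by positivity)]
    have e : ‖x‖ ^ n / n.factorial * 2 * 2 ^ n = 2 * ((2 * ‖x‖) ^ n / n.factorial) := by
      rw [mul_pow]; ring
    rw [e]
    linarith

lemma ep_I_pow (l : ℕ) : Complex.I ^ l = epC l + epS l * Complex.I := by
  rw [Complex.I_pow_eq_pow_mod]
  unfold epC epS
  have : l % 4 < 4 := Nat.mod_lt _ (by norm_num)
  interval_cases l % 4 <;> simp [pow_succ]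

lemma epT_one (x : ℚ) (n : ℕ) :
    (epT (fun _ => 1) x n : ℂ) = ∑ m ∈ Finset.range n, (x : ℂ) ^ m / m.factorial := by
  unfold epT
  push_cast
  refine Finset.sum_congr rfl fun k hk => ?_
  rw [min_eq_left (Finset.mem_range.1 hk).le, one_mul]

lemma epT_CS (x : ℚ) (n : ℕ) : (epT epC x n : ℂ) + epT epS x n * Complex.I =
    ∑ m ∈ Finset.range n, ((x : ℂ) * Complex.I) ^ m / m.factorial := by
  unfold epT
  push_cast
  rw [Finset.sum_mul, ← Finset.sum_add_distrib]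
  refine Finset.sum_congr rfl fun k hk => ?_
  rw [min_eq_left (Finset.mem_range.1 hk).le, mul_pow, ep_I_pow]
  ring

lemma ep_round (a b : ℚ) :
    ‖((⟨⌊a + 1 / 2⌋, ⌊b + 1 / 2⌋⟩ : GaussianInt) : ℂ) - (a + b * Complex.I)‖ ≤ 3 / 4 := by
  have key : ∀ a : ℚ, ((⌊a + 1 / 2⌋ : ℝ) - a) ^ 2 ≤ 1 / 4 := fun a => by
    have h1 : ((⌊a + 1 / 2⌋ : ℚ) : ℝ) ≤ ((a + 1 / 2 : ℚ) : ℝ) := by
      exact_mod_cast Int.floor_le (a + 1 / 2)
    have h2 : ((a + 1 / 2 : ℚ) : ℝ) < ((⌊a + 1 / 2⌋ + 1 : ℚ) : ℝ) := by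
      exact_mod_cast Int.lt_floor_add_one (a + 1 / 2)
    push_cast at h1 h2
    nlinarith
  have e : ((⟨⌊a + 1 / 2⌋, ⌊b + 1 / 2⌋⟩ : GaussianInt) : ℂ) - (a + b * Complex.I) =
      (((⌊a + 1 / 2⌋ : ℝ) - a : ℝ) : ℂ) + (((⌊b + 1 / 2⌋ : ℝ) - b : ℝ) : ℂ) * Complex.I := by
    rw [GaussianInt.toComplex_def']; push_cast; ring
  rw [e, Complex.norm_add_mul_I]
  refine Real.sqrt_le_iff.2 ⟨by norm_num, ?_⟩
  linarith [key a, key b]

lemma epEx_spec (q₁ q₂ : ℚ) (P : ℕ) (h₁ : |q₁| ≤ P) (h₂ : |q₂| ≤ P) :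
    ‖(epEx q₁ q₂ P (40 * P + 10) : ℂ) -
      2 ^ P * Complex.exp (Real.pi * (q₁ + q₂ * Complex.I))‖ ≤ 1 := by
  set n := 40 * P + 10 with hn
  have h₁' : |(q₁ : ℝ)| ≤ P := by exact_mod_cast h₁
  have h₂' : |(q₂ : ℝ)| ≤ P := by exact_mod_cast h₂
  set K : ℝ := 2 ^ P with hK
  have hK1 : 1 ≤ K := one_le_pow₀ (by norm_num)
  have hPK : (P : ℝ) ≤ K := by rw [hK]; exact_mod_cast (Nat.lt_two_pow_self (n := P)).le
  have h2n : (2 : ℝ) ^ n = 1024 * K ^ 40 := by rw [hn, hK, ← pow_mul]; ring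
  have hpi := epPi_spec n
  rw [h2n] at hpi
  have hKp : ∀ i j : ℕ, i ≤ j → K ^ i ≤ K ^ j := fun i j h => pow_le_pow_right₀ hK1 h
  have hK40 : 1 ≤ K ^ 40 := one_le_pow₀ hK1
  have hpi4 : |(epPi n : ℝ)| ≤ 4 := by
    have : 8 / (1024 * K ^ 40) ≤ 1 / 2 := by
      rw [div_le_iff₀ (by positivity)]; linarith
    have h := abs_le.1 hpi
    rw [abs_le]
    constructor <;> linarith [Real.pi_pos, Real.pi_lt_d2, h.1, h.2]
  have ha : ‖((epPi n * q₁ : ℚ) : ℂ)‖ ≤ 4 * P := by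
    rw [Complex.norm_ratCast]; push_cast; rw [abs_mul]
    exact mul_le_mul hpi4 h₁' (abs_nonneg _) (by norm_num)
  have hb : ‖((epPi n * q₂ : ℚ) : ℂ) * Complex.I‖ ≤ 4 * P := by
    rw [norm_mul, Complex.norm_I, mul_one, Complex.norm_ratCast]; push_cast; rw [abs_mul]
    exact mul_le_mul hpi4 h₂' (abs_nonneg _) (by norm_num)
  have t1 := ep_taylor ha (n := n) (by omega)
  have t2 := ep_taylor hb (n := n) (by omega)
  rw [← epT_one] at t1
  rw [← epT_CS] at t2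
  have hδ : (2 : ℝ) * 2 ^ (16 * P) / 2 ^ n = 1 / (512 * K ^ 24) := by
    rw [h2n, mul_comm 16 P, pow_mul, ← hK]; field_simp; norm_num
  rw [hδ] at t1 t2
  set E : ℂ := ((epT (fun _ => 1) (epPi n * q₁) n : ℚ) : ℂ) with hE
  set F : ℂ := epT epC (epPi n * q₂) n + epT epS (epPi n * q₂) n * Complex.I with hF
  set a : ℂ := ((epPi n * q₁ : ℚ) : ℂ) with ha'
  set b : ℂ := ((epPi n * q₂ : ℚ) : ℂ) * Complex.I with hb'
  have he4 : Real.exp (4 * P) ≤ K ^ 8 := by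
    have := ep_exp_le (4 * P)
    rw [show 2 * (4 * P) = P * 8 by ring, pow_mul, ← hK] at this
    push_cast at this
    exact this
  have hea : ‖Complex.exp a‖ ≤ K ^ 8 :=
    (Complex.norm_exp_le_exp_norm a).trans ((Real.exp_le_exp.2 ha).trans he4)
  have heb : ‖Complex.exp b‖ = 1 := by
    rw [hb', show ((epPi n * q₂ : ℚ) : ℂ) = (((epPi n * q₂ : ℚ) : ℝ) : ℂ) by simp]
    exact Complex.norm_exp_ofReal_mul_I _
  have hK24 : 1 ≤ K ^ 24 := one_le_pow₀ hK1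
  have hδ1 : 1 / (512 * K ^ 24) ≤ 1 := by rw [div_le_one (by positivity)]; linarith
  have hFn : ‖F‖ ≤ 2 := by
    have := norm_sub_norm_le F (Complex.exp b)
    rw [norm_sub_rev] at this
    linarith
  have s1 : ‖E * F - Complex.exp (a + b)‖ ≤ 3 * K ^ 8 / (512 * K ^ 24) := by
    have e : E * F - Complex.exp (a + b) =
        -((Complex.exp a - E) * F + Complex.exp a * (Complex.exp b - F)) := by
      rw [Complex.exp_add]; ring
    rw [e, norm_neg]
    refine (norm_add_le _ _).trans ?_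
    rw [norm_mul, norm_mul]
    have u1 := mul_le_mul t1 hFn (norm_nonneg _) (by positivity)
    have u2 := mul_le_mul hea t2 (norm_nonneg _) (by positivity)
    have u3 : 1 ≤ K ^ 8 := one_le_pow₀ hK1
    have u4 : 0 ≤ 1 / (512 * K ^ 24) := by positivity
    have e2 : 3 * K ^ 8 / (512 * K ^ 24) = 3 * K ^ 8 * (1 / (512 * K ^ 24)) := by ring
    rw [e2]
    nlinarith
  set z : ℂ := Real.pi * (q₁ + q₂ * Complex.I) with hz
  have hd : ‖a + b - z‖ ≤ 1 / (64 * K ^ 39) := by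
    have e : a + b - z = (((epPi n : ℝ) - Real.pi : ℝ) : ℂ) * (q₁ + q₂ * Complex.I) := by
      rw [ha', hb', hz]; push_cast; ring
    have u1 : ‖(q₁ + q₂ * Complex.I : ℂ)‖ ≤ 2 * K := by
      refine (norm_add_le _ _).trans ?_
      rw [norm_mul, Complex.norm_I, mul_one, Complex.norm_ratCast, Complex.norm_ratCast]
      linarith
    rw [e, norm_mul, Complex.norm_real, Real.norm_eq_abs]
    refine (mul_le_mul hpi u1 (norm_nonneg _) (by positivity)).trans (le_of_eq ?_)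
    field_simp; norm_num
  have hez : ‖Complex.exp z‖ ≤ K ^ 8 := by
    rw [Complex.norm_exp]
    refine (Real.exp_le_exp.2 ?_).trans he4
    have : z.re = Real.pi * q₁ := by simp [hz]
    rw [this]
    have := (abs_le.1 h₁').2
    nlinarith [Real.pi_pos, Real.pi_lt_d2, Nat.cast_nonneg (α := ℝ) P]
  have hK39 : 1 ≤ K ^ 39 := one_le_pow₀ hK1
  have s2 : ‖Complex.exp (a + b) - Complex.exp z‖ ≤ K ^ 8 * (2 * (1 / (64 * K ^ 39))) := by
    have e : Complex.exp (a + b) - Complex.exp z =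
        Complex.exp z * (Complex.exp (a + b - z) - 1) := by
      rw [mul_sub, ← Complex.exp_add]; ring_nf
    rw [e, norm_mul]
    refine mul_le_mul hez ((Complex.norm_exp_sub_one_le (hd.trans ?_)).trans (by linarith))
      (norm_nonneg _) (by positivity)
    rw [div_le_one (by positivity)]; linarith
  have s3 : ‖(epEx q₁ q₂ P n : ℂ) - 2 ^ P * (E * F)‖ ≤ 3 / 4 := by
    have := ep_round (2 ^ P * (epT (fun _ => 1) (epPi n * q₁) n * epT epC (epPi n * q₂) n))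
      (2 ^ P * (epT (fun _ => 1) (epPi n * q₁) n * epT epS (epPi n * q₂) n))
    refine le_of_eq_of_le ?_ this
    congr 2
    rw [hE, hF]; push_cast; ring
  have e : (epEx q₁ q₂ P n : ℂ) - 2 ^ P * Complex.exp z =
      ((epEx q₁ q₂ P n : ℂ) - 2 ^ P * (E * F)) + 2 ^ P * ((E * F - Complex.exp (a + b)) +
        (Complex.exp (a + b) - Complex.exp z)) := by ring
  rw [e]
  refine (norm_add_le _ _).trans ?_
  rw [norm_mul, norm_pow, Complex.norm_ofNat, ← hK]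
  have u1 := mul_le_mul_of_nonneg_left (add_le_add s1 s2) (show 0 ≤ K by positivity)
  have u2 : K * (3 * K ^ 8 / (512 * K ^ 24)) ≤ 1 / 8 := by
    rw [← mul_div_assoc, div_le_iff₀ (by positivity)]
    have := hKp 9 24 (by norm_num)
    nlinarith
  have u3 : K * (K ^ 8 * (2 * (1 / (64 * K ^ 39)))) ≤ 1 / 8 := by
    have e : K * (K ^ 8 * (2 * (1 / (64 * K ^ 39)))) = K ^ 9 / (32 * K ^ 39) := by
      field_simp; norm_num
    rw [e, div_le_iff₀ (by positivity)]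
    have := hKp 9 39 (by norm_num)
    nlinarith
  rw [mul_add K (3 * K ^ 8 / (512 * K ^ 24))] at u1
  have u4 := mul_le_mul_of_nonneg_left (norm_add_le (E * F - Complex.exp (a + b))
    (Complex.exp (a + b) - Complex.exp z)) (show 0 ≤ K by positivity)
  linarith

theorem exists_ex : ∃ ex : ℚ → ℚ → List Unit → GaussianInt,
    PT (fun q : ℚ × ℚ × List Unit => ex q.1 q.2.1 q.2.2) ∧
    ∀ (q₁ q₂ : ℚ) (P : ℕ), |q₁| ≤ P → |q₂| ≤ P →
      ‖(ex q₁ q₂ (un P) : ℂ) - 2 ^ P * Complex.exp (Real.pi * (q₁ + q₂ * Complex.I))‖ ≤ 1 := by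
  refine ⟨fun q₁ q₂ u => epEx q₁ q₂ u.length (40 * u.length + 10), ?_, fun q₁ q₂ P h₁ h₂ => ?_⟩
  · exact pt_epEx (by fun_prop) (by fun_prop) (by fun_prop) (by fun_prop) (by fun_prop)
      (by fun_prop)
  · simp only [length_un]
    exact epEx_spec q₁ q₂ P h₁ h₂

/-- An approximation of `2 ^ P * exp (π (q₁ + i q₂))`, `P` given in unary. -/
noncomputable def ex : ℚ → ℚ → List Unit → GaussianInt := exists_ex.choose

lemma pt_ex : PT (fun q : ℚ × ℚ × List Unit => ex q.1 q.2.1 q.2.2) := exists_ex.choose_spec.1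

@[fun_prop] lemma PT.ex {α : Type} [Enc α] {q₁ q₂ : α → ℚ} {u : α → List Unit} (h₁ : PT q₁)
    (h₂ : PT q₂) (hu : PT u) : PT (fun a => ex (q₁ a) (q₂ a) (u a)) :=
  pt_ex.comp (h₁.pair (h₂.pair hu))

lemma ex_spec {q₁ q₂ : ℚ} {P : ℕ} (h₁ : |q₁| ≤ P) (h₂ : |q₂| ≤ P) :
    ‖(ex q₁ q₂ (un P) : ℂ) - 2 ^ P * Complex.exp (Real.pi * (q₁ + q₂ * Complex.I))‖ ≤ 1 :=
  exists_ex.choose_spec.2 q₁ q₂ P h₁ h₂

/-- The table entries of a chirp. -/
noncomputable def epChirp (e₁ e₂ : ℤ) (par : ℕ × List Unit) (k : ℕ) : GaussianInt :=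
  ex 0 ((((e₁ * ((k : ℤ) * k) + e₂ * k) % (2 * (par.1 : ℤ)) : ℤ) : ℚ) / (par.1 : ℚ)) par.2

lemma pt_epChirp (e₁ e₂ : ℤ) :
    PT fun q : (ℕ × List Unit) × ℕ => epChirp e₁ e₂ q.1 q.2 := by
  unfold epChirp; fun_prop

lemma norm_ee (x : ℝ) : ‖ee x‖ = 1 := by
  unfold ee
  rw [show 2 * Real.pi * Complex.I * x = ((2 * Real.pi * x : ℝ) : ℂ) * Complex.I by
    push_cast; ring]
  exact Complex.norm_exp_ofReal_mul_I _

lemma epChirp_spec (e₁ e₂ : ℤ) {t p : ℕ} (ht : 0 < t) (hp : 2 ≤ p) (k : ℕ) :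
    ‖(epChirp e₁ e₂ (t, un p) k : ℂ) - 2 ^ p * ee ((e₁ * (k : ℝ) ^ 2 + e₂ * k) / (2 * t))‖ ≤ 1 := by
  set m : ℤ := e₁ * ((k : ℤ) * k) + e₂ * k with hm
  have ht' : (0 : ℤ) < 2 * t := by positivity
  have h0 := Int.emod_nonneg m ht'.ne'
  have h1 := Int.emod_lt_of_pos m ht'
  have htq : (0 : ℚ) < t := by exact_mod_cast ht
  have h := ex_spec (q₁ := 0) (q₂ := ((m % (2 * (t : ℤ)) : ℤ) : ℚ) / (t : ℚ)) (P := p)
    (by simp) (by
      have h0' : (0 : ℚ) ≤ ((m % (2 * (t : ℤ)) : ℤ) : ℚ) := by exact_mod_cast h0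
      have h1' : ((m % (2 * (t : ℤ)) : ℤ) : ℚ) ≤ 2 * t := by exact_mod_cast h1.le
      have hp' : (2 : ℚ) ≤ p := by exact_mod_cast hp
      rw [abs_of_nonneg (by positivity), div_le_iff₀ htq]
      nlinarith)
  refine le_of_eq_of_le ?_ h
  congr 3
  unfold ee
  have e := Int.mul_ediv_add_emod m (2 * t)
  have e' : (e₁ * ((k : ℂ) * k) + e₂ * k) =
      2 * t * ((m / (2 * t) : ℤ) : ℂ) + ((m % (2 * t) : ℤ) : ℂ) := by
    have := congrArg (Int.cast : ℤ → ℂ) e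
    rw [Int.cast_add, Int.cast_mul] at this
    rw [hm] at this ⊢
    push_cast at this ⊢
    exact this.symm
  have htc : (t : ℂ) ≠ 0 := by exact_mod_cast ht.ne'
  rw [Complex.exp_eq_exp_iff_exists_int]
  refine ⟨m / (2 * t), ?_⟩
  rw [Rat.cast_div, Rat.cast_intCast, Rat.cast_natCast]
  simp only [Complex.ofReal_div, Complex.ofReal_add, Complex.ofReal_mul, Complex.ofReal_pow,
    Complex.ofReal_intCast, Complex.ofReal_natCast, Complex.ofReal_ofNat, Rat.cast_zero]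
  rw [sq, e']
  field_simp
  ring

lemma epChirp_norm (e₁ e₂ : ℤ) {t p : ℕ} (ht : 0 < t) (hp : 2 ≤ p) (k : ℕ) :
    ‖(epChirp e₁ e₂ (t, un p) k : ℂ)‖ ≤ 2 ^ (p + 1) := by
  have h := (norm_sub_norm_le _ _).trans (epChirp_spec e₁ e₂ ht hp k)
  rw [norm_mul, norm_ee, norm_pow, Complex.norm_ofNat] at h
  have : (1 : ℝ) ≤ 2 ^ p := one_le_pow₀ (by norm_num)
  rw [pow_succ]; linarith

lemma RP.Valid.two_le_p {r : RP} (h : r.Valid) : 2 ≤ r.p := by
  have := h.p_lo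
  have := Nat.one_le_pow 2 _ h.d_pos
  omega

lemma RP.Valid.t_pos {r : RP} (h : r.Valid) : 0 < r.t := by have := h.lt; omega

/-- Multiplication of a line by a chirp. -/
theorem line_chirp (e₁ e₂ : ℤ) : ∃ φ : RP → (ℕ → GaussianInt) → ℕ → GaussianInt,
    (∀ r : RP, r.Valid → LApprox r.t (φ r) (chirpM e₁ e₂ r.t) 1 3 r.p) ∧
    LineCT φ (fun _ => 1) := by
  refine ⟨fun r v k => fmul r.p (v k) (epChirp e₁ e₂ (r.t, un r.p) k),
    fun r hr => ⟨fun j hj => ?_, fun v hv j hj => ?_⟩,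
    fun r => [arr r.t (epChirp e₁ e₂ (r.t, un r.p))], ?_, ⟨60, fun r => ?_⟩, ?_⟩
  · rw [Finset.sum_eq_single j]
    · simp [chirpM, norm_ee]
    · intro k _ hk
      simp [chirpM, hk.symm]
    · simp [hj]
  · rw [Finset.sum_eq_single j]
    · have := norm_fmul_sub_le (hv j hj) (epChirp_spec e₁ e₂ hr.t_pos hr.two_le_p j)
      simp only [chirpM, if_true]
      exact this.trans (by norm_num)
    · intro k _ hk
      simp [chirpM, hk.symm]
    · simp [hj]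
  · intro A cur B x r s hr hc hs hB
    have hsz : ∀ a, sz (r a).t ≤ sz (r a) := fun a => by
      change _ ≤ sz ((r a).t, (r a).s, (r a).g, (r a).d, (r a).p)
      rw [sz_pair]; omega
    have hp : Dom (fun a => (r a).p) B :=
      hB.le_trans fun a => by
        have := (hr a).p_hi
        have := Nat.le_mul_of_pos_right (r a).t (hs.pos a)
        omega
    refine CT.cons (CT.tabulate_pt (epChirp e₁ e₂) (pt_epChirp e₁ e₂) (CT.rp_t hc)
      ((CT.rp_t hc).pair ((CT.rp_p hc).un hp)) s ?_ hB) (CT.const [])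
    refine ((hs.const_mul 2).add_const 2).of_le fun a => ?_
    have := hsz a
    simp only [sz_pair, sz_un]
    omega
  · have h := sz_arr_le (n := r.1.t) (f := epChirp e₁ e₂ (r.1.t, un r.1.p))
      fun i _ => sz_gauss_le (epChirp_norm e₁ e₂ r.2.t_pos r.2.two_le_p i)
    have h1 := r.2.t_pos
    have h2 := r.2.two_le_p
    simp only [sz_cons, sz_nil]
    nlinarith [Nat.mul_le_mul h1 h2, Nat.mul_le_mul_left r.1.t h2]
  · intro A cur B x r v N μ hr hM hN hv hc ht hl hB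
    refine CT.arr_fmul hM (fun a => (r a).p + 1) hl ht.head_of_cons (CT.rp_p hc)
      (fun a => Nat.le_succ _) (fun a => ?_) (fun a i hi => (hv a i hi).trans ?_)
      (fun a i _ => epChirp_norm e₁ e₂ (hr a).t_pos (hr a).two_le_p i) ?_
    · have := hN a
      have := (hr a).two_le_p
      nlinarith
    · exact pow_le_pow_right₀ (by norm_num) (Nat.le_succ _)
    · refine (hB.const_mul 2).le_trans fun a => ?_
      have := (hr a).two_le_p
      have h1 : (r a).p + 1 + 1 ≤ 2 * (r a).p := by omega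
      calc (r a).t * (((r a).p + 1 + 1) * μ a) ≤ (r a).t * ((2 * (r a).p) * μ a) := by gcongr
        _ = _ := by ring

end Crest.Agent.R326
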