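import Crest.Agent.R326.LineBDefs

/-!
Gaussian resampling by Toeplitz blocks: error analysis.
-/

set_option autoImplicit false

namespace Crest.Agent.R326

open Crest.Agent.Lib.PT Crest.Agent.Lib.LT Finset

lemma lb_tsum_int {t : ℕ} (ht : 0 < t) {F : ℤ → ℂ} (hF : Summable F) :
    ∑' n, F n = ∑ k ∈ range t, ∑' κ : ℤ, F (k + κ * t) := by
  have ht' : (0 : ℤ) < t := by exact_mod_cast ht
  have e1 : ∀ n : ℤ, F n = ∑ k ∈ range t, if n % t = k then F n else 0 := by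
    intro n
    have h0 := Int.emod_nonneg n ht'.ne'
    have h1 := Int.emod_lt_of_pos n ht'
    rw [sum_eq_single (n % t).toNat, if_pos (by omega)]
    · intro k _ hk
      rw [if_neg (by omega)]
    · intro h
      exact absurd (mem_range.2 (by omega)) h
  rw [tsum_congr e1, Summable.tsum_finsetSum fun k _ => ?_]
  · refine sum_congr rfl fun k hk => ?_
    have hk' : (k : ℤ) < t := by exact_mod_cast mem_range.1 hk
    have hinj : Function.Injective fun κ : ℤ => (k : ℤ) + κ * t := fun a b h =>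
      mul_right_cancel₀ ht'.ne' (add_left_cancel h)
    rw [← hinj.tsum_eq]
    · refine tsum_congr fun κ => ?_
      rw [if_pos]
      rw [Int.add_mul_emod_self_right, Int.emod_eq_of_lt (by positivity) hk']
    · intro n hn
      have h2 : n % t = k := by
        by_contra h
        exact hn (if_neg h)
      refine ⟨n / t, ?_⟩
      have := Int.emod_add_mul_ediv n t
      simp only
      rw [← h2, mul_comm]; exact this
  · exact (hF.indicator {n | n % t = k}).congr fun n => by simp [Set.indicator_apply]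

lemma lb_exp_neg_le (n : ℕ) : Real.exp (-(n : ℝ)) ≤ (1 / 2) ^ n := by
  have h1 : Real.exp (-1) ≤ 1 / 2 := by
    rw [Real.exp_neg, one_div]
    exact inv_anti₀ (by norm_num) (by linarith [Real.add_one_le_exp (1 : ℝ)])
  rw [show -(n : ℝ) = n * (-1) by ring, Real.exp_nat_mul]
  exact pow_le_pow_left₀ (Real.exp_pos _).le h1 n

lemma lb_exp_pi_le {q : ℝ} {n : ℕ} (h : q ≤ n) : Real.exp (Real.pi * q) ≤ 2 ^ (5 * n) := by
  have h1 : Real.exp Real.pi ≤ 2 ^ 5 := by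
    have h2 : Real.exp Real.pi ≤ Real.exp 1 ^ 3 * Real.exp (1 / 5) := by
      rw [← Real.exp_nat_mul, ← Real.exp_add]
      exact Real.exp_le_exp.2 (by have := Real.pi_lt_d2; push_cast; linarith)
    have h3 : Real.exp 1 ^ 3 ≤ 2.72 ^ 3 :=
      pow_le_pow_left₀ (Real.exp_pos _).le (by linarith [Real.exp_one_lt_d9]) 3
    have h4 : Real.exp (1 / 5) ≤ 1 / (1 - 1 / 5) :=
      Real.exp_bound_div_one_sub_of_interval (by norm_num) (by norm_num)
    have h5 := mul_le_mul h3 h4 (Real.exp_pos _).le (by norm_num)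
    linarith
  calc Real.exp (Real.pi * q) ≤ Real.exp (n * Real.pi) :=
        Real.exp_le_exp.2 (by nlinarith [Real.pi_pos])
    _ = Real.exp Real.pi ^ n := Real.exp_nat_mul _ _
    _ ≤ (2 ^ 5) ^ n := pow_le_pow_left₀ (Real.exp_pos _).le h1 n
    _ = _ := by rw [← pow_mul]

variable {r : RP}

/-- The Gaussian window. -/
noncomputable def lbG (r : RP) (x : ℝ) : ℝ := 1 / r.g * Real.exp (-Real.pi * x ^ 2 / r.g ^ 2)

lemma lbG_nonneg (r : RP) (x : ℝ) : 0 ≤ lbG r x := by unfold lbG; positivity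

lemma lbG_tail (hr : r.Valid) {x : ℝ} {i : ℕ} (h : (lbW r : ℝ) + i ≤ |x|) :
    lbG r x * 2 ^ r.p ≤ 1 / 4 * (1 / 2) ^ i := by
  have hg : (1 : ℝ) ≤ r.g := by exact_mod_cast lb_g_pos hr
  have hm : (r.g : ℝ) ≤ lbM r := by exact_mod_cast lb_g_le hr
  have hp : (r.p : ℝ) ≤ (lbM r : ℝ) ^ 2 := by exact_mod_cast lbM_lo r
  have hp2 : (2048 : ℝ) ≤ r.p := by exact_mod_cast lb_p_ge hr
  have hw : (lbW r : ℝ) = r.g * lbM r := by rw [lbW]; push_cast; ring
  have hi : (0 : ℝ) ≤ i := by positivity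
  have h1 : ((lbW r : ℝ) + i) ^ 2 ≤ x ^ 2 := by
    rw [← sq_abs x]; gcongr
  have h2 : (r.g : ℝ) ^ 2 * (r.p + i) ≤ x ^ 2 := by
    refine le_trans ?_ h1
    rw [hw]
    have e1 : (r.g : ℝ) ^ 2 * r.p ≤ (r.g : ℝ) ^ 2 * (lbM r : ℝ) ^ 2 := by gcongr
    have e2 : (r.g : ℝ) * r.g * i ≤ r.g * lbM r * i := by gcongr
    have e3 : 0 ≤ (r.g : ℝ) * lbM r * i := by positivity
    nlinarith [sq_nonneg (i : ℝ)]
  have h3 : -Real.pi * x ^ 2 / r.g ^ 2 ≤ -((r.p + 2 + i : ℕ) : ℝ) := by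
    rw [div_le_iff₀ (by positivity)]
    push_cast
    have e1 : 3 * x ^ 2 ≤ Real.pi * x ^ 2 := by gcongr; exact Real.pi_gt_three.le
    have e2 : 0 ≤ (r.g : ℝ) ^ 2 * (2 * r.p + 2 * i - 2) := by
      have : (0 : ℝ) ≤ 2 * r.p + 2 * i - 2 := by linarith
      positivity
    nlinarith
  have h4 := (Real.exp_le_exp.2 h3).trans (lb_exp_neg_le _)
  have h5 : lbG r x ≤ (1 / 2) ^ (r.p + 2 + i) := by
    rw [lbG]
    calc _ ≤ 1 * (1 / 2 : ℝ) ^ (r.p + 2 + i) :=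
          mul_le_mul ((div_le_one (by linarith)).2 hg) h4 (Real.exp_pos _).le zero_le_one
      _ = _ := one_mul _
  calc lbG r x * 2 ^ r.p ≤ (1 / 2) ^ (r.p + 2 + i) * 2 ^ r.p := by gcongr
    _ = 1 / 4 * (1 / 2) ^ i * ((1 / 2) * 2) ^ r.p := by rw [mul_pow, pow_add, pow_add]; ring
    _ = _ := by norm_num

/-- Truncation of the Gaussian sum to the window. -/
lemma lb_window (hr : r.Valid) {v : ℕ → GaussianInt} (hv : ∀ k, k < r.t → ‖(v k : ℂ)‖ ≤ 2 ^ r.p)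
    {β a : ℕ} (ha : a < lbW r) (hj : β * lbW r + a < r.s) :
    ‖∑ k ∈ range r.t, Gm r (β * lbW r + a) k * v k - ∑ b ∈ range (4 * lbW r),
      (lbG r ((lbS r : ℝ) * (β * lbW r + a : ℕ) - (b + (lbC r β - lbW r))) : ℂ) *
        lbE r v (lbC r β + b)‖ ≤ 1 := by
  set j := β * lbW r + a with hjdef
  have ht : 0 < r.t := (lb_s_pos hr).trans hr.lt
  have ht' : (0 : ℤ) < r.t := by exact_mod_cast ht
  have hwt : lbW r ≤ r.t := by have := lbW_le hr; have := hr.p_hi; omega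
  set F : ℤ → ℂ := fun n => (lbG r ((lbS r : ℝ) * j - n) : ℂ) * v (n % r.t).toNat with hF
  set c₀ : ℤ := lbC r β - lbW r with hc₀
  have hFn : ∀ (n : ℤ) (i : ℕ), (lbW r : ℝ) + i ≤ |(lbS r : ℝ) * j - n| →
      ‖F n‖ ≤ 1 / 4 * (1 / 2) ^ i := by
    intro n i h
    refine le_trans ?_ (lbG_tail hr h)
    have h0 := Int.emod_nonneg n ht'.ne'
    have h1 := Int.emod_lt_of_pos n ht'
    rw [hF, norm_mul, Complex.norm_real, Real.norm_of_nonneg (lbG_nonneg _ _)]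
    exact mul_le_mul_of_nonneg_left (hv _ (by omega)) (lbG_nonneg _ _)
  have hS1 : (1 : ℝ) ≤ lbS r := by exact_mod_cast lbS_lo hr
  have hS2 : (lbS r : ℝ) ≤ 2 := by exact_mod_cast lbS_hi hr
  have hD1 : (lbW r : ℝ) ≤ lbD r β := by exact_mod_cast lbD_lo hr β
  have hD2 : (lbD r β : ℝ) ≤ lbW r + 1 := by exact_mod_cast lbD_hi hr β
  have ha' : (a : ℝ) + 1 ≤ lbW r := by exact_mod_cast ha
  have ha0 : (0 : ℝ) ≤ a := by positivity
  have hx : ∀ n : ℤ, (lbS r : ℝ) * j - ((n + c₀ : ℤ) : ℝ) = lbD r β + lbS r * a - n := by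
    intro n
    rw [hjdef, hc₀, lbD]; push_cast; ring
  have hpos : ∀ i : ℕ, ‖F (((i + 4 * lbW r : ℕ) : ℤ) + c₀)‖ ≤ 1 / 4 * (1 / 2) ^ i := by
    intro i
    refine hFn _ i (le_trans ?_ (neg_le_abs _))
    rw [hx]; push_cast
    nlinarith
  have hneg : ∀ i : ℕ, ‖F (-((i : ℤ) + 1) + c₀)‖ ≤ 1 / 4 * (1 / 2) ^ i := by
    intro i
    refine hFn _ i (le_trans ?_ (le_abs_self _))
    rw [hx]; push_cast
    nlinarith
  have hgeo : HasSum (fun i : ℕ => (1 / 4 : ℝ) * (1 / 2) ^ i) (1 / 4 * 2) :=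
    hasSum_geometric_two.mul_left _
  have s1 : Summable fun i : ℕ => F ((i : ℤ) + c₀) :=
    (summable_nat_add_iff (4 * lbW r)).1 (Summable.of_norm_bounded hgeo.summable hpos)
  have s2 : Summable fun i : ℕ => F (-((i : ℤ) + 1) + c₀) :=
    Summable.of_norm_bounded hgeo.summable hneg
  have s3 : Summable fun n : ℤ => F (n + c₀) :=
    Summable.of_nat_of_neg_add_one (f := fun n : ℤ => F (n + c₀)) s1 s2
  have s4 : Summable F := ((Equiv.addRight c₀).summable_iff (f := F)).1 s3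
  have e1 : ∑ k ∈ range r.t, Gm r j k * v k = ∑' n, F n := by
    rw [lb_tsum_int ht s4]
    refine sum_congr rfl fun k hk => ?_
    have hk' : (k : ℤ) < r.t := by exact_mod_cast mem_range.1 hk
    rw [Gm, if_pos hj, ← tsum_mul_left, Complex.ofReal_tsum, ← tsum_mul_right]
    refine tsum_congr fun κ => ?_
    rw [hF]
    simp only
    rw [Int.add_mul_emod_self_right, Int.emod_eq_of_lt (by positivity) hk', Int.toNat_natCast, lbG,
      lbS]
    congr 5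
    push_cast; ring
  have e2 : ∑' n, F n = (∑ b ∈ range (4 * lbW r), F ((b : ℤ) + c₀) +
      ∑' i : ℕ, F (((i + 4 * lbW r : ℕ) : ℤ) + c₀)) + ∑' i : ℕ, F (-((i : ℤ) + 1) + c₀) := by
    rw [s1.sum_add_tsum_nat_add, ← (Equiv.addRight c₀).tsum_eq F]
    exact tsum_of_nat_of_neg_add_one (f := fun n : ℤ => F (n + c₀)) s1 s2
  have e3 : ∀ b ∈ range (4 * lbW r),
      (lbG r ((lbS r : ℝ) * j - (b + (lbC r β - lbW r))) : ℂ) * lbE r v (lbC r β + b) =
      F ((b : ℤ) + c₀) := by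
    intro b _
    have h1 : (((b : ℤ) + c₀) % r.t).toNat = (lbC r β + b + (r.t - lbW r)) % r.t := by
      have : ((b : ℤ) + c₀) % r.t = (((lbC r β + b + (r.t - lbW r)) % r.t : ℕ) : ℤ) := by
        rw [Int.natCast_mod, ← Int.add_emod_right ((b : ℤ) + c₀)]
        congr 1
        rw [hc₀]; push_cast [Nat.cast_sub hwt]; ring
      rw [this, Int.toNat_natCast]
    rw [hF]
    simp only
    rw [h1, lbE, hc₀]
    push_cast
    rfl
  rw [e1, e2, sum_congr rfl e3, add_assoc, add_sub_cancel_left]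
  refine (norm_add_le _ _).trans ?_
  have b1 := tsum_of_norm_bounded hgeo hpos
  have b2 := tsum_of_norm_bounded hgeo hneg
  linarith

lemma lb_ex {q : ℚ} {P : ℕ} (h : |q| ≤ P) :
    ‖(ex q 0 (un P) : ℂ) - 2 ^ P * (Real.exp (Real.pi * q) : ℝ)‖ ≤ 1 := by
  have := ex_spec (q₂ := 0) h (by simp)
  simpa [Complex.ofReal_exp] using this

lemma lbB_spec (hr : r.Valid) (i : ℕ) : ‖(lbB (lbP r) i : ℂ) - 2 ^ (700 * r.p) *
    (Real.exp (Real.pi * lbqB r (i / (4 * lbW r)) (i % (4 * lbW r))) : ℝ)‖ ≤ 1 := by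
  have h := lbqB_bound hr (i / (4 * lbW r)) (Nat.mod_lt i (by have := lbW_pos hr; omega))
  have hp : (0 : ℚ) ≤ r.p := by positivity
  exact lb_ex (q := lbqB r (i / (4 * lbW r)) (i % (4 * lbW r)))
    (by rw [abs_le]; push_cast; constructor <;> linarith [h.1, h.2])

lemma lbT_spec (hr : r.Valid) {m : ℕ} (hm : m < 5 * lbW r) :
    ‖(lbT (lbP r) m : ℂ) - 2 ^ (700 * r.p) * (Real.exp (Real.pi * lbqT r m) : ℝ)‖ ≤ 1 := by
  have h := lbqT_bound hr hm
  have hp : (0 : ℚ) ≤ r.p := by positivity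
  exact lb_ex (q := lbqT r m) (by rw [abs_le]; push_cast; constructor <;> linarith [h.1, h.2])

lemma lbA_spec (hr : r.Valid) (j : ℕ) : ‖(lbA (lbP r) j : ℂ) - 2 ^ (700 * r.p) *
    (1 / r.g * Real.exp (Real.pi * lbqA r (j / lbW r) (j % lbW r)) : ℝ)‖ ≤ 2 := by
  have h := lbqA_bound hr (j / lbW r) (Nat.mod_lt j (lbW_pos hr))
  have hp : (0 : ℚ) ≤ r.p := by positivity
  have h1 := lb_ex (q := lbqA r (j / lbW r) (j % lbW r)) (P := 700 * r.p)
    (by rw [abs_le]; push_cast; constructor <;> linarith [h.1, h.2])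
  set z := ex (lbqA r (j / lbW r) (j % lbW r)) 0 (un (700 * r.p)) with hz
  set A := Real.exp (Real.pi * lbqA r (j / lbW r) (j % lbW r)) with hA
  have h2 : |(z.re : ℝ) - 2 ^ (700 * r.p) * A| ≤ 1 := by
    refine le_trans (le_of_eq ?_) ((Complex.abs_re_le_norm _).trans h1)
    rw [Complex.sub_re, ← GaussianInt.intCast_re]
    norm_cast
  have hg : (0 : ℤ) < r.g := by exact_mod_cast lb_g_pos hr
  have hg' : (1 : ℝ) ≤ r.g := by exact_mod_cast lb_g_pos hr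
  have h3 : ((z.re % r.g + r.g * (z.re / r.g) : ℤ) : ℝ) = z.re := by
    rw [Int.emod_add_mul_ediv]
  have h4 : ((0 : ℤ) : ℝ) ≤ ((z.re % r.g : ℤ) : ℝ) := by exact_mod_cast Int.emod_nonneg _ hg.ne'
  have h5 : ((z.re % r.g : ℤ) : ℝ) ≤ ((r.g : ℤ) : ℝ) := by
    exact_mod_cast (Int.emod_lt_of_pos _ hg).le
  have e : (lbA (lbP r) j : ℂ) - 2 ^ (700 * r.p) * (1 / r.g * A : ℝ) =
      (((z.re / r.g : ℤ) : ℝ) - 2 ^ (700 * r.p) * (1 / r.g * A) : ℝ) := by
    have : (lbA (lbP r) j : ℂ) = ((z.re / r.g : ℤ) : ℂ) := by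
      rw [lbA, GaussianInt.toComplex_def']; simp [lbP, hz]
    rw [this]; push_cast; ring
  rw [e, Complex.norm_real, Real.norm_eq_abs]
  generalize z.re / r.g = u at h3 ⊢
  generalize z.re % r.g = ρ at h3 h4 h5
  push_cast at h3 h4 h5
  have e2 : (u : ℝ) - 2 ^ (700 * r.p) * (1 / r.g * A) =
      ((z.re : ℝ) - 2 ^ (700 * r.p) * A - ρ) / r.g := by
    rw [← h3]; field_simp; ring
  rw [e2, abs_div, abs_of_pos (by linarith : (0 : ℝ) < r.g), div_le_iff₀ (by linarith)]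
  rw [abs_le] at h2 ⊢
  constructor <;> linarith [h2.1, h2.2]

lemma lb_norm_le {z : ℂ} {Q e K : ℝ} {c : ℝ} (hQ : 0 ≤ Q) (h : ‖z - Q * c‖ ≤ e) (hc : |c| ≤ K) :
    ‖z‖ ≤ Q * K + e := by
  have h1 : ‖(Q : ℂ) * c‖ ≤ Q * K := by
    rw [norm_mul, Complex.norm_real, Complex.norm_real, Real.norm_of_nonneg hQ]
    exact mul_le_mul_of_nonneg_left hc hQ
  calc ‖z‖ = ‖(Q : ℂ) * c + (z - Q * c)‖ := by congr 1; ring
    _ ≤ _ := (norm_add_le _ _).trans (add_le_add h1 h)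

lemma lb_triple {a b t : ℂ} {α β τ Q K : ℝ} (hQ : 1 ≤ Q) (hK : 1 ≤ K) (ha : ‖a - Q * α‖ ≤ 2)
    (hb : ‖b - Q * β‖ ≤ 1) (ht : ‖t - Q * τ‖ ≤ 1) (hα : |α| ≤ 1) (hβ : |β| ≤ K) (hτ : |τ| ≤ 1) :
    ‖b * t * a - Q ^ 3 * (α * τ * β : ℝ)‖ ≤ 11 * Q ^ 2 * K := by
  have hQ0 : 0 ≤ Q := by linarith
  have h1 : ‖t‖ ≤ 2 * Q := (lb_norm_le hQ0 ht hτ).trans (by linarith)
  have h2 : ‖b‖ ≤ 2 * Q * K := (lb_norm_le hQ0 hb hβ).trans (by nlinarith)
  have nQ : ‖(Q : ℂ)‖ = Q := by rw [Complex.norm_real, Real.norm_of_nonneg hQ0]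
  have nα : ‖(α : ℂ)‖ ≤ 1 := by rwa [Complex.norm_real]
  have nτ : ‖(τ : ℂ)‖ ≤ 1 := by rwa [Complex.norm_real]
  have e : b * t * a - Q ^ 3 * (α * τ * β : ℝ) =
      (a - Q * α) * t * b + Q * α * (t - Q * τ) * b + Q * α * (Q * τ) * (b - Q * β) := by
    push_cast; ring
  rw [e]
  refine (norm_add₃_le).trans ?_
  simp only [norm_mul, nQ]
  have e1 : ‖a - Q * α‖ * ‖t‖ * ‖b‖ ≤ 2 * (2 * Q) * (2 * Q * K) := by gcongr
  have e2 : Q * ‖(α : ℂ)‖ * ‖t - Q * τ‖ * ‖b‖ ≤ Q * 1 * 1 * (2 * Q * K) := by gcongr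
  have e3 : Q * ‖(α : ℂ)‖ * (Q * ‖(τ : ℂ)‖) * ‖b - Q * β‖ ≤ Q * 1 * (Q * 1) * 1 := by gcongr
  nlinarith [mul_le_mul_of_nonneg_left hK (mul_nonneg hQ0 hQ0)]

lemma lb_expA_le (hr : r.Valid) (j : ℕ) :
    |1 / r.g * Real.exp (Real.pi * lbqA r (j / lbW r) (j % lbW r))| ≤ 1 := by
  have h : (lbqA r (j / lbW r) (j % lbW r) : ℝ) ≤ 0 := by
    exact_mod_cast (lbqA_bound hr (j / lbW r) (Nat.mod_lt j (lbW_pos hr))).2
  have hg' : (1 : ℝ) ≤ r.g := by exact_mod_cast lb_g_pos hr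
  rw [abs_of_nonneg (by positivity)]
  exact mul_le_one₀ ((div_le_one (by linarith)).2 hg') (Real.exp_pos _).le
    (Real.exp_le_one_iff.2 (mul_nonpos_of_nonneg_of_nonpos Real.pi_pos.le h))

lemma lb_expT_le (hr : r.Valid) {m : ℕ} (hm : m < 5 * lbW r) :
    |Real.exp (Real.pi * lbqT r m)| ≤ 1 := by
  have h : (lbqT r m : ℝ) ≤ 0 := by exact_mod_cast (lbqT_bound hr hm).2
  rw [abs_of_nonneg (by positivity)]
  exact Real.exp_le_one_iff.2 (mul_nonpos_of_nonneg_of_nonpos Real.pi_pos.le h)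

lemma lb_expB_le (hr : r.Valid) (i : ℕ) :
    |Real.exp (Real.pi * lbqB r (i / (4 * lbW r)) (i % (4 * lbW r)))| ≤ 2 ^ (640 * r.p) := by
  have h := (lbqB_bound hr (i / (4 * lbW r)) (Nat.mod_lt i (by have := lbW_pos hr; omega))).2
  rw [abs_of_nonneg (by positivity), show 640 * r.p = 5 * (128 * r.p) by ring]
  exact lb_exp_pi_le (by exact_mod_cast h)

lemma lb_two_pow_add {a b c : ℕ} {e : ℝ} (he : e ≤ 2) (h : a + b < c) (h1 : 1 ≤ a + b) :
    (2 : ℝ) ^ a * 2 ^ b + e ≤ 2 ^ c := by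
  have h2 : (2 : ℝ) ^ 1 ≤ 2 ^ (a + b) := pow_le_pow_right₀ one_le_two h1
  have h3 : (2 : ℝ) ^ (a + b + 1) ≤ 2 ^ c := pow_le_pow_right₀ one_le_two h
  rw [pow_succ] at h3
  rw [← pow_add]
  linarith

lemma norm_lbA_le (hr : r.Valid) (j : ℕ) : ‖(lbA (lbP r) j : ℂ)‖ ≤ 2 ^ (701 * r.p) := by
  have hp := lb_p_ge hr
  refine (lb_norm_le (Q := 2 ^ (700 * r.p)) (K := 2 ^ 0) (by positivity)
    (by exact_mod_cast lbA_spec hr j) (by simpa using lb_expA_le hr j)).trans ?_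
  exact lb_two_pow_add le_rfl (by omega) (by omega)

lemma norm_lbT_le (hr : r.Valid) {m : ℕ} (hm : m < 5 * lbW r) :
    ‖(lbT (lbP r) m : ℂ)‖ ≤ 2 ^ (701 * r.p) := by
  have hp := lb_p_ge hr
  refine (lb_norm_le (Q := 2 ^ (700 * r.p)) (K := 2 ^ 0) (by positivity)
    (by exact_mod_cast lbT_spec hr hm) (by simpa using lb_expT_le hr hm)).trans ?_
  exact lb_two_pow_add one_le_two (by omega) (by omega)

lemma norm_lbB_le (hr : r.Valid) (i : ℕ) : ‖(lbB (lbP r) i : ℂ)‖ ≤ 2 ^ (1341 * r.p) := by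
  have hp := lb_p_ge hr
  refine (lb_norm_le (Q := 2 ^ (700 * r.p)) (by positivity)
    (by exact_mod_cast lbB_spec hr i) (lb_expB_le hr i)).trans ?_
  exact lb_two_pow_add one_le_two (by omega) (by omega)

lemma fmul_zero (u v : GaussianInt) : fmul 0 u v = u * v := by
  ext <;> simp [fmul, rshift]

lemma norm_lbE_le (hr : r.Valid) {v : ℕ → GaussianInt}
    (hv : ∀ k, k < r.t → ‖(v k : ℂ)‖ ≤ 2 ^ r.p) (i : ℕ) : ‖(lbE r v i : ℂ)‖ ≤ 2 ^ r.p :=
  hv _ (Nat.mod_lt _ ((lb_s_pos hr).trans hr.lt))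

lemma norm_lbY_le (hr : r.Valid) {v : ℕ → GaussianInt}
    (hv : ∀ k, k < r.t → ‖(v k : ℂ)‖ ≤ 2 ^ r.p) (i : ℕ) :
    ‖(lbY r v i : ℂ)‖ ≤ 2 ^ (1342 * r.p) := by
  rw [lbY, fmul_zero, GaussianInt.toComplex_mul, norm_mul,
    show 1342 * r.p = r.p + 1341 * r.p by ring, pow_add]
  exact mul_le_mul (norm_lbE_le hr hv _) (norm_lbB_le hr i) (norm_nonneg _) (by positivity)

lemma lbZ_eq (r : RP) (v : ℕ → GaussianInt) (β : ℕ) {a : ℕ} (ha : a < lbW r) :
    (lbZ r v β a : ℂ) = ∑ b ∈ range (4 * lbW r),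
      (lbY r v (β * (4 * lbW r) + b) : ℂ) * lbT (lbP r) (4 * lbW r + a - b) := by
  rw [lbZ, aconv, map_sum]
  refine sum_congr rfl fun b hb => ?_
  have := mem_range.1 hb
  rw [if_pos ⟨by omega, by omega⟩, GaussianInt.toComplex_mul]

lemma lb_lin_le_pow (c k p : ℕ) (hp : 1 ≤ p) (hc : c ≤ 2 ^ k) : (c : ℝ) * p ≤ 2 ^ ((k + 1) * p) := by
  have h1 : p ≤ 2 ^ p := Nat.lt_two_pow_self.le
  have h2 : 2 ^ k ≤ 2 ^ (k * p) := Nat.pow_le_pow_right (by norm_num) (by nlinarith)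
  have h3 : c * p ≤ 2 ^ ((k + 1) * p) := by
    rw [add_mul, one_mul, pow_add]
    exact Nat.mul_le_mul (hc.trans h2) h1
  exact_mod_cast h3

lemma norm_lbZ_le (hr : r.Valid) {v : ℕ → GaussianInt}
    (hv : ∀ k, k < r.t → ‖(v k : ℂ)‖ ≤ 2 ^ r.p) (β : ℕ) {a : ℕ} (ha : a < lbW r) :
    ‖(lbZ r v β a : ℂ)‖ ≤ 2 ^ (3000 * r.p) := by
  have hp := lb_p_ge hr
  rw [lbZ_eq r v β ha]
  have h1 : ∀ b ∈ range (4 * lbW r),
      ‖(lbY r v (β * (4 * lbW r) + b) : ℂ) * lbT (lbP r) (4 * lbW r + a - b)‖ ≤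
        2 ^ (1342 * r.p) * 2 ^ (701 * r.p) := by
    intro b hb
    have := mem_range.1 hb
    rw [norm_mul]
    exact mul_le_mul (norm_lbY_le hr hv _) (norm_lbT_le hr (by omega)) (norm_nonneg _)
      (by positivity)
  refine (norm_sum_le _ _).trans ((sum_le_card_nsmul _ _ _ h1).trans ?_)
  rw [card_range, nsmul_eq_mul]
  have h2 : ((4 * lbW r : ℕ) : ℝ) ≤ 2 ^ ((2 + 1) * r.p) := by
    refine le_trans ?_ (lb_lin_le_pow 4 2 r.p (by omega) (by norm_num))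
    exact_mod_cast Nat.mul_le_mul_left 4 (lbW_le hr)
  calc _ ≤ (2 : ℝ) ^ ((2 + 1) * r.p) * (2 ^ (1342 * r.p) * 2 ^ (701 * r.p)) := by gcongr
    _ ≤ _ := by
      rw [← pow_add, ← pow_add]
      exact pow_le_pow_right₀ one_le_two (by omega)

theorem lbPhi_approx (hr : r.Valid) : LApprox r.t (lbPhi r) (Gm r) 3 8 r.p := by
  refine ⟨fun j _ => Gm_rowsum hr j, fun v hv j _ => ?_⟩
  by_cases hj : j < r.s
  swap
  · simp [lbPhi, Gm, hj]
  have hp := lb_p_ge hr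
  have hw := lbW_pos hr
  set β := j / lbW r with hβ
  set a := j % lbW r with hadef
  have ha : a < lbW r := Nat.mod_lt _ hw
  have hje : β * lbW r + a = j := Nat.div_add_mod' _ _
  have h1 := lb_window hr hv (β := β) ha (by rwa [hje])
  rw [hje] at h1
  have h2 := norm_rshift_sub_le (2100 * r.p) (lbZ r v β a * lbA (lbP r) j)
  set Q : ℝ := 2 ^ (700 * r.p) with hQ
  have hQ1 : 1 ≤ Q := one_le_pow₀ one_le_two
  have hQ3 : (2 : ℂ) ^ (2100 * r.p) = (Q : ℂ) ^ 3 := by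
    rw [hQ]; push_cast; rw [← pow_mul]; congr 1; ring
  have h3 : ‖((lbZ r v β a * lbA (lbP r) j : GaussianInt) : ℂ) / 2 ^ (2100 * r.p) -
      ∑ b ∈ range (4 * lbW r), (lbG r ((lbS r : ℝ) * j - (b + (lbC r β - lbW r))) : ℂ) *
        lbE r v (lbC r β + b)‖ ≤ 1 := by
    rw [GaussianInt.toComplex_mul, lbZ_eq r v β ha, sum_mul, sum_div, ← sum_sub_distrib]
    have h4 : ∀ b ∈ range (4 * lbW r),
        ‖(lbY r v (β * (4 * lbW r) + b) : ℂ) * lbT (lbP r) (4 * lbW r + a - b) * lbA (lbP r) j /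
          2 ^ (2100 * r.p) - (lbG r ((lbS r : ℝ) * j - (b + (lbC r β - lbW r))) : ℂ) *
          lbE r v (lbC r β + b)‖ ≤ 2 ^ r.p * (11 * Q ^ 2 * 2 ^ (640 * r.p)) / Q ^ 3 := by
      intro b hb
      have hb' := mem_range.1 hb
      have d1 : (β * (4 * lbW r) + b) / (4 * lbW r) = β := by
        rw [add_comm, Nat.add_mul_div_right _ _ (by omega), Nat.div_eq_of_lt hb', zero_add]
      have d2 : (β * (4 * lbW r) + b) % (4 * lbW r) = b := by
        rw [add_comm, Nat.add_mul_mod_self_right, Nat.mod_eq_of_lt hb']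
      have hm : 4 * lbW r + a - b < 5 * lbW r := by omega
      have hQc : (2 : ℂ) ^ (700 * r.p) = (Q : ℂ) := by rw [hQ]; push_cast; rfl
      have sA := lbA_spec hr j
      have sB := lbB_spec hr (β * (4 * lbW r) + b)
      have sT := lbT_spec hr hm
      rw [hQc] at sA sB sT
      have h5 := lb_triple hQ1 (one_le_pow₀ one_le_two) sA sB sT
        (lb_expA_le hr j) (lb_expB_le hr (β * (4 * lbW r) + b)) (lb_expT_le hr hm)
      rw [d1, d2] at h5
      have e1 : 1 / r.g * Real.exp (Real.pi * lbqA r β a) *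
          Real.exp (Real.pi * lbqT r (4 * lbW r + a - b)) * Real.exp (Real.pi * lbqB r β b) =
          lbG r ((lbS r : ℝ) * j - (b + (lbC r β - lbW r))) := by
        have e2 := congrArg (fun q : ℚ => (q : ℝ)) (lb_expo r β a b (by omega))
        rw [hje] at e2
        push_cast at e2
        rw [lbG, mul_assoc, mul_assoc, ← Real.exp_add, ← Real.exp_add, ← mul_add, ← mul_add,
          ← add_assoc, e2]
        congr 2; ring
      rw [e1] at h5
      have hQ0 : (Q : ℂ) ≠ 0 := by exact_mod_cast (by linarith : Q ≠ 0)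
      rw [lbY, d1, d2, fmul_zero, GaussianInt.toComplex_mul, hQ3]
      have e3 : ∀ E B T A G : ℂ, E * B * T * A / (Q : ℂ) ^ 3 - G * E =
          E * (B * T * A - (Q : ℂ) ^ 3 * G) / (Q : ℂ) ^ 3 := by
        intro E B T A G; field_simp
      rw [e3, norm_div, norm_mul, norm_pow, Complex.norm_real, Real.norm_of_nonneg (by linarith)]
      gcongr
      exact norm_lbE_le hr hv _
    refine (norm_sum_le _ _).trans ((sum_le_card_nsmul _ _ _ h4).trans ?_)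
    rw [card_range, nsmul_eq_mul, ← mul_div_assoc, div_le_one (by positivity)]
    have h6 : ((4 * lbW r : ℕ) : ℝ) * 11 ≤ 2 ^ ((6 + 1) * r.p) := by
      refine le_trans ?_ (lb_lin_le_pow 44 6 r.p (by omega) (by norm_num))
      have : (lbW r : ℝ) ≤ r.p := by exact_mod_cast lbW_le hr
      push_cast; linarith
    have h7 : (2 : ℝ) ^ ((6 + 1) * r.p) * 2 ^ r.p * 2 ^ (640 * r.p) ≤ Q := by
      rw [← pow_add, ← pow_add]
      exact pow_le_pow_right₀ one_le_two (by omega)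
    calc _ = (((4 * lbW r : ℕ) : ℝ) * 11 * 2 ^ r.p * 2 ^ (640 * r.p)) * Q ^ 2 := by ring
      _ ≤ (2 ^ ((6 + 1) * r.p) * 2 ^ r.p * 2 ^ (640 * r.p)) * Q ^ 2 := by gcongr
      _ ≤ Q * Q ^ 2 := by gcongr
      _ = _ := by ring
  rw [lbPhi, if_pos hj, fmul]
  have h8 := (norm_sub_le_norm_sub_add_norm_sub _ _ _).trans (add_le_add h2 h3)
  rw [norm_sub_rev] at h1
  have h9 := (norm_sub_le_norm_sub_add_norm_sub _ _ _).trans (add_le_add h8 h1)
  linarith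

end Crest.Agent.R326
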