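import Crest.Agent.R326.Resample
import Crest.Agent.R326.ExpPi
import Crest.Agent.R326.LineBAn

/-!
The line map after the long Fourier transform: Gaussian resampling by blocks of Toeplitz products.
-/

set_option autoImplicit false

namespace Crest.Agent.R326

open Crest.Agent.Lib.PT Crest.Agent.Lib.LT Finset

/-- The precomputed table. -/
noncomputable def lbTab (r : RP) : List (List GaussianInt) :=
  arr (lbN r * lbW r) (lbA (lbP r)) :: arr (lbN r * (4 * lbW r)) (lbB (lbP r)) ::
    arr (5 * lbW r) (lbT (lbP r)) :: arr (lbN r) (lbU (lbP r))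

lemma lb_sz_le {r : RP} (hr : r.Valid) : sz r ≤ 5 * sz r.t + 4 := by
  have hp := hr.p_hi
  have h1 : r.d ≤ r.t := by have := hr.p_lo; nlinarith [hr.d_pos]
  have h2 : r.g ≤ r.t := by have := lb_g_sq hr; nlinarith [lb_g_pos hr]
  have h3 := sz_nat_mono h1
  have h4 := sz_nat_mono h2
  have h5 := sz_nat_mono hr.lt.le
  have h6 := sz_nat_mono (show r.p ≤ r.t by omega)
  have e : sz r = sz (r.t, r.s, r.g, r.d, r.p) := rfl
  simp only [e, sz_pair]
  omega

lemma lb_sz_t_le (r : RP) : sz r.t ≤ sz r := by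
  have e : sz r = sz (r.t, r.s, r.g, r.d, r.p) := rfl
  simp only [e, sz_pair]
  omega

lemma lb_t_pos {r : RP} (hr : r.Valid) : 0 < r.t := (lb_s_pos hr).trans hr.lt

variable {A : Type} {cur : A → P} {B : A → ℕ} {x : In B}

lemma lb_sm {r : A → RP} (hr : ∀ a, (r a).Valid) (hB : Dom (fun a => (r a).t) B) :
    Sm B (fun a => sz (r a)) := by
  have h1 : Sm B (fun a => Nat.log 2 (r a).t + 1) :=
    ((Sm.log _ fun a => lb_t_pos (hr a)).mono hB).add_const 1
  have h2 : Sm B (fun a => sz (r a).t) :=
    h1.sz_of_lt_two_pow fun a => Nat.lt_pow_succ_log_self (by norm_num) _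
  exact ((h2.const_mul 5).add_const 4).of_le fun a => lb_sz_le (hr a)

theorem lbTab_ct {r : A → RP} {s : A → ℕ} (hr : ∀ a, (r a).Valid) (h : CT cur x r)
    (hs : Sm s (fun a => (r a).p + sz (r a))) (hB : Dom (fun a => (r a).t * s a) B) :
    CT cur x (fun a => lbTab (r a)) := by
  have hsB : Dom s B := hB.le_trans fun a => Nat.le_mul_of_pos_left _ (lb_t_pos (hr a))
  have hc : CS cur x r := ⟨h, (hs.mono hsB).of_le fun a => Nat.le_add_left _ _⟩
  have hp : Dom (fun a => 700 * (r a).p) B :=
    ((hs.dom.trans hsB).le_trans fun a => Nat.le_add_right _ _).const_mul 700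
  have hP : CT cur x (fun a => lbP (r a)) := h.pair (((CT.rp_p h).const_mul 700).un hp)
  have key : ∀ {β : Type} [Enc β] (f : RP × List Unit → ℕ → β)
      (_ : PT (fun q : (RP × List Unit) × ℕ => f q.1 q.2)) (n : RP → ℕ) (_ : PT n)
      (_ : ∀ a, n (r a) ≤ 8 * (r a).t), CT cur x (fun a => arr (n (r a)) (f (lbP (r a)))) := by
    intro β _ f hf n hn hle
    refine CT.tabulate_pt f hf (hc.pt n hn).ct hP s (((hs.const_mul 1400).add_const 40).of_le
      fun a => ?_) ((hB.const_mul 8).le_trans fun a => ?_)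
    · have h1 := sz_nat_mono (hle a)
      have h2 := sz_mul_le 8 (r a).t
      have h3 := lb_sz_t_le (r a)
      have h4 : sz (8 : ℕ) ≤ 6 * 4 + 1 := sz_nat_le_of_lt_two_pow (by norm_num)
      simp only [lbP, sz_pair, sz_un]
      omega
    · rw [← mul_assoc]; exact Nat.mul_le_mul_right _ (hle a)
  refine (key lbA pt_lbA (fun r => lbN r * lbW r) (by fun_prop) fun a => ?_).cons
    ((key lbB pt_lbB (fun r => lbN r * (4 * lbW r)) (by fun_prop) fun a => ?_).cons
    ((key lbT pt_lbT (fun r => 5 * lbW r) (by fun_prop) fun a => ?_).cons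
    (key lbU pt_lbU lbN (by fun_prop) fun a => ?_)))
  · have := lbN_mul_le (hr a); omega
  · have := lbN_mul_le (hr a); rw [mul_left_comm]; omega
  · have := lbW_le (hr a); have := (hr a).p_hi; omega
  · have := lbN_mul_le (hr a)
    have := Nat.le_mul_of_pos_right (lbN (r a)) (lbW_pos (hr a))
    omega

theorem lbTab_sz : Dom (fun r : {r : RP // r.Valid} => sz (lbTab r.1))
    (fun r => r.1.t * r.1.p * 1) := by
  obtain ⟨z, hz⟩ : ∃ z, z = sz (0 : GaussianInt) := ⟨_, rfl⟩
  refine ⟨400000 + 10 * z, fun ⟨r, hr⟩ => ?_⟩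
  have hp := lb_p_ge hr
  have ht := hr.p_hi
  have hN := lbN_mul_le hr
  have hw := lbW_le hr
  have hw0 := lbW_pos hr
  have h1 : sz (arr (lbN r * lbW r) (lbA (lbP r))) ≤ 2 * r.t * (9000 * r.p) + 1 :=
    (sz_arr_le fun i _ => sz_gauss_le (norm_lbA_le hr i)).trans
      (Nat.succ_le_succ (Nat.mul_le_mul hN (by omega)))
  have h2 : sz (arr (lbN r * (4 * lbW r)) (lbB (lbP r))) ≤ 8 * r.t * (17000 * r.p) + 1 :=
    (sz_arr_le fun i _ => sz_gauss_le (norm_lbB_le hr i)).trans
      (Nat.succ_le_succ (Nat.mul_le_mul (by rw [mul_left_comm]; omega) (by omega)))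
  have h3 : sz (arr (5 * lbW r) (lbT (lbP r))) ≤ r.t * (9000 * r.p) + 1 :=
    (sz_arr_le fun i hi => sz_gauss_le (norm_lbT_le hr hi)).trans
      (Nat.succ_le_succ (Nat.mul_le_mul (by omega) (by omega)))
  have h4 : sz (arr (lbN r) (lbU (lbP r))) ≤ lbN r * ((z + 1) * (2 * lbW r) + 1 + 1) + 1 := by
    refine sz_arr_le fun i _ => (sz_list_le _ z fun e he => ?_).trans ?_
    · obtain ⟨_, _, rfl⟩ := List.mem_map.1 he
      exact hz.ge
    · rw [length_lbU hr]
      have := lbC_step' hr i
      exact Nat.succ_le_succ (Nat.mul_le_mul_left _ (by omega))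
  have h5 : lbN r * ((z + 1) * (2 * lbW r) + 1 + 1) ≤ (2 * z + 4) * (2 * r.t) := by
    calc _ ≤ lbN r * ((2 * z + 4) * lbW r) := Nat.mul_le_mul_left _ (by nlinarith)
      _ = (2 * z + 4) * (lbN r * lbW r) := by ring
      _ ≤ _ := Nat.mul_le_mul_left _ hN
  have h6 : r.t ≤ r.t * r.p := Nat.le_mul_of_pos_right _ (by omega)
  have h7 := Nat.mul_le_mul_left z h6
  simp only [lbTab, sz_cons]
  nlinarith

/-- Cutting windows of equal length at increasing positions. -/
theorem lb_win {β γ : Type} [Enc β] [Enc γ] {nb w M : A → ℕ} {c : A → ℕ → ℕ} {E : A → ℕ → β}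
    {U : A → ℕ → List γ} (hU : CT cur x (fun a => arr (nb a) (U a)))
    (hlen : ∀ a i, (U a i).length = c a (i + 1) - c a i) (hc0 : ∀ a, c a 0 = 0)
    (hc : ∀ a i, c a i + w a ≤ c a (i + 1)) (hM : ∀ a i, i < nb a → c a i + w a ≤ M a)
    (hE : CT cur x (fun a => arr (M a) (E a))) (hw : CT cur x (fun a => un (w a)))
    (hB : Dom (fun a => nb a * sz (un (w a))) B) :
    CT cur x (fun a => arr (nb a) fun i => arr (w a) fun b => E a (c a i + b)) := by
  have h1 := CT.map_lt₂ (f := fun (u : List Unit) (l : List β) => l.take u.length)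
    (LT.intro fun _ h => h.fst.takeU h.snd) (hU.splitBy hE).fst hw
    (hB.le_trans fun a => by rw [map_arr, splitBy_arr, length_arr])
  refine h1.congr fun a => ?_
  rw [map_arr, splitBy_arr, map_arr]
  refine arr_congr fun i hi => ?_
  have e : ∑ j ∈ range i, (U a j).length = c a i := by
    simp only [hlen]
    rw [Finset.sum_range_tsub (monotone_nat_of_le_succ fun j => by have := hc a j; omega), hc0,
      Nat.sub_zero]
  have h2 := hc a i
  have h3 := hM a i hi
  rw [e, drop_arr, take_arr, take_arr, hlen, length_un, min_eq_left (by omega)]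

theorem lbPhi_ct {r : A → RP} {v : A → ℕ → GaussianInt} {N μ : A → ℕ} (hr : ∀ a, (r a).Valid)
    (hM : ∀ a, MulOK (cur a) (N a) (μ a)) (hN : ∀ a, 2 ^ 20 * (r a).p ^ 2 ≤ N a)
    (hv : ∀ a k, k < (r a).t → ‖(v a k : ℂ)‖ ≤ 2 ^ (r a).p) (h : CT cur x r)
    (htab : CT cur x (fun a => lbTab (r a))) (hin : CT cur x (fun a => arr (r a).t (v a)))
    (hB : Dom (fun a => (r a).t * (r a).p * 1 * μ a) B) :
    CT cur x (fun a => arr (r a).t (lbPhi (r a) (v a))) := by
  have hp := fun a => lb_p_ge (hr a)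
  have hw0 := fun a => lbW_pos (hr a)
  have hwp := fun a => lbW_le (hr a)
  have hpt := fun a => (hr a).p_hi
  have hNw := fun a => lbN_mul_le (hr a)
  have hN1 : ∀ a, 0 < lbN (r a) := fun a => Nat.succ_pos _
  have hB1 : Dom (fun a => (r a).t * ((r a).p * μ a)) B := hB.le_trans fun a => le_of_eq (by ring)
  have hpμ : ∀ a, (r a).p ≤ (r a).p * μ a := fun a => Nat.le_mul_of_pos_right _ (hM a).pos
  have hBt : Dom (fun a => (r a).t) B := hB1.le_trans fun a =>
    Nat.le_mul_of_pos_right _ (by have := hp a; have := hpμ a; omega)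
  have hc : CS cur x r := ⟨h, lb_sm hr hBt⟩
  have hle : ∀ {n : A → ℕ} (k : ℕ), (∀ a, n a ≤ k * (r a).t) → Dom n B := fun k H =>
    (hBt.const_mul k).le_trans H
  have cw : CT cur x (fun a => lbW (r a)) := (hc.pt lbW (by fun_prop)).ct
  have cn : CT cur x (fun a => lbN (r a)) := (hc.pt lbN (by fun_prop)).ct
  have tA := htab.head_of_cons
  have tB := htab.tail.head_of_cons
  have tT := htab.tail.tail.head_of_cons
  have tU : CT cur x (fun a => arr (lbN (r a)) (lbU (lbP (r a)))) := htab.tail.tail.tail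
  -- the periodic extension
  have hE : CT cur x (fun a => arr (lbW (r a) + (r a).t + (r a).t) (lbE (r a) (v a))) := by
    refine (((((CT.rp_t h).sub cw).drop (hle 1 fun a => by omega) hin).append hin).append
      hin).congr fun a => ?_
    have h1 := hwp a
    have h2 := hpt a
    have h3 := hp a
    rw [arr_add, arr_add, drop_arr, show (r a).t - ((r a).t - lbW (r a)) = lbW (r a) by omega]
    congr 1
    · congr 1
      · exact arr_congr fun i hi => by rw [lbE, Nat.mod_eq_of_lt (by omega), add_comm]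
      · refine arr_congr fun i hi => ?_
        rw [lbE, show lbW (r a) + i + ((r a).t - lbW (r a)) = i + (r a).t by omega,
          Nat.add_mod_right, Nat.mod_eq_of_lt hi]
    · refine arr_congr fun i hi => ?_
      rw [lbE, show lbW (r a) + (r a).t + i + ((r a).t - lbW (r a)) = i + (r a).t + (r a).t by
        omega, Nat.add_mod_right, Nat.add_mod_right, Nat.mod_eq_of_lt hi]
  have uw : CT cur x (fun a => un (lbW (r a))) :=
    cw.un (hle 1 fun a => by have := hwp a; have := hpt a; omega)
  have win : ∀ k : ℕ, k ≤ 3 → CT cur x (fun a => arr (lbN (r a)) fun i => arr (lbW (r a))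
      fun b => lbE (r a) (v a) (k * lbW (r a) + (lbC (r a) i + b))) := by
    intro k hk
    have hk' : ∀ a, k * lbW (r a) ≤ 3 * lbW (r a) := fun a => Nat.mul_le_mul_right _ hk
    refine lb_win (M := fun a => lbW (r a) + (r a).t + (r a).t - k * lbW (r a))
      (E := fun a i => lbE (r a) (v a) (k * lbW (r a) + i)) tU
      (fun a i => length_lbU (hr a) i) (fun a => lbC_zero _) (fun a i => lbC_step (hr a) i)
      (fun a i hi => ?_) (((cw.const_mul k).drop (hle 1 fun a => ?_) hE).congr
        fun a => (drop_arr _ _ _).symm) uw (hle 6 fun a => ?_)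
    · have := lbC_le hi; have := hwp a; have := hpt a; have := hk' a; omega
    · have := hwp a; have := hpt a; have := hk' a; omega
    · have := hNw a; have := hw0 a
      rw [sz_un]; nlinarith
  have hW : CT cur x (fun a => arr (lbN (r a)) fun i => arr (4 * lbW (r a))
      fun b => lbE (r a) (v a) (lbC (r a) i + b)) := by
    refine (((((win 0 (by omega)).arr_zip (win 1 (by omega))).arr_zip (win 2 (by omega))).arr_zip
      (win 3 le_rfl)).arr_map_lt (f := fun q : ((List GaussianInt × List GaussianInt) ×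
        List GaussianInt) × List GaussianInt => q.1.1.1 ++ q.1.1.2 ++ q.1.2 ++ q.2)
      (LT.intro fun _ h => ((h.fst.fst.fst.append h.fst.fst.snd).append h.fst.snd).append
        h.snd)).congr fun a => arr_congr fun i _ => ?_
    rw [show 4 * lbW (r a) = lbW (r a) + lbW (r a) + lbW (r a) + lbW (r a) by ring, arr_add,
      arr_add, arr_add]
    congr 1
    · congr 1
      · congr 1
        · exact arr_congr fun b _ => by congr 1; omega
        · exact arr_congr fun b _ => by congr 1; omega
      · exact arr_congr fun b _ => by congr 1; omega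
    · exact arr_congr fun b _ => by congr 1; omega
  have hup : ∀ a k, k ≤ 3000 → (2 : ℝ) ^ (k * (r a).p) ≤ 2 ^ (3000 * (r a).p) := fun a k hk =>
    pow_le_pow_right₀ one_le_two (Nat.mul_le_mul_right _ hk)
  have hn1 : ∀ a, 3000 * (r a).p + 1 ≤ N a := fun a => by
    have := hN a; have := hp a; nlinarith
  have hcost : ∀ {n : A → ℕ} (k : ℕ), (∀ a, n a ≤ k * (r a).t) →
      Dom (fun a => n a * ((3000 * (r a).p + 1) * μ a)) B := fun k H =>
    (hB1.const_mul (k * 3001)).le_trans fun a => by
      have h1 : (3000 * (r a).p + 1) * μ a ≤ (3001 * (r a).p) * μ a :=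
        Nat.mul_le_mul_right _ (by have := hp a; omega)
      exact (Nat.mul_le_mul (H a) h1).trans (le_of_eq (by ring))
  have hY : CT cur x (fun a => arr (lbN (r a) * (4 * lbW (r a))) (lbY (r a) (v a))) :=
    CT.arr_fmul hM (fun a => 3000 * (r a).p) hW.arr_flatten tB (CT.const 0)
      (fun a => Nat.zero_le _) hn1
      (fun a i _ => (norm_lbE_le (hr a) (hv a) _).trans (by simpa using hup a 1 (by omega)))
      (fun a i _ => (norm_lbB_le (hr a) _).trans (hup a _ (by omega)))
      (hcost 8 fun a => by have := hNw a; rw [mul_left_comm]; omega)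
  have hYb := CT.arr_chunks cn (cw.const_mul 4) (hle 20 fun a => by
    have := hNw a; have := hw0 a; have := hN1 a; nlinarith) hY
  have hZ : CT cur x (fun a => arr (lbN (r a)) fun i => arr (lbW (r a)) (lbZ (r a) (v a) i)) := by
    refine CT.arr_map hYb (tT.pair (cw.pair ((CT.rp_p h).const_mul 3000)))
      (fun a _ => lbW (r a) * ((r a).p * μ a)) ⟨200000, fun q => ?_⟩ (fun x' h₁ h₂ => ?_)
      ((hB1.const_mul 2).le_trans fun a => ?_)
    · have e1 := sz_arr_le (n := 4 * lbW (r q.a))
        (f := fun j => lbY (r q.a) (v q.a) (q.i * (4 * lbW (r q.a)) + j))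
        fun i _ => sz_gauss_le (norm_lbY_le (hr q.a) (hv q.a) _)
      have e2 := sz_arr_le (n := 5 * lbW (r q.a)) fun i hi => sz_gauss_le (norm_lbT_le (hr q.a) hi)
      have e3 := sz_nat_le_self (lbW (r q.a))
      have e4 := sz_nat_le_self (3000 * (r q.a).p)
      have e5 := hp q.a
      have e6 := hw0 q.a
      have e7 := Nat.mul_le_mul_left (lbW (r q.a)) (hpμ q.a)
      have e8 : lbW (r q.a) ≤ lbW (r q.a) * (r q.a).p := Nat.le_mul_of_pos_right _ (by omega)
      have e9 : (r q.a).p ≤ lbW (r q.a) * (r q.a).p := Nat.le_mul_of_pos_left _ e6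
      simp only [sz_pair]
      nlinarith
    · have hwB : ∀ k : ℕ, Dom (fun q : Ix (fun a => lbN (r a)) => k * lbW (r q.a))
          (fun q => lbW (r q.a) * ((r q.a).p * μ q.a)) := fun k =>
        Dom.const_mul k (Dom.of_le fun q => Nat.le_mul_of_pos_right _ (by
          have := hp q.a; have := hpμ q.a; omega))
      have g₁ : CT _ x' (fun q => lbW (r q.a)) := h₂.snd.fst
      have g₂ : CT _ x' (fun q => 3000 * (r q.a).p) := h₂.snd.snd
      have hk := CT.kron (fun q : Ix (fun a => lbN (r a)) => hM q.a) h₁ h₂.fst g₂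
        (fun q => ?_) (fun q i _ => (norm_lbY_le (hr q.a) (hv q.a) _).trans (hup q.a _ (by omega)))
        (fun q i hi => (norm_lbT_le (hr q.a) hi).trans (hup q.a _ (by omega)))
        ⟨40000, fun q => ?_⟩
      · refine (g₁.take (by simpa using hwB 1)
          ((g₁.const_mul 4).drop (hwB 4) hk)).congr fun q => ?_
        rw [drop_arr, take_arr, min_eq_left (by omega)]
        rfl
      · have e1 := size_le_self' (4 * lbW (r q.a))
        have e2 := hwp q.a
        have e3 := hp q.a
        refine le_trans (Nat.mul_le_mul (show _ ≤ 9 * (r q.a).p by omega)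
          (show _ ≤ 7000 * (r q.a).p by omega)) (le_trans ?_ (hN q.a))
        nlinarith
      · have e1 := size_le_self' (4 * lbW (r q.a))
        have e2 := hwp q.a
        have e3 := hp q.a
        have e4 := hw0 q.a
        refine le_trans (Nat.mul_le_mul_right _ (Nat.mul_le_mul
          (show _ ≤ 10 * lbW (r q.a) by omega) (show _ ≤ 4000 * (r q.a).p by omega)))
          (le_of_eq (by ring))
    · simp only [sum_const, card_range, smul_eq_mul]
      rw [← mul_assoc, ← mul_assoc 2]
      exact Nat.mul_le_mul_right _ (hNw a)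
  have hO := CT.arr_fmul hM (fun a => 3000 * (r a).p) hZ.arr_flatten tA
    ((CT.rp_p h).const_mul 2100) (fun a => by omega) hn1
    (fun a i _ => norm_lbZ_le (hr a) (hv a) _ (Nat.mod_lt _ (hw0 a)))
    (fun a i _ => (norm_lbA_le (hr a) _).trans (hup a _ (by omega))) (hcost 2 hNw)
  refine (((CT.rp_s h).take (hle 1 fun a => by have := (hr a).lt; omega) hO).append
    (((CT.rp_t h).sub (CT.rp_s h)).replicate (CT.const (0 : GaussianInt))
      ((hle 1 fun a => by omega).mul_const _))).congr fun a => ?_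
  have h1 := (hr a).lt
  conv_lhs => rw [show (r a).t = (r a).s + ((r a).t - (r a).s) by omega, arr_add]
  rw [take_arr, min_eq_left (le_lbN_mul (hr a)), replicate_eq_arr]
  congr 1
  · exact arr_congr fun j hj => by rw [lbPhi, if_pos hj]
  · exact arr_congr fun j _ => by rw [lbPhi, if_neg (by omega)]

theorem line_B : ∃ φ : RP → (ℕ → GaussianInt) → ℕ → GaussianInt,
    (∀ r : RP, r.Valid → LApprox r.t (φ r) (Gm r) 3 8 r.p) ∧ LineCT φ (fun _ => 1) :=
  ⟨lbPhi, fun _ hr => lbPhi_approx hr, lbTab,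
    fun _ _ _ _ _ _ hr h hs hB => lbTab_ct hr h hs hB, lbTab_sz,
    fun _ _ _ _ _ _ _ _ hr hM hN hv h htab hin hB => lbPhi_ct hr hM hN hv h htab hin hB⟩

end Crest.Agent.R326
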