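import Crest.Agent.R326.Crt
import Crest.Agent.R326.Conv
import Crest.Agent.R326.LineA
import Crest.Agent.R326.LineB

/-!
The approximate multi-dimensional Fourier transform of shape `s 0 × ⋯ × s (d - 1)`: Gaussian
resampling to the shape `t × ⋯ × t`, and Bluestein's reduction to a negacyclic convolution.
-/

set_option autoImplicit false

namespace Crest.Agent.R326

open Crest.Agent.Lib.PT Crest.Agent.Lib.LT Finset RS

/-- Global parameters. -/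
structure GP : Type where
  /-- the dimension -/
  d : ℕ
  /-- the logarithm of the long side -/
  ℓ : ℕ
  /-- the width of the Gaussian -/
  g : ℕ
  /-- the chunk size -/
  q : ℕ
  /-- the first short side -/
  c : ℕ
  /-- the difference of consecutive short sides -/
  D : ℕ

instance : Enc GP := Enc.ofInj (fun π : GP => (π.d, π.ℓ, π.g, π.q, π.c, π.D)) (by
  rintro ⟨_, _, _, _, _, _⟩ ⟨_, _, _, _, _, _⟩ h
  simp only [Prod.mk.injEq] at h
  simp [h])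

/-- The short sides. -/
def GP.s (π : GP) (a : ℕ) : ℕ := π.c + a * π.D

/-- The working precision. -/
def GP.p (π : GP) : ℕ := 16 * π.q

/-- The parameters of the lines in direction `a`. -/
def GP.rp (π : GP) (a : ℕ) : RP := ⟨2 ^ π.ℓ, π.s a, π.g, π.d, π.p⟩

/-- Admissible parameters. -/
structure GP.Valid (π : GP) : Prop where
  line : ∀ a, a < π.d → (π.rp a).Valid
  mod : Moduli π.s π.d (2 ^ π.ℓ)
  d8 : π.d % 8 = 1
  fit : 2 * π.d.size * π.d + 4 ≤ π.ℓ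
  g_le : 4 * π.d * π.g ^ 2 ≤ π.q
  small : 4 * (π.ℓ * π.d) ≤ π.q

section enc
variable {α : Type} [Enc α] {r : α → GP}

lemma pt_gp (h : PT r) :
    PT (fun a => ((r a).d, (r a).ℓ, (r a).g, (r a).q, (r a).c, (r a).D)) := h.of_enc fun _ => rfl
@[fun_prop] lemma PT.gp_d (h : PT r) : PT (fun a => (r a).d) := (pt_gp h).fst
@[fun_prop] lemma PT.gp_ℓ (h : PT r) : PT (fun a => (r a).ℓ) := (pt_gp h).snd.fst
@[fun_prop] lemma PT.gp_g (h : PT r) : PT (fun a => (r a).g) := (pt_gp h).snd.snd.fst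
@[fun_prop] lemma PT.gp_q (h : PT r) : PT (fun a => (r a).q) := (pt_gp h).snd.snd.snd.fst
@[fun_prop] lemma PT.gp_c (h : PT r) : PT (fun a => (r a).c) := (pt_gp h).snd.snd.snd.snd.fst
@[fun_prop] lemma PT.gp_D (h : PT r) : PT (fun a => (r a).D) := (pt_gp h).snd.snd.snd.snd.snd
lemma PT.gp_mk {d ℓ g q c D : α → ℕ} (hd : PT d) (hℓ : PT ℓ) (hg : PT g) (hq : PT q) (hc : PT c)
    (hD : PT D) : PT (fun a => (⟨d a, ℓ a, g a, q a, c a, D a⟩ : GP)) :=
  (hd.pair (hℓ.pair (hg.pair (hq.pair (hc.pair hD))))).of_enc fun _ => rfl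

lemma pt_gp_s : PT (fun z : GP × ℕ => z.1.s z.2) := by
  unfold GP.s
  fun_prop

variable {A : Type} {cur : A → P} {B : A → ℕ} {x : In B} {π : A → GP}

lemma ct_gp (h : CT cur x π) :
    CT cur x (fun a => ((π a).d, (π a).ℓ, (π a).g, (π a).q, (π a).c, (π a).D)) :=
  h.of_enc fun _ => rfl
lemma CT.gp_d (h : CT cur x π) : CT cur x (fun a => (π a).d) := (ct_gp h).fst
lemma CT.gp_ℓ (h : CT cur x π) : CT cur x (fun a => (π a).ℓ) := (ct_gp h).snd.fst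
lemma CT.gp_g (h : CT cur x π) : CT cur x (fun a => (π a).g) := (ct_gp h).snd.snd.fst
lemma CT.gp_q (h : CT cur x π) : CT cur x (fun a => (π a).q) := (ct_gp h).snd.snd.snd.fst
lemma CT.gp_p (h : CT cur x π) : CT cur x (fun a => (π a).p) := (CT.gp_q h).const_mul 16

end enc

/-! ### numerical facts -/

/-- The number of entries of an array. -/
noncomputable def GP.T (π : GP) : ℝ := 2 ^ (π.ℓ * π.d)

/-- The unit of magnitudes. -/
noncomputable def GP.Q (π : GP) : ℝ := 2 ^ π.q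

namespace GP.Valid

variable {π : GP} (h : π.Valid)
include h

lemma d_pos : 0 < π.d := by have := h.d8; omega

lemma six_le : 6 ≤ π.ℓ := by
  have h1 := h.fit
  have h2 := h.d_pos
  have h3 : 0 < π.d.size := Nat.size_pos.2 h2
  nlinarith [Nat.mul_pos h3 h2]

lemma p_le : 8 * π.p ≤ 2 ^ π.ℓ := (h.line 0 h.d_pos).p_hi

lemma p_pos : 0 < π.p := by
  have h1 : 2048 * π.d ^ 2 ≤ π.p := (h.line 0 h.d_pos).p_lo
  have h2 := h.d_pos
  exact lt_of_lt_of_le (by positivity) h1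

lemma q_pos : 0 < π.q := by have := h.p_pos; unfold GP.p at this; omega

lemma T_ge : 64 ≤ π.T := by
  have : 6 ≤ π.ℓ * π.d := h.six_le.trans (Nat.le_mul_of_pos_right _ h.d_pos)
  calc (64 : ℝ) = 2 ^ 6 := by norm_num
    _ ≤ _ := pow_le_pow_right₀ (by norm_num) this

lemma T_four : π.T ^ 4 ≤ π.Q := by
  unfold GP.T GP.Q
  rw [← pow_mul]
  exact pow_le_pow_right₀ (by norm_num) (by have := h.small; omega)

lemma T_cube : 64 * π.T ^ 3 ≤ π.Q := by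
  have h1 := h.T_ge
  calc 64 * π.T ^ 3 ≤ π.T * π.T ^ 3 := by gcongr
    _ = π.T ^ 4 := by ring
    _ ≤ _ := h.T_four

lemma three_pow : (3 : ℝ) ^ π.d ≤ π.T := by
  unfold GP.T
  rw [pow_mul]
  refine pow_le_pow_left₀ (by norm_num) ?_ _
  calc (3 : ℝ) ≤ 2 ^ 6 := by norm_num
    _ ≤ _ := pow_le_pow_right₀ (by norm_num) h.six_le

lemma dp_le : (π.d : ℝ) * π.p ≤ π.T := by
  obtain ⟨e, he⟩ : ∃ e, π.d = e + 1 := ⟨π.d - 1, by have := h.d_pos; omega⟩
  have h1 : π.d ≤ 2 ^ (π.ℓ * e) := by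
    calc π.d ≤ 2 ^ e := by rw [he]; exact Nat.lt_two_pow_self
      _ ≤ _ := Nat.pow_le_pow_right (by norm_num)
        (Nat.le_mul_of_pos_left _ (by have := h.six_le; omega))
  have h2 : π.d * π.p ≤ 2 ^ (π.ℓ * π.d) := by
    calc π.d * π.p ≤ 2 ^ (π.ℓ * e) * 2 ^ π.ℓ :=
          Nat.mul_le_mul h1 (by have := h.p_le; omega)
      _ = _ := by rw [← pow_add, he]; congr 1
  unfold GP.T
  exact_mod_cast h2

lemma d_le : (π.d : ℝ) ≤ π.T := by
  have h1 : (1 : ℝ) ≤ π.p := by exact_mod_cast h.p_pos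
  calc (π.d : ℝ) ≤ π.d * π.p := le_mul_of_one_le_right (by positivity) h1
    _ ≤ _ := h.dp_le

lemma lam_le : ((2 : ℝ) ^ (2 * π.g ^ 2)) ^ π.d * 2 ^ (2 * π.g ^ 2) ≤ π.Q := by
  unfold GP.Q
  rw [← pow_mul, ← pow_add]
  refine pow_le_pow_right₀ (by norm_num) ?_
  have h1 := h.g_le
  have h2 := h.d_pos
  nlinarith [Nat.zero_le (π.g ^ 2)]

omit h in
lemma two_pow_p : (2 : ℝ) ^ π.p = π.Q ^ 16 := by
  unfold GP.Q GP.p
  rw [← pow_mul, mul_comm]

omit h in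
lemma t_pow : ((2 ^ π.ℓ : ℕ) : ℝ) ^ π.d = π.T := by
  unfold GP.T
  push_cast
  rw [← pow_mul]

lemma T_le : 64 * π.T ≤ π.Q := by
  have h1 := h.T_ge
  have h2 := h.T_cube
  nlinarith [mul_nonneg (by linarith : 0 ≤ π.T) (by nlinarith : 0 ≤ π.T ^ 2 - 1)]

lemma Q_ge : 64 ≤ π.Q := by have := h.T_ge; have := h.T_le; linarith

lemma Q_le_pow {k : ℕ} (hk : k ≠ 0) : π.Q ≤ π.Q ^ k :=
  le_self_pow₀ (by have := h.Q_ge; linarith) hk

lemma Q_succ (k : ℕ) : 64 * π.T * π.Q ^ k ≤ π.Q ^ (k + 1) := by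
  have h1 := h.T_le
  have h2 := h.Q_ge
  rw [pow_succ']
  gcongr

end GP.Valid

/-! ### bounds and approximation on the box -/

/-- A bound for the entries of an array. -/
def Bd (π : GP) (f : (Fin π.d → ℕ) → GaussianInt) (r : ℝ) : Prop :=
  ∀ y ∈ box π.d (2 ^ π.ℓ), ‖(f y : ℂ)‖ ≤ r

/-- Two arrays differ by at most `e`. -/
def Near (π : GP) (f g : (Fin π.d → ℕ) → ℂ) (e : ℝ) : Prop :=
  ∀ y ∈ box π.d (2 ^ π.ℓ), ‖f y - g y‖ ≤ e

lemma Bd.mono {π : GP} {f : (Fin π.d → ℕ) → GaussianInt} {r r' : ℝ} (h : Bd π f r) (hr : r ≤ r') :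
    Bd π f r' := fun y hy => (h y hy).trans hr

lemma Near.mono {π : GP} {f g : (Fin π.d → ℕ) → ℂ} {r r' : ℝ} (h : Near π f g r) (hr : r ≤ r') :
    Near π f g r' := fun y hy => (h y hy).trans hr

lemma Near.trans {π : GP} {f g k : (Fin π.d → ℕ) → ℂ} {r r' : ℝ} (h : Near π f g r)
    (h' : Near π g k r') : Near π f k (r + r') := fun y hy =>
  (norm_sub_le_norm_sub_add_norm_sub _ (g y) _).trans (add_le_add (h y hy) (h' y hy))

lemma tens_sub {d t : ℕ} (κ : Fin d → ℕ → ℕ → ℂ) (f g : (Fin d → ℕ) → ℂ) (x : Fin d → ℕ) :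
    tens t κ f x - tens t κ g x = tens t κ (fun y => f y - g y) x := by
  simp only [tens, ← Finset.sum_sub_distrib, mul_sub]

lemma Near.tens {π : GP} {f g : (Fin π.d → ℕ) → ℂ} {e Λ : ℝ} (h : Near π f g e) (he : 0 ≤ e)
    {κ : Fin π.d → ℕ → ℕ → ℂ}
    (hκ : ∀ j a, a < 2 ^ π.ℓ → ∑ k ∈ range (2 ^ π.ℓ), ‖κ j a k‖ ≤ Λ) :
    Near π (tens (2 ^ π.ℓ) κ f) (tens (2 ^ π.ℓ) κ g) (Λ ^ π.d * e) := fun y hy => by
  rw [tens_sub]
  exact norm_tens_le (fun j => hκ j _ (mem_box.1 hy j)) h he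

/-- One pass of line maps in all directions. -/
def pass (φ : RP → (ℕ → GaussianInt) → ℕ → GaussianInt) (π : GP)
    (f : (Fin π.d → ℕ) → GaussianInt) : (Fin π.d → ℕ) → GaussianInt :=
  allLines (fun i => φ (π.rp i)) f π.d

/-- No overflow occurs during a pass. -/
def PassOK (φ : RP → (ℕ → GaussianInt) → ℕ → GaussianInt) (π : GP)
    (f : (Fin π.d → ℕ) → GaussianInt) : Prop :=
  ∀ i, i ≤ π.d → Bd π (allLines (fun i => φ (π.rp i)) f i) (2 ^ π.p)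

lemma pass_spec {φ : RP → (ℕ → GaussianInt) → ℕ → GaussianInt} {π : GP} {M : ℕ → ℕ → ℕ → ℂ}
    {Λ ε r R E : ℝ} (hφ : ∀ i, i < π.d → LApprox (2 ^ π.ℓ) (φ (π.rp i)) (M i) Λ ε π.p)
    (hΛ : 1 ≤ Λ) (hε : 0 ≤ ε) {f : (Fin π.d → ℕ) → GaussianInt} (hf : Bd π f r)
    (hR : Λ ^ π.d * (r + π.d * ε) ≤ R) (hR' : R ≤ π.Q ^ 16) (hE : π.d * ε * Λ ^ π.d ≤ E) :
    PassOK φ π f ∧ Bd π (pass φ π f) R ∧
      Near π (fun y => (pass φ π f y : ℂ)) (tens (2 ^ π.ℓ) (fun j => M j) fun y => (f y : ℂ)) E := by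
  rw [← GP.Valid.two_pow_p] at hR'
  obtain ⟨h1, h2⟩ := allDims_approx hφ hΛ hε hf (hR.trans hR')
  exact ⟨fun i hi y hy => (h1 i hi y hy).trans (hR.trans hR'),
    fun y hy => (h1 _ le_rfl y hy).trans hR, fun y hy => (h2 y hy).trans hE⟩

/-- The line map before the long transform. -/
noncomputable def φA : RP → (ℕ → GaussianInt) → ℕ → GaussianInt := line_A.choose

/-- The matrix approximated by `φA`. -/
noncomputable def MA : RP → ℕ → ℕ → ℂ := line_A.choose_spec.choose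

/-- The line map after the long transform. -/
noncomputable def φB : RP → (ℕ → GaussianInt) → ℕ → GaussianInt := line_B.choose

/-- Multiplication by a chirp. -/
noncomputable def φC (e₁ e₂ : ℤ) : RP → (ℕ → GaussianInt) → ℕ → GaussianInt :=
  (line_chirp e₁ e₂).choose

variable {π : GP}

lemma passA (h : π.Valid) {f : (Fin π.d → ℕ) → GaussianInt} (hf : Bd π f (π.Q ^ 12)) :
    PassOK φA π f ∧ Bd π (pass φA π f) (2 * π.Q ^ 13) ∧
      Near π (fun y => (pass φA π f y : ℂ))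
        (tens (2 ^ π.ℓ) (fun j => MA (π.rp j)) fun y => (f y : ℂ)) (π.T * π.Q) := by
  have hl := h.lam_le
  have hd := h.dp_le
  have hT := h.T_ge
  have hQ := h.Q_ge
  have hTQ := h.T_le
  set Λ : ℝ := 2 ^ (2 * π.g ^ 2) with hΛ
  have h1 : 1 ≤ Λ := one_le_pow₀ (by norm_num)
  have h2 : Λ ^ π.d ≤ π.Q := (le_mul_of_one_le_right (by positivity) h1).trans hl
  have h3 : (π.d : ℝ) * (Λ * π.p) * Λ ^ π.d ≤ π.T * π.Q := by
    calc _ = (π.d * π.p) * (Λ ^ π.d * Λ) := by ring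
      _ ≤ _ := by gcongr
  have h4 : π.T * π.Q ≤ π.Q ^ 13 := by
    calc π.T * π.Q ≤ π.Q ^ 12 * π.Q := by
          gcongr
          exact le_trans (by linarith) (h.Q_le_pow (by norm_num))
      _ = _ := by ring
  refine pass_spec (M := fun j => MA (π.rp j)) (Λ := Λ) (ε := Λ * π.p)
    (fun i hi => (line_A.choose_spec.choose_spec.1 _ (h.line i hi)).1) h1 (by positivity) hf
    ?_ ?_ h3
  · calc _ = Λ ^ π.d * π.Q ^ 12 + π.d * (Λ * π.p) * Λ ^ π.d := by ring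
      _ ≤ π.Q * π.Q ^ 12 + π.Q ^ 13 := by gcongr; exact h3.trans h4
      _ = _ := by ring
  · calc 2 * π.Q ^ 13 ≤ π.Q ^ 3 * π.Q ^ 13 := by
          gcongr
          exact le_trans (by linarith) (h.Q_le_pow (by norm_num))
      _ = _ := by ring

lemma passC (e₁ e₂ : ℤ) (h : π.Valid) {f : (Fin π.d → ℕ) → GaussianInt} {r R : ℝ} (hf : Bd π f r)
    (hR : r + 3 * π.T ≤ R) (hR' : R ≤ π.Q ^ 16) :
    PassOK (φC e₁ e₂) π f ∧ Bd π (pass (φC e₁ e₂) π f) R ∧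
      Near π (fun y => (pass (φC e₁ e₂) π f y : ℂ))
        (tens (2 ^ π.ℓ) (fun _ => chirpM e₁ e₂ (2 ^ π.ℓ)) fun y => (f y : ℂ)) (3 * π.T) := by
  have hd := h.d_le
  refine pass_spec (M := fun _ => chirpM e₁ e₂ (2 ^ π.ℓ)) (Λ := 1) (ε := 3)
    (fun i hi => (line_chirp e₁ e₂).choose_spec.1 _ (h.line i hi)) le_rfl (by norm_num) hf
    ?_ hR' ?_
  · rw [one_pow]; linarith
  · rw [one_pow]; linarith

lemma passB (h : π.Valid) {f : (Fin π.d → ℕ) → GaussianInt} (hf : Bd π f (2 * π.Q ^ 14)) :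
    PassOK φB π f ∧ Bd π (pass φB π f) (π.Q ^ 15) ∧
      Near π (fun y => (pass φB π f y : ℂ))
        (tens (2 ^ π.ℓ) (fun j => Gm (π.rp j)) fun y => (f y : ℂ)) (8 * π.T ^ 2) := by
  have hd := h.d_le
  have h3 := h.three_pow
  have hT := h.T_ge
  have hQ := h.Q_ge
  have hTQ := h.T_le
  refine pass_spec (M := fun j => Gm (π.rp j)) (Λ := 3) (ε := 8)
    (fun i hi => line_B.choose_spec.1 _ (h.line i hi)) (by norm_num) (by norm_num) hf ?_ ?_ ?_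
  · have h5 : π.Q ≤ π.Q ^ 14 := h.Q_le_pow (by norm_num)
    have h6 := h.Q_succ 14
    calc _ ≤ π.T * (2 * π.Q ^ 14 + π.Q ^ 14) := by gcongr; linarith
      _ ≤ _ := by nlinarith [mul_nonneg (by linarith : 0 ≤ π.T) (by linarith : 0 ≤ π.Q ^ 14)]
  · exact pow_le_pow_right₀ (by linarith) (by norm_num)
  · calc _ ≤ π.T * 8 * π.T := by gcongr
      _ = _ := by ring

/-! ### Bluestein's identity -/

lemma ee_int_add_half (n : ℤ) : ee (n + 1 / 2) = -1 := by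
  unfold ee
  rw [show (2 * Real.pi * Complex.I * ((n + 1 / 2 : ℝ) : ℂ) : ℂ) =
    n * (2 * Real.pi * Complex.I) + Real.pi * Complex.I by push_cast; ring,
    Complex.exp_add, Complex.exp_int_mul_two_pi_mul_I, Complex.exp_pi_mul_I, one_mul]

/-- The chirp. -/
noncomputable def chirp (e₁ e₂ : ℤ) (t k : ℕ) : ℂ := ee ((e₁ * (k : ℝ) ^ 2 + e₂ * k) / (2 * t))

/-- The matrix of the negacyclic convolution with the chirp. -/
noncomputable def Km (t a b : ℕ) : ℂ := (if b ≤ a then 1 else -1) * chirp 1 1 t ((a + t - b) % t)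

lemma bluestein {t a b : ℕ} (ht : Even t) (ha : a < t) (hb : b < t) :
    chirp (-1) (-1) t a * (Km t a b * chirp (-1) 1 t b) = Fm t a b := by
  have ht0 : (t : ℝ) ≠ 0 := by exact_mod_cast (by omega : t ≠ 0)
  unfold Km Fm chirp
  rw [if_pos (⟨ha, hb⟩ : a < t ∧ b < t)]
  split_ifs with hab
  · obtain ⟨k, rfl⟩ := Nat.exists_eq_add_of_le hab
    rw [show b + k + t - b = k + t by omega, Nat.add_mod_right, Nat.mod_eq_of_lt (by omega),
      one_mul, ← ee_add, ← ee_add]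
    congr 1
    push_cast
    field_simp
    ring
  · obtain ⟨m, rfl⟩ := ht
    obtain ⟨k, hk⟩ : ∃ k, b + k = a + (m + m) := ⟨a + (m + m) - b, by omega⟩
    rw [show a + (m + m) - b = k by omega, Nat.mod_eq_of_lt (by omega),
      ← ee_int_add_half ((b : ℤ) - a - m - 1), ← ee_add, ← ee_add, ← ee_add]
    congr 1
    have hk' : (k : ℝ) = a + (m + m) - b := by
      have : ((b + k : ℕ) : ℝ) = ((a + (m + m) : ℕ) : ℝ) := by rw [hk]
      push_cast at this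
      linarith
    have hm : (m : ℝ) ≠ 0 := by exact_mod_cast (by omega : m ≠ 0)
    push_cast
    rw [hk']
    field_simp
    ring

lemma sum_chirpM_left (e₁ e₂ : ℤ) {t a : ℕ} (ha : a < t) (v : ℕ → ℂ) :
    ∑ k ∈ range t, chirpM e₁ e₂ t a k * v k = chirp e₁ e₂ t a * v a := by
  rw [Finset.sum_eq_single a (fun k _ hk => by simp [chirpM, hk.symm])
    (fun h => absurd (mem_range.2 ha) h)]
  simp [chirpM, chirp]

lemma sum_chirpM_right (e₁ e₂ : ℤ) {t b : ℕ} (hb : b < t) (v : ℕ → ℂ) :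
    ∑ k ∈ range t, v k * chirpM e₁ e₂ t k b = v b * chirp e₁ e₂ t b := by
  rw [Finset.sum_eq_single b (fun k _ hk => by simp [chirpM, hk])
    (fun h => absurd (mem_range.2 hb) h)]
  simp [chirpM, chirp]

lemma chirpM_rowsum (e₁ e₂ : ℤ) {t a : ℕ} (ha : a < t) :
    ∑ k ∈ range t, ‖chirpM e₁ e₂ t a k‖ ≤ 1 := by
  rw [Finset.sum_eq_single a (fun k _ hk => by simp [chirpM, hk.symm])
    (fun h => absurd (mem_range.2 ha) h)]
  simp [chirpM, norm_ee]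

lemma Km_rowsum (t a : ℕ) : ∑ k ∈ range t, ‖Km t a k‖ ≤ t := by
  have : ∀ k, ‖Km t a k‖ = 1 := fun k => by
    unfold Km chirp
    split_ifs <;> simp [norm_ee]
  simp [this]

lemma Fm_rowsum (s t a : ℕ) : ∑ k ∈ range t, ‖Fm s a k‖ ≤ t := by
  have : ∀ k, ‖Fm s a k‖ ≤ 1 := fun k => by
    unfold Fm
    split_ifs <;> simp [norm_ee]
  calc _ ≤ ∑ _k ∈ range t, (1 : ℝ) := Finset.sum_le_sum fun k _ => this k
    _ = _ := by simp

lemma tens_bluestein {d t : ℕ} (ht : Even t) (f : (Fin d → ℕ) → ℂ) {x : Fin d → ℕ}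
    (hx : x ∈ box d t) :
    tens t (fun _ => chirpM (-1) (-1) t) (tens t (fun _ => Km t)
      (tens t (fun _ => chirpM (-1) 1 t) f)) x = tens t (fun _ => Fm t) f x := by
  have e : tens t (fun _ : Fin d => Km t) (tens t (fun _ => chirpM (-1) 1 t) f) = _ :=
    funext fun y => tens_tens _ _ f y
  rw [e, tens_tens]
  refine tens_congr (fun j k hk => ?_) fun _ _ => rfl
  rw [sum_chirpM_left _ _ (mem_box.1 hx j), sum_chirpM_right _ _ hk]
  exact bluestein ht (mem_box.1 hx j) hk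

lemma card_box (d t : ℕ) : (box d t).card = t ^ d := by simp [box]

lemma nconv_prod {d t : ℕ} (f : (Fin d → ℕ) → ℂ) (x : Fin d → ℕ) :
    nconv t f (fun y => ∏ j, chirp 1 1 t (y j)) x = tens t (fun _ => Km t) f x := by
  unfold nconv tens Km
  refine Finset.sum_congr rfl fun y _ => ?_
  rw [Finset.prod_mul_distrib]
  ring

lemma norm_nconv_le {d t : ℕ} (ht : 0 < t) {f g : (Fin d → ℕ) → ℂ} {r r' : ℝ}
    (hf : ∀ y ∈ box d t, ‖f y‖ ≤ r) (hg : ∀ y ∈ box d t, ‖g y‖ ≤ r') (x : Fin d → ℕ) :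
    ‖nconv t f g x‖ ≤ (t : ℝ) ^ d * (r * r') := by
  unfold nconv
  refine (norm_sum_le _ _).trans ?_
  calc _ ≤ ∑ _y ∈ box d t, r * r' := Finset.sum_le_sum fun y hy => ?_
    _ = _ := by simp [card_box]
  have h1 : ‖∏ j, if y j ≤ x j then (1 : ℂ) else -1‖ = 1 := by
    rw [norm_prod]
    exact Finset.prod_eq_one fun j _ => by split_ifs <;> simp
  rw [norm_mul, h1, one_mul, norm_mul]
  exact mul_le_mul (hf y hy) (hg _ (mem_box.2 fun j => Nat.mod_lt _ ht)) (norm_nonneg _)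
    ((norm_nonneg _).trans (hf y hy))

lemma coe_nconv {d t : ℕ} (f g : (Fin d → ℕ) → GaussianInt) (x : Fin d → ℕ) :
    ((nconv t f g x : GaussianInt) : ℂ) = nconv t (fun y => (f y : ℂ)) (fun y => (g y : ℂ)) x := by
  unfold nconv
  rw [map_sum]
  refine Finset.sum_congr rfl fun y _ => ?_
  rw [map_mul, map_mul, map_prod]
  congr 1
  exact Finset.prod_congr rfl fun j _ => by split_ifs <;> simp

/-! ### the transform -/

/-- The kernel of the convolution, scaled by `2 ^ (15 q)`. -/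
noncomputable def ker (π : GP) : (Fin π.d → ℕ) → GaussianInt :=
  pass (φC 1 1) π fun _ => 1 * 2 ^ (15 * π.q)

/-- The convolution step. -/
noncomputable def cv (π : GP) (f : (Fin π.d → ℕ) → GaussianInt) (x : Fin π.d → ℕ) : GaussianInt :=
  rshift (15 * π.q) (nconv (2 ^ π.ℓ) f (ker π) x)

/-- The approximate Fourier transform. -/
noncomputable def dft (π : GP) (f : (Fin π.d → ℕ) → GaussianInt) : (Fin π.d → ℕ) → GaussianInt :=
  pass φB π (pass (φC (-1) (-1)) π (cv π (pass (φC (-1) 1) π (pass φA π f))))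

lemma coe_scale (π : GP) (k : ℕ) :
    ((1 * 2 ^ (k * π.q) : GaussianInt) : ℂ) = ((π.Q ^ k : ℝ) : ℂ) := by
  unfold GP.Q
  rw [one_mul, map_pow, ← pow_mul, mul_comm π.q]
  push_cast
  congr 1
  exact map_ofNat _ 2

lemma ker_spec (h : π.Valid) :
    PassOK (φC 1 1) π (fun _ => 1 * 2 ^ (15 * π.q)) ∧ Bd π (ker π) (π.Q ^ 16) ∧
      Near π (fun y => (ker π y : ℂ))
        (fun y => ((π.Q ^ 15 : ℝ) : ℂ) * ∏ j, chirp 1 1 (2 ^ π.ℓ) (y j)) (3 * π.T) := by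
  have hT := h.T_ge
  have hQ := h.Q_ge
  have h5 : π.Q ≤ π.Q ^ 15 := h.Q_le_pow (by norm_num)
  have h6 := h.Q_succ 15
  have hTQ := h.T_le
  obtain ⟨h1, h2, h3⟩ := passC 1 1 h (f := fun _ => 1 * 2 ^ (15 * π.q)) (r := π.Q ^ 15)
    (R := π.Q ^ 16) (fun y _ => by
      rw [coe_scale, Complex.norm_real, Real.norm_of_nonneg (by positivity)])
    (by nlinarith) le_rfl
  refine ⟨h1, h2, fun y hy => ?_⟩
  have := h3 y hy
  rw [show (fun _ : Fin π.d => chirpM 1 1 (2 ^ π.ℓ)) = fun _ a b =>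
    if a = b then chirp 1 1 (2 ^ π.ℓ) b else 0 from rfl,
    tens_diag (fun _ => chirp 1 1 (2 ^ π.ℓ)) _ hy, coe_scale, mul_comm (∏ _j, _)] at this
  exact this

lemma cv_spec (h : π.Valid) {f : (Fin π.d → ℕ) → GaussianInt} (hf : Bd π f (3 * π.Q ^ 13)) :
    Bd π (cv π f) (π.Q ^ 14) ∧ Near π (fun y => (cv π f y : ℂ))
      (tens (2 ^ π.ℓ) (fun _ => Km (2 ^ π.ℓ)) fun y => (f y : ℂ)) 3 := by
  have hT := h.T_ge
  have hQ := h.Q_ge
  have hn : Near π (fun y => (cv π f y : ℂ))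
      (tens (2 ^ π.ℓ) (fun _ => Km (2 ^ π.ℓ)) fun y => (f y : ℂ)) 3 := fun y hy => by
    have h1 := norm_rshift_sub_le (15 * π.q) (nconv (2 ^ π.ℓ) f (ker π) y)
    have h2 := norm_nconv_le (by positivity) hf (ker_spec h).2.2 y
    have hq : ((π.Q ^ 15 : ℝ) : ℂ) = 2 ^ (15 * π.q) := by
      unfold GP.Q
      rw [← pow_mul, mul_comm π.q]
      push_cast
      rfl
    have e : nconv (2 ^ π.ℓ) (fun y => (f y : ℂ)) (fun y => (ker π y : ℂ) -
        ((π.Q ^ 15 : ℝ) : ℂ) * ∏ j, chirp 1 1 (2 ^ π.ℓ) (y j)) y =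
        2 ^ (15 * π.q) * (((nconv (2 ^ π.ℓ) f (ker π) y : GaussianInt) : ℂ) / 2 ^ (15 * π.q) -
          tens (2 ^ π.ℓ) (fun _ => Km (2 ^ π.ℓ)) (fun y => (f y : ℂ)) y) := by
      rw [← nconv_prod, coe_nconv, hq, mul_sub, mul_div_cancel₀ _ (pow_ne_zero _ two_ne_zero)]
      unfold nconv
      rw [Finset.mul_sum, ← Finset.sum_sub_distrib]
      exact Finset.sum_congr rfl fun z _ => by ring
    rw [e, norm_mul, ← hq, Complex.norm_real, Real.norm_of_nonneg (by positivity),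
      GP.Valid.t_pow] at h2
    have h3 : π.T * (3 * π.Q ^ 13 * (3 * π.T)) ≤ π.Q ^ 15 * 1 := by
      have := h.T_le
      calc _ = (3 * π.T) ^ 2 * π.Q ^ 13 := by ring
        _ ≤ π.Q ^ 2 * π.Q ^ 13 := by gcongr; linarith
        _ = _ := by ring
    have h4 := le_of_mul_le_mul_left (h2.trans h3) (by positivity)
    rw [hq] at h4
    refine (norm_sub_le_norm_sub_add_norm_sub _ _ _).trans ((add_le_add h1 h4).trans ?_)
    norm_num
  refine ⟨fun y hy => ?_, hn⟩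
  have h1 := norm_tens_le (κ := fun _ : Fin π.d => Km (2 ^ π.ℓ)) (x := y)
    (fun j => Km_rowsum _ _) hf (by positivity)
  rw [GP.Valid.t_pow] at h1
  have h2 := norm_le_norm_add_norm_sub' ((cv π f y : GaussianInt) : ℂ)
    (tens (2 ^ π.ℓ) (fun _ => Km (2 ^ π.ℓ)) (fun y => (f y : ℂ)) y)
  have h3 : ‖((cv π f y : GaussianInt) : ℂ) - _‖ ≤ 3 := hn y hy
  have h5 : π.Q ≤ π.Q ^ 13 := h.Q_le_pow (by norm_num)
  have h6 : _ ≤ π.Q ^ 14 := h.Q_succ 13
  have h7 : 1 * π.Q ^ 13 ≤ π.T * π.Q ^ 13 := by gcongr; linarith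
  linarith

/-- All the passes of the transform are free of overflow. -/
lemma dft_stages (h : π.Valid) {f : (Fin π.d → ℕ) → GaussianInt} (hf : Bd π f (π.Q ^ 12)) :
    PassOK φA π f ∧ PassOK (φC (-1) 1) π (pass φA π f) ∧
      Bd π (pass (φC (-1) 1) π (pass φA π f)) (3 * π.Q ^ 13) ∧
      PassOK (φC (-1) (-1)) π (cv π (pass (φC (-1) 1) π (pass φA π f))) ∧
      PassOK φB π (pass (φC (-1) (-1)) π (cv π (pass (φC (-1) 1) π (pass φA π f)))) ∧
      Near π (fun y => (dft π f y : ℂ))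
        (tens (2 ^ π.ℓ) (fun j => Fm (π.s j)) fun y => (f y : ℂ)) (π.Q ^ 2) := by
  have hT := h.T_ge
  have hQ := h.Q_ge
  have hTQ := h.T_le
  have q13 : π.Q ≤ π.Q ^ 13 := h.Q_le_pow (by norm_num)
  have q14 : π.Q ≤ π.Q ^ 14 := h.Q_le_pow (by norm_num)
  have q3 : π.Q ≤ π.Q ^ 3 := h.Q_le_pow (by norm_num)
  have q2 : π.Q ≤ π.Q ^ 2 := h.Q_le_pow (by norm_num)
  obtain ⟨a1, a2, a3⟩ := passA h hf
  obtain ⟨b1, b2, b3⟩ := passC (-1) 1 h a2 (R := 3 * π.Q ^ 13) (by linarith) (by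
    calc 3 * π.Q ^ 13 ≤ π.Q ^ 3 * π.Q ^ 13 := by gcongr; linarith
      _ = _ := by ring)
  obtain ⟨c2, c3⟩ := cv_spec h b2
  obtain ⟨d1, d2, d3⟩ := passC (-1) (-1) h c2 (R := 2 * π.Q ^ 14) (by linarith) (by
    calc 2 * π.Q ^ 14 ≤ π.Q ^ 2 * π.Q ^ 14 := by gcongr; linarith
      _ = _ := by ring)
  obtain ⟨e1, -, e3⟩ := passB h d2
  refine ⟨a1, b1, b2, d1, e1, ?_⟩
  have n1 := b3.trans (a3.tens (by positivity) (κ := fun _ => chirpM (-1) 1 (2 ^ π.ℓ))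
    fun _ _ ha => chirpM_rowsum _ _ ha)
  have n2 := c3.trans (n1.tens (by positivity) (κ := fun _ => Km (2 ^ π.ℓ))
    fun _ _ _ => Km_rowsum _ _)
  have n3 := d3.trans (n2.tens (by positivity) (κ := fun _ => chirpM (-1) (-1) (2 ^ π.ℓ))
    fun _ _ ha => chirpM_rowsum _ _ ha)
  have n4 := e3.trans (n3.tens (by positivity) (κ := fun j => Gm (π.rp j))
    fun j a _ => Gm_rowsum (h.line j j.2) a)
  simp only [one_pow, one_mul, GP.Valid.t_pow] at n4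
  intro y hy
  have e : tens (2 ^ π.ℓ) (fun j : Fin π.d => Fm (π.s j)) (fun y => (f y : ℂ)) y =
      tens (2 ^ π.ℓ) (fun j : Fin π.d => Gm (π.rp j))
        (tens (2 ^ π.ℓ) (fun _ => chirpM (-1) (-1) (2 ^ π.ℓ))
          (tens (2 ^ π.ℓ) (fun _ => Km (2 ^ π.ℓ))
            (tens (2 ^ π.ℓ) (fun _ => chirpM (-1) 1 (2 ^ π.ℓ))
              (tens (2 ^ π.ℓ) (fun j => MA (π.rp j)) fun y => (f y : ℂ))))) y := by
    refine Eq.trans ?_ (tens_congr (fun _ _ _ => rfl)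
      (fun z hz => (tens_bluestein (t := 2 ^ π.ℓ) (h.line 0 h.d_pos).even _ hz).symm))
    have e' : tens (2 ^ π.ℓ) (fun _ : Fin π.d => Fm (2 ^ π.ℓ))
        (tens (2 ^ π.ℓ) (fun j => MA (π.rp j)) fun y => (f y : ℂ)) = _ :=
      funext fun z => tens_tens _ _ _ z
    rw [e', tens_tens]
    exact tens_congr (fun j k hk => ((line_A.choose_spec.choose_spec.1 _ (h.line j j.2)).2 _ _
      (mem_box.1 hy j) hk).symm) fun _ _ => rfl
  rw [e]
  refine (n4 y hy).trans ?_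
  have h3 := h.three_pow
  have hc := h.T_cube
  have t1 : 1 ≤ π.T := by linarith
  have t2 : π.T ≤ π.T ^ 3 := le_self_pow₀ t1 (by norm_num)
  have t3 : π.T ^ 2 ≤ π.T ^ 3 := pow_le_pow_right₀ t1 (by norm_num)
  have t4 : π.T ^ 3 ≤ π.T ^ 3 * π.Q := le_mul_of_one_le_right (by positivity) (by linarith)
  calc _ ≤ 8 * π.T ^ 2 + π.T * (3 * π.T + (3 + π.T * (3 * π.T + π.T * π.Q))) := by gcongr
    _ = 11 * π.T ^ 2 + 3 * π.T + 3 * π.T ^ 3 + π.T ^ 3 * π.Q := by ring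
    _ ≤ 64 * π.T ^ 3 * π.Q := by nlinarith [pow_pos (by linarith : 0 < π.T) 3]
    _ ≤ π.Q * π.Q := by gcongr
    _ = _ := by ring

lemma dft_near (h : π.Valid) {f : (Fin π.d → ℕ) → GaussianInt} (hf : Bd π f (π.Q ^ 12)) :
    Near π (fun y => (dft π f y : ℂ))
      (tens (2 ^ π.ℓ) (fun j => Fm (π.s j)) fun y => (f y : ℂ)) (π.Q ^ 2) :=
  (dft_stages h hf).2.2.2.2.2

/-! ### the cost of the transform -/

/-- The cost of a transform, given the costs per bit of the two kinds of multiplications. -/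
noncomputable def GP.cost (π : GP) (μ₁ μ₂ : ℕ) : ℕ :=
  2 ^ (π.ℓ * π.d) * π.p *
    ((π.d + 1) * (pw τ₁ π.ℓ + π.d ^ 3 * μ₁) + (π.ℓ * pw τ₂ π.d + μ₂))

/-- A family of admissible parameters with multiplication oracles. -/
structure Fam {A : Type} (cur : A → P) (B : A → ℕ) (π : A → GP) (μ₁ μ₂ : A → ℕ) : Prop where
  valid : ∀ a, (π a).Valid
  m₁ : ∀ a, MulOK (cur a) (2 ^ 20 * (π a).p ^ 2) (μ₁ a)
  m₂ : ∀ a, MulOK (cur a) (64 * 2 ^ (π a).ℓ * (π a).p) (μ₂ a)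
  sm : Sm (fun a => (π a).p) (fun a => (π a).ℓ * (π a).d + (π a).ℓ + (π a).d + sz (π a))
  s₀ : ∃ s₀ : A → ℕ, Sm s₀ (fun a => (π a).p) ∧ ∀ a, s₀ a ≤ 2 ^ ((π a).ℓ * ((π a).d - 1))
  cost : Dom (fun a => (π a).cost (μ₁ a) (μ₂ a)) B

section ct

variable {A : Type} {cur : A → P} {B : A → ℕ} {x : In B} {π : A → GP} {μ₁ μ₂ : A → ℕ}

lemma Fam.dom₁ (F : Fam cur B π μ₁ μ₂) : Dom (fun a => ((π a).d + 1) * 2 ^ ((π a).ℓ * (π a).d) *
    (π a).p * (pw τ₁ (π a).ℓ + (π a).d ^ 3 * μ₁ a)) B :=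
  F.cost.le_trans fun a => by
    unfold GP.cost
    rw [mul_add (2 ^ _ * _)]
    refine le_trans (le_of_eq ?_) (Nat.le_add_right _ _)
    ring

lemma Fam.dom₂ (F : Fam cur B π μ₁ μ₂) : Dom (fun a => 2 ^ ((π a).ℓ * (π a).d) * (π a).p *
    ((π a).ℓ * pw τ₂ (π a).d + μ₂ a)) B :=
  F.cost.le_trans fun _ => Nat.mul_le_mul_left _ (Nat.le_add_left _ _)

lemma Fam.dom₃ (F : Fam cur B π μ₁ μ₂) : Dom (fun a => ((π a).d + 1) * 2 ^ ((π a).ℓ * (π a).d) *
    (π a).p * pw τ₁ (π a).ℓ) B :=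
  F.dom₁.le_trans fun _ => Nat.mul_le_mul_left _ (Nat.le_add_right _ _)

lemma Fam.dom₄ (F : Fam cur B π μ₁ μ₂) :
    Dom (fun a => 2 ^ ((π a).ℓ * (π a).d) * (π a).p * μ₁ a) B :=
  F.dom₁.le_trans fun a => by
    have h1 : 1 ≤ (π a).d ^ 3 := Nat.pow_pos (F.valid a).d_pos
    calc _ = 1 * 2 ^ ((π a).ℓ * (π a).d) * (π a).p * (0 + 1 * μ₁ a) := by ring
      _ ≤ _ := by gcongr <;> omega

lemma Fam.dom₅ (F : Fam cur B π μ₁ μ₂) : Dom (fun a => 2 ^ ((π a).ℓ * (π a).d) * (π a).p) B :=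
  F.dom₄.le_trans fun a => Nat.le_mul_of_pos_right _ (F.m₁ a).pos

lemma Fam.dom_p (F : Fam cur B π μ₁ μ₂) : Dom (fun a => (π a).p) B :=
  F.dom₅.le_trans fun _ => Nat.le_mul_of_pos_left _ (by positivity)

lemma Fam.sm_p (F : Fam cur B π μ₁ μ₂) : Sm B (fun a => (π a).p) := by
  obtain ⟨s₀, h₁, h₂⟩ := F.s₀
  refine h₁.mono (F.dom₅.le_trans fun a => (h₂ a).trans ?_)
  exact (Nat.pow_le_pow_right (by norm_num) (Nat.mul_le_mul_left _ (Nat.sub_le _ _))).trans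
    (Nat.le_mul_of_pos_right _ (F.valid a).p_pos)

lemma Fam.sm_sz (F : Fam cur B π μ₁ μ₂) : Sm (fun a => (π a).p) (fun a => sz (π a)) :=
  F.sm.of_le fun _ => Nat.le_add_left _ _

lemma Fam.sm_ld (F : Fam cur B π μ₁ μ₂) : Sm (fun a => (π a).p) (fun a => (π a).ℓ * (π a).d) :=
  F.sm.of_le fun _ => by omega

lemma Fam.ct_T (F : Fam cur B π μ₁ μ₂) (hπ : CT cur x π) :
    CT cur x (fun a => (2 ^ (π a).ℓ) ^ (π a).d) := by
  have h : CT cur x (fun a => (π a).ℓ * (π a).d) :=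
    hπ.pt (f := fun π : GP => π.ℓ * π.d) (by fun_prop) (F.sm_sz.mono F.dom_p)
  exact (h.two_pow (F.sm_ld.mono F.dom_p).dom).congr fun a => (pow_mul _ _ _).symm

lemma Fam.sz_T (F : Fam cur B π μ₁ μ₂) :
    Dom (fun a => sz ((2 ^ (π a).ℓ) ^ (π a).d)) (fun a => (π a).p) :=
  ((F.sm_ld.add_const 1).sz_of_lt_two_pow fun a => by
    rw [← pow_mul]
    exact Nat.pow_lt_pow_right (by norm_num) (Nat.lt_succ_self _)).dom

lemma ct_pass (F : Fam cur B π μ₁ μ₂) (hπ : CT cur x π)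
    {φ : RP → (ℕ → GaussianInt) → ℕ → GaussianInt} {w : RP → ℕ} (hφ : LineCT φ w)
    (hw : ∀ r : RP, 0 < r.d → w r ≤ r.d ^ 3) {f : ∀ a, (Fin (π a).d → ℕ) → GaussianInt}
    (hf : CT cur x (fun a => tarr (π a).d (2 ^ (π a).ℓ) (f a))) (hok : ∀ a, PassOK φ (π a) (f a)) :
    CT cur x (fun a => tarr (π a).d (2 ^ (π a).ℓ) (pass φ (π a) (f a))) := by
  obtain ⟨s₀, h₁, h₂⟩ := F.s₀
  exact ct_allLines hφ GP.s pt_gp_s (w₀ := fun a => (π a).d ^ 3) F.m₁ (fun _ => le_rfl) hf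
    (hπ.pair ((CT.gp_d hπ).pair ((CT.gp_ℓ hπ).pair ((CT.gp_g hπ).pair (CT.gp_p hπ)))))
    (fun a => (F.valid a).line) (fun a i _ => hw ((π a).rp i) (F.valid a).d_pos)
    (fun a => Nat.pow_pos (F.valid a).d_pos) hok F.sm h₁ h₂ F.dom₁

/-- An entrywise operation on an array whose entries are of size `O(p)`. -/
lemma ct_tarr_map (F : Fam cur B π μ₁ μ₂) (hπ : CT cur x π) {β : Type} [Enc β] {N : A → ℕ}
    {f : A → ℕ → GaussianInt} {out : A → ℕ → β} (hN : ∀ a, N a ≤ (2 ^ (π a).ℓ) ^ (π a).d)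
    (hf : CT cur x (fun a => arr (N a) (f a))) (k : ℕ)
    (hb : ∀ a i, i < N a → ‖(f a i : ℂ)‖ ≤ 2 ^ (k * (π a).p))
    (body : ∀ x' : In (fun q : Ix N => (π q.a).p),
      CT (fun q => cur q.a) x' (fun q => f q.a q.i) → CT (fun q => cur q.a) x' (fun q => π q.a) →
      CT (fun q => cur q.a) x' (fun q => out q.a q.i)) :
    CT cur x (fun a => arr (N a) (out a)) := by
  refine CT.arr_mapU hf hπ (fun a => (π a).p) ⟨12 * k + 27, fun q => ?_⟩ F.sm_sz.dom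
    (F.sz_T.le_trans fun a => sz_nat_mono (hN a)) (fun x' h₁ h₂ _ => body x' h₁ h₂)
    (F.dom₅.le_trans fun a => Nat.mul_le_mul_right _ (by rw [pow_mul]; exact hN a))
  have h1 := sz_gauss_le (hb q.a q.i q.lt)
  have h2 := (F.valid q.a).p_pos
  nlinarith

lemma dom_mul_q (π : A → GP) (k : ℕ) : Dom (fun a => k * (π a).q) (fun a => (π a).p) :=
  ⟨k, fun a => Nat.mul_le_mul_left _ (Nat.le_mul_of_pos_left _ (by norm_num))⟩

lemma ct_ker (F : Fam cur B π μ₁ μ₂) (hπ : CT cur x π) :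
    CT cur x (fun a => tarr (π a).d (2 ^ (π a).ℓ) (ker (π a))) := by
  refine ct_pass F hπ (line_chirp 1 1).choose_spec.2 (fun r hr => Nat.pow_pos hr) ?_
    fun a => (ker_spec (F.valid a)).1
  refine CT.tabulate (F.ct_T hπ) hπ (fun a => (π a).p) F.sm_sz.dom F.sz_T (fun x' h _ => ?_)
    (F.dom₅.le_trans fun a => by rw [pow_mul])
  exact (CT.const 1).gmul_two_pow ((CT.gp_q h).const_mul 15) (dom_mul_q _ 15)

lemma ct_cv (F : Fam cur B π μ₁ μ₂) (hπ : CT cur x π) {f : ∀ a, (Fin (π a).d → ℕ) → GaussianInt}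
    (hf : CT cur x (fun a => tarr (π a).d (2 ^ (π a).ℓ) (f a)))
    (hb : ∀ a, Bd (π a) (f a) ((π a).Q ^ 16)) :
    CT cur x (fun a => tarr (π a).d (2 ^ (π a).ℓ) (cv (π a) (f a))) := by
  have h := ct_nconv (p := fun a => (π a).p) F.m₂ (fun _ => le_rfl) hf (ct_ker F hπ)
    ((CT.gp_d hπ).pair ((CT.gp_ℓ hπ).pair (CT.gp_p hπ))) (fun a => (F.valid a).d8)
    (fun a => (F.valid a).fit) (fun a => by have := (F.valid a).small; unfold GP.p; omega)
    (fun a => by have := (F.valid a).p_le; omega)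
    (fun a => by rw [GP.Valid.two_pow_p]; exact hb a)
    (fun a => by rw [GP.Valid.two_pow_p]; exact (ker_spec (F.valid a)).2.1) F.dom₂
  refine ct_tarr_map F hπ (fun _ => le_rfl) h 3 (fun a i _ => ?_) fun x' h₁ h₂ =>
    h₁.rshift ((CT.gp_q h₂).const_mul 15) (dom_mul_q _ 15)
  have hv := F.valid a
  rw [coe_nconv, mul_comm 3, pow_mul, GP.Valid.two_pow_p]
  refine (norm_nconv_le (by positivity) (hb a) (ker_spec hv).2.1 _).trans ?_
  rw [GP.Valid.t_pow]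
  have h1 := hv.T_le
  have h2 := hv.T_ge
  have h3 : (π a).Q ≤ (π a).Q ^ 16 := hv.Q_le_pow (by norm_num)
  calc _ ≤ (π a).Q ^ 16 * ((π a).Q ^ 16 * (π a).Q ^ 16) := by gcongr; linarith
    _ = _ := by ring

theorem ct_dft (F : Fam cur B π μ₁ μ₂) (hπ : CT cur x π)
    {f : ∀ a, (Fin (π a).d → ℕ) → GaussianInt}
    (hf : CT cur x (fun a => tarr (π a).d (2 ^ (π a).ℓ) (f a)))
    (hb : ∀ a, Bd (π a) (f a) ((π a).Q ^ 12)) :
    CT cur x (fun a => tarr (π a).d (2 ^ (π a).ℓ) (dft (π a) (f a))) := by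
  have st := fun a => dft_stages (F.valid a) (hb a)
  have one : ∀ r : RP, 0 < r.d → 1 ≤ r.d ^ 3 := fun r hr => Nat.pow_pos hr
  have h₁ := ct_pass F hπ line_A.choose_spec.choose_spec.2 (fun _ _ => le_rfl) hf
    fun a => (st a).1
  have h₂ := ct_pass F hπ (line_chirp (-1) 1).choose_spec.2 one h₁ fun a => (st a).2.1
  have h₃ := ct_cv F hπ h₂ fun a => (st a).2.2.1.mono (by
    have hv := F.valid a
    have h1 := hv.Q_ge
    have h3 : (π a).Q ≤ (π a).Q ^ 3 := hv.Q_le_pow (by norm_num)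
    calc 3 * (π a).Q ^ 13 ≤ (π a).Q ^ 3 * (π a).Q ^ 13 := by gcongr; linarith
      _ = _ := by ring)
  have h₄ := ct_pass F hπ (line_chirp (-1) (-1)).choose_spec.2 one h₃ fun a => (st a).2.2.2.1
  exact ct_pass F hπ line_B.choose_spec.2 one h₄ fun a => (st a).2.2.2.2.1

end ct

end Crest.Agent.R326
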