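import Crest.Agent.R326.Xor

/-!
The algebra of translation operators behind the fast butterflies.
-/

set_option autoImplicit false

namespace Crest.Agent.R326

open Finset

section ring

variable {𝒜 : Type} [CommRing 𝒜]

/-- `ι ^ c` for a fourth root of unity. -/
def gOm (ι : 𝒜) (c : ℤ) : 𝒜 := ι ^ (c % 4).toNat

/-- `ι ^ c` on the range of the idempotent `e`. -/
def gPm (ι : 𝒜) (c : ℤ) (e : 𝒜) : 𝒜 := 1 + (gOm ι c - 1) * e

variable {ι : 𝒜}

lemma gOm_add (hι : ι * ι = -1) (c c' : ℤ) : gOm ι (c + c') = gOm ι c * gOm ι c' := by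
  have h4 : ι ^ 4 = 1 := by
    rw [show ι ^ 4 = (ι * ι) * (ι * ι) by ring, hι]; ring
  unfold gOm
  rw [← pow_add, pow_eq_pow_mod ((c % 4).toNat + (c' % 4).toNat) h4]
  congr 1
  omega

lemma gPm_congr {c c' : ℤ} (h : c % 4 = c' % 4) (e : 𝒜) : gPm ι c e = gPm ι c' e := by
  simp only [gPm, gOm, h]

lemma gPm_zero (e : 𝒜) : gPm ι 0 e = 1 := by simp [gPm, gOm]

lemma gPm_one (e : 𝒜) : gPm ι 1 e = 1 + (ι - 1) * e := by simp [gPm, gOm]

lemma gPm_two (hι : ι * ι = -1) (e : 𝒜) : gPm ι 2 e = 1 - 2 * e := by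
  have : gOm ι 2 = -1 := by rw [← hι, gOm, ← pow_two]; rfl
  rw [gPm, this]; ring

lemma gPm_add (hι : ι * ι = -1) (c c' : ℤ) {e : 𝒜} (he : e * e = e) :
    gPm ι (c + c') e = gPm ι c e * gPm ι c' e := by
  rw [gPm, gPm, gPm, gOm_add hι]
  linear_combination (-(gOm ι c - 1) * (gOm ι c' - 1)) * he

lemma gPm_two_mul (hι : ι * ι = -1) (c : ℤ) (e : 𝒜) :
    gPm ι (2 * c) e = if Odd c then 1 - 2 * e else 1 := by
  split_ifs with h
  · rw [← gPm_two hι]
    obtain ⟨k, rfl⟩ := h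
    exact gPm_congr (by omega) e
  · rw [← gPm_zero (ι := ι) e]
    obtain ⟨k, rfl⟩ := Int.not_odd_iff_even.1 h
    exact gPm_congr (by omega) e

lemma gPm_sq (c : ℤ) (e : 𝒜) : gPm ι (c * c) e = if Odd c then 1 + (ι - 1) * e else 1 := by
  split_ifs with h
  · rw [← gPm_one]
    obtain ⟨k, rfl⟩ := h
    refine gPm_congr ?_ e
    rw [show (2 * k + 1) * (2 * k + 1) = 1 + 4 * (k * k + k) by ring, Int.add_mul_emod_self_left]
  · rw [← gPm_zero (ι := ι) e]
    obtain ⟨k, rfl⟩ := Int.not_odd_iff_even.1 h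
    refine gPm_congr ?_ e
    rw [show (k + k) * (k + k) = 0 + 4 * (k * k) by ring, Int.add_mul_emod_self_left]

lemma gIdem_mul {e e' : 𝒜} (he : e * e = e) (he' : e' * e' = e') :
    (e * e') * (e * e') = e * e' := by
  rw [mul_mul_mul_comm, he, he']

lemma prod_prod_insert {κ : Type} [DecidableEq κ] {c : κ} {S : Finset κ} (hc : c ∉ S)
    (g : κ → κ → 𝒜) : ∏ a ∈ insert c S, ∏ b ∈ insert c S, g a b =
      g c c * (∏ a ∈ S, (g c a * g a c)) * ∏ a ∈ S, ∏ b ∈ S, g a b := by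
  rw [prod_insert hc, prod_insert hc, prod_congr rfl fun a _ => prod_insert hc, prod_mul_distrib,
    prod_mul_distrib]
  ring

lemma gProd_two (hι : ι * ι = -1) {κ : Type} [DecidableEq κ] (e : κ → 𝒜) (he : ∀ a, e a * e a = e a)
    (N : κ → κ → ℤ) (hN : ∀ a b, N a b = N b a) (S : Finset κ) :
    ∏ a ∈ S, ∏ b ∈ S, gPm ι (2 * N a b) (e a * e b) =
      ∏ a ∈ S, if Odd (N a a) then 1 - 2 * e a else 1 := by
  induction S using Finset.induction_on with
  | empty => simp
  | insert c S hc ih =>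
    rw [prod_prod_insert hc, ih, prod_insert hc, he, gPm_two_mul hι, prod_eq_one, mul_one]
    intro a _
    rw [mul_comm (e a), ← gPm_add hι _ _ (gIdem_mul (he c) (he a)), hN a c,
      ← gPm_zero (ι := ι) (e c * e a)]
    exact gPm_congr (by omega) _

lemma gProd_cond {κ : Type} [DecidableEq κ] (e : κ → 𝒜) {d : 𝒜} (hd : d * d = d) (t : κ → Prop)
    [DecidablePred t] (S : Finset κ) :
    ∏ a ∈ S, (if t a then 1 - 2 * (d * e a) else 1) =
      1 - d + d * ∏ a ∈ S, if t a then 1 - 2 * e a else 1 := by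
  induction S using Finset.induction_on with
  | empty => simp
  | insert c S hc ih =>
    rw [prod_insert hc, prod_insert hc, ih]
    split_ifs
    · generalize (∏ a ∈ S, if t a then 1 - 2 * e a else 1) = Y
      linear_combination (2 * e c - 2 * e c * Y) * hd
    · ring

lemma gProd_rank (hι : ι * ι = -1) {h : 𝒜} (hh : 2 * h = 1) {κ : Type} [DecidableEq κ]
    (e : κ → 𝒜) (he : ∀ a, e a * e a = e a) (u : κ → ℤ) (S : Finset κ) :
    ∏ a ∈ S, ∏ b ∈ S, gPm ι (u a * u b) (e a * e b) =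
      h * (1 + ι) + h * (1 - ι) * ∏ a ∈ S, if Odd (u a) then 1 - 2 * e a else 1 := by
  induction S using Finset.induction_on with
  | empty => simp only [prod_empty]; linear_combination -hh
  | insert c S hc ih =>
    have h1 : ∀ a ∈ S, gPm ι (u c * u a) (e c * e a) * gPm ι (u a * u c) (e a * e c) =
        if Odd (u c * u a) then 1 - 2 * (e c * e a) else 1 := by
      intro a _
      rw [mul_comm (e a), ← gPm_add hι _ _ (gIdem_mul (he c) (he a)), mul_comm (u a), ← two_mul,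
        gPm_two_mul hι]
    have h2 : (∏ a ∈ S, if Odd (u a) then 1 - 2 * e a else 1) *
        (∏ a ∈ S, if Odd (u a) then 1 - 2 * e a else 1) = 1 := by
      rw [← prod_mul_distrib]
      refine prod_eq_one fun a _ => ?_
      split_ifs
      · linear_combination 4 * he a
      · ring
    rw [prod_prod_insert hc, ih, prod_insert hc, he, gPm_sq, prod_congr rfl h1]
    by_cases hc' : Odd (u c)
    · simp only [Int.odd_mul, hc', true_and, if_true]
      rw [gProd_cond e (he c) (fun a => Odd (u a))]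
      generalize (∏ a ∈ S, if Odd (u a) then 1 - 2 * e a else 1) = Y at h2
      have h3 := he c
      generalize e c = d at h3
      linear_combination (h * (ι - 1) * (Y - 1) * ((1 + ι) + (1 - ι) * Y)) * h3
        + (h * d * ι * (1 - ι)) * h2 + (h * d * (Y - 1) * 1 - h * d * (1 - Y) * 0) * hι
    · simp [Int.odd_mul, hc']

end ring

section masks

lemma two_pow_add_eq_xor {a e : ℕ} (h : a < 2 ^ e) : a + 2 ^ e = a ^^^ 2 ^ e := by
  refine Nat.eq_of_testBit_eq fun j => ?_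
  rw [add_comm, Nat.testBit_xor, Nat.testBit_two_pow]
  rcases lt_trichotomy j e with hj | rfl | hj
  · rw [Nat.testBit_two_pow_add_gt hj]; simp [hj.ne']
  · rw [Nat.testBit_two_pow_add_eq]; simp
  · have h1 : 2 ^ (e + 1) ≤ 2 ^ j := Nat.pow_le_pow_right (by norm_num) hj
    rw [Nat.testBit_lt_two_pow (by omega), Nat.testBit_lt_two_pow (by omega)]
    simp [hj.ne]

lemma gmask_lt {π ℓ : ℕ} (hℓ : 1 ≤ ℓ) (k : ℕ) (z : ℕ → Bool) : mask π ℓ k z < 2 ^ (π + ℓ * k) := by
  induction k with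
  | zero => simp [mask]
  | succ k ih =>
    rw [mask, sum_range_succ]
    have h1 : 2 ^ (π + ℓ * k + 1) ≤ 2 ^ (π + ℓ * (k + 1)) :=
      Nat.pow_le_pow_right (by norm_num) (by nlinarith)
    have h2 : (z k).toNat * 2 ^ (π + ℓ * k) ≤ 1 * 2 ^ (π + ℓ * k) :=
      Nat.mul_le_mul_right _ (Bool.toNat_le _)
    rw [mask] at ih
    omega

lemma gmask_succ {π ℓ : ℕ} (hℓ : 1 ≤ ℓ) (k : ℕ) (z : ℕ → Bool) :
    mask π ℓ (k + 1) z = mask π ℓ k z ^^^ (if z k then 2 ^ (π + ℓ * k) else 0) := by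
  have h := gmask_lt (π := π) hℓ k z
  have e : mask π ℓ (k + 1) z = mask π ℓ k z + (z k).toNat * 2 ^ (π + ℓ * k) := by
    rw [mask, sum_range_succ, mask]
  rw [e]
  cases z k
  · simp
  · simp [two_pow_add_eq_xor h]

lemma gmask_congr {π ℓ k : ℕ} {z z' : ℕ → Bool} (h : ∀ j, j < k → z j = z' j) :
    mask π ℓ k z = mask π ℓ k z' :=
  sum_congr rfl fun j hj => by rw [h j (mem_range.1 hj)]

lemma gmask_xor {π ℓ : ℕ} (hℓ : 1 ≤ ℓ) (k : ℕ) (z z' : ℕ → Bool) :
    mask π ℓ k (fun j => xor (z j) (z' j)) = mask π ℓ k z ^^^ mask π ℓ k z' := by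
  induction k with
  | zero => simp [mask]
  | succ k ih =>
    rw [gmask_succ hℓ, gmask_succ hℓ, gmask_succ hℓ, ih]
    refine Nat.eq_of_testBit_eq fun j => ?_
    cases z k <;> cases z' k <;> simp [Nat.testBit_xor]
    · cases (mask π ℓ k z).testBit j <;> cases (mask π ℓ k z').testBit j <;> simp
    · cases (mask π ℓ k z).testBit j <;> cases (mask π ℓ k z').testBit j <;>
        cases (2 ^ (π + ℓ * k)).testBit j <;> simp

lemma testBit_gmask {π ℓ : ℕ} (hℓ : 1 ≤ ℓ) {k j : ℕ} (hj : j < k) (z : ℕ → Bool) :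
    (mask π ℓ k z).testBit (π + ℓ * j) = z j := by
  induction k with
  | zero => omega
  | succ k ih =>
    rw [gmask_succ hℓ, Nat.testBit_xor]
    rcases Nat.lt_succ_iff_lt_or_eq.1 hj with h | rfl
    · rw [ih h]
      have : π + ℓ * k ≠ π + ℓ * j := by nlinarith
      split_ifs
      · rw [Nat.testBit_two_pow_of_ne this, Bool.xor_false]
      · simp
    · rw [Nat.testBit_lt_two_pow (gmask_lt hℓ j z)]
      cases z j <;> simp

lemma prod_range_mul' {𝒜 : Type} [CommMonoid 𝒜] (m k : ℕ) (g : ℕ → 𝒜) :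
    ∏ j ∈ range (m * k), g j = ∏ a ∈ range m, ∏ i ∈ range k, g (a * k + i) := by
  induction m with
  | zero => simp
  | succ m ih => rw [add_mul, one_mul, prod_range_add, ih, prod_range_succ]

end masks

/-- The natural numbers under `xor`. -/
def XN : Type := ℕ

instance : CommMonoid XN where
  mul a b := Nat.xor a b
  one := (0 : ℕ)
  mul_assoc := Nat.xor_assoc
  one_mul := Nat.zero_xor
  mul_one := Nat.xor_zero
  mul_comm := Nat.xor_comm

section act

variable {K : Type} [CommRing K]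

/-- Translation by `t` in the group algebra. -/
noncomputable def gX (K : Type) [CommRing K] (t : ℕ) : MonoidAlgebra K XN :=
  MonoidAlgebra.of K XN t

lemma gX_xor (s t : ℕ) : gX K (s ^^^ t) = gX K s * gX K t := by
  exact (MonoidAlgebra.of K XN).map_mul s t

lemma gX_zero : gX K 0 = 1 := (MonoidAlgebra.of K XN).map_one

lemma gX_mul_self (t : ℕ) : gX K t * gX K t = 1 := by rw [← gX_xor, Nat.xor_self, gX_zero]

lemma gX_mask {π ℓ : ℕ} (hℓ : 1 ≤ ℓ) (k : ℕ) (z : ℕ → Bool) :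
    gX K (mask π ℓ k z) = ∏ j ∈ range k, if z j then gX K (2 ^ (π + ℓ * j)) else 1 := by
  induction k with
  | zero => simp [mask, gX_zero]
  | succ k ih =>
    rw [gmask_succ hℓ, gX_xor, ih, prod_range_succ]
    cases z k <;> simp [gX_zero]

/-- Translations of arrays of records. -/
def gT (K : Type) [CommRing K] : XN →* Module.End K (ℕ → ℕ → K) where
  toFun t :=
    { toFun := fun f i => f (Nat.xor i t)
      map_add' := fun _ _ => rfl
      map_smul' := fun _ _ => rfl }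
  map_one' := by
    ext f i c
    exact congrArg (fun j => f j c) (Nat.xor_zero i)
  map_mul' s t := by
    ext f i c
    exact congrArg (fun j => f j c) (Nat.xor_assoc i s t).symm

/-- The action of the group algebra. -/
noncomputable def gAct (K : Type) [CommRing K] :
    MonoidAlgebra K XN →ₐ[K] Module.End K (ℕ → ℕ → K) := MonoidAlgebra.lift K _ XN (gT K)

lemma gAct_gX (t : ℕ) (f : ℕ → ℕ → K) : gAct K (gX K t) f = fun i => f (i ^^^ t) := by
  have h : gAct K (gX K t) = gT K t := MonoidAlgebra.lift_of (gT K) t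
  rw [h]; rfl

end act

section KM

variable {M : ℕ}

/-- The butterflies applied to every coefficient of the records. -/
def gamV (π ℓ k : ℕ) (f : ℕ → ℕ → KM M) : ℕ → ℕ → KM M :=
  fun i c => gam π ℓ k (fun i' => f i' c) i

/-- One butterfly applied to every coefficient of the records. -/
def bflyV (pos : ℕ) (f : ℕ → ℕ → KM M) : ℕ → ℕ → KM M :=
  fun i c => alp M * f i c + bet M * f (i ^^^ 2 ^ pos) c

lemma gamV_zero (π ℓ : ℕ) (f : ℕ → ℕ → KM M) : gamV π ℓ 0 f = f := rfl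

lemma gamV_succ (π ℓ k : ℕ) (f : ℕ → ℕ → KM M) :
    gamV π ℓ (k + 1) f = bflyV (π + ℓ * k) (gamV π ℓ k f) := rfl

lemma gamV_add (π ℓ k r : ℕ) (f : ℕ → ℕ → KM M) :
    gamV π ℓ (k + r) f = gamV (π + ℓ * k) ℓ r (gamV π ℓ k f) := by
  induction r with
  | zero => rfl
  | succ r ih => rw [← add_assoc, gamV_succ, gamV_succ, ih, mul_add, add_assoc]

/-- One half in `KM M`. -/
def hK (M : ℕ) : KM M := ⟨hf M, 0⟩

/-- The imaginary unit in `KM M`. -/
def iK (M : ℕ) : KM M := ⟨0, 1⟩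

lemma two_mul_hf (hM : Odd M) : 2 * hf M = 1 := by
  obtain ⟨k, hk⟩ := hM
  have h1 : (M + 1) / 2 = k + 1 := by omega
  have h2 : ((2 * k + 1 : ℕ) : ZMod M) = 0 := by rw [← hk]; exact ZMod.natCast_self M
  rw [hf, h1]
  push_cast at h2 ⊢
  linear_combination h2

lemma two_mul_hK (hM : Odd M) : 2 * hK M = 1 := by
  have := two_mul_hf hM
  rw [two_mul] at this ⊢
  ext <;> simp [hK, this, QuadraticAlgebra.re_one, QuadraticAlgebra.im_one]

lemma iK_mul_iK : iK M * iK M = -1 := by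
  ext <;> simp [iK, QuadraticAlgebra.re_one, QuadraticAlgebra.im_one]

lemma alp_eq : alp M = hK M * (1 + iK M) := by
  ext <;> simp [alp, hK, iK, QuadraticAlgebra.re_one, QuadraticAlgebra.im_one]

lemma bet_eq : bet M = hK M * (1 - iK M) := by
  ext <;> simp [bet, hK, iK, QuadraticAlgebra.re_one, QuadraticAlgebra.im_one]

/-- The group algebra. -/
abbrev GA (M : ℕ) : Type := MonoidAlgebra (KM M) XN

/-- The scalar `z` in the group algebra. -/
noncomputable abbrev gC (z : KM M) : GA M := algebraMap (KM M) (GA M) z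

/-- The butterfly along the mask `t`. -/
noncomputable def gB (M t : ℕ) : GA M := gC (alp M) + gC (bet M) * gX (KM M) t

/-- The projection on the odd functions for the translation by `t`. -/
noncomputable def gE (M t : ℕ) : GA M := gC (hK M) * (1 - gX (KM M) t)

lemma gC_ii : gC (iK M) * gC (iK M) = -1 := by rw [← map_mul, iK_mul_iK, map_neg, map_one]

lemma gC_hh (hM : Odd M) : 2 * gC (hK M) = 1 := by
  rw [← map_one (algebraMap (KM M) (GA M)), ← two_mul_hK hM, map_mul, map_ofNat]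

lemma gE_idem (hM : Odd M) (t : ℕ) : gE M t * gE M t = gE M t := by
  have h1 := gC_hh hM
  have h2 := gX_mul_self (K := KM M) t
  unfold gE
  linear_combination (gC (hK M) * (1 - gX (KM M) t)) * h1 + (gC (hK M)) ^ 2 * h2

lemma one_sub_gE (hM : Odd M) (t : ℕ) : 1 - 2 * gE M t = gX (KM M) t := by
  have h1 := gC_hh hM
  unfold gE
  linear_combination (gX (KM M) t - 1) * h1

lemma gB_eq (t : ℕ) :
    gB M t = gC (hK M) * (1 + gC (iK M)) + gC (hK M) * (1 - gC (iK M)) * gX (KM M) t := by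
  rw [gB, alp_eq, bet_eq]
  simp only [map_mul, map_add, map_sub, map_one]

lemma gAct_gB (t : ℕ) (f : ℕ → ℕ → KM M) :
    gAct (KM M) (gB M t) f = fun i c => alp M * f i c + bet M * f (i ^^^ t) c := by
  rw [gB, map_add, map_mul, AlgHom.commutes, AlgHom.commutes]
  funext i c
  simp [Module.algebraMap_end_apply, gAct_gX]

lemma gAct_prod_gB (π ℓ k : ℕ) (f : ℕ → ℕ → KM M) :
    gAct (KM M) (∏ j ∈ range k, gB M (2 ^ (π + ℓ * j))) f = gamV π ℓ k f := by
  induction k with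
  | zero => simp [gamV_zero]
  | succ k ih =>
    rw [prod_range_succ, mul_comm, map_mul, Module.End.mul_apply, ih, gAct_gB]
    rfl

lemma gAct_prod_conj (σ : ℕ → ℕ) (h₁ : ∀ x, σ (σ x) = x) (h₂ : ∀ x y, σ (x ^^^ y) = σ x ^^^ σ y)
    (π ℓ k : ℕ) (f : ℕ → ℕ → KM M) :
    gAct (KM M) (∏ j ∈ range k, gB M (σ (2 ^ (π + ℓ * j)))) f =
      fun i => gamV π ℓ k (fun i' => f (σ i')) (σ i) := by
  induction k with
  | zero => simp [gamV_zero, h₁]
  | succ k ih =>
    rw [prod_range_succ, mul_comm, map_mul, Module.End.mul_apply, ih, gAct_gB, gamV_succ]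
    funext i c
    simp only [bflyV, h₂, h₁]

/-- The multiplier of the label `N`. -/
noncomputable def gPhi (M π ℓ k : ℕ) {m : ℕ} (N : Matrix (Fin m) (Fin m) ℤ) : GA M :=
  ∏ i ∈ range k, ∏ a : Fin m, ∏ b : Fin m,
    gPm (gC (iK M)) (N a b) (gE M (2 ^ (π + ℓ * (a * k + i))) * gE M (2 ^ (π + ℓ * (b * k + i))))

variable {π ℓ k m : ℕ}

lemma gPhi_zero : gPhi M π ℓ k (0 : Matrix (Fin m) (Fin m) ℤ) = 1 := by
  simp [gPhi, gPm_zero]

lemma gPhi_add (hM : Odd M) (N N' : Matrix (Fin m) (Fin m) ℤ) :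
    gPhi M π ℓ k (N + N') = gPhi M π ℓ k N * gPhi M π ℓ k N' := by
  simp only [gPhi, ← prod_mul_distrib, Matrix.add_apply]
  exact prod_congr rfl fun i _ => prod_congr rfl fun a _ => prod_congr rfl fun b _ =>
    gPm_add gC_ii _ _ (gIdem_mul (gE_idem hM _) (gE_idem hM _))

lemma gPhi_one (hM : Odd M) (f : ℕ → ℕ → KM M) :
    gAct (KM M) (gPhi M π ℓ k (1 : Matrix (Fin m) (Fin m) ℤ)) f = gamV π ℓ (m * k) f := by
  rw [← gAct_prod_gB, prod_range_mul', prod_comm, gPhi]
  congr 2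
  refine prod_congr rfl fun i _ => ?_
  rw [← Fin.prod_univ_eq_prod_range (fun a => gB M (2 ^ (π + ℓ * (a * k + i))))]
  refine prod_congr rfl fun a _ => ?_
  rw [prod_eq_single a (fun b _ hb => by rw [Matrix.one_apply_ne' hb, gPm_zero]) (by simp),
    Matrix.one_apply_eq, gE_idem hM, gPm_one, gB_eq, gE]
  linear_combination -gC_hh hM

lemma gdiv_mod {a i : ℕ} (hi : i < k) : (a * k + i) / k = a ∧ (a * k + i) % k = i := by
  constructor
  · rw [add_comm, Nat.add_mul_div_right _ _ (by omega), Nat.div_eq_of_lt hi, zero_add]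
  · rw [add_comm, Nat.add_mul_mod_self_right, Nat.mod_eq_of_lt hi]

lemma gPhi_two (hM : Odd M) (hℓ : 1 ≤ ℓ) (N : Matrix (Fin m) (Fin m) ℤ) (hN : N.IsSymm)
    (tab : ℕ → Bool) (htab : ∀ a : Fin m, tab a = decide (Odd (N a a))) (f : ℕ → ℕ → KM M) :
    gAct (KM M) (gPhi M π ℓ k ((2 : ℤ) • N)) f =
      fun i => f (i ^^^ mask π ℓ (m * k) (fun j => tab (j / k))) := by
  rw [← gAct_gX, gX_mask hℓ, prod_range_mul', prod_comm, gPhi]
  congr 2
  refine prod_congr rfl fun i hi => ?_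
  simp only [Matrix.smul_apply, smul_eq_mul]
  rw [gProd_two gC_ii (fun a : Fin m => gE M (2 ^ (π + ℓ * (a * k + i)))) (fun a => gE_idem hM _) N
    (fun a b => (hN.apply a b).symm), ← Fin.prod_univ_eq_prod_range (fun a =>
      if tab ((a * k + i) / k) then gX (KM M) (2 ^ (π + ℓ * (a * k + i))) else 1)]
  refine prod_congr rfl fun a _ => ?_
  rw [(gdiv_mod (mem_range.1 hi)).1, htab, one_sub_gE hM]
  simp

lemma gPhi_rank (hM : Odd M) (u : Fin m → ℤ) :
    gPhi M π ℓ k (Matrix.vecMulVec u u) = ∏ i ∈ range k,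
      (gC (hK M) * (1 + gC (iK M)) + gC (hK M) * (1 - gC (iK M)) *
        ∏ a : Fin m, if Odd (u a) then gX (KM M) (2 ^ (π + ℓ * (a * k + i))) else 1) := by
  refine prod_congr rfl fun i _ => ?_
  simp only [Matrix.vecMulVec_apply]
  rw [gProd_rank gC_ii (gC_hh hM) (fun a : Fin m => gE M (2 ^ (π + ℓ * (a * k + i))))
    (fun a => gE_idem hM _) u]
  simp only [one_sub_gE hM]

lemma gPhi_rank_even (hM : Odd M) (u : Fin m → ℤ) (hu : ∀ a, ¬ Odd (u a)) :
    gPhi M π ℓ k (Matrix.vecMulVec u u) = 1 := by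
  rw [gPhi_rank hM]
  refine prod_eq_one fun i _ => ?_
  simp only [hu, if_false, prod_const_one]
  linear_combination gC_hh hM

/-- The control bits of the gshear. -/
def shz (tab : ℕ → Bool) (a₀ π ℓ k i j : ℕ) : Bool :=
  tab (j / k) && i.testBit (π + ℓ * (a₀ * k + j % k))

/-- The gshear of the addresses. -/
def gshear (tab : ℕ → Bool) (a₀ π ℓ k m i : ℕ) : ℕ := i ^^^ mask π ℓ (m * k) (shz tab a₀ π ℓ k i)

lemma shz_shear (hℓ : 1 ≤ ℓ) {tab : ℕ → Bool} {a₀ : ℕ} (h₀ : a₀ < m) (ht : tab a₀ = false)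
    (i : ℕ) {j : ℕ} (hj : j < m * k) :
    shz tab a₀ π ℓ k (i ^^^ mask π ℓ (m * k) (shz tab a₀ π ℓ k i)) j = shz tab a₀ π ℓ k i j := by
  have hk : 0 < k := Nat.pos_of_mul_pos_left (show 0 < m * k by omega)
  have h1 := Nat.mod_lt j hk
  have h2 : a₀ * k + j % k < m * k := by nlinarith
  rw [shz, Nat.testBit_xor, testBit_gmask hℓ h2, shz, (gdiv_mod h1).1, ht]
  simp [shz]

lemma shear_shear (hℓ : 1 ≤ ℓ) {tab : ℕ → Bool} {a₀ : ℕ} (h₀ : a₀ < m) (ht : tab a₀ = false)
    (i : ℕ) : gshear tab a₀ π ℓ k m (gshear tab a₀ π ℓ k m i) = i := by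
  rw [gshear, gshear, gmask_congr fun j hj => shz_shear hℓ h₀ ht i hj, Nat.xor_assoc, Nat.xor_self,
    Nat.xor_zero]

lemma shear_xor (hℓ : 1 ≤ ℓ) (tab : ℕ → Bool) (a₀ x y : ℕ) :
    gshear tab a₀ π ℓ k m (x ^^^ y) = gshear tab a₀ π ℓ k m x ^^^ gshear tab a₀ π ℓ k m y := by
  have : shz tab a₀ π ℓ k (x ^^^ y) =
      fun j => xor (shz tab a₀ π ℓ k x j) (shz tab a₀ π ℓ k y j) := by
    funext j
    simp only [shz, Nat.testBit_xor, Bool.and_xor_distrib_left]
  rw [gshear, gshear, gshear, this, gmask_xor hℓ]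
  simp only [Nat.xor_assoc, Nat.xor_left_comm]

lemma gPhi_rank_odd (hM : Odd M) (hℓ : 1 ≤ ℓ) (u : Fin m → ℤ) (a₀ : Fin m) (h₀ : Odd (u a₀))
    (tab : ℕ → Bool) (htab : ∀ a : Fin m, tab a = decide (a ≠ a₀ ∧ Odd (u a)))
    (f : ℕ → ℕ → KM M) :
    gAct (KM M) (gPhi M π ℓ k (Matrix.vecMulVec u u)) f = fun i =>
      gamV (π + ℓ * (a₀ * k)) ℓ k (fun i' => f (gshear tab a₀ π ℓ k m i'))
        (gshear tab a₀ π ℓ k m i) := by
  have ht : tab a₀ = false := by simp [htab]
  rw [← gAct_prod_conj _ (shear_shear hℓ a₀.2 ht) (shear_xor hℓ tab a₀), gPhi_rank hM]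
  congr 2
  refine prod_congr rfl fun i hi => ?_
  rw [gB_eq]
  congr 2
  rw [gshear, gX_xor, gX_mask hℓ, prod_range_mul', ← Fin.prod_univ_eq_prod_range (fun a =>
    ∏ i' ∈ range k, if shz tab a₀ π ℓ k (2 ^ (π + ℓ * (a₀ * k) + ℓ * i)) (a * k + i') then
      gX (KM M) (2 ^ (π + ℓ * (a * k + i'))) else 1), ← mul_prod_erase univ _ (mem_univ a₀),
    ← mul_prod_erase univ _ (mem_univ a₀), if_pos h₀, mul_add, ← add_assoc]
  congr 1
  rw [prod_eq_one (s := range k), one_mul]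
  · refine prod_congr rfl fun a ha => ?_
    rw [prod_eq_single i _ (fun h => absurd hi h), shz, (gdiv_mod (mem_range.1 hi)).1,
      (gdiv_mod (mem_range.1 hi)).2, htab, mul_add ℓ (a₀ * k), ← add_assoc,
      Nat.testBit_two_pow_self]
    · simp [(mem_erase.1 ha).1]
    · intro i' hi' hne
      rw [shz, (gdiv_mod (mem_range.1 hi')).2, Nat.testBit_two_pow_of_ne]
      · simp
      · intro h
        have : ℓ * i = ℓ * i' := by rw [mul_add] at h; omega
        exact hne (Nat.eq_of_mul_eq_mul_left hℓ this).symm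
  · intro i' hi'
    rw [shz, (gdiv_mod (mem_range.1 hi')).1, ht]
    simp

end KM

end Crest.Agent.R326
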