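import Crest.Agent.R326.GamOps

/-!
One node of the recursion for the fast butterflies.
-/

set_option autoImplicit false

namespace Crest.Agent.R326

open Crest.Agent.Lib.PT Crest.Agent.Lib.LT Finset

/-- The property of the butterfly network. -/
def NetB (W m r : ℕ) : Prop :=
    ∀ (A X : Type) [Enc X] (cur : A → P) (B : A → ℕ) (x : In B) (Q : A → ℕ) (V : A → Type)
      [∀ a, AddCommGroup (V a)] (Φ : ∀ a, Matrix (Fin m) (Fin m) ℤ → V a →+ V a)
      (half : ∀ a, V a →+ V a) (rep : ∀ a, V a → X) (data : ∀ a, ℕ → V a),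
      (∀ a (z : V a), half a (z + z) = z) →
      (∀ a z, Φ a 0 z = z) → (∀ a M N z, Φ a (M + N) z = Φ a M (Φ a N z)) →
      CT cur x (fun a => rep a 0) →
      (∀ (x' : In B) (u v : ∀ a, V a), CT cur x' x.val → CT cur x' (fun a => rep a (u a)) →
        CT cur x' (fun a => rep a (v a)) → CT cur x' (fun a => rep a (u a + v a))) →
      (∀ (x' : In B) (u : ∀ a, V a), CT cur x' x.val → CT cur x' (fun a => rep a (u a)) →
        CT cur x' (fun a => rep a (-u a))) →
      (∀ (x' : In B) (u : ∀ a, V a), CT cur x' x.val → CT cur x' (fun a => rep a (u a)) →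
        CT cur x' (fun a => rep a (half a (u a)))) →
      (∀ (N : Matrix (Fin m) (Fin m) ℤ), N.IsSymm →
        ∀ (x' : In B) (z : ∀ a, V a), CT cur x' x.val → CT cur x' (fun a => rep a (z a)) →
        CT cur x' (fun a => rep a (Φ a ((2 : ℤ) • N) (z a)))) →
      (∀ (u : Fin m → ℤ),
        ∀ (x' : In B) (z : ∀ a, V a), CT cur x' x.val → CT cur x' (fun a => rep a (z a)) →
        CTQ cur x' Q (fun a => rep a (Φ a (Matrix.vecMulVec u u) (z a)))) →
      (∀ w, w < W → CT cur x (fun a => rep a (data a w))) →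
      CTQ cur x (fun a => r * Q a) (fun a => arr W (fun w => rep a (Φ a 1 (data a w))))

theorem net_bfly' : ∃ W m r : ℕ, NetNum W m r ∧ NetB W m r := net_bfly

variable {A : Type} {cur : A → P} {B : A → ℕ} {x : In B} {Q M p n ℓ π k R s : A → ℕ}

lemma ct_gxor {m : ℕ} (hm : 0 < m) (z : ℕ × ℕ × ℕ → ℕ → ℕ → Bool)
    (hz : PT (fun q : (ℕ × ℕ × ℕ) × ℕ × ℕ => z q.1 q.2.1 q.2.2))
    {f : ∀ a, ℕ → ℕ → KM (M a)} (hf : CT cur x fun a => grep (n a) (R a) (f a))
    (hpar : CT cur x fun a => (p a, n a, ℓ a, π a, k a, R a))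
    (hodd : ∀ a, Odd (M a)) (hM : ∀ a, M a < 2 ^ p a)
    (hdep : ∀ a i i' j, j < m * k a → (∀ j', j < j' → j' < m * k a →
      i.testBit (π a + ℓ a * j') = i'.testBit (π a + ℓ a * j')) →
      z (π a, ℓ a, k a) i j = z (π a, ℓ a, k a) i' j)
    (hinv : ∀ a i j, j < m * k a →
      z (π a, ℓ a, k a) (i ^^^ mask (π a) (ℓ a) (m * k a) (z (π a, ℓ a, k a) i)) j
        = z (π a, ℓ a, k a) i j)
    (hfit : ∀ a, π a + ℓ a * (m * k a) + (m * k a).size * (m * k a) ≤ n a)
    (hgap : ∀ a, 2 * (m * k a).size + 2 ≤ ℓ a)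
    (hR : ∀ a, s a * 2 ^ ((m * k a).size * (m * k a)) ≤ R a)
    (hs : Sm s fun a => n a + ℓ a + sz (R a) + sz (p a))
    (hB : Dom (fun a => 2 ^ n a * R a * p a * pw τ₁ (m * k a * ((m * k a).size + 1) + 1)) B) :
    CT cur x fun a => grep (n a) (R a)
      (fun i => f a (i ^^^ mask (π a) (ℓ a) (m * k a) (z (π a, ℓ a, k a) i))) := by
  have hp := hpar.fst
  have hn := hpar.snd.fst
  have hℓ := hpar.snd.snd.fst
  have hπ := hpar.snd.snd.snd.fst
  have hk := hpar.snd.snd.snd.snd.fst
  have hRc := hpar.snd.snd.snd.snd.snd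
  refine ct_xor z hz (f := fun a i c => kv (f a i c)) (s := fun a => 12 * p a + 3) (s₀ := s) hf
    ((hπ.pair (hℓ.pair hk)).pair (hn.pair (hπ.pair (hℓ.pair ((hk.const_mul m).pair
      (hRc.pair ((hp.const_mul 12).add (CT.const 3))))))))
    hdep hinv hfit hgap hR (((hs.const_mul 13).add_const 60).of_le fun a => ?_)
    (fun a i c _ _ => sz_kv_le (hodd a) (hM a) _) ((hB.const_mul 15).le_trans fun a => ?_)
  · have h1 := hfit a
    have h2 := hgap a
    have h3 : 1 * (1 * k a) ≤ ℓ a * (m * k a) :=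
      Nat.mul_le_mul (by omega) (Nat.mul_le_mul_right _ hm)
    have h4 := sz_nat_le_self (π a)
    have h5 := sz_nat_le_self (ℓ a)
    have h6 := sz_nat_le_self (k a)
    have h7 := sz_add_le (12 * p a) 3
    have h8 := sz_mul_le 12 (p a)
    have h9 : sz (12 : ℕ) = 25 := by rw [sz_nat]; rfl
    have h10 : sz (3 : ℕ) = 13 := by rw [sz_nat]; rfl
    simp only [sz_pair]
    omega
  · have h1 := gp_pos (hodd a) (hM a)
    calc _ ≤ 2 ^ n a * R a * (15 * p a) * pw τ₁ (m * k a * ((m * k a).size + 1) + 1) :=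
          Nat.mul_le_mul_right _ (Nat.mul_le_mul_left _ (by omega))
      _ = _ := by ring

theorem ctq_node {W m r : ℕ} (hW : 0 < W) (hm : 0 < m) (hnet : NetB W m r)
    {f : ∀ a, ℕ → ℕ → KM (M a)} (hf : CT cur x fun a => grep (n a) (W * R a) (f a))
    (hMc : CT cur x M) (hpar : CT cur x fun a => (p a, n a, ℓ a, π a, k a, R a))
    (hodd : ∀ a, Odd (M a)) (hM : ∀ a, M a < 2 ^ p a)
    (hfit : ∀ a, π a + ℓ a * (m * k a) + (m * k a).size * (m * k a) ≤ n a)
    (hgap : ∀ a, 2 * (m * k a).size + 2 ≤ ℓ a)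
    (hR : ∀ a, s a * 2 ^ ((m * k a).size * (m * k a)) ≤ R a)
    (hs : Sm s fun a => n a + ℓ a + sz (R a) + sz (p a))
    (hB : Dom (fun a => 2 ^ n a * R a * p a * pw τ₁ (m * k a * ((m * k a).size + 1) + 1)) B)
    (hrec : ∀ a₀, a₀ < m → ∀ (x' : In B) (z : ∀ a, ℕ → ℕ → KM (M a)), CT cur x' x.val →
      CT cur x' (fun a => grep (n a) (R a) (z a)) → CTQ cur x' Q (fun a => grep (n a) (R a)
        (gamV (π a + ℓ a * (a₀ * k a)) (ℓ a) (k a) (z a)))) :
    CTQ cur x (fun a => r * Q a)
      (fun a => grep (n a) (W * R a) (gamV (π a) (ℓ a) (m * k a) (f a))) := by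
  have hℓ1 : ∀ a, 1 ≤ ℓ a := fun a => by have := hgap a; omega
  have hR0 : ∀ a, 0 < R a := fun a =>
    lt_of_lt_of_le (Nat.mul_pos (hs.pos a) (by positivity)) (hR a)
  have hp1 : ∀ a, 1 ≤ p a := fun a => gp_pos (hodd a) (hM a)
  have hV : Dom (fun a => 2 ^ n a * R a * p a) B :=
    hB.le_trans fun a => Nat.le_mul_of_pos_right _ (pw_pos _ _)
  have hRc := hpar.snd.snd.snd.snd.snd
  have key := hnet A (List (List (ℕ × ℕ))) cur B x Q (fun a => ℕ → ℕ → KM (M a))
    (fun a N => (gAct (KM (M a)) (gPhi (M a) (π a) (ℓ a) (k a) N)).toAddMonoidHom)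
    (fun a => AddMonoidHom.mk' (fun z i c => hK (M a) * z i c) fun u v => by
      funext i c; simp [mul_add])
    (fun a => grep (n a) (R a)) (fun a w i c => f a i (w * R a + c))
    (fun a z => by
      funext i c
      change hK (M a) * (z i c + z i c) = z i c
      linear_combination z i c * two_mul_hK (hodd a))
    (fun a z => by simp [gPhi_zero])
    (fun a N N' z => by simp [gPhi_add (hodd a)])
    (ct_grep_zero hpar.snd.fst hRc hp1 hR0 hV)
    (fun x' u v h hu hv => ct_grep₂ (fun _ u v => u + v)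
      (fun _ _ _ _ _ _ _ h₁ h₂ h₃ h₄ => ct_kadd h₁ h₂ h₃ h₄) hu hv (h.trans hMc) hodd hM hR0 hV)
    (fun x' u h hu => ct_grep₂ (fun _ u _ => -u)
      (fun _ _ _ _ _ _ _ h₁ h₂ h₃ _ => ct_kneg h₁ h₂ h₃) hu hu (h.trans hMc) hodd hM hR0 hV)
    (fun x' u h hu => ct_grep₂ (fun M u _ => hK M * u)
      (fun _ _ _ _ _ _ _ h₁ h₂ h₃ _ => ct_khalf h₁ h₂ h₃) hu hu (h.trans hMc) hodd hM hR0 hV)
    (fun N hN x' z h hz => by
      let L : List Bool := List.ofFn fun a : Fin m => decide (Odd (N a a))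
      refine (ct_gxor hm (fun q _ j => L.getD (j / q.2.2) false) (by fun_prop) hz (h.trans hpar)
        hodd hM (fun _ _ _ _ _ _ => rfl) (fun _ _ _ _ => rfl) hfit hgap hR hs hB).congr fun a => ?_
      congr 1
      exact gPhi_two (hodd a) (hℓ1 a) N hN (fun j => L.getD j false) (fun b => by simp [L]) (z a))
    (fun u x' z h hz => by
      by_cases hu : ∃ a, Odd (u a)
      · obtain ⟨a₀, h₀, hmax⟩ := exists_max_image (univ.filter fun a => Odd (u a)) id
          (by obtain ⟨a, ha⟩ := hu; exact ⟨a, by simpa using ha⟩)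
        simp only [mem_filter, mem_univ, true_and, id] at h₀ hmax
        let L : List Bool := List.ofFn fun a : Fin m => decide (a ≠ a₀ ∧ Odd (u a))
        have htab : ∀ b : Fin m, L.getD b false = decide (b ≠ a₀ ∧ Odd (u b)) := fun b => by
          simp [L]
        have hlt : ∀ b : ℕ, L.getD b false = true → b < a₀ := by
          intro b hb
          by_cases hbm : b < m
          · have h1 := htab ⟨b, hbm⟩
            rw [hb] at h1
            have h2 := of_decide_eq_true h1.symm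
            exact lt_of_le_of_ne (hmax _ h2.2) fun e => h2.1 (Fin.ext e)
          · rw [List.getD_eq_default _ _ (by simp [L]; omega)] at hb
            exact absurd hb (by simp)
        have hsh : ∀ (x'' : In B) (z' : ∀ a, ℕ → ℕ → KM (M a)), CT cur x'' x.val →
            CT cur x'' (fun a => grep (n a) (R a) (z' a)) → CT cur x'' fun a => grep (n a) (R a)
              (fun i => z' a (gshear (fun j => L.getD j false) a₀ (π a) (ℓ a) (k a) m i)) := by
          intro x'' z' h' hz'
          refine ct_gxor hm (fun q i j => shz (fun j => L.getD j false) a₀ q.1 q.2.1 q.2.2 i j)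
            (by unfold shz; fun_prop) hz' (h'.trans hpar) hodd hM (fun a i i' j hj hb => ?_)
            (fun a i j hj => shz_shear (hℓ1 a) a₀.2 (by rw [htab]; simp) i hj) hfit hgap hR hs hB
          simp only [shz]
          cases ht : L.getD (j / k a) false
          · rfl
          · have h1 := hlt _ ht
            have hk : 0 < k a := Nat.pos_of_mul_pos_left (show 0 < m * k a by omega)
            have h2 := Nat.mod_lt j hk
            have h3 := Nat.div_add_mod j (k a)
            have h4 := a₀.2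
            rw [hb (a₀ * k a + j % k a) (by nlinarith) (by nlinarith)]
        refine ((hrec a₀ a₀.2 x' _ h (hsh x' z h hz)).bind₀ fun x'' h₁ h₂ =>
          hsh x'' _ (h₁.trans h) h₂).congr fun a => ?_
        congr 1
        exact gPhi_rank_odd (hodd a) (hℓ1 a) u a₀ h₀ (fun j => L.getD j false) htab (z a)
      · refine (hz.toQ Q).congr fun a => ?_
        rw [gPhi_rank_even (hodd a) u (not_exists.1 hu)]
        simp)
    (fun w hw => ct_slice hf (hRc.const_mul w) hRc
      (fun a => by nlinarith [Nat.mul_le_mul_right (R a) (Nat.succ_le_of_lt hw)]) hodd hM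
      (fun a => Nat.mul_pos hW (hR0 a)) ((hV.const_mul W).le_trans fun a => le_of_eq (by ring)))
  refine (key.bind₀ fun x' _ h₂ => ct_join W h₂ hW).congr fun a => grep_congr fun i c _ => ?_
  rw [LinearMap.toAddMonoidHom_coe, gPhi_one (hodd a)]
  simp only [gamV, Nat.div_add_mod']

end Crest.Agent.R326
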