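import Crest.Agent.R326.GamAlg

/-!
Linear-time operations on arrays of records of Gaussian integers modulo `M`.
-/

set_option autoImplicit false

namespace Crest.Agent.R326

open Crest.Agent.Lib.PT Crest.Agent.Lib.LT Finset

/-- The representation of an array of `2 ^ n` records of `R` coefficients. -/
def grep {M : ℕ} (n R : ℕ) (z : ℕ → ℕ → KM M) : List (List (ℕ × ℕ)) :=
  arr (2 ^ n) fun i => arr R fun c => kv (z i c)

lemma gp_pos {M p : ℕ} (hodd : Odd M) (hM : M < 2 ^ p) : 1 ≤ p := by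
  rcases Nat.eq_zero_or_pos p with rfl | h
  · have := hodd.pos
    omega
  · exact h

lemma sz_kv_le {M p : ℕ} (hodd : Odd M) (hM : M < 2 ^ p) (z : KM M) : sz (kv z) ≤ 12 * p + 3 := by
  have : NeZero M := ⟨hodd.pos.ne'⟩
  have h1 := sz_nat_le_of_lt_two_pow ((ZMod.val_lt z.re).trans hM)
  have h2 := sz_nat_le_of_lt_two_pow ((ZMod.val_lt z.im).trans hM)
  rw [kv, sz_pair]
  omega

lemma sz_rec_le {M p R : ℕ} (hodd : Odd M) (hM : M < 2 ^ p) (hR : 0 < R) (z : ℕ → KM M) :
    sz (arr R fun c => kv (z c)) ≤ 17 * (R * p) := by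
  have h1 := sz_arr_le (n := R) (f := fun c => kv (z c)) fun c _ => sz_kv_le hodd hM (z c)
  have h2 := gp_pos hodd hM
  nlinarith [Nat.mul_le_mul hR h2, Nat.mul_le_mul_left R h2]

lemma sz_grep_le {M p R : ℕ} (n : ℕ) (hodd : Odd M) (hM : M < 2 ^ p) (hR : 0 < R)
    (z : ℕ → ℕ → KM M) : sz (grep n R z) ≤ 19 * (2 ^ n * R * p) := by
  have h1 := sz_arr_le (n := 2 ^ n) (f := fun i => arr R fun c => kv (z i c))
    fun i _ => sz_rec_le hodd hM hR (z i)
  have h2 := gp_pos hodd hM
  have h3 : 1 ≤ R * p := Nat.mul_pos hR h2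
  have h4 : 1 ≤ 2 ^ n := Nat.one_le_two_pow
  rw [grep, mul_assoc]
  nlinarith [Nat.mul_le_mul_left (2 ^ n) h3]

lemma sz_M_le {M p : ℕ} (hodd : Odd M) (hM : M < 2 ^ p) : sz M ≤ 7 * p := by
  have h1 := sz_nat_le_of_lt_two_pow hM
  have h2 := gp_pos hodd hM
  omega

variable {A : Type} {cur : A → P} {B : A → ℕ} {x : In B} {M p n R : A → ℕ}

section scalar

lemma ct_zadd {u v : ∀ a, ZMod (M a)} (hodd : ∀ a, Odd (M a)) (hM : CT cur x M)
    (hu : CT cur x fun a => (u a).val) (hv : CT cur x fun a => (v a).val) :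
    CT cur x fun a => (u a + v a).val := by
  refine (((hu.add hv).decide_lt hM).ite (hu.add hv) ((hu.add hv).sub hM)).congr fun a => ?_
  have : NeZero (M a) := ⟨(hodd a).pos.ne'⟩
  have h1 := ZMod.val_lt (u a)
  have h2 := ZMod.val_lt (v a)
  rw [ZMod.val_add]
  split_ifs with h
  · exact Nat.mod_eq_of_lt h
  · rw [Nat.mod_eq_sub_mod (by omega), Nat.mod_eq_of_lt (by omega)]

lemma ct_zneg {u : ∀ a, ZMod (M a)} (hodd : ∀ a, Odd (M a)) (hM : CT cur x M)
    (hu : CT cur x fun a => (u a).val) : CT cur x fun a => (-u a).val := by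
  refine ((hu.decide_eq (CT.const 0)).ite (CT.const 0) (hM.sub hu)).congr fun a => ?_
  have : NeZero (M a) := ⟨(hodd a).pos.ne'⟩
  rw [ZMod.neg_val]
  simp only [ZMod.val_eq_zero]

lemma val_hf_mul {M : ℕ} (hodd : Odd M) (u : ZMod M) :
    (hf M * u).val = cond u.val.bodd (u.val + M).div2 u.val.div2 := by
  have : NeZero M := ⟨hodd.pos.ne'⟩
  have h1 := ZMod.val_lt u
  have h2 := two_mul_hf hodd
  have key : ∀ w : ℕ, w < M → (2 * w : ℕ) = (u : ZMod M) → (hf M * u).val = w := by
    intro w hw e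
    rw [← e]
    push_cast
    rw [← mul_assoc, mul_comm (hf M), h2, one_mul, ZMod.val_cast_of_lt hw]
  have h3 := Nat.bodd_add_div2 u.val
  have h4 := Nat.mod_two_of_bodd u.val
  obtain ⟨k, hk⟩ := hodd
  cases h : u.val.bodd
  · rw [h] at h3 h4
    simp only [Bool.toNat_false, Nat.div2_val] at h3 h4
    simp only [cond_false, Nat.div2_val]
    refine key _ (by omega) ?_
    rw [show 2 * (u.val / 2) = u.val by omega, ZMod.natCast_zmod_val]
  · rw [h] at h3 h4
    simp only [Bool.toNat_true, Nat.div2_val] at h3 h4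
    simp only [cond_true, Nat.div2_val]
    refine key _ (by omega) ?_
    rw [show 2 * ((u.val + M) / 2) = u.val + M by omega]
    push_cast
    rw [ZMod.natCast_zmod_val, ZMod.natCast_self, add_zero]

lemma ct_zhalf {u : ∀ a, ZMod (M a)} (hodd : ∀ a, Odd (M a)) (hM : CT cur x M)
    (hu : CT cur x fun a => (u a).val) : CT cur x fun a => (hf (M a) * u a).val :=
  (hu.bodd.cond (hu.add hM).div2 hu.div2).congr fun a => val_hf_mul (hodd a) (u a)

lemma ct_kadd {u v : ∀ a, KM (M a)} (hodd : ∀ a, Odd (M a)) (hM : CT cur x M)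
    (hu : CT cur x fun a => kv (u a)) (hv : CT cur x fun a => kv (v a)) :
    CT cur x fun a => kv (u a + v a) :=
  (ct_zadd hodd hM hu.fst hv.fst).pair (ct_zadd hodd hM hu.snd hv.snd)

lemma ct_kneg {u : ∀ a, KM (M a)} (hodd : ∀ a, Odd (M a)) (hM : CT cur x M)
    (hu : CT cur x fun a => kv (u a)) : CT cur x fun a => kv (-u a) :=
  (ct_zneg hodd hM hu.fst).pair (ct_zneg hodd hM hu.snd)

lemma ct_khalf {u : ∀ a, KM (M a)} (hodd : ∀ a, Odd (M a)) (hM : CT cur x M)
    (hu : CT cur x fun a => kv (u a)) : CT cur x fun a => kv (hK (M a) * u a) :=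
  ((ct_zhalf hodd hM hu.fst).pair (ct_zhalf hodd hM hu.snd)).congr fun a => by
    simp [kv, hK]

lemma ct_kI {u : ∀ a, KM (M a)} (hodd : ∀ a, Odd (M a)) (hM : CT cur x M)
    (hu : CT cur x fun a => kv (u a)) : CT cur x fun a => kv (iK (M a) * u a) :=
  ((ct_zneg hodd hM hu.snd).pair hu.fst).congr fun a => by simp [kv, iK]

lemma ct_kbfly {u v : ∀ a, KM (M a)} (hodd : ∀ a, Odd (M a)) (hM : CT cur x M)
    (hu : CT cur x fun a => kv (u a)) (hv : CT cur x fun a => kv (v a)) :
    CT cur x fun a => kv (alp (M a) * u a + bet (M a) * v a) :=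
  (ct_khalf hodd hM (ct_kadd hodd hM (ct_kadd hodd hM hu hv)
    (ct_kI hodd hM (ct_kadd hodd hM hu (ct_kneg hodd hM hv))))).congr fun a => by
      rw [alp_eq, bet_eq]; congr 1; ring

end scalar

/-- Coefficientwise operations on two arrays. -/
lemma ct_grep₂ (op : ∀ M : ℕ, KM M → KM M → KM M)
    (hop : ∀ (A' : Type) (cur' : A' → P) (B' : A' → ℕ) (x' : In B') (M' : A' → ℕ)
      (u v : ∀ a, KM (M' a)), (∀ a, Odd (M' a)) → CT cur' x' M' → CT cur' x' (fun a => kv (u a)) →
      CT cur' x' (fun a => kv (v a)) → CT cur' x' (fun a => kv (op _ (u a) (v a))))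
    {f g : ∀ a, ℕ → ℕ → KM (M a)} (hf : CT cur x fun a => grep (n a) (R a) (f a))
    (hg : CT cur x fun a => grep (n a) (R a) (g a)) (hMc : CT cur x M) (hodd : ∀ a, Odd (M a))
    (hM : ∀ a, M a < 2 ^ p a) (hR : ∀ a, 0 < R a) (hB : Dom (fun a => 2 ^ n a * R a * p a) B) :
    CT cur x fun a => grep (n a) (R a) (fun i c => op _ (f a i c) (g a i c)) := by
  refine CT.arr_map (CT.arr_zip hf hg) hMc (fun a _ => R a * p a) ⟨42, fun q => ?_⟩
    (fun x' h₁ h₂ => ?_) (hB.le_trans fun a => by simp [mul_assoc])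
  · have h1 := sz_rec_le (hodd q.a) (hM q.a) (hR q.a) (f q.a q.i)
    have h2 := sz_rec_le (hodd q.a) (hM q.a) (hR q.a) (g q.a q.i)
    have h3 := sz_M_le (hodd q.a) (hM q.a)
    have h4 := gp_pos (hodd q.a) (hM q.a)
    have h5 : 1 * p q.a ≤ R q.a * p q.a := Nat.mul_le_mul_right _ (hR q.a)
    simp only [sz_pair]
    omega
  · refine CT.arr_map (CT.arr_zip h₁.fst h₁.snd) h₂ (fun q _ => p q.a) ⟨38, fun q => ?_⟩
      (fun x'' k₁ k₂ => hop _ _ _ _ _ _ _ (fun q => hodd q.a.a) k₂ k₁.fst k₁.snd)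
      (Dom.of_le fun q => by simp)
    have h1 := sz_kv_le (hodd q.a.a) (hM q.a.a) (f q.a.a q.a.i q.i)
    have h2 := sz_kv_le (hodd q.a.a) (hM q.a.a) (g q.a.a q.a.i q.i)
    have h3 := sz_M_le (hodd q.a.a) (hM q.a.a)
    have h4 := gp_pos (hodd q.a.a) (hM q.a.a)
    simp only [sz_pair]
    omega

lemma gdom_pow (hp : ∀ a, 1 ≤ p a) (hR : ∀ a, 0 < R a)
    (hB : Dom (fun a => 2 ^ n a * R a * p a) B) : Dom (fun a => 2 ^ n a) B :=
  hB.le_trans fun a => by
    rw [mul_assoc]; exact Nat.le_mul_of_pos_right _ (Nat.mul_pos (hR a) (hp a))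

lemma gdom_n (hp : ∀ a, 1 ≤ p a) (hR : ∀ a, 0 < R a)
    (hB : Dom (fun a => 2 ^ n a * R a * p a) B) : Dom n B :=
  (gdom_pow hp hR hB).le_trans fun _ => Nat.lt_two_pow_self.le

lemma ct_grep_zero (hn : CT cur x n) (hRc : CT cur x R) (hp : ∀ a, 1 ≤ p a) (hR : ∀ a, 0 < R a)
    (hB : Dom (fun a => 2 ^ n a * R a * p a) B) :
    CT cur x fun a => grep (n a) (R a) (0 : ℕ → ℕ → KM (M a)) := by
  have h0 : ∀ a, 2 ^ n a * R a ≤ 2 ^ n a * R a * p a := fun a => Nat.le_mul_of_pos_right _ (hp a)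
  have h1 : CT cur x fun a => List.replicate (R a) ((0, 0) : ℕ × ℕ) :=
    hRc.replicate (CT.const _) ((hB.mul_const 3).le_trans fun a => by
      have : 1 * R a ≤ 2 ^ n a * R a := Nat.mul_le_mul_right _ Nat.one_le_two_pow
      have := h0 a
      simp only [sz_pair, sz_zero]
      omega)
  refine ((hn.two_pow (gdom_n hp hR hB)).replicate h1
    ((hB.const_mul 5).le_trans fun a => ?_)).congr fun a => ?_
  · have h2 := sz_arr_le (n := R a) (f := fun _ => ((0, 0) : ℕ × ℕ)) (M := 3) fun _ _ => by simp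
    rw [replicate_eq_arr]
    have h3 := hR a
    have h4 := h0 a
    have h5 := Nat.mul_le_mul_left (2 ^ n a) (show sz (arr (R a) fun _ => ((0, 0) : ℕ × ℕ))
      ≤ 5 * R a by omega)
    nlinarith
  · rw [replicate_eq_arr, replicate_eq_arr]
    simp [grep, kv]

lemma xor_two_pow_eq (i e : ℕ) :
    i ^^^ 2 ^ e = if i.testBit e then i - 2 ^ e else i + 2 ^ e := by
  have key : ∀ j : ℕ, j.testBit e = false → j ^^^ 2 ^ e = j + 2 ^ e := by
    intro j hj
    have h1 := Nat.div_add_mod j (2 ^ (e + 1))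
    have h2 : j % 2 ^ (e + 1) < 2 ^ e := by
      have h3 : j % 2 ^ (e + 1) < 2 ^ (e + 1) := Nat.mod_lt _ (by positivity)
      refine Nat.lt_pow_two_of_testBit _ fun t ht => ?_
      rcases ht.eq_or_lt with rfl | ht
      · simp [Nat.testBit_mod_two_pow, hj]
      · exact Nat.testBit_lt_two_pow (h3.trans_le (Nat.pow_le_pow_right (by norm_num) ht))
    refine Nat.eq_of_testBit_eq fun t => ?_
    conv_rhs => rw [← h1, add_assoc, two_pow_add_eq_xor h2]
    rw [Nat.testBit_two_pow_mul_add _ (Nat.xor_lt_two_pow (by omega)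
      (Nat.pow_lt_pow_right (by norm_num) (Nat.lt_succ_self e))), Nat.testBit_xor]
    split_ifs with h
    · simp [Nat.testBit_xor, Nat.testBit_mod_two_pow, h]
    · rw [Nat.testBit_two_pow_of_ne (by omega), Nat.testBit_div_two_pow, Bool.xor_false]
      congr 1; omega
  split_ifs with h
  · have h1 := key (i ^^^ 2 ^ e) (by simp [Nat.testBit_xor, h])
    rw [Nat.xor_assoc, Nat.xor_self, Nat.xor_zero] at h1
    omega
  · exact key i (by simpa using h)

/-- One butterfly. -/
lemma ct_bflyV {pos s : A → ℕ} {f : ∀ a, ℕ → ℕ → KM (M a)}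
    (hf : CT cur x fun a => grep (n a) (R a) (f a)) (hMc : CT cur x M) (hpos : CT cur x pos)
    (hlt : ∀ a, pos a < n a) (hodd : ∀ a, Odd (M a)) (hM : ∀ a, M a < 2 ^ p a)
    (hs : Sm s n) (hR : ∀ a, s a ≤ R a) (hB : Dom (fun a => 2 ^ n a * R a * p a) B) :
    CT cur x fun a => grep (n a) (R a) (bflyV (pos a) (f a)) := by
  have hR0 : ∀ a, 0 < R a := fun a => (hs.pos a).trans_le (hR a)
  have hp : ∀ a, 1 ≤ p a := fun a => gp_pos (hodd a) (hM a)
  have h2 : CT cur x fun a => 2 ^ pos a :=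
    hpos.two_pow ((gdom_n hp hR0 hB).le_trans fun a => (hlt a).le)
  have hg : CT cur x fun a => grep (n a) (R a) (fun i => f a (i ^^^ 2 ^ pos a)) := by
    refine CT.permColour 2 (fun (q : ℕ × ℕ) i => if i.testBit q.1 then i - q.2 else i + q.2)
      (fun (q : ℕ × ℕ) i => (i.testBit q.1).toNat) (by fun_prop) (by fun_prop)
      (fun a => R a * p a) hf (hpos.pair h2) ?_
      ⟨17, fun q => sz_rec_le (hodd q.a) (hM q.a) (hR0 q.a) _⟩
      (hB.le_trans fun a => by rw [mul_assoc]) (fun a i hi => ?_) (fun a i j hij hj h => ?_)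
      (fun a i j _ _ h => ?_)
    · refine (((hs.const_mul 18).add_const 16).of_le fun a => ?_).mono
        (Dom.of_le fun a => (hR a).trans (Nat.le_mul_of_pos_right _ (hp a)))
      have h3 := sz_nat_le_self (pos a)
      have h4 := sz_nat_le_of_lt_two_pow (Nat.pow_lt_pow_right (by norm_num : 1 < 2) (hlt a))
      have h5 := sz_nat_le_of_lt_two_pow
        (Nat.pow_lt_pow_right (by norm_num : 1 < 2) (Nat.lt_succ_self (n a)))
      have := hlt a
      simp only [sz_pair]
      omega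
    · simp only [← xor_two_pow_eq]
      refine ⟨Nat.xor_lt_two_pow hi (Nat.pow_lt_pow_right (by norm_num) (hlt a)),
        Nat.lt_succ_of_le (Bool.toNat_le _), ?_⟩
      rw [Nat.xor_assoc, Nat.xor_self, Nat.xor_zero]
    · have h3 : i.testBit (pos a) = j.testBit (pos a) := by
        revert h
        cases i.testBit (pos a) <;> cases j.testBit (pos a) <;> simp
      simp only [← h3]
      split_ifs with h4
      · have := Nat.ge_two_pow_of_testBit h4
        omega
      · omega
    · simp only [← xor_two_pow_eq] at h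
      exact Nat.xor_left_inj.1 h
  exact ct_grep₂ (fun M u v => alp M * u + bet M * v)
    (fun _ _ _ _ _ _ _ h₁ h₂ h₃ h₄ => ct_kbfly h₁ h₂ h₃ h₄) hf hg hMc hodd hM hR0 hB

/-- Boundedly many butterflies, one after the other. -/
lemma ct_gam_slow (c : ℕ) {π ℓ k s : A → ℕ} {f : ∀ a, ℕ → ℕ → KM (M a)}
    (hf : CT cur x fun a => grep (n a) (R a) (f a)) (hMc : CT cur x M) (hπ : CT cur x π)
    (hℓ : CT cur x ℓ) (hk : CT cur x k) (hkc : ∀ a, k a ≤ c)
    (hlt : ∀ a j, j < k a → π a + ℓ a * j < n a) (hodd : ∀ a, Odd (M a))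
    (hM : ∀ a, M a < 2 ^ p a) (hs : Sm s n) (hR : ∀ a, s a ≤ R a)
    (hB : Dom (fun a => 2 ^ n a * R a * p a) B) :
    CT cur x fun a => grep (n a) (R a) (gamV (π a) (ℓ a) (k a) (f a)) := by
  have key : ∀ j : ℕ, CT cur x fun a => grep (n a) (R a) (gamV (π a) (ℓ a) (min j (k a)) (f a)) := by
    intro j
    induction j with
    | zero => exact hf.congr fun a => by rw [Nat.zero_min, gamV_zero]
    | succ j ih =>
      refine CT.byCases (R := fun a => j < k a) ((CT.const j).decide_lt hk) ?_ ?_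
      · refine (ct_bflyV (pos := fun a : {a // j < k a} => π a.1 + j * ℓ a.1) (ih.comap _)
          (hMc.comap _) ((hπ.add (hℓ.const_mul j)).comap _)
          (fun a => by rw [mul_comm]; exact hlt a.1 j a.2) (fun a => hodd a.1) (fun a => hM a.1)
          (hs.comap _) (fun a => hR a.1) (hB.comap _)).congr fun a => ?_
        rw [min_eq_left (Nat.succ_le_of_lt a.2), min_eq_left a.2.le, gamV_succ, mul_comm]
      · refine (ih.comap _).congr fun a => ?_
        have := a.2
        rw [min_eq_right (by omega), min_eq_right (by omega)]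
  exact (key c).congr fun a => by rw [min_eq_right (hkc a)]

/-- A slice of every record. -/
lemma ct_slice {R' o : A → ℕ} {f : ∀ a, ℕ → ℕ → KM (M a)}
    (hf : CT cur x fun a => grep (n a) (R a) (f a)) (ho : CT cur x o) (hR' : CT cur x R')
    (hle : ∀ a, o a + R' a ≤ R a) (hodd : ∀ a, Odd (M a)) (hM : ∀ a, M a < 2 ^ p a)
    (hR : ∀ a, 0 < R a) (hB : Dom (fun a => 2 ^ n a * R a * p a) B) :
    CT cur x fun a => grep (n a) (R' a) (fun i c => f a i (o a + c)) := by
  have hp : ∀ a, R a ≤ R a * p a := fun a => Nat.le_mul_of_pos_right _ (gp_pos (hodd a) (hM a))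
  refine CT.arr_map hf (ho.pair hR') (fun a _ => R a * p a) ⟨26, fun q => ?_⟩
    (fun x' h₁ h₂ => ?_) (hB.le_trans fun a => by simp [mul_assoc])
  · have h1 := sz_rec_le (hodd q.a) (hM q.a) (hR q.a) (f q.a q.i)
    have h2 := sz_nat_le_self (o q.a)
    have h3 := sz_nat_le_self (R' q.a)
    have := hp q.a
    have := hle q.a
    have := hR q.a
    simp only [sz_pair]
    omega
  · refine (h₂.snd.take (Dom.of_le fun q => ?_)
      (h₂.fst.drop (Dom.of_le fun q => ?_) h₁)).congr fun q => ?_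
    · have := hp q.a
      have := hle q.a
      simp only
      omega
    · have := hp q.a
      have := hle q.a
      simp only
      omega
    · have := hle q.a
      simp only
      rw [drop_arr, take_arr, min_eq_left (by omega)]

/-- Concatenation of records. -/
lemma ct_concat {R' : A → ℕ} {f g : ∀ a, ℕ → ℕ → KM (M a)}
    (hf : CT cur x fun a => grep (n a) (R a) (f a))
    (hg : CT cur x fun a => grep (n a) (R' a) (g a)) :
    CT cur x fun a => grep (n a) (R a + R' a)
      (fun i c => if c < R a then f a i c else g a i (c - R a)) := by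
  refine ((CT.arr_zip hf hg).arr_map_lt (f := fun q : List (ℕ × ℕ) × List (ℕ × ℕ) => q.1 ++ q.2)
    (LT.intro fun _ h => h.fst.append h.snd)).congr fun a => arr_congr fun i _ => ?_
  rw [arr_add]
  congr 1
  · exact arr_congr fun c hc => by simp [hc]
  · exact arr_congr fun c _ => by simp

lemma grep_congr {M n R : ℕ} {f g : ℕ → ℕ → KM M} (h : ∀ i c, c < R → f i c = g i c) :
    grep n R f = grep n R g :=
  arr_congr fun i _ => arr_congr fun c hc => by rw [h i c hc]

/-- Joining the wires. -/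
lemma ct_join (W : ℕ) {g : ∀ a, ℕ → ℕ → ℕ → KM (M a)}
    (hg : CT cur x fun a => arr W fun w => grep (n a) (R a) (g a w)) (hW : 0 < W) :
    CT cur x fun a => grep (n a) (W * R a) (fun i c => g a (c / R a) i (c % R a)) := by
  have hw : ∀ w, w < W → CT cur x fun a => grep (n a) (R a) (g a w) := by
    intro w hw
    refine (((CT.const w).drop (Dom.const w x.pos) hg).headD (CT.const [])).congr fun a => ?_
    rw [drop_arr, show W - w = (W - w - 1) + 1 by omega, arr_succ']
    rfl
  have key : ∀ w, w < W → CT cur x fun a =>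
      grep (n a) ((w + 1) * R a) (fun i c => g a (c / R a) i (c % R a)) := by
    intro w
    induction w with
    | zero =>
      intro h
      refine (hw 0 h).congr fun a => ?_
      rw [zero_add, one_mul]
      exact grep_congr fun i c hc => by rw [Nat.div_eq_of_lt hc, Nat.mod_eq_of_lt hc]
    | succ w ih =>
      intro h
      refine (ct_concat (ih (by omega)) (hw (w + 1) h)).congr fun a => ?_
      rw [add_mul (w + 1), one_mul]
      refine grep_congr fun i c hc => ?_
      split_ifs with h1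
      · rfl
      · obtain ⟨c', rfl⟩ := Nat.exists_eq_add_of_le (not_lt.1 h1)
        have h2 : c' < R a := by omega
        rw [(gdiv_mod h2).1, (gdiv_mod h2).2, Nat.add_sub_cancel_left]
  exact (key (W - 1) (by omega)).congr fun a => by rw [Nat.sub_add_cancel hW]

end Crest.Agent.R326
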