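import Crest.Agent.R326.LineAMath

/-!
The fixed-point algorithm for the line map before the long Fourier transform, and its error.
-/

set_option autoImplicit false

namespace Crest.Agent.R326.LA

open Crest.Agent.Lib.PT Crest.Agent.Lib.LT Finset

/-- The rotation used for the alias number `k - 256 d`. -/
def rho (r : RP) (k : ℕ) : ℕ := (256 * r.d * r.t + k * (2 * r.s - r.t)) % r.s

/-- The alias index. -/
def idx (r : RP) (k : ℕ) : ℤ := (k : ℤ) - ((256 * r.d : ℕ) : ℤ)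

/-- The table of aliasing coefficients. -/
noncomputable def ent (r : RP) (u : List Unit) (k m : ℕ) : GaussianInt :=
  if idx r k = 0 ∨ qe r ((m + rho r k) % r.s) (idx r k) < -((r.p + 2 : ℕ) : ℚ) then 0
  else ex (qe r ((m + rho r k) % r.s) (idx r k)) 0 u

/-- The exponent of the inverse of the Gaussian. -/
def qd (r : RP) (m : ℕ) : ℚ := (r.g : ℚ) ^ 2 * ((cidx r.s m : ℤ) : ℚ) ^ 2 / (r.t : ℚ) ^ 2

/-- The table of the inverses of the Gaussian. -/
noncomputable def dent (r : RP) (u : List Unit) (m : ℕ) : GaussianInt := ex (qd r m) 0 u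

/-- Subtract the aliases one by one. -/
noncomputable def accA (r : RP) (u v : ℕ → GaussianInt) : ℕ → ℕ → GaussianInt
  | 0 => u
  | k + 1 => fun m => accA r u v k m -
      fmul (r.p + 2) (v ((m + rho r k) % r.s)) (ent r (un (r.p + 2)) k m)

/-- The Neumann iteration. -/
noncomputable def itA (r : RP) (u : ℕ → GaussianInt) : ℕ → ℕ → GaussianInt
  | 0 => u
  | n + 1 => accA r u (itA r u n) (512 * r.d + 1)

/-- The result before the padding. -/
noncomputable def outA (r : RP) (u : ℕ → GaussianInt) (m : ℕ) : GaussianInt :=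
  fmul (r.p + 2) (itA r u (1024 * r.d ^ 2) m) (dent r (un (r.p + 2)) m)

/-- The line map. -/
noncomputable def phiA (r : RP) (u : ℕ → GaussianInt) : ℕ → GaussianInt := ins r (outA r u) 0

lemma accA_zero (r : RP) (u v : ℕ → GaussianInt) : accA r u v 0 = u := rfl

lemma accA_succ (r : RP) (u v : ℕ → GaussianInt) (k m : ℕ) : accA r u v (k + 1) m =
    accA r u v k m - fmul (r.p + 2) (v ((m + rho r k) % r.s)) (ent r (un (r.p + 2)) k m) := rfl

lemma itA_zero (r : RP) (u : ℕ → GaussianInt) : itA r u 0 = u := rfl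

lemma itA_succ (r : RP) (u : ℕ → GaussianInt) (n : ℕ) :
    itA r u (n + 1) = accA r u (itA r u n) (512 * r.d + 1) := rfl

lemma ex_real {q : ℚ} {P : ℕ} (h : |q| ≤ P) :
    ‖(ex q 0 (un P) : ℂ) - 2 ^ P * (Real.exp (Real.pi * q) : ℝ)‖ ≤ 1 := by
  have := ex_spec (q₁ := q) (q₂ := 0) h (by simp)
  simpa using this

lemma idx_injective (r : RP) : Function.Injective (idx r) := fun a b h => by
  unfold idx at h; omega

section valid
variable {r : RP} (hr : r.Valid)
include hr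

lemma d_le : 2048 * r.d ≤ r.p := by
  have := hr.p_lo; have := hr.d_pos; nlinarith

lemma g_sq_ge : 8 ≤ r.g ^ 2 := by
  have h1 := hr.g_lo
  have h2 := d_le hr
  have h3 := hr.d_pos
  by_contra h
  have : 256 * r.d * r.g ^ 2 ≤ 256 * r.d * 7 := Nat.mul_le_mul_left _ (by omega)
  omega

lemma g_sq_le : 4 * r.g ^ 2 ≤ r.p := by
  have h1 := hr.g_hi
  have h3 := hr.d_pos
  nlinarith

lemma rho_lt (k : ℕ) : rho r k < r.s := Nat.mod_lt _ hr.s_pos

lemma rot_eq (k m : ℕ) : (m + rho r k) % r.s = src r m (idx r k) := by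
  rw [← Nat.cast_inj (R := ℤ), src_cast hr, rho, Nat.add_mod_mod]
  push_cast [Nat.cast_sub hr.t_le]
  unfold idx
  push_cast
  rw [show (m : ℤ) + (256 * r.d * r.t + k * (2 * r.s - r.t)) =
    m - (k - 256 * r.d) * r.t + r.s * (2 * k) by ring, Int.add_mul_emod_self_left]

lemma ent_err (k m : ℕ) : ‖(ent r (un (r.p + 2)) k m : ℂ) -
    2 ^ (r.p + 2) * (tau r (src r m (idx r k)) (idx r k) : ℝ)‖ ≤ 1 := by
  unfold ent tau
  rw [rot_eq hr]
  by_cases h0 : idx r k = 0
  · simp [h0]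
  rw [if_neg h0]
  split_ifs with h
  · have h1 : qe r (src r m (idx r k)) (idx r k) < -((r.p + 2 : ℕ) : ℚ) := h.resolve_left h0
    have h2 : ((r.p + 2 : ℕ) : ℝ) ≤ -(qe r (src r m (idx r k)) (idx r k) : ℝ) := by
      have : (qe r (src r m (idx r k)) (idx r k) : ℝ) < -((r.p + 2 : ℕ) : ℝ) := by
        exact_mod_cast h1
      linarith
    have h3 := exp_neg_pi_le h2
    rw [mul_neg, neg_neg] at h3
    rw [map_zero, zero_sub, norm_neg, norm_mul, norm_pow, Complex.norm_ofNat, Complex.norm_real,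
      Real.norm_of_nonneg (Real.exp_pos _).le]
    calc (2 : ℝ) ^ (r.p + 2) * _ ≤ 2 ^ (r.p + 2) * (1 / 8) ^ (r.p + 2) :=
          mul_le_mul_of_nonneg_left h3 (by positivity)
      _ = (1 / 4) ^ (r.p + 2) := by rw [← mul_pow]; norm_num
      _ ≤ 1 := pow_le_one₀ (by norm_num) (by norm_num)
  · refine ex_real ?_
    have h1 := not_lt.1 (not_or.1 h).2
    have h2 := qe_nonpos hr (src_lt hr m (idx r k)) h0
    rw [abs_of_nonpos h2]
    linarith

lemma tau_le_one (m : ℕ) (i : ℤ) : tau r (src r m i) i ≤ 1 / 2 :=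
  (le_hasSum (hasSum_row_real hr m) i fun _ _ => tau_nonneg _ _ _).trans (row_le_half hr m)

lemma norm_ent_le (k m : ℕ) : ‖(ent r (un (r.p + 2)) k m : ℂ)‖ ≤ 2 ^ (r.p + 2) := by
  have h1 := ent_err hr k m
  have h2 := tau_le_one hr m (idx r k)
  have h3 := norm_le_insert' (ent r (un (r.p + 2)) k m : ℂ)
    (2 ^ (r.p + 2) * (tau r (src r m (idx r k)) (idx r k) : ℝ))
  rw [norm_mul, norm_pow, Complex.norm_ofNat, Complex.norm_real,
    Real.norm_of_nonneg (tau_nonneg _ _ _)] at h3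
  have h4 : (2 : ℝ) ≤ 2 ^ (r.p + 2) := le_self_pow₀ (by norm_num) (by omega)
  nlinarith

lemma acc_err (u : ℕ → GaussianInt) {v : ℕ → GaussianInt}
    (hv : ∀ b, b < r.s → ‖(v b : ℂ)‖ ≤ 2 ^ (r.p + 2)) (m K : ℕ) :
    ‖(accA r u v K m : ℂ) - (u m - ∑ k ∈ range K,
      (tau r (src r m (idx r k)) (idx r k) : ℂ) * v (src r m (idx r k)))‖ ≤ 3 * K := by
  induction K with
  | zero => simp [accA_zero]
  | succ K ih =>
    have h1 := norm_fmul_sub_le (hv _ (src_lt hr m (idx r K))) (ent_err hr K m)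
    rw [accA_succ, rot_eq hr, Finset.sum_range_succ, map_sub]
    have h2 := (norm_sub_le _ _).trans (add_le_add ih h1)
    push_cast
    refine le_of_eq_of_le ?_ (h2.trans (le_of_eq (by ring)))
    congr 1
    ring

lemma partial_le (m K : ℕ) : ∑ k ∈ range K, tau r (src r m (idx r k)) (idx r k) ≤ 1 / 2 := by
  rw [← Finset.sum_image (f := fun i => tau r (src r m i) i) (idx_injective r).injOn]
  exact (sum_le_hasSum _ (fun _ _ => tau_nonneg _ _ _) (hasSum_row_real hr m)).trans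
    (row_le_half hr m)

lemma three_K_le : 3 * ((512 * r.d + 1 : ℕ) : ℝ) ≤ 2 ^ r.p := by
  have h1 := d_le hr
  have h2 := hr.d_pos
  have h3 : r.p < 2 ^ r.p := Nat.lt_two_pow_self
  have : 3 * (512 * r.d + 1) ≤ 2 ^ r.p := by omega
  exact_mod_cast this

lemma norm_acc_le {u v : ℕ → GaussianInt} {m : ℕ} (hu : ‖(u m : ℂ)‖ ≤ 2 ^ r.p)
    (hv : ∀ b, b < r.s → ‖(v b : ℂ)‖ ≤ 2 ^ (r.p + 2)) {K : ℕ} (hK : K ≤ 512 * r.d + 1) :
    ‖(accA r u v K m : ℂ)‖ ≤ 2 ^ (r.p + 2) := by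
  have h1 := acc_err hr u hv m K
  have h2 : ‖∑ k ∈ range K, (tau r (src r m (idx r k)) (idx r k) : ℂ) * v (src r m (idx r k))‖ ≤
      1 / 2 * 2 ^ (r.p + 2) := by
    refine (norm_wsum_le (fun _ => tau_nonneg _ _ _) _).trans ?_
    refine (Finset.sum_le_sum fun k _ => mul_le_mul_of_nonneg_left
      (hv _ (src_lt hr m (idx r k))) (tau_nonneg _ _ _)).trans ?_
    rw [← Finset.sum_mul]
    exact mul_le_mul_of_nonneg_right (partial_le hr m K) (by positivity)
  have h3 := norm_le_insert' (accA r u v K m : ℂ) (u m - ∑ k ∈ range K,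
      (tau r (src r m (idx r k)) (idx r k) : ℂ) * v (src r m (idx r k)))
  have h4 := norm_sub_le (u m : ℂ) (∑ k ∈ range K,
      (tau r (src r m (idx r k)) (idx r k) : ℂ) * v (src r m (idx r k)))
  have h5 := three_K_le hr
  have h6 : (K : ℝ) ≤ (512 * r.d + 1 : ℕ) := by exact_mod_cast hK
  rw [pow_add] at h2 ⊢
  linarith

lemma norm_it_le {u : ℕ → GaussianInt} (hu : ∀ b, b < r.s → ‖(u b : ℂ)‖ ≤ 2 ^ r.p) (n : ℕ) :
    ∀ b, b < r.s → ‖(itA r u n b : ℂ)‖ ≤ 2 ^ (r.p + 2) := by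
  induction n with
  | zero =>
    intro b hb
    exact (hu b hb).trans (pow_le_pow_right₀ (by norm_num) (by omega))
  | succ n ih =>
    intro b hb
    exact norm_acc_le hr (hu b hb) ih le_rfl

lemma tail_le {v : ℕ → ℂ} (hv : ∀ b, b < r.s → ‖v b‖ ≤ 2 ^ (r.p + 2)) (m : ℕ) :
    ‖∑ b ∈ range r.s, (Er r m b : ℂ) * v b - ∑ k ∈ range (512 * r.d + 1),
      (tau r (src r m (idx r k)) (idx r k) : ℂ) * v (src r m (idx r k))‖ ≤ 1 := by
  classical
  rw [← Finset.sum_image (f := fun i => (tau r (src r m i) i : ℂ) * v (src r m i))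
    (idx_injective r).injOn]
  set T := (range (512 * r.d + 1)).image (idx r) with hT
  have h1 : HasSum (fun i => if i ∈ T then (tau r (src r m i) i : ℂ) * v (src r m i) else 0)
      (∑ i ∈ T, (tau r (src r m i) i : ℂ) * v (src r m i)) := by
    have := hasSum_sum_of_ne_finset_zero (s := T)
      (f := fun i => if i ∈ T then (tau r (src r m i) i : ℂ) * v (src r m i) else 0)
      (L := SummationFilter.unconditional ℤ) (fun i hi => if_neg hi)
    rwa [Finset.sum_congr rfl fun i hi => if_pos hi] at this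
  have h2 := (hasSum_row hr m v).sub h1
  have hq : Real.exp (-(Real.pi * r.p)) ≤ (1 / 8) ^ r.p := exp_neg_pi_le le_rfl
  have hp := hr.p_pos
  have hq2 : (1 / 8 : ℝ) ^ r.p * 2 ^ (r.p + 4) ≤ 1 := by
    calc (1 / 8 : ℝ) ^ r.p * 2 ^ (r.p + 4) ≤ (1 / 8) ^ r.p * 2 ^ (3 * r.p) :=
          mul_le_mul_of_nonneg_left (pow_le_pow_right₀ (by norm_num) (by omega)) (by positivity)
      _ = 1 := by rw [pow_mul, ← mul_pow]; norm_num
  have hq3 : Real.exp (-(Real.pi * r.p)) ≤ 1 / 2 :=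
    hq.trans ((pow_le_of_le_one (by norm_num) (by norm_num) (by omega)).trans (by norm_num))
  have h3 := (hasSum_bd (Real.exp_pos (-(Real.pi * r.p))).le (by linarith)).mul_right
    ((2 : ℝ) ^ (r.p + 2))
  refine (h2.norm_le_of_bounded h3 fun i => ?_).trans ?_
  · have hb : 0 ≤ bd (Real.exp (-(Real.pi * r.p))) i := by
      unfold bd; split_ifs <;> positivity
    split_ifs with hi
    · rw [sub_self, norm_zero]; positivity
    · rw [sub_zero, norm_mul, Complex.norm_real, Real.norm_of_nonneg (tau_nonneg _ _ _)]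
      refine mul_le_mul (tau_le_far hr (src_lt hr m i) ?_) (hv _ (src_lt hr m i)) (norm_nonneg _) hb
      by_contra hc
      refine hi (Finset.mem_image.2 ⟨(i + 256 * r.d).toNat, mem_range.2 (by omega), ?_⟩)
      unfold idx
      omega
  · have h4 := bd_sum_le (Real.exp_pos (-(Real.pi * r.p))).le hq3
    have h5 : (0 : ℝ) < 2 ^ (r.p + 2) := by positivity
    have h6 : (2 : ℝ) ^ (r.p + 4) = 4 * 2 ^ (r.p + 2) := by ring
    rw [h6] at hq2
    nlinarith

lemma it_err {u : ℕ → GaussianInt} (hu : ∀ b, b < r.s → ‖(u b : ℂ)‖ ≤ 2 ^ r.p) {w : ℕ → ℂ}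
    (hw : ∀ a, a < r.s → w a + ∑ b ∈ range r.s, (Er r a b : ℂ) * w b = u a)
    (hw' : ∀ a, a < r.s → ‖w a‖ ≤ 2 * 2 ^ r.p) (n : ℕ) : ∀ a, a < r.s →
    ‖(itA r u n a : ℂ) - w a‖ ≤
      (4 * qq r) ^ n * (3 * 2 ^ r.p) + 2 * (3 * ((512 * r.d + 1 : ℕ) : ℝ) + 1) := by
  induction n with
  | zero =>
    intro a ha
    have := norm_sub_le (u a : ℂ) (w a)
    have := hu a ha
    have := hw' a ha
    have : (0 : ℝ) ≤ 2 * (3 * ((512 * r.d + 1 : ℕ) : ℝ) + 1) := by positivity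
    rw [itA_zero, pow_zero]
    linarith
  | succ n ih =>
    intro a ha
    have h1 := acc_err hr u (norm_it_le hr hu n) a (512 * r.d + 1)
    have h2 := tail_le hr (v := fun b => (itA r u n b : ℂ)) (norm_it_le hr hu n) a
    have hq0 : 0 ≤ qq r := (Real.exp_pos _).le
    have hq := qq_le hr
    have h3 : ‖∑ b ∈ range r.s, (Er r a b : ℂ) * (itA r u n b - w b)‖ ≤ 4 * qq r *
        ((4 * qq r) ^ n * (3 * 2 ^ r.p) + 2 * (3 * ((512 * r.d + 1 : ℕ) : ℝ) + 1)) := by
      refine (norm_wsum_le (Er_nonneg r a) _).trans ?_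
      refine (Finset.sum_le_sum fun b hb => mul_le_mul_of_nonneg_left
        (ih b (mem_range.1 hb)) (Er_nonneg _ _ _)).trans ?_
      rw [← Finset.sum_mul]
      exact mul_le_mul_of_nonneg_right (row_le hr a) (by positivity)
    have h4 := (norm_sub_le _ _).trans
      (add_le_add ((norm_add_le _ _).trans (add_le_add h1 h2)) h3)
    rw [itA_succ]
    refine le_of_eq_of_le ?_ (h4.trans ?_)
    · congr 1
      simp only [mul_sub, Finset.sum_sub_distrib]
      linear_combination -hw a ha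
    · have : (0 : ℝ) ≤ ((512 * r.d + 1 : ℕ) : ℝ) := Nat.cast_nonneg _
      rw [pow_succ]
      nlinarith

lemma eta_pow_le : (4 * qq r) ^ (1024 * r.d ^ 2) * (3 * 2 ^ r.p) ≤ 1 := by
  have hd : (0 : ℝ) < r.d := by exact_mod_cast hr.d_pos
  have h1 : qq r ^ (1024 * r.d ^ 2) ≤ (1 / 8) ^ r.p := by
    unfold qq
    rw [← Real.exp_nat_mul]
    refine le_of_eq_of_le ?_ (exp_neg_pi_le (x := r.p) le_rfl)
    congr 1
    push_cast
    field_simp
  have h2 : (4 : ℝ) ^ (1024 * r.d ^ 2) ≤ 2 ^ r.p := by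
    rw [show (4 : ℝ) = 2 ^ 2 by norm_num, ← pow_mul]
    exact pow_le_pow_right₀ (by norm_num) (by have := hr.p_lo; omega)
  have h3 : (3 : ℝ) ≤ 2 ^ r.p :=
    le_trans (by norm_num) (pow_le_pow_right₀ (a := (2 : ℝ)) (by norm_num)
      (show 2 ≤ r.p by have := hr.p_pos; omega))
  have hq0 : 0 ≤ qq r := (Real.exp_pos _).le
  rw [mul_pow]
  calc (4 : ℝ) ^ (1024 * r.d ^ 2) * qq r ^ (1024 * r.d ^ 2) * (3 * 2 ^ r.p)
      ≤ 2 ^ r.p * (1 / 8) ^ r.p * (2 ^ r.p * 2 ^ r.p) := by gcongr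
    _ = 1 := by rw [← mul_pow, ← mul_pow, ← mul_pow]; norm_num

lemma qd_mem {m : ℕ} (hm : m < r.s) : 0 ≤ qd r m ∧ qd r m ≤ (r.g : ℚ) ^ 2 / 4 := by
  have ht : (0 : ℚ) < r.t := by exact_mod_cast hr.t_pos
  refine ⟨by unfold qd; positivity, ?_⟩
  have h1 : (2 * cidx r.s m) ^ 2 ≤ (r.t : ℤ) ^ 2 := by
    rw [← sq_abs]
    have := abs_cidx_le hm
    have := hr.lt
    exact pow_le_pow_left₀ (abs_nonneg _) (by omega) 2
  have h2 : (2 * (cidx r.s m : ℚ)) ^ 2 ≤ (r.t : ℚ) ^ 2 := by exact_mod_cast h1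
  unfold qd
  rw [div_le_div_iff₀ (by positivity) (by norm_num)]
  nlinarith [mul_le_mul_of_nonneg_left h2 (sq_nonneg (r.g : ℚ))]

lemma inv_gh (m : ℕ) : (gh r (cidx r.s m))⁻¹ = Real.exp (Real.pi * qd r m) := by
  unfold gh qd
  rw [← Real.exp_neg]
  congr 1
  push_cast
  ring

lemma exp_qd_le {m : ℕ} (hm : m < r.s) :
    2 * Real.exp (Real.pi * qd r m) ≤ 2 ^ (2 * r.g ^ 2) := by
  have h1 : (qd r m : ℝ) ≤ (r.g : ℝ) ^ 2 / 4 := by
    have := (Rat.cast_le (K := ℝ)).2 (qd_mem hr hm).2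
    push_cast at this
    exact this
  have h0 : (0 : ℝ) ≤ qd r m := by exact_mod_cast (qd_mem hr hm).1
  have h2 : Real.exp (Real.pi * qd r m) ≤ 3 ^ (r.g ^ 2) := by
    calc Real.exp (Real.pi * qd r m) ≤ Real.exp ((r.g ^ 2 : ℕ) * 1) := by
          refine Real.exp_le_exp.2 ?_
          have := Real.pi_le_four
          push_cast
          nlinarith
      _ = Real.exp 1 ^ (r.g ^ 2) := Real.exp_nat_mul _ _
      _ ≤ _ := pow_le_pow_left₀ (Real.exp_pos _).le (by linarith [Real.exp_one_lt_d9]) _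
  have h3 : ∀ n : ℕ, 2 * (3 : ℝ) ^ (n + 3) ≤ 4 ^ (n + 3) := by
    intro n
    have : (3 : ℝ) ^ n ≤ 4 ^ n := pow_le_pow_left₀ (by norm_num) (by norm_num) n
    have : (0 : ℝ) ≤ 3 ^ n := by positivity
    rw [pow_add, pow_add]
    nlinarith
  have h4 := h3 (r.g ^ 2 - 3)
  rw [Nat.sub_add_cancel (by have := g_sq_ge hr; omega)] at h4
  rw [pow_mul]
  norm_num
  linarith

lemma dent_err {m : ℕ} (hm : m < r.s) : ‖(dent r (un (r.p + 2)) m : ℂ) -
    2 ^ (r.p + 2) * (Real.exp (Real.pi * qd r m) : ℝ)‖ ≤ 1 := by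
  refine ex_real ?_
  have h := qd_mem hr hm
  have h2 : 4 * (r.g : ℚ) ^ 2 ≤ r.p := by exact_mod_cast g_sq_le hr
  rw [abs_of_nonneg h.1]
  push_cast
  nlinarith [h.2, sq_nonneg (r.g : ℚ)]

lemma norm_dent_le {m : ℕ} (hm : m < r.s) : ‖(dent r (un (r.p + 2)) m : ℂ)‖ ≤ 2 ^ (3 * r.p) := by
  have h1 := dent_err hr hm
  have h2 := exp_qd_le hr hm
  have h3 := norm_le_insert' (dent r (un (r.p + 2)) m : ℂ)
    (2 ^ (r.p + 2) * (Real.exp (Real.pi * qd r m) : ℝ))
  rw [norm_mul, norm_pow, Complex.norm_ofNat, Complex.norm_real,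
    Real.norm_of_nonneg (Real.exp_pos _).le] at h3
  have h4 : (2 : ℝ) ^ (r.p + 2) * 2 ^ (2 * r.g ^ 2) ≤ 2 ^ (3 * r.p) := by
    rw [← pow_add]
    exact pow_le_pow_right₀ (by norm_num) (by have := g_sq_le hr; have := hr.p_pos; omega)
  have h5 : (2 : ℝ) ≤ 2 ^ (3 * r.p) := le_self_pow₀ (by norm_num) (by have := hr.p_pos; omega)
  have h6 := mul_le_mul_of_nonneg_left h2 (by positivity : (0 : ℝ) ≤ 2 ^ (r.p + 2))
  linarith

theorem approx : ∃ M : ℕ → ℕ → ℂ,
    LApprox r.t (phiA r) M (2 ^ (2 * r.g ^ 2)) (2 ^ (2 * r.g ^ 2) * r.p) r.p ∧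
      ∀ j m, j < r.t → m < r.t →
        ∑ k ∈ range r.t, Gm r j k * ∑ k' ∈ range r.t, Fm r.t k k' * M k' m = Fm r.s j m := by
  obtain ⟨X, hX, hX'⟩ := exists_inv (Er_nonneg r) fun a _ => row_le_half hr a
  have hsub : range r.s ⊆ range r.t := range_subset_range.2 hr.lt.le
  have hcut : ∀ {β : Type} [AddCommMonoid β] (f : ℕ → β),
      ∑ m ∈ range r.t, (if m < r.s then f m else 0) = ∑ m ∈ range r.s, f m := by
    intro β _ f
    rw [← Finset.sum_subset hsub (fun m _ hm => if_neg (by simpa using hm))]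
    exact Finset.sum_congr rfl fun m hm => if_pos (mem_range.1 hm)
  refine ⟨Mm r X, ⟨fun j hj => ?_, fun v hv j hj => ?_⟩, fun j m _ _ => Mm_identity hr hX j m⟩
  · unfold Mm
    rcases ins_cases hr.lt.le hj with ⟨b, hb, h⟩ | h
    · simp only [h, apply_ite norm, norm_zero, hcut, div_eq_mul_inv, norm_mul, norm_inv,
        Complex.norm_real, Real.norm_of_nonneg (gh_pos _ _).le, inv_gh hr, ← Finset.sum_mul]
      exact (mul_le_mul_of_nonneg_right (hX' b hb) (Real.exp_pos _).le).trans (exp_qd_le hr hb)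
    · simp [h]
  · unfold Mm phiA
    rcases ins_cases hr.lt.le hj with ⟨b, hb, h⟩ | h
    swap
    · simp only [h, map_zero, zero_mul, Finset.sum_const_zero, sub_zero, norm_zero]
      positivity
    have hu : ∀ b, b < r.s → ‖(v b : ℂ)‖ ≤ 2 ^ r.p := fun b hb => hv b (hb.trans hr.lt)
    let w : ℕ → ℂ := fun a => ∑ m ∈ range r.s, X a m * v m
    have hw : ∀ a, a < r.s → w a + ∑ b ∈ range r.s, (Er r a b : ℂ) * w b = v a := by
      intro a ha
      simp only [w, Finset.mul_sum]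
      rw [Finset.sum_comm, ← Finset.sum_add_distrib]
      simp only [← mul_assoc, ← Finset.sum_mul, ← add_mul]
      rw [Finset.sum_congr rfl fun m hm => by rw [hX a m ha (mem_range.1 hm)]]
      simp [ha]
    have hw' : ∀ a, a < r.s → ‖w a‖ ≤ 2 * 2 ^ r.p := by
      intro a ha
      refine (norm_sum_le _ _).trans ?_
      refine (Finset.sum_le_sum fun m hm => (norm_mul_le _ _).trans
        (mul_le_mul_of_nonneg_left (hu m (mem_range.1 hm)) (norm_nonneg _))).trans ?_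
      rw [← Finset.sum_mul]
      exact mul_le_mul_of_nonneg_right (hX' a ha) (by positivity)
    have h1 := it_err hr hu hw hw' (1024 * r.d ^ 2) b hb
    have h2 := eta_pow_le hr
    have h3 := norm_fmul_sub_le (norm_it_le hr hu (1024 * r.d ^ 2) b hb) (dent_err hr hb)
    have e1 : ∑ k ∈ range r.t, (if k < r.s then X b k / gh r (cidx r.s b) else 0) * v k =
        (Real.exp (Real.pi * qd r b) : ℝ) * w b := by
      simp only [ite_mul, zero_mul, hcut, w, Finset.mul_sum, ← inv_gh hr]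
      refine Finset.sum_congr rfl fun m _ => ?_
      push_cast
      ring
    simp only [h]
    rw [e1]
    have h4 : ‖((Real.exp (Real.pi * qd r b) : ℝ) : ℂ) *
        (itA r v (1024 * r.d ^ 2) b - w b)‖ ≤ Real.exp (Real.pi * qd r b) *
        (1 + 2 * (3 * ((512 * r.d + 1 : ℕ) : ℝ) + 1)) := by
      rw [norm_mul, Complex.norm_real, Real.norm_of_nonneg (Real.exp_pos _).le]
      exact mul_le_mul_of_nonneg_left (by linarith) (Real.exp_pos _).le
    have h5 := (norm_add_le _ _).trans (add_le_add h3 h4)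
    refine le_of_eq_of_le ?_ (h5.trans ?_)
    · unfold outA
      congr 1
      ring
    · have h6 := exp_qd_le hr hb
      have h7 : (1 : ℝ) ≤ Real.exp (Real.pi * qd r b) := by
        refine Real.one_le_exp ?_
        have : (0 : ℝ) ≤ qd r b := by exact_mod_cast (qd_mem hr hb).1
        positivity
      have h8 : (2048 : ℝ) * r.d ≤ r.p := by exact_mod_cast d_le hr
      have h9 : (1 : ℝ) ≤ r.d := by exact_mod_cast hr.d_pos
      have h10 := mul_le_mul_of_nonneg_right h6 (Nat.cast_nonneg r.p : (0 : ℝ) ≤ _)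
      push_cast
      nlinarith

end valid

end Crest.Agent.R326.LA
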