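import Crest.Agent.R326.Resample
import Crest.Agent.R326.ExpPi

/-!
The matrix of the line map before the long Fourier transform.
-/

set_option autoImplicit false

namespace Crest.Agent.R326.LA

open Crest.Agent.Lib.PT Crest.Agent.Lib.LT Finset RS

/-! ### Inverting a small perturbation of the identity -/

lemma max_bound {s : ℕ} {E : ℕ → ℕ → ℝ} (hE0 : ∀ a b, 0 ≤ E a b)
    (hE : ∀ a, a < s → ∑ b ∈ range s, E a b ≤ 1 / 2) {f : ℕ → ℝ} {c : ℝ} (hf : ∀ a, 0 ≤ f a)
    (h : ∀ a, a < s → f a ≤ c + ∑ k ∈ range s, E a k * f k) : ∀ a, a < s → f a ≤ 2 * c := by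
  intro a ha
  obtain ⟨a₀, ha₀, hmax⟩ := Finset.exists_max_image (range s) f ⟨a, mem_range.2 ha⟩
  have h1 : ∑ k ∈ range s, E a₀ k * f k ≤ 1 / 2 * f a₀ := by
    calc ∑ k ∈ range s, E a₀ k * f k ≤ ∑ k ∈ range s, E a₀ k * f a₀ :=
          Finset.sum_le_sum fun k hk => mul_le_mul_of_nonneg_left (hmax k hk) (hE0 _ _)
      _ = (∑ k ∈ range s, E a₀ k) * f a₀ := by rw [Finset.sum_mul]
      _ ≤ _ := mul_le_mul_of_nonneg_right (hE a₀ (mem_range.1 ha₀)) (hf _)
  have h2 := h a₀ (mem_range.1 ha₀)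
  have h3 := hmax a (mem_range.2 ha)
  linarith

lemma norm_wsum_le {s : ℕ} {e : ℕ → ℝ} (he : ∀ b, 0 ≤ e b) (v : ℕ → ℂ) :
    ‖∑ k ∈ range s, (e k : ℂ) * v k‖ ≤ ∑ k ∈ range s, e k * ‖v k‖ :=
  (norm_sum_le _ _).trans (le_of_eq (Finset.sum_congr rfl fun k _ => by
    rw [norm_mul, Complex.norm_real, Real.norm_of_nonneg (he k)]))

lemma exists_inv {s : ℕ} {E : ℕ → ℕ → ℝ} (hE0 : ∀ a b, 0 ≤ E a b)
    (hE : ∀ a, a < s → ∑ b ∈ range s, E a b ≤ 1 / 2) :
    ∃ X : ℕ → ℕ → ℂ, (∀ a b, a < s → b < s →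
      X a b + ∑ k ∈ range s, (E a k : ℂ) * X k b = if a = b then 1 else 0) ∧
      ∀ a, a < s → ∑ b ∈ range s, ‖X a b‖ ≤ 2 := by
  let N : Matrix (Fin s) (Fin s) ℂ := 1 + Matrix.of fun a b : Fin s => (E a b : ℂ)
  have hN : IsUnit N := by
    rw [← Matrix.mulVec_injective_iff_isUnit]
    have key : ∀ v : Fin s → ℂ, N.mulVec v = 0 → v = 0 := by
      intro v hv
      let v' : ℕ → ℂ := fun k => if h : k < s then v ⟨k, h⟩ else 0
      have hv' : ∀ k : Fin s, v' k = v k := fun k => by simp [v']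
      have h1 := max_bound hE0 hE (f := fun k => ‖v' k‖) (c := 0) (fun _ => norm_nonneg _)
        (fun a ha => by
          have h2 := congrFun hv ⟨a, ha⟩
          simp only [N, Matrix.add_mulVec, Matrix.one_mulVec, Pi.add_apply, Pi.zero_apply] at h2
          simp only [Matrix.mulVec, dotProduct, Matrix.of_apply] at h2
          have h3 : v' a = -∑ k ∈ range s, (E a k : ℂ) * v' k := by
            rw [← Fin.sum_univ_eq_sum_range (fun k => (E a k : ℂ) * v' k), hv' ⟨a, ha⟩]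
            simp only [hv']
            linear_combination h2
          rw [zero_add]
          calc ‖v' a‖ = ‖∑ k ∈ range s, (E a k : ℂ) * v' k‖ := by rw [h3, norm_neg]
            _ ≤ _ := norm_wsum_le (hE0 a) _)
      funext k
      have := h1 k k.2
      rw [hv', mul_zero] at this
      exact norm_le_zero_iff.1 this
    intro v w hvw
    have := key (v - w) (by rw [Matrix.mulVec_sub, hvw, sub_self])
    exact sub_eq_zero.1 this
  let X : ℕ → ℕ → ℂ := fun a b => if h : a < s ∧ b < s then N⁻¹ ⟨a, h.1⟩ ⟨b, h.2⟩ else 0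
  have hX : ∀ a b : Fin s, X a b = N⁻¹ a b := fun a b => by simp [X]
  have h1 : ∀ a b, a < s → b < s →
      X a b + ∑ k ∈ range s, (E a k : ℂ) * X k b = if a = b then 1 else 0 := by
    intro a b ha hb
    have h2 := congrFun (congrFun (Matrix.mul_nonsing_inv N
      ((Matrix.isUnit_iff_isUnit_det N).1 hN)) ⟨a, ha⟩) ⟨b, hb⟩
    rw [show N * N⁻¹ = N⁻¹ + (Matrix.of fun a b : Fin s => (E a b : ℂ)) * N⁻¹ by
      conv_lhs => enter [1]; simp only [N]
      rw [add_mul, one_mul]] at h2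
    simp only [Matrix.add_apply, Matrix.mul_apply, Matrix.of_apply, Matrix.one_apply,
      Fin.mk.injEq] at h2
    rw [← Fin.sum_univ_eq_sum_range (fun k => (E a k : ℂ) * X k b), hX ⟨a, ha⟩ ⟨b, hb⟩, ← h2]
    congr 1
    exact Finset.sum_congr rfl fun k _ => by rw [hX k ⟨b, hb⟩]
  refine ⟨X, h1, fun a ha => ?_⟩
  have h3 := max_bound hE0 hE (f := fun a => ∑ b ∈ range s, ‖X a b‖) (c := 1)
    (fun _ => Finset.sum_nonneg fun _ _ => norm_nonneg _) (fun a ha => by
      have h4 : ∀ b ∈ range s, ‖X a b‖ ≤ (if a = b then 1 else 0) +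
          ∑ k ∈ range s, E a k * ‖X k b‖ := by
        intro b hb
        have h5 : X a b = (if a = b then 1 else 0) - ∑ k ∈ range s, (E a k : ℂ) * X k b := by
          rw [← h1 a b ha (mem_range.1 hb)]; ring
        rw [h5]
        refine (norm_sub_le _ _).trans (add_le_add (le_of_eq ?_) (norm_wsum_le (hE0 a) _))
        split_ifs <;> simp
      refine (Finset.sum_le_sum h4).trans (le_of_eq ?_)
      rw [Finset.sum_add_distrib, Finset.sum_ite_eq, if_pos (mem_range.2 ha), Finset.sum_comm]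
      simp only [Finset.mul_sum]) a ha
  linarith

/-! ### The aliasing matrix -/

/-- The exponent of the ratio of two values of the Gaussian. -/
def qe (r : RP) (m : ℕ) (i : ℤ) : ℚ :=
  -((r.g : ℚ) ^ 2 * ((i * (i * r.t + 2 * cidx r.s m) : ℤ) : ℚ)) / r.t

/-- The aliasing coefficients. -/
noncomputable def tau (r : RP) (m : ℕ) (i : ℤ) : ℝ :=
  if i = 0 then 0 else Real.exp (Real.pi * qe r m i)

/-- The source position of the `i`-th alias. -/
def src (r : RP) (m : ℕ) (i : ℤ) : ℕ := (((m : ℤ) - i * r.t) % r.s).toNat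

/-- The target position of the `i`-th alias. -/
def dst (r : RP) (m : ℕ) (i : ℤ) : ℕ := (((m : ℤ) + i * r.t) % r.s).toNat

/-- The aliasing matrix. -/
noncomputable def Er (r : RP) (a b : ℕ) : ℝ := ∑' i : ℤ, if src r a i = b then tau r b i else 0

/-- The decay rate of the aliasing coefficients. -/
noncomputable def qq (r : RP) : ℝ := Real.exp (-(Real.pi * (r.p / (1024 * r.d ^ 2))))

/-- A two-sided geometric sequence without its middle term. -/
def bd (q : ℝ) (i : ℤ) : ℝ := if i = 0 then 0 else q ^ i.natAbs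

lemma hasSum_bd {q : ℝ} (h0 : 0 ≤ q) (h1 : q < 1) : HasSum (bd q) (2 * q / (1 - q)) := by
  have h := (hasSum_pow_natAbs h0 h1).sub (hasSum_ite_eq (0 : ℤ) (1 : ℝ))
  have e1 : bd q = fun i : ℤ => q ^ i.natAbs - if i = 0 then 1 else 0 := by
    funext i
    unfold bd
    split_ifs with hi
    · simp [hi]
    · simp
  have e2 : 2 * q / (1 - q) = (1 + q) / (1 - q) - 1 := by
    have : 1 - q ≠ 0 := by linarith
    field_simp
    ring
  rw [e1, e2]
  exact h

lemma bd_sum_le {q : ℝ} (h0 : 0 ≤ q) (h1 : q ≤ 1 / 2) : 2 * q / (1 - q) ≤ 4 * q := by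
  rw [div_le_iff₀ (by linarith)]
  nlinarith

lemma exp_neg_pi_le {x : ℝ} {n : ℕ} (h : (n : ℝ) ≤ x) :
    Real.exp (-(Real.pi * x)) ≤ (1 / 8) ^ n := by
  have h8 : (8 : ℝ) ≤ Real.exp 3 := by
    have h1 := Real.exp_one_gt_d9
    have h2 : Real.exp 3 = Real.exp 1 ^ 3 := by rw [← Real.exp_nat_mul]; norm_num
    rw [h2]
    have : (2 : ℝ) ^ 3 ≤ Real.exp 1 ^ 3 := pow_le_pow_left₀ (by norm_num) (by linarith) 3
    linarith
  have h3 : Real.exp (-3) ≤ 1 / 8 := by
    rw [Real.exp_neg, ← one_div]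
    exact one_div_le_one_div_of_le (by norm_num) h8
  calc Real.exp (-(Real.pi * x)) ≤ Real.exp (n * (-3)) := by
        refine Real.exp_le_exp.2 ?_
        have := Real.pi_gt_three
        have : (0 : ℝ) ≤ n := Nat.cast_nonneg n
        nlinarith
    _ = Real.exp (-3) ^ n := Real.exp_nat_mul _ _
    _ ≤ _ := pow_le_pow_left₀ (Real.exp_pos _).le h3 n

lemma tau_nonneg (r : RP) (m : ℕ) (i : ℤ) : 0 ≤ tau r m i := by
  unfold tau; split_ifs
  · exact le_rfl
  · exact (Real.exp_pos _).le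

lemma Er_nonneg (r : RP) (a b : ℕ) : 0 ≤ Er r a b :=
  tsum_nonneg fun i => by
    split_ifs
    · exact tau_nonneg _ _ _
    · exact le_rfl

lemma abs_cidx_le {s m : ℕ} (h : m < s) : |2 * cidx s m| ≤ s := by
  unfold cidx
  split_ifs <;> rw [abs_le] <;> constructor <;> omega

lemma num_ge {s m : ℕ} (h : m < s) (t : ℕ) (i : ℤ) :
    (i.natAbs : ℤ) * (i.natAbs * t - s) ≤ i * (i * t + 2 * cidx s m) := by
  have h1 := abs_le.1 (abs_cidx_le h)
  rcases le_total 0 i with hi | hi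
  · rw [Int.natAbs_of_nonneg hi]; nlinarith
  · rw [Int.ofNat_natAbs_of_nonpos hi]; nlinarith

section valid
variable {r : RP} (hr : r.Valid)
include hr

lemma qq_le : qq r ≤ 1 / 64 := by
  have hd : (0 : ℝ) < r.d := by exact_mod_cast hr.d_pos
  have h1 : ((2 : ℕ) : ℝ) ≤ r.p / (1024 * r.d ^ 2) := by
    rw [le_div_iff₀ (by positivity)]
    have : ((2048 * r.d ^ 2 : ℕ) : ℝ) ≤ r.p := by exact_mod_cast hr.p_lo
    push_cast at this ⊢
    linarith
  exact (exp_neg_pi_le h1).trans (by norm_num)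

lemma qe_le_of {m : ℕ} (hm : m < r.s) (i : ℤ) {x : ℝ}
    (hx : x * r.t ≤ (r.g : ℝ) ^ 2 * (i.natAbs * r.t - r.s)) :
    (qe r m i : ℝ) ≤ -(x * i.natAbs) := by
  have ht : (0 : ℝ) < r.t := by exact_mod_cast hr.t_pos
  have h1 : ((i.natAbs : ℕ) : ℝ) * (i.natAbs * r.t - r.s) ≤
      ((i * (i * r.t + 2 * cidx r.s m) : ℤ) : ℝ) := by
    have := (Int.cast_le (R := ℝ)).2 (num_ge hm r.t i)
    rwa [Int.cast_mul, Int.cast_sub, Int.cast_mul, Int.cast_natCast, Int.cast_natCast,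
      Int.cast_natCast] at this
  unfold qe
  rw [Rat.cast_div, Rat.cast_neg, Rat.cast_mul, Rat.cast_pow, Rat.cast_intCast, Rat.cast_natCast,
    Rat.cast_natCast, div_le_iff₀ ht]
  have h2 := mul_le_mul_of_nonneg_left h1 (sq_nonneg (r.g : ℝ))
  have h3 := mul_le_mul_of_nonneg_left hx (Nat.cast_nonneg i.natAbs : (0 : ℝ) ≤ _)
  nlinarith

lemma qe_le {m : ℕ} (hm : m < r.s) {i : ℤ} (hi : i ≠ 0) :
    (qe r m i : ℝ) ≤ -(r.p / (1024 * r.d ^ 2) * i.natAbs) := by
  refine qe_le_of hr hm i ?_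
  have hd : (0 : ℝ) < r.d := by exact_mod_cast hr.d_pos
  have h1 : (1 : ℝ) ≤ i.natAbs := by exact_mod_cast Int.natAbs_pos.2 hi
  have h2 : (r.p : ℝ) ≤ 256 * r.d * r.g ^ 2 := by exact_mod_cast hr.g_lo
  have h3 : (r.t : ℝ) ≤ 4 * r.d * (r.t - r.s) := by
    have := hr.gap_lo
    have e : ((r.t - r.s : ℕ) : ℝ) = r.t - r.s := by rw [Nat.cast_sub hr.lt.le]
    rw [← e]; exact_mod_cast this
  have ht : (0 : ℝ) ≤ r.t := Nat.cast_nonneg _
  rw [div_mul_eq_mul_div, div_le_iff₀ (by positivity)]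
  have h4 : (r.p : ℝ) * r.t ≤ (256 * r.d * r.g ^ 2) * (4 * r.d * (r.t - r.s)) :=
    mul_le_mul h2 h3 ht (by positivity)
  have h5 : (r.t : ℝ) - r.s ≤ i.natAbs * r.t - r.s := by nlinarith
  have h6 := mul_le_mul_of_nonneg_left h5 (by positivity : (0 : ℝ) ≤ 1024 * r.d ^ 2 * r.g ^ 2)
  nlinarith

lemma qe_le_far {m : ℕ} (hm : m < r.s) {i : ℤ} (hi : 256 * r.d < i.natAbs) :
    (qe r m i : ℝ) ≤ -(r.p * i.natAbs) := by
  refine qe_le_of hr hm i ?_
  have h1 : (256 * r.d + 1 : ℝ) ≤ i.natAbs := by exact_mod_cast hi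
  have h2 : (r.p : ℝ) ≤ 256 * r.d * r.g ^ 2 := by exact_mod_cast hr.g_lo
  have h3 : (r.s : ℝ) ≤ r.t := by exact_mod_cast hr.lt.le
  have ht : (0 : ℝ) ≤ r.t := Nat.cast_nonneg _
  have h4 : 256 * r.d * (r.t : ℝ) ≤ i.natAbs * r.t - r.s := by nlinarith
  have h5 := mul_le_mul_of_nonneg_left h4 (sq_nonneg (r.g : ℝ))
  have h6 := mul_le_mul_of_nonneg_right h2 ht
  nlinarith

lemma qe_nonpos {m : ℕ} (hm : m < r.s) {i : ℤ} (hi : i ≠ 0) : qe r m i ≤ 0 := by
  have h := qe_le hr hm hi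
  have h0 : (0 : ℝ) ≤ r.p / (1024 * r.d ^ 2) * i.natAbs := by positivity
  have : (qe r m i : ℝ) ≤ 0 := by linarith
  exact_mod_cast this

lemma tau_le {m : ℕ} (hm : m < r.s) (i : ℤ) : tau r m i ≤ bd (qq r) i := by
  unfold tau bd qq
  split_ifs with hi
  · exact le_rfl
  · rw [← Real.exp_nat_mul, Real.exp_le_exp]
    have := mul_le_mul_of_nonneg_left (qe_le hr hm hi) Real.pi_pos.le
    linarith

lemma tau_le_far {m : ℕ} (hm : m < r.s) {i : ℤ} (hi : 256 * r.d < i.natAbs) :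
    tau r m i ≤ bd (Real.exp (-(Real.pi * r.p))) i := by
  unfold tau bd
  split_ifs with h0
  · exact le_rfl
  · rw [← Real.exp_nat_mul, Real.exp_le_exp]
    have := mul_le_mul_of_nonneg_left (qe_le_far hr hm hi) Real.pi_pos.le
    linarith

lemma src_lt (m : ℕ) (i : ℤ) : src r m i < r.s := by
  have hs : (0 : ℤ) < r.s := by exact_mod_cast hr.s_pos
  have := Int.emod_lt_of_pos ((m : ℤ) - i * r.t) hs
  have := Int.emod_nonneg ((m : ℤ) - i * r.t) hs.ne'
  unfold src; omega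

lemma dst_lt (m : ℕ) (i : ℤ) : dst r m i < r.s := by
  have hs : (0 : ℤ) < r.s := by exact_mod_cast hr.s_pos
  have := Int.emod_lt_of_pos ((m : ℤ) + i * r.t) hs
  have := Int.emod_nonneg ((m : ℤ) + i * r.t) hs.ne'
  unfold dst; omega

lemma src_cast (m : ℕ) (i : ℤ) : (src r m i : ℤ) = ((m : ℤ) - i * r.t) % r.s :=
  Int.toNat_of_nonneg (Int.emod_nonneg _ (by exact_mod_cast hr.s_pos.ne'))

lemma dst_cast (m : ℕ) (i : ℤ) : (dst r m i : ℤ) = ((m : ℤ) + i * r.t) % r.s :=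
  Int.toNat_of_nonneg (Int.emod_nonneg _ (by exact_mod_cast hr.s_pos.ne'))

lemma src_eq_iff {a b : ℕ} (ha : a < r.s) (hb : b < r.s) (i : ℤ) :
    src r a i = b ↔ dst r b i = a := by
  have e1 : (a : ℤ) % r.s = a := Int.emod_eq_of_lt (by omega) (by omega)
  have e2 : (b : ℤ) % r.s = b := Int.emod_eq_of_lt (by omega) (by omega)
  rw [← Nat.cast_inj (R := ℤ), ← Nat.cast_inj (R := ℤ), src_cast hr, dst_cast hr]
  constructor
  · intro h
    rw [← h, Int.emod_add_emod, sub_add_cancel, e1]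
  · intro h
    rw [← h, Int.emod_sub_emod, add_sub_cancel_right, e2]

lemma hasSum_qq : HasSum (bd (qq r)) (2 * qq r / (1 - qq r)) :=
  hasSum_bd (Real.exp_pos _).le (by linarith [qq_le hr])

lemma hasSum_Er (a : ℕ) {b : ℕ} (hb : b < r.s) :
    HasSum (fun i : ℤ => if src r a i = b then tau r b i else 0) (Er r a b) := by
  refine (Summable.of_nonneg_of_le (fun i => ?_) (fun i => ?_) (hasSum_qq hr).summable).hasSum
  · split_ifs
    · exact tau_nonneg _ _ _
    · exact le_rfl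
  · split_ifs
    · exact tau_le hr hb i
    · exact (tau_nonneg _ _ _).trans (tau_le hr hb i)

lemma hasSum_row_real (a : ℕ) :
    HasSum (fun i : ℤ => tau r (src r a i) i) (∑ b ∈ range r.s, Er r a b) := by
  have h := hasSum_sum (s := range r.s) fun b hb => hasSum_Er hr a (mem_range.1 hb)
  simpa only [Finset.sum_ite_eq, mem_range, src_lt hr, if_true] using h

lemma row_le (a : ℕ) : ∑ b ∈ range r.s, Er r a b ≤ 4 * qq r :=
  (hasSum_le (fun i => tau_le hr (src_lt hr a i) i) (hasSum_row_real hr a) (hasSum_qq hr)).trans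
    (bd_sum_le (Real.exp_pos _).le (by linarith [qq_le hr]))

lemma row_le_half (a : ℕ) : ∑ b ∈ range r.s, Er r a b ≤ 1 / 2 :=
  (row_le hr a).trans (by linarith [qq_le hr])

lemma hasSum_row (a : ℕ) (v : ℕ → ℂ) :
    HasSum (fun i : ℤ => (tau r (src r a i) i : ℂ) * v (src r a i))
      (∑ b ∈ range r.s, (Er r a b : ℂ) * v b) := by
  have h := hasSum_sum (s := range r.s) fun b hb =>
    (Complex.hasSum_ofReal.2 (hasSum_Er hr a (mem_range.1 hb))).mul_right (v b)
  simpa only [apply_ite Complex.ofReal, Complex.ofReal_zero, ite_mul, zero_mul, Finset.sum_ite_eq,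
    mem_range, src_lt hr, if_true] using h

lemma hasSum_col {b : ℕ} (hb : b < r.s) (e : ℕ → ℂ) :
    HasSum (fun i : ℤ => (tau r b i : ℂ) * e (dst r b i))
      (∑ a ∈ range r.s, (Er r a b : ℂ) * e a) := by
  have h := hasSum_sum (s := range r.s) fun a _ =>
    (Complex.hasSum_ofReal.2 (hasSum_Er hr a hb)).mul_right (e a)
  have e1 : (fun i : ℤ => (tau r b i : ℂ) * e (dst r b i)) = fun i : ℤ => ∑ a ∈ range r.s,
      ((if src r a i = b then tau r b i else 0 : ℝ) : ℂ) * e a := by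
    funext i
    rw [Finset.sum_congr rfl fun a ha => by
      rw [if_congr (src_eq_iff hr (mem_range.1 ha) hb i) rfl rfl]]
    simp only [apply_ite Complex.ofReal, Complex.ofReal_zero, ite_mul, zero_mul, Finset.sum_ite_eq,
      mem_range, dst_lt hr, if_true]
  rw [e1]
  exact h

lemma gh_add (m : ℕ) (i : ℤ) :
    gh r (cidx r.s m + i * r.t) = gh r (cidx r.s m) * Real.exp (Real.pi * qe r m i) := by
  have ht : (0 : ℝ) < r.t := by exact_mod_cast hr.t_pos
  unfold gh qe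
  rw [← Real.exp_add]
  congr 1
  push_cast
  field_simp
  ring

lemma ee_dst (j b : ℕ) (i : ℤ) :
    ee (-((j : ℝ) * (cidx r.s b + i * r.t) / r.s)) = ee (-((j : ℝ) * dst r b i / r.s)) := by
  have hs : (0 : ℝ) < r.s := by exact_mod_cast hr.s_pos
  obtain ⟨κ, hκ⟩ : ∃ κ : ℤ, cidx r.s b + i * r.t = dst r b i + κ * r.s := by
    have h1 := Int.emod_add_mul_ediv ((b : ℤ) + i * r.t) r.s
    rw [dst_cast hr]
    unfold cidx
    split_ifs
    · exact ⟨((b : ℤ) + i * r.t) / r.s, by linarith⟩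
    · exact ⟨((b : ℤ) + i * r.t) / r.s - 1, by linarith⟩
  have h2 : (cidx r.s b : ℝ) + i * r.t = dst r b i + κ * r.s := by exact_mod_cast hκ
  rw [h2, ← ee_add_int (-((j : ℝ) * dst r b i / r.s)) (-(j * κ))]
  congr 1
  push_cast
  field_simp
  ring

lemma Gm_col {j b : ℕ} (hj : j < r.s) (hb : b < r.s) :
    ∑ k ∈ range r.t, Gm r j k * ee (-((k : ℝ) * cidx r.s b / r.t)) =
      gh r (cidx r.s b) * (ee (-((j : ℝ) * b / r.s)) +
        ∑ a ∈ range r.s, (Er r a b : ℂ) * ee (-((j : ℝ) * a / r.s))) := by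
  rw [Gm_ee hr hj]
  have h1 := ((hasSum_ite_eq (0 : ℤ) (ee (-((j : ℝ) * b / r.s)))).add
    (hasSum_col hr hb fun a => ee (-((j : ℝ) * a / r.s)))).mul_left (gh r (cidx r.s b) : ℂ)
  rw [← h1.tsum_eq]
  refine tsum_congr fun i => ?_
  rw [ee_dst hr, gh_add hr]
  unfold tau
  split_ifs with hi
  · subst hi
    have e : dst r b 0 = b := by
      have := dst_cast hr b 0
      rw [zero_mul, add_zero, Int.emod_eq_of_lt (by omega) (by omega)] at this
      exact_mod_cast this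
    simp [qe, e]
  · push_cast
    ring

end valid

/-! ### Padding in the middle -/

/-- Insert `t - s` copies of `z` in the middle of the `s` entries of `y`. -/
def ins {α : Type} (r : RP) (y : ℕ → α) (z : α) (k : ℕ) : α :=
  if k < (r.s + 1) / 2 then y k
  else if k < (r.s + 1) / 2 + (r.t - r.s) then z else y (k - (r.t - r.s))

/-- The position of an entry after the padding. -/
def pos (r : RP) (m : ℕ) : ℕ := if 2 * m < r.s then m else m + (r.t - r.s)

lemma sum_ins {r : RP} (h : r.s ≤ r.t) (F y : ℕ → ℂ) :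
    ∑ k ∈ range r.t, F k * ins r y 0 k = ∑ m ∈ range r.s, F (pos r m) * y m := by
  have e1 : r.t = (r.s + 1) / 2 + (r.t - r.s) + (r.s - (r.s + 1) / 2) := by omega
  have e2 : r.s = (r.s + 1) / 2 + (r.s - (r.s + 1) / 2) := by omega
  conv_lhs => rw [e1]
  conv_rhs => rw [e2]
  rw [Finset.sum_range_add, Finset.sum_range_add, Finset.sum_range_add]
  congr 1
  · rw [Finset.sum_eq_zero (s := range (r.t - r.s)), add_zero]
    · refine Finset.sum_congr rfl fun k hk => ?_
      have := mem_range.1 hk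
      rw [ins, pos, if_pos this, if_pos (by omega)]
    · intro k hk
      have := mem_range.1 hk
      rw [ins, if_neg (by omega), if_pos (by omega), mul_zero]
  · refine Finset.sum_congr rfl fun k hk => ?_
    have := mem_range.1 hk
    rw [ins, pos, if_neg (by omega), if_neg (by omega), if_neg (by omega)]
    congr 2 <;> omega

lemma ins_cases {r : RP} (h : r.s ≤ r.t) {k : ℕ} (hk : k < r.t) :
    (∃ m, m < r.s ∧ ∀ (α : Type) (y : ℕ → α) (z : α), ins r y z k = y m) ∨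
      ∀ (α : Type) (y : ℕ → α) (z : α), ins r y z k = z := by
  unfold ins
  split_ifs with h1 h2
  · exact Or.inl ⟨k, by omega, fun _ _ _ => rfl⟩
  · exact Or.inr fun _ _ _ => rfl
  · exact Or.inl ⟨k - (r.t - r.s), by omega, fun _ _ _ => rfl⟩

/-- The matrix of the line map, given the inverse `X` of `1 + Er`. -/
noncomputable def Mm (r : RP) (X : ℕ → ℕ → ℂ) (k m : ℕ) : ℂ :=
  ins r (fun b => if m < r.s then X b m / gh r (cidx r.s b) else 0) 0 k

lemma gh_pos (r : RP) (n : ℤ) : 0 < gh r n := Real.exp_pos _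

theorem Mm_identity {r : RP} (hr : r.Valid) {X : ℕ → ℕ → ℂ}
    (hX : ∀ a b, a < r.s → b < r.s →
      X a b + ∑ k ∈ range r.s, (Er r a k : ℂ) * X k b = if a = b then 1 else 0) (j m : ℕ) :
    ∑ k ∈ range r.t, Gm r j k * ∑ k' ∈ range r.t, Fm r.t k k' * Mm r X k' m = Fm r.s j m := by
  by_cases hj : j < r.s
  swap
  · simp [Gm, Fm, hj]
  unfold Mm
  simp only [sum_ins hr.lt.le]
  by_cases hm : m < r.s
  swap
  · simp [Fm, hm]
  have ht : (0 : ℝ) < r.t := by exact_mod_cast hr.t_pos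
  have h1 : ∀ k ∈ range r.t, ∀ b ∈ range r.s,
      Fm r.t k (pos r b) = ee (-((k : ℝ) * cidx r.s b / r.t)) := by
    intro k hk b hb
    have hb' := mem_range.1 hb
    have hlt := hr.lt
    unfold Fm pos cidx
    split_ifs with h1 h2 h3
    · simp
    · exact absurd ⟨mem_range.1 hk, by omega⟩ h2
    · rw [← ee_add_int _ k]
      congr 1
      push_cast [Nat.cast_sub hlt.le]
      field_simp
      ring
    · exact absurd ⟨mem_range.1 hk, by omega⟩ h3
  rw [Finset.sum_congr rfl fun k hk => by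
    rw [Finset.sum_congr rfl fun b hb => by rw [h1 k hk b hb, if_pos hm], Finset.mul_sum]]
  rw [Finset.sum_comm]
  have h2 : ∀ b ∈ range r.s, ∑ k ∈ range r.t, Gm r j k *
      (ee (-((k : ℝ) * cidx r.s b / r.t)) * (X b m / gh r (cidx r.s b))) =
      ee (-((j : ℝ) * b / r.s)) * X b m +
        ∑ a ∈ range r.s, ee (-((j : ℝ) * a / r.s)) * ((Er r a b : ℂ) * X b m) := by
    intro b hb
    have hg : (gh r (cidx r.s b) : ℂ) ≠ 0 := by exact_mod_cast (gh_pos _ _).ne'
    simp only [← mul_assoc]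
    rw [← Finset.sum_mul, Gm_col hr hj (mem_range.1 hb), ← Finset.sum_mul]
    simp only [mul_comm (ee _) (Er r _ b : ℂ)]
    field_simp
  rw [Finset.sum_congr rfl h2, Finset.sum_add_distrib, Finset.sum_comm, ← Finset.sum_add_distrib]
  simp only [← Finset.mul_sum, ← mul_add]
  rw [Finset.sum_congr rfl fun a ha => by rw [hX a m (mem_range.1 ha) hm]]
  simp [Fm, hj, hm]

end Crest.Agent.R326.LA
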