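import Crest.Agent.R326.Resample
import Crest.Agent.R326.ExpPi

/-!
Gaussian resampling by Toeplitz blocks: parameters and tables.
-/

set_option autoImplicit false

namespace Crest.Agent.R326

open Crest.Agent.Lib.PT Crest.Agent.Lib.LT Finset

/-- A number of the order of `√p`. -/
def lbM (r : RP) : ℕ := 2 ^ ((r.p.size + 1) / 2)

/-- The block length. -/
def lbW (r : RP) : ℕ := r.g * lbM r

/-- The number of blocks. -/
def lbN (r : RP) : ℕ := r.s / lbW r + 1

/-- The start of the window of a block. -/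
def lbC (r : RP) (β : ℕ) : ℕ := r.t * (β * lbW r) / r.s

/-- The ratio of the lengths. -/
def lbS (r : RP) : ℚ := (r.t : ℚ) / r.s

/-- The offset of a block. -/
def lbD (r : RP) (β : ℕ) : ℚ := lbS r * (β * lbW r : ℕ) - lbC r β + lbW r

/-- The exponent of the output factor. -/
def lbqA (r : RP) (β a : ℕ) : ℚ :=
  -((lbD r β * lbD r β + (lbS r * lbS r - lbS r) * (a * a) + 2 * lbD r β * lbS r * a) /
    (r.g * r.g))

/-- The exponent of the input factor. -/
def lbqB (r : RP) (β b : ℕ) : ℚ := ((lbS r - 1) * (b * b) + 2 * lbD r β * b) / (r.g * r.g)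

/-- The exponent of the kernel. -/
def lbqT (r : RP) (m : ℕ) : ℚ :=
  -(lbS r * (((m : ℚ) - 4 * lbW r) * ((m : ℚ) - 4 * lbW r)) / (r.g * r.g))

/-- The table of output factors. -/
noncomputable def lbA (q : RP × List Unit) (j : ℕ) : GaussianInt :=
  ⟨(ex (lbqA q.1 (j / lbW q.1) (j % lbW q.1)) 0 q.2).re / q.1.g, 0⟩

/-- The table of input factors. -/
noncomputable def lbB (q : RP × List Unit) (i : ℕ) : GaussianInt :=
  ex (lbqB q.1 (i / (4 * lbW q.1)) (i % (4 * lbW q.1))) 0 q.2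

/-- The kernel. -/
noncomputable def lbT (q : RP × List Unit) (m : ℕ) : GaussianInt := ex (lbqT q.1 m) 0 q.2

/-- The cutting pattern. -/
def lbU (q : RP × List Unit) (β : ℕ) : List GaussianInt :=
  (q.2.take (lbC q.1 (β + 1) - lbC q.1 β)).map fun _ => 0

/-- The parameters together with the working precision in unary. -/
def lbP (r : RP) : RP × List Unit := (r, un (700 * r.p))

/-- The periodic extension of the input, shifted by the block length. -/
def lbE (r : RP) (v : ℕ → GaussianInt) (i : ℕ) : GaussianInt := v ((i + (r.t - lbW r)) % r.t)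

/-- The weighted windows, as a flat array. -/
noncomputable def lbY (r : RP) (v : ℕ → GaussianInt) (i : ℕ) : GaussianInt :=
  fmul 0 (lbE r v (lbC r (i / (4 * lbW r)) + i % (4 * lbW r))) (lbB (lbP r) i)

/-- The Toeplitz products. -/
noncomputable def lbZ (r : RP) (v : ℕ → GaussianInt) (β a : ℕ) : GaussianInt :=
  aconv (4 * lbW r) (5 * lbW r) (fun b => lbY r v (β * (4 * lbW r) + b)) (lbT (lbP r))
    (4 * lbW r + a)

/-- The line map. -/
noncomputable def lbPhi (r : RP) (v : ℕ → GaussianInt) (j : ℕ) : GaussianInt :=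
  if j < r.s then fmul (2100 * r.p) (lbZ r v (j / lbW r) (j % lbW r)) (lbA (lbP r) j) else 0

section pt
variable {α : Type} [Enc α] {r : α → RP} {i k : α → ℕ}

@[fun_prop] lemma PT.lbM (h : PT r) : PT (fun a => lbM (r a)) := by
  unfold R326.lbM
  refine PT.pow (PT.const 2) (by fun_prop) ?_
  have : PB (fun a => (r a).p.size + 1) := by fun_prop
  exact this.of_le fun a => Nat.div_le_self _ _

@[fun_prop] lemma PT.lbW (h : PT r) : PT (fun a => lbW (r a)) := by
  unfold R326.lbW; fun_prop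

@[fun_prop] lemma PT.lbN (h : PT r) : PT (fun a => lbN (r a)) := by
  unfold R326.lbN; fun_prop

@[fun_prop] lemma PT.lbC (h : PT r) (hi : PT i) : PT (fun a => lbC (r a) (i a)) := by
  unfold R326.lbC; fun_prop

@[fun_prop] lemma PT.lbS (h : PT r) : PT (fun a => lbS (r a)) := by
  unfold R326.lbS; fun_prop

@[fun_prop] lemma PT.lbD (h : PT r) (hi : PT i) : PT (fun a => lbD (r a) (i a)) := by
  unfold R326.lbD; fun_prop

@[fun_prop] lemma PT.lbqA (h : PT r) (hi : PT i) (hk : PT k) :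
    PT (fun a => lbqA (r a) (i a) (k a)) := by
  unfold R326.lbqA; fun_prop

@[fun_prop] lemma PT.lbqB (h : PT r) (hi : PT i) (hk : PT k) :
    PT (fun a => lbqB (r a) (i a) (k a)) := by
  unfold R326.lbqB; fun_prop

@[fun_prop] lemma PT.lbqT (h : PT r) (hi : PT i) : PT (fun a => lbqT (r a) (i a)) := by
  unfold R326.lbqT; fun_prop

lemma pt_lbA : PT (fun q : (RP × List Unit) × ℕ => lbA q.1 q.2) := by
  unfold lbA; fun_prop

lemma pt_lbB : PT (fun q : (RP × List Unit) × ℕ => lbB q.1 q.2) := by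
  unfold lbB; fun_prop

lemma pt_lbT : PT (fun q : (RP × List Unit) × ℕ => lbT q.1 q.2) := by
  unfold lbT; fun_prop

lemma pt_lbU : PT (fun q : (RP × List Unit) × ℕ => lbU q.1 q.2) := by
  unfold lbU; fun_prop

end pt

section arith
variable {r : RP}

lemma lb_p_ge (hr : r.Valid) : 2048 ≤ r.p := by
  have := hr.p_lo
  have := hr.d_pos
  nlinarith

lemma lb_t_le (hr : r.Valid) : r.t ≤ 2 * r.s := by
  have h1 := hr.gap_hi
  have h2 := hr.d_pos
  have h3 : 2 * (r.t - r.s) ≤ 2 * r.d * (r.t - r.s) := Nat.mul_le_mul_right _ (by omega)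
  omega

lemma lb_s_pos (hr : r.Valid) : 0 < r.s := by
  have := lb_t_le hr
  have := hr.lt
  omega

lemma lb_g_pos (hr : r.Valid) : 0 < r.g := by
  have h1 := hr.g_lo
  have h2 := lb_p_ge hr
  rcases Nat.eq_zero_or_pos r.g with h | h
  · rw [h] at h1; simp at h1; omega
  · exact h

lemma lb_g_sq (hr : r.Valid) : 4 * r.g ^ 2 ≤ r.p := by
  have h1 := hr.g_hi
  have h2 := hr.d_pos
  nlinarith

lemma lbM_lo (r : RP) : r.p ≤ lbM r ^ 2 := by
  rw [lbM, ← pow_mul]
  exact (Nat.lt_size_self _).le.trans (Nat.pow_le_pow_right (by norm_num) (by omega))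

lemma lbM_hi (hr : r.Valid) : lbM r ^ 2 ≤ 4 * r.p := by
  have h0 := lb_p_ge hr
  have h1 : 0 < r.p.size := Nat.size_pos.2 (by omega)
  have h2 : 2 ^ (r.p.size - 1) ≤ r.p := Nat.lt_size.1 (by omega)
  rw [lbM, ← pow_mul]
  calc 2 ^ ((r.p.size + 1) / 2 * 2) ≤ 2 ^ (r.p.size - 1 + 2) :=
        Nat.pow_le_pow_right (by norm_num) (by omega)
    _ ≤ _ := by rw [pow_add]; omega

lemma lb_g_le (hr : r.Valid) : r.g ≤ lbM r := by
  have h1 := lb_g_sq hr
  have h2 := lbM_lo r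
  nlinarith

lemma lbW_pos (hr : r.Valid) : 0 < lbW r := Nat.mul_pos (lb_g_pos hr) (by rw [lbM]; positivity)

lemma lbW_le (hr : r.Valid) : lbW r ≤ r.p := by
  have h1 := lb_g_sq hr
  have h2 := lbM_hi hr
  have h3 : (4 * r.g ^ 2) * lbM r ^ 2 ≤ r.p * (4 * r.p) := Nat.mul_le_mul h1 h2
  have h4 : lbW r ^ 2 ≤ r.p ^ 2 := by rw [lbW]; nlinarith
  exact (Nat.pow_le_pow_iff_left two_ne_zero).1 h4

lemma lbN_mul_le (hr : r.Valid) : lbN r * lbW r ≤ 2 * r.t := by
  have h1 := Nat.div_mul_le_self r.s (lbW r)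
  have h2 := lbW_le hr
  have h3 := hr.p_hi
  have h4 := hr.lt
  rw [lbN, add_mul]; omega

lemma le_lbN_mul (hr : r.Valid) : r.s ≤ lbN r * lbW r := by
  rw [lbN, mul_comm]
  exact (Nat.lt_mul_div_succ _ (lbW_pos hr)).le

lemma lbC_zero (r : RP) : lbC r 0 = 0 := by simp [lbC]

lemma lbC_step (hr : r.Valid) (β : ℕ) : lbC r β + lbW r ≤ lbC r (β + 1) := by
  rw [lbC, lbC, ← Nat.add_mul_div_right _ _ (lb_s_pos hr)]
  refine Nat.div_le_div_right ?_
  have := hr.lt
  nlinarith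

lemma lbC_step' (hr : r.Valid) (β : ℕ) : lbC r (β + 1) ≤ lbC r β + 2 * lbW r := by
  rw [lbC, lbC, ← Nat.add_mul_div_right _ _ (lb_s_pos hr)]
  refine Nat.div_le_div_right ?_
  have := Nat.mul_le_mul_right (lbW r) (lb_t_le hr)
  nlinarith

lemma lbC_le {β : ℕ} (h : β < lbN r) : lbC r β ≤ r.t := by
  have h1 : β * lbW r ≤ r.s :=
    (Nat.mul_le_mul_right _ (Nat.lt_succ_iff.1 h)).trans (Nat.div_mul_le_self _ _)
  rw [lbC]
  exact Nat.div_le_of_le_mul (by rw [mul_comm r.s]; exact Nat.mul_le_mul_left _ h1)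

lemma length_lbU (hr : r.Valid) (β : ℕ) : (lbU (lbP r) β).length = lbC r (β + 1) - lbC r β := by
  have h1 := lbC_step' hr β
  have h2 := lbW_le hr
  simp only [lbU, lbP, List.length_map, List.length_take, length_un]
  omega

lemma lbS_lo (hr : r.Valid) : 1 ≤ lbS r := by
  have h1 : (0 : ℚ) < r.s := by exact_mod_cast lb_s_pos hr
  rw [lbS, le_div_iff₀ h1, one_mul]
  exact_mod_cast hr.lt.le

lemma lbS_hi (hr : r.Valid) : lbS r ≤ 2 := by
  have h1 : (0 : ℚ) < r.s := by exact_mod_cast lb_s_pos hr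
  rw [lbS, div_le_iff₀ h1]
  exact_mod_cast lb_t_le hr

lemma lbD_lo (hr : r.Valid) (β : ℕ) : (lbW r : ℚ) ≤ lbD r β := by
  have h1 : (0 : ℚ) < r.s := by exact_mod_cast lb_s_pos hr
  have h2 : (lbC r β : ℚ) ≤ lbS r * (β * lbW r : ℕ) := by
    rw [lbS, div_mul_eq_mul_div, le_div_iff₀ h1]
    exact_mod_cast Nat.div_mul_le_self _ _
  rw [lbD]; linarith

lemma lbD_hi (hr : r.Valid) (β : ℕ) : lbD r β ≤ lbW r + 1 := by
  have h1 : (0 : ℚ) < r.s := by exact_mod_cast lb_s_pos hr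
  have h2 : lbS r * (β * lbW r : ℕ) ≤ (lbC r β : ℚ) + 1 := by
    rw [lbS, div_mul_eq_mul_div, div_le_iff₀ h1, mul_comm _ (r.s : ℚ)]
    exact_mod_cast (Nat.lt_mul_div_succ (r.t * (β * lbW r)) (lb_s_pos hr)).le
  rw [lbD]; linarith

lemma lb_div_le (hr : r.Valid) {x : ℚ} {c : ℚ} (hc : 0 ≤ c) (h : x ≤ c * (lbW r * lbW r)) :
    x / (r.g * r.g) ≤ 4 * c * r.p := by
  have h1 : (0 : ℚ) < r.g := by exact_mod_cast lb_g_pos hr
  have h2 : (lbM r : ℚ) ^ 2 ≤ 4 * r.p := by exact_mod_cast lbM_hi hr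
  rw [div_le_iff₀ (by positivity)]
  refine h.trans ?_
  have h3 : (lbW r : ℚ) * lbW r = (lbM r : ℚ) ^ 2 * (r.g * r.g) := by
    rw [lbW]; push_cast; ring
  rw [h3]
  have := mul_le_mul_of_nonneg_left h2 hc
  nlinarith [mul_pos h1 h1]

lemma lbqA_bound (hr : r.Valid) (β : ℕ) {a : ℕ} (ha : a < lbW r) :
    -(56 * r.p : ℚ) ≤ lbqA r β a ∧ lbqA r β a ≤ 0 := by
  have h1 := lbS_lo hr
  have h2 := lbS_hi hr
  have h3 := lbD_lo hr β
  have h4 := lbD_hi hr β
  have h5 : (1 : ℚ) ≤ lbW r := by exact_mod_cast lbW_pos hr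
  have h6 : (a : ℚ) ≤ lbW r := by exact_mod_cast ha.le
  have h7 : (0 : ℚ) ≤ a := by positivity
  have h8 : 0 ≤ lbS r * lbS r - lbS r := by nlinarith
  have h9 : lbS r * lbS r - lbS r ≤ 2 := by nlinarith
  have hD : lbD r β ≤ 2 * lbW r := by linarith
  have hD0 : 0 ≤ lbD r β := by linarith
  constructor
  · rw [lbqA, neg_le_neg_iff]
    refine (lb_div_le hr (c := 14) (by norm_num) ?_).trans_eq (by ring)
    have e1 : lbD r β * lbD r β ≤ (2 * lbW r) * (2 * lbW r) := by gcongr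
    have e2 : (lbS r * lbS r - lbS r) * (a * a) ≤ 2 * (lbW r * lbW r) := by gcongr
    have e3 : 2 * lbD r β * lbS r * a ≤ 2 * (2 * lbW r) * 2 * lbW r := by gcongr
    linarith
  · rw [lbqA, neg_nonpos]
    have : 0 ≤ lbS r := by linarith
    positivity

lemma lbqB_bound (hr : r.Valid) (β : ℕ) {b : ℕ} (hb : b < 4 * lbW r) :
    0 ≤ lbqB r β b ∧ lbqB r β b ≤ 128 * r.p := by
  have h1 := lbS_lo hr
  have h2 := lbS_hi hr
  have h3 := lbD_lo hr β
  have h4 := lbD_hi hr β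
  have h5 : (1 : ℚ) ≤ lbW r := by exact_mod_cast lbW_pos hr
  have h6 : (b : ℚ) ≤ 4 * lbW r := by exact_mod_cast hb.le
  have h7 : (0 : ℚ) ≤ b := by positivity
  have hD : lbD r β ≤ 2 * lbW r := by linarith
  have hD0 : 0 ≤ lbD r β := by linarith
  have h8 : 0 ≤ lbS r - 1 := by linarith
  constructor
  · rw [lbqB]; positivity
  · rw [lbqB]
    refine (lb_div_le hr (c := 32) (by norm_num) ?_).trans_eq (by ring)
    have e1 : (lbS r - 1) * (b * b) ≤ 1 * ((4 * lbW r) * (4 * lbW r)) := by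
      gcongr; linarith
    have e3 : 2 * lbD r β * b ≤ 2 * (2 * lbW r) * (4 * lbW r) := by gcongr
    linarith

lemma lbqT_bound (hr : r.Valid) {m : ℕ} (hm : m < 5 * lbW r) :
    -(128 * r.p : ℚ) ≤ lbqT r m ∧ lbqT r m ≤ 0 := by
  have h1 := lbS_lo hr
  have h2 := lbS_hi hr
  have h6 : (m : ℚ) ≤ 5 * lbW r := by exact_mod_cast hm.le
  have h7 : (0 : ℚ) ≤ m := by positivity
  have h8 := mul_self_nonneg ((m : ℚ) - 4 * lbW r)
  constructor
  · rw [lbqT, neg_le_neg_iff]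
    refine (lb_div_le hr (c := 32) (by norm_num) ?_).trans_eq (by ring)
    have e1 : ((m : ℚ) - 4 * lbW r) * ((m : ℚ) - 4 * lbW r) ≤ 16 * (lbW r * lbW r) := by nlinarith
    nlinarith
  · rw [lbqT, neg_nonpos]
    have : 0 ≤ lbS r := by linarith
    positivity

/-- The exponent identity. -/
lemma lb_expo (r : RP) (β a b : ℕ) (hb : b ≤ 4 * lbW r + a) :
    lbqA r β a + lbqT r (4 * lbW r + a - b) + lbqB r β b =
      -((lbS r * (β * lbW r + a : ℕ) - ((b : ℚ) + (lbC r β - lbW r))) ^ 2 / r.g ^ 2) := by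
  rw [lbqA, lbqT, lbqB, lbD, Nat.cast_sub hb]
  push_cast
  ring

end arith

end Crest.Agent.R326
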