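import Mathlib

/-!
Abstract labelled networks: registers carry a label and a virtual content.  The transfer gadgets and
the three-stage swap network.
-/

set_option autoImplicit false

namespace Crest.Agent.R326

open scoped Kronecker

/-- An abstract machine: in the state `x` the contents `Has x l` are available at the label `l`, and
`Goal x r` says that the goal is reachable at cost `r`. -/
structure Mach (L U : Type) [AddCommGroup L] [AddCommGroup U] : Type 1 where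
  St : Type
  Has : St → L → AddSubgroup U
  Goal : St → ℕ → Prop
  h : U →+ U
  has_h : ∀ x l u, u ∈ Has x l → h u ∈ Has x l
  goal_mono : ∀ x r r', Goal x r → r ≤ r' → Goal x r'

namespace Mach

variable {L U : Type} [AddCommGroup L] [AddCommGroup U] (M : Mach L U)

/-- Everything available in `x` is available in `x'`. -/
def Le (x x' : M.St) : Prop := ∀ l b, b ∈ M.Has x l → b ∈ M.Has x' l

/-- A register can be moved by `d` at cost `r`. -/
def Moves (d : L) (r : ℕ) : Prop :=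
  ∀ x l u r', u ∈ M.Has x l → (∀ x', M.Le x x' → u ∈ M.Has x' (l + d) → M.Goal x' r') →
    M.Goal x (r + r')

variable {M}

lemma Moves.zero (r : ℕ) : M.Moves 0 r := fun x l u r' hu k =>
  M.goal_mono _ _ _ (k x (fun _ _ h => h) (by simpa using hu)) (Nat.le_add_left _ _)

lemma Moves.mono {d : L} {r s : ℕ} (h : M.Moves d r) (hr : r ≤ s) : M.Moves d s :=
  fun x l u r' hu k => M.goal_mono _ _ _ (h x l u r' hu k) (by omega)

lemma Moves.add {d d' : L} {r s : ℕ} (h : M.Moves d r) (h' : M.Moves d' s) :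
    M.Moves (d + d') (r + s) := fun x l u r' hu k => by
  rw [add_assoc]
  exact h x l u _ hu fun x₁ i₁ h₁ => h' x₁ _ u r' h₁ fun x₂ i₂ h₂ =>
    k x₂ (fun _ _ hb => i₂ _ _ (i₁ _ _ hb)) (by rwa [← add_assoc])

lemma Moves.of_eq {d d' : L} {r : ℕ} (h : M.Moves d r) (e : d' = d) : M.Moves d' r := e ▸ h

lemma Moves.sum {J : Type} (s : Finset J) (d : J → L) (r : ℕ) (h : ∀ j ∈ s, M.Moves (d j) r) :
    M.Moves (∑ j ∈ s, d j) (s.card * r) := by
  classical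
  induction s using Finset.induction_on with
  | empty => simpa using Moves.zero 0
  | insert a s ha ih =>
    rw [Finset.sum_insert ha, Finset.card_insert_of_notMem ha, add_comm, add_mul, one_mul]
    exact (ih fun j hj => h j (by simp [hj])).add (h a (by simp))

/-- A family of registers is moved from the labels `l j` to the labels `l' j`. -/
lemma step {J : Type} [Fintype J] {x : M.St} (l l' : J → L) (a : J → U) (r : ℕ) {r' : ℕ}
    (ha : ∀ j, a j ∈ M.Has x (l j)) (hl : ∀ j, M.Moves (l' j - l j) r)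
    (k : ∀ x', M.Le x x' → (∀ j, a j ∈ M.Has x' (l' j)) → M.Goal x' r') :
    M.Goal x (Fintype.card J * r + r') := by
  classical
  suffices H : ∀ (s : Finset J) (x : M.St), (∀ j, a j ∈ M.Has x (l j)) →
      (∀ x', M.Le x x' → (∀ j ∈ s, a j ∈ M.Has x' (l' j)) → M.Goal x' r') →
      M.Goal x (s.card * r + r') from
    H Finset.univ x ha fun x' i h => k x' i fun j => h j (Finset.mem_univ j)
  intro s
  induction s using Finset.induction_on with
  | empty => intro x _ k; simpa using k x (fun _ _ h => h) (by simp)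
  | insert j s hj ih =>
    intro x ha k
    rw [Finset.card_insert_of_notMem hj, add_comm s.card, add_mul, one_mul, add_assoc]
    refine hl j x _ _ _ (ha j) fun x₁ i₁ h₁ => ih x₁ (fun j => i₁ _ _ (ha j)) fun x₂ i₂ h₂ =>
      k x₂ (fun _ _ hb => i₂ _ _ (i₁ _ _ hb)) fun j' hj' => ?_
    rcases Finset.mem_insert.1 hj' with rfl | hj'
    · exact i₂ _ _ (by simpa using h₁)
    · exact h₂ j' hj'

end Mach

/-- Integer labels. -/
abbrev ZL (ι : Type) : Type := Matrix ι ι ℤ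

section K3

variable {H : Type}

/-- Triple Kronecker product of labels. -/
def K3 (A B C : ZL H) : ZL (H × H × H) :=
  Matrix.of fun a b => A a.1 b.1 * (B a.2.1 b.2.1 * C a.2.2 b.2.2)

lemma K3_apply (A B C : ZL H) (a b : H × H × H) :
    K3 A B C a b = A a.1 b.1 * (B a.2.1 b.2.1 * C a.2.2 b.2.2) := rfl

/-- First slot. -/
def K3a (B C : ZL H) : ZL H →+ ZL (H × H × H) :=
  AddMonoidHom.mk' (fun M => K3 M B C) fun M N => by
    ext a b; simp only [K3_apply, Matrix.add_apply]; ring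

/-- Second slot. -/
def K3b (A C : ZL H) : ZL H →+ ZL (H × H × H) :=
  AddMonoidHom.mk' (fun M => K3 A M C) fun M N => by
    ext a b; simp only [K3_apply, Matrix.add_apply]; ring

/-- Third slot. -/
def K3c (A B : ZL H) : ZL H →+ ZL (H × H × H) :=
  AddMonoidHom.mk' (fun M => K3 A B M) fun M N => by
    ext a b; simp only [K3_apply, Matrix.add_apply]; ring

lemma K3a_apply (B C M : ZL H) : K3a B C M = K3 M B C := rfl
lemma K3b_apply (A C M : ZL H) : K3b A C M = K3 A M C := rfl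
lemma K3c_apply (A B M : ZL H) : K3c A B M = K3 A B M := rfl

end K3

/-- Closes identities between sums of triple Kronecker products. -/
macro "net_k3" : tactic =>
  `(tactic| (ext a b; simp only [K3a_apply, K3b_apply, K3c_apply, K3_apply,
    Matrix.add_apply, Matrix.sub_apply, Matrix.neg_apply, Matrix.zero_apply]; ring))

/-- The combinatorial data of a gadget. -/
structure Design {H U : Type} [Fintype H] [AddCommGroup U] (M : Mach (ZL (H × H × H)) U)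
    (σ Pr : Type) [Fintype σ] [DecidableEq σ] [Fintype Pr] (g : ℕ) where
  one : ZL H
  P : σ → ZL H
  src : Pr → σ
  tgt : Pr → σ
  E : Pr → ℤ
  G : H → σ → ℤ
  R : σ → H → ℤ
  Len : ZL H → ℕ → Prop
  k3 : ∀ {A B C : ZL H} {r s t : ℕ}, Len A r → Len B s → Len C t →
    M.Moves (K3 A B C) (r * (s * t))
  card : Fintype.card H = g + 2
  h1 : Len one (g + 2)
  h1n : Len (-one) (g + 2)
  hP : ∀ S, Len (P S) 1
  hPP : ∀ S, Len (P S + P S) 1
  hQ : ∀ S, Len (one - P S) (g + 1)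
  hPQ : ∀ p, Len (one - P (tgt p) - P (src p)) g
  key : ∀ S T z, M.h ((∑ j, R S j * G j T) • z) =
    (if T = S then z else 0) + M.h ((∑ p, if tgt p = S ∧ src p = T then E p else 0) • z)

variable {H U : Type} [Fintype H] [AddCommGroup U] {M : Mach (ZL (H × H × H)) U}
  {σ Pr : Type} [Fintype σ] [DecidableEq σ] [Fintype Pr] {g : ℕ} (D : Design M σ Pr g)

lemma Design.vec (z : σ → U) (S : σ) :
    ∑ j, D.R S j • M.h (∑ T, D.G j T • z T) =
      z S + ∑ p, (if D.tgt p = S then D.E p else 0) • M.h (z (D.src p)) := by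
  have e : ∑ j, D.R S j • M.h (∑ T, D.G j T • z T) =
      ∑ T, M.h ((∑ j, D.R S j * D.G j T) • z T) := by
    simp only [map_sum, map_zsmul, Finset.smul_sum, smul_smul, Finset.sum_smul]
    rw [Finset.sum_comm]
  rw [e]
  simp only [D.key, Finset.sum_add_distrib]
  congr 1
  · simp
  · simp only [map_sum, map_zsmul, Finset.sum_smul]
    rw [Finset.sum_comm]
    refine Finset.sum_congr rfl fun p _ => ?_
    by_cases h : D.tgt p = S <;> simp [h]

/-- Cost of one gadget. -/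
def gcost (v n g : ℕ) : ℕ := (g + 2) * (g + 2) + 2 * v * (g + 1) + n * (g + 2)

/-- Transfer from the upper wires `x` to the lower wires `y`. -/
lemma Design.layer1 {Q : Type} [Fintype Q] (β : Q → ZL (H × H × H))
    (φ : Q → ZL H →+ ZL (H × H × H)) (hφ : ∀ q A r, D.Len A r → M.Moves (φ q A) r)
    (S₀ : M.St) (x y : Q → σ → U) (a : Q → Pr → U)
    (hx : ∀ q T, x q T ∈ M.Has S₀ (β q + φ q (D.P T))) (hy : ∀ q T, y q T ∈ M.Has S₀ (β q))
    (ha : ∀ q p, a q p ∈ M.Has S₀ (β q)) {r' : ℕ}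
    (k : ∀ S₁, M.Le S₀ S₁ → (∀ q T, x q T ∈ M.Has S₁ (β q + φ q D.one)) →
      (∀ q T, y q T + x q T ∈ M.Has S₁ (β q + φ q (D.one - D.P T))) →
      (∀ q p, a q p ∈ M.Has S₁ (β q + φ q D.one)) → M.Goal S₁ r') :
    M.Goal S₀ (Fintype.card Q * gcost (Fintype.card σ) (Fintype.card Pr) g + r') := by
  have L : ∀ (q : Q) {A B : ZL H} {r : ℕ}, D.Len (A - B) r →
      M.Moves (β q + φ q A - (β q + φ q B)) r := by
    intro q A B r h
    exact (hφ _ _ _ h).of_eq (by rw [map_sub]; abel)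
  have L0 : ∀ (q : Q) {A : ZL H} {r : ℕ}, D.Len A r → M.Moves (β q + φ q A - β q) r := by
    intro q A r h
    exact (hφ q _ _ h).of_eq (by abel)
  refine M.goal_mono _ (Fintype.card (Q × σ) * (g + 1) + (Fintype.card (Q × H) * (g + 2) +
    (Fintype.card (Q × σ) * (g + 1) + (Fintype.card (Q × Pr) * 1 + (Fintype.card (Q × Pr) * g +
    (Fintype.card (Q × Pr) * 1 + r')))))) _ ?_
    (le_of_eq (by simp only [Fintype.card_prod, gcost, D.card]; ring))
  -- the sources move up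
  refine Mach.step (fun j : Q × σ => β j.1 + φ j.1 (D.P j.2)) (fun j => β j.1 + φ j.1 D.one)
    (fun j => x j.1 j.2) (g + 1) (fun j => hx _ _) (fun j => L _ (D.hQ _)) fun S₁ i₁ k₁ => ?_
  -- the low-rank part comes down
  refine Mach.step (fun j : Q × H => β j.1 + φ j.1 D.one) (fun j => β j.1)
    (fun j => ∑ T, D.G j.2 T • x j.1 T) (g + 2)
    (fun j => sum_mem fun T _ => zsmul_mem (k₁ (j.1, T)) _)
    (fun j => (hφ j.1 _ _ D.h1n).of_eq (by rw [map_neg]; abel)) fun S₂ i₂ k₂ => ?_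
  -- the targets move up
  refine Mach.step (fun j : Q × σ => β j.1) (fun j => β j.1 + φ j.1 (D.one - D.P j.2))
    (fun j => y j.1 j.2 + (∑ p, (if D.tgt p = j.2 then D.E p else 0) • M.h (a j.1 p)) +
      ∑ i, D.R j.2 i • M.h (∑ T, D.G i T • x j.1 T)) (g + 1)
    (fun j => add_mem (add_mem (i₂ _ _ (i₁ _ _ (hy _ _)))
      (sum_mem fun p _ => zsmul_mem (M.has_h _ _ _ (i₂ _ _ (i₁ _ _ (ha _ _)))) _))
      (sum_mem fun i _ => zsmul_mem (M.has_h _ _ _ (k₂ (j.1, i))) _))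
    (fun j => L0 _ (D.hQ _)) fun S₃ i₃ k₃ => ?_
  -- the relays
  refine Mach.step (fun j : Q × Pr => β j.1) (fun j => β j.1 + φ j.1 (D.P (D.src j.2)))
    (fun j => a j.1 j.2) 1 (fun j => i₃ _ _ (i₂ _ _ (i₁ _ _ (ha _ _))))
    (fun j => L0 _ (D.hP _)) fun S₄ i₄ k₄ => ?_
  refine Mach.step (fun j : Q × Pr => β j.1 + φ j.1 (D.P (D.src j.2)))
    (fun j => β j.1 + φ j.1 (D.one - D.P (D.tgt j.2)))
    (fun j => a j.1 j.2 + x j.1 (D.src j.2)) g
    (fun j => add_mem (k₄ j) (i₄ _ _ (i₃ _ _ (i₂ _ _ (i₁ _ _ (hx _ _))))))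
    (fun j => L _ (D.hPQ _)) fun S₅ i₅ k₅ => ?_
  refine Mach.step (fun j : Q × Pr => β j.1 + φ j.1 (D.one - D.P (D.tgt j.2)))
    (fun j => β j.1 + φ j.1 D.one) (fun j => a j.1 j.2 + x j.1 (D.src j.2)) 1 k₅
    (fun j => L _ (by simpa using D.hP (D.tgt j.2))) fun S₆ i₆ k₆ => ?_
  have X : ∀ q T, x q T ∈ M.Has S₆ (β q + φ q D.one) := fun q T =>
    i₆ _ _ (i₅ _ _ (i₄ _ _ (i₃ _ _ (i₂ _ _ (k₁ (q, T))))))
  refine k S₆ (fun _ _ hb => i₆ _ _ (i₅ _ _ (i₄ _ _ (i₃ _ _ (i₂ _ _ (i₁ _ _ hb)))))) X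
    (fun q S => ?_) (fun q p => ?_)
  · have e : y q S + x q S = (y q S + (∑ p, (if D.tgt p = S then D.E p else 0) • M.h (a q p)) +
        ∑ i, D.R S i • M.h (∑ T, D.G i T • x q T)) -
        ∑ p, (if D.tgt p = S then D.E p else 0) • M.h (a q p + x q (D.src p)) := by
      rw [D.vec]
      simp only [map_add, smul_add, Finset.sum_add_distrib]
      abel
    rw [e]
    refine sub_mem (i₆ _ _ (i₅ _ _ (i₄ _ _ (k₃ (q, S))))) (sum_mem fun p _ => ?_)
    by_cases h : D.tgt p = S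
    · subst h
      exact zsmul_mem (M.has_h _ _ _ (i₆ _ _ (k₅ (q, p)))) _
    · simp [h]
  · simpa using sub_mem (k₆ (q, p)) (X q (D.src p))

/-- Transfer from the lower wires `y` to the upper wires `x`. -/
lemma Design.layer2 {Q : Type} [Fintype Q] (β : Q → ZL (H × H × H))
    (φ : Q → ZL H →+ ZL (H × H × H)) (hφ : ∀ q A r, D.Len A r → M.Moves (φ q A) r)
    (S₀ : M.St) (x y : Q → σ → U) (a : Q → Pr → U)
    (hx : ∀ q T, x q T ∈ M.Has S₀ (β q + φ q (D.P T))) (hy : ∀ q T, y q T ∈ M.Has S₀ (β q))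
    (ha : ∀ q p, a q p ∈ M.Has S₀ (β q)) {r' : ℕ}
    (k : ∀ S₁, M.Le S₀ S₁ → (∀ q T, x q T - y q T ∈ M.Has S₁ (β q + φ q D.one)) →
      (∀ q T, y q T ∈ M.Has S₁ (β q + φ q (D.one - D.P T))) →
      (∀ q p, a q p ∈ M.Has S₁ (β q + φ q D.one)) → M.Goal S₁ r') :
    M.Goal S₀ (Fintype.card Q * gcost (Fintype.card σ) (Fintype.card Pr) g + r') := by
  have L : ∀ (q : Q) {A B : ZL H} {r : ℕ}, D.Len (A - B) r →
      M.Moves (β q + φ q A - (β q + φ q B)) r := by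
    intro q A B r h
    exact (hφ _ _ _ h).of_eq (by rw [map_sub]; abel)
  have L0 : ∀ (q : Q) {A : ZL H} {r : ℕ}, D.Len A r → M.Moves (β q + φ q A - β q) r := by
    intro q A r h
    exact (hφ q _ _ h).of_eq (by abel)
  refine M.goal_mono _ (Fintype.card (Q × H) * (g + 2) + (Fintype.card (Q × Pr) * 1 +
    (Fintype.card (Q × σ) * (g + 1) + (Fintype.card (Q × σ) * (g + 1) +
    (Fintype.card (Q × Pr) * g + (Fintype.card (Q × Pr) * 1 + r')))))) _ ?_
    (le_of_eq (by simp only [Fintype.card_prod, gcost, D.card]; ring))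
  -- the low-rank part goes up
  refine Mach.step (fun j : Q × H => β j.1) (fun j => β j.1 + φ j.1 D.one)
    (fun j => ∑ T, D.G j.2 T • y j.1 T) (g + 2)
    (fun j => sum_mem fun T _ => zsmul_mem (hy _ _) _) (fun _ => L0 _ D.h1) fun S₁ i₁ k₁ => ?_
  -- the relays take the sources
  refine Mach.step (fun j : Q × Pr => β j.1) (fun j => β j.1 + φ j.1 (D.P (D.tgt j.2)))
    (fun j => a j.1 j.2 + y j.1 (D.src j.2)) 1
    (fun j => i₁ _ _ (add_mem (ha _ _) (hy _ _))) (fun j => L0 _ (D.hP _)) fun S₂ i₂ k₂ => ?_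
  -- the targets move up
  refine Mach.step (fun j : Q × σ => β j.1 + φ j.1 (D.P j.2)) (fun j => β j.1 + φ j.1 D.one)
    (fun j => x j.1 j.2 +
      ∑ p, (if D.tgt p = j.2 then D.E p else 0) • M.h (a j.1 p + y j.1 (D.src p))) (g + 1)
    (fun j => add_mem (i₂ _ _ (i₁ _ _ (hx _ _))) (sum_mem fun p _ => ?_))
    (fun j => L _ (D.hQ _)) fun S₃ i₃ k₃ => ?_
  · obtain ⟨q, S⟩ := j
    by_cases h : D.tgt p = S
    · subst h
      exact zsmul_mem (M.has_h _ _ _ (k₂ (q, p))) _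
    · simp [h]
  -- the sources move up
  refine Mach.step (fun j : Q × σ => β j.1) (fun j => β j.1 + φ j.1 (D.one - D.P j.2))
    (fun j => y j.1 j.2) (g + 1) (fun j => i₃ _ _ (i₂ _ _ (i₁ _ _ (hy _ _))))
    (fun j => L0 _ (D.hQ _)) fun S₄ i₄ k₄ => ?_
  refine Mach.step (fun j : Q × Pr => β j.1 + φ j.1 (D.P (D.tgt j.2)))
    (fun j => β j.1 + φ j.1 (D.one - D.P (D.src j.2)))
    (fun j => a j.1 j.2 + y j.1 (D.src j.2)) g (fun j => i₄ _ _ (i₃ _ _ (k₂ j)))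
    (fun j => L _ (by rw [sub_right_comm]; exact D.hPQ _)) fun S₅ i₅ k₅ => ?_
  refine Mach.step (fun j : Q × Pr => β j.1 + φ j.1 (D.one - D.P (D.src j.2)))
    (fun j => β j.1 + φ j.1 D.one) (fun j => a j.1 j.2) 1
    (fun j => by simpa using sub_mem (k₅ j) (i₅ _ _ (k₄ (j.1, D.src j.2))))
    (fun j => L _ (by simpa using D.hP (D.src j.2))) fun S₆ i₆ k₆ => ?_
  refine k S₆ (fun _ _ hb => i₆ _ _ (i₅ _ _ (i₄ _ _ (i₃ _ _ (i₂ _ _ (i₁ _ _ hb))))))
    (fun q S => ?_) (fun q T => i₆ _ _ (i₅ _ _ (k₄ (q, T)))) (fun q p => k₆ (q, p))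
  have e : x q S - y q S =
      (x q S + ∑ p, (if D.tgt p = S then D.E p else 0) • M.h (a q p + y q (D.src p))) -
      (∑ p, (if D.tgt p = S then D.E p else 0) • M.h (a q p)) -
      ∑ i, D.R S i • M.h (∑ T, D.G i T • y q T) := by
    rw [D.vec]
    simp only [map_add, smul_add, Finset.sum_add_distrib]
    abel
  rw [e]
  exact sub_mem (sub_mem (i₆ _ _ (i₅ _ _ (i₄ _ _ (k₃ (q, S)))))
    (sum_mem fun p _ => zsmul_mem (M.has_h _ _ _ (k₆ (q, p))) _))
    (sum_mem fun i _ => zsmul_mem (M.has_h _ _ _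
      (i₆ _ _ (i₅ _ _ (i₄ _ _ (i₃ _ _ (i₂ _ _ (k₁ (q, i)))))))) _)

/-- Total number of rank-one moves of the network. -/
def ncost (v n g : ℕ) : ℕ :=
  v * v * v + 3 * (v * v * gcost v n g) +
    2 * (v * v * v * ((g + 1) * (g + 1))) +
    2 * (v * v * v * ((g + 1) * ((g + 2) * (g + 1)) + (g + 1) * (g + 1))) +
    v * v * n * ((g + 2) * ((g + 1) * (g + 2)) + (g + 2) * (g + 1) + (g + 1) * (g + 2) +
      (g + 2) * ((g + 2) * (g + 1)) + ((g + 1) * ((g + 2) * (g + 2)) + (g + 1) * (g + 2)))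

lemma ncost_eq (v n g : ℕ) : ncost v n g + v ^ 3 =
    (2 * v ^ 3 + 3 * (v ^ 2 * n)) * (g + 2) ^ 3 + 3 * v ^ 2 * (g + 2) ^ 2 := by
  unfold ncost gcost; ring

/-- The label of a triple. -/
def Design.P3 (t : σ × σ × σ) : ZL (H × H × H) := K3 (D.P t.1) (D.P t.2.1) (D.P t.2.2)

theorem Design.swap (S : M.St) (x y : σ × σ × σ → U) (a₁ a₂ a₃ : (σ × σ) × Pr → U)
    (hx : ∀ t, x t ∈ M.Has S (-D.P3 t)) (hy : ∀ t, y t ∈ M.Has S 0)
    (h₁ : ∀ p, a₁ p ∈ M.Has S 0) (h₂ : ∀ p, a₂ p ∈ M.Has S 0) (h₃ : ∀ p, a₃ p ∈ M.Has S 0)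
    (k : ∀ T, (∀ t, x t ∈ M.Has T (-D.P3 t + K3 D.one D.one D.one)) →
      (∀ t, y t ∈ M.Has T (0 + K3 D.one D.one D.one)) →
      (∀ p, a₁ p ∈ M.Has T (0 + K3 D.one D.one D.one)) →
      (∀ p, a₂ p ∈ M.Has T (0 + K3 D.one D.one D.one)) →
      (∀ p, a₃ p ∈ M.Has T (0 + K3 D.one D.one D.one)) → M.Goal T 0) :
    M.Goal S (ncost (Fintype.card σ) (Fintype.card Pr) g) := by
  have hP := D.hP
  have hQ := D.hQ
  have h1 := D.h1
  have fa : ∀ (q : σ × σ) A r, D.Len A r → M.Moves (K3a (D.P q.1) (D.P q.2) A) r :=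
    fun q A r hA => by simpa [K3a_apply] using D.k3 hA (hP q.1) (hP q.2)
  have fb : ∀ (q : σ × σ) A r, D.Len A r → M.Moves (K3b (D.P q.1) (D.P q.2) A) r :=
    fun q A r hA => by simpa [K3b_apply] using D.k3 (hP q.1) hA (hP q.2)
  have fc : ∀ (q : σ × σ) A r, D.Len A r → M.Moves (K3c (D.P q.1) (D.P q.2) A) r :=
    fun q A r hA => by simpa [K3c_apply] using D.k3 (hP q.1) (hP q.2) hA
  set I := D.one with hI
  have e1 : ∀ A B : ZL H, (K3 I I I - K3 A B I) + K3c A B I = 0 + K3 I I I := by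
    intro A B
    net_k3
  have e2 : ∀ t : σ × σ × σ, (K3 I I I - K3 (D.P t.1) (D.P t.2.1) I) +
      K3c (D.P t.1) (D.P t.2.1) (I - D.P t.2.2) = -D.P3 t + K3 I I I := by
    intro t
    unfold Design.P3
    net_k3
  refine M.goal_mono _ (Fintype.card (σ × σ × σ) * (1 * (1 * 1)) +
    (Fintype.card (σ × σ) * gcost (Fintype.card σ) (Fintype.card Pr) g +
    (Fintype.card (σ × σ × σ) * ((g + 1) * ((g + 1) * 1)) +
    (Fintype.card (σ × σ × σ) * ((g + 1) * ((g + 1) * 1)) +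
    (Fintype.card ((σ × σ) × Pr) * ((g + 2) * ((g + 1) * (g + 2)) + (g + 2) * (1 * (g + 1))) +
    (Fintype.card ((σ × σ) × Pr) * ((g + 1) * ((g + 2) * 1)) +
    (Fintype.card (σ × σ) * gcost (Fintype.card σ) (Fintype.card Pr) g +
    (Fintype.card (σ × σ × σ) * ((g + 1) * ((g + 2) * (g + 1)) + 1 * ((g + 1) * (g + 1))) +
    (Fintype.card (σ × σ × σ) * ((g + 1) * ((g + 2) * (g + 1)) + 1 * ((g + 1) * (g + 1))) +
    (Fintype.card ((σ × σ) × Pr) * ((g + 2) * ((g + 2) * (g + 1))) +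
    (Fintype.card ((σ × σ) × Pr) * ((g + 1) * ((g + 2) * (g + 2)) + 1 * ((g + 1) * (g + 2))) +
    (Fintype.card (σ × σ) * gcost (Fintype.card σ) (Fintype.card Pr) g + 0)))))))))))) _ ?_
    (le_of_eq (by simp only [Fintype.card_prod, ncost]; ring))
  -- the upper wires reach their starting labels
  refine Mach.step (fun t => -D.P3 t) (fun t => 0 + K3a (D.P t.2.1) (D.P t.2.2) (D.P t.1)) x _ hx
    (fun t => (D.k3 (D.hPP t.1) (hP t.2.1) (hP t.2.2)).of_eq (by unfold Design.P3; net_k3))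
    fun S₀ i₀ jx => ?_
  -- stage 1
  refine D.layer1 (fun _ : σ × σ => 0) (fun q => K3a (D.P q.1) (D.P q.2)) fa S₀
    (fun q T => x (T, q.1, q.2)) (fun q T => y (T, q.1, q.2)) (fun q p => a₁ (q, p))
    (fun q T => jx (T, q.1, q.2)) (fun q T => i₀ _ _ (hy _)) (fun q p => i₀ _ _ (h₁ _))
    fun S₁ i₁ kx ky k₁ => ?_
  -- transition to stage 2
  refine Mach.step (fun t : σ × σ × σ => 0 + K3a (D.P t.2.1) (D.P t.2.2) I)
    (fun t : σ × σ × σ => K3 (I - D.P t.1) I (D.P t.2.2) +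
    K3b (D.P t.1) (D.P t.2.2) (D.P t.2.1)) x _ (fun t => kx t.2 t.1)
    (fun t => (D.k3 (hQ t.1) (hQ t.2.1) (hP t.2.2)).of_eq (by net_k3)) fun S₂ i₂ lx => ?_
  refine Mach.step (fun t : σ × σ × σ => 0 + K3a (D.P t.2.1) (D.P t.2.2) (I - D.P t.1))
    (fun t : σ × σ × σ => K3 (I - D.P t.1) I (D.P t.2.2))
    (fun t => y t + x t) _ (fun t => i₂ _ _ (ky t.2 t.1))
    (fun t => (D.k3 (hQ t.1) (hQ t.2.1) (hP t.2.2)).of_eq (by net_k3)) fun S₃ i₃ ly => ?_
  refine Mach.step (fun p : (σ × σ) × Pr => 0 + K3a (D.P p.1.1) (D.P p.1.2) I)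
    (fun _ => K3 I I I) a₁ _ (fun p => i₃ _ _ (i₂ _ _ (k₁ p.1 p.2)))
    (fun p => ((D.k3 h1 (hQ p.1.1) h1).add (D.k3 h1 (hP p.1.1) (hQ p.1.2))).of_eq (by net_k3))
    fun S₄ i₄ l₁ => ?_
  refine Mach.step (fun _ : (σ × σ) × Pr => 0)
    (fun p : (σ × σ) × Pr => K3 (I - D.P p.1.1) I (D.P p.1.2)) a₂ _
    (fun p => i₄ _ _ (i₃ _ _ (i₂ _ _ (i₁ _ _ (i₀ _ _ (h₂ p))))))
    (fun p => (D.k3 (hQ p.1.1) h1 (hP p.1.2)).of_eq (by net_k3)) fun S₅ i₅ l₂ => ?_
  -- stage 2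
  refine D.layer2 (fun q : σ × σ => K3 (I - D.P q.1) I (D.P q.2))
    (fun q => K3b (D.P q.1) (D.P q.2)) fb S₅ (fun q T => x (q.1, T, q.2))
    (fun q T => y (q.1, T, q.2) + x (q.1, T, q.2)) (fun q p => a₂ (q, p))
    (fun q T => i₅ _ _ (i₄ _ _ (i₃ _ _ (lx (q.1, T, q.2)))))
    (fun q T => i₅ _ _ (i₄ _ _ (ly (q.1, T, q.2)))) (fun q p => l₂ (q, p))
    fun S₆ i₆ mx my m₂ => ?_
  -- transition to stage 3
  refine Mach.step (fun t : σ × σ × σ => K3 (I - D.P t.1) I (D.P t.2.2) +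
      K3b (D.P t.1) (D.P t.2.2) I)
    (fun t : σ × σ × σ => (K3 I I I - K3 (D.P t.1) (D.P t.2.1) I) +
    K3c (D.P t.1) (D.P t.2.1) (D.P t.2.2)) (fun t => x t - (y t + x t)) _
    (fun t => mx (t.1, t.2.2) t.2.1)
    (fun t => ((D.k3 (hQ t.1) h1 (hQ t.2.2)).add
      (D.k3 (hP t.1) (hQ t.2.1) (hQ t.2.2))).of_eq (by net_k3)) fun S₇ i₇ nx => ?_
  refine Mach.step (fun t : σ × σ × σ => K3 (I - D.P t.1) I (D.P t.2.2) +
      K3b (D.P t.1) (D.P t.2.2) (I - D.P t.2.1))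
    (fun t : σ × σ × σ => K3 I I I - K3 (D.P t.1) (D.P t.2.1) I)
    (fun t => y t + x t) _ (fun t => i₇ _ _ (my (t.1, t.2.2) t.2.1))
    (fun t => ((D.k3 (hQ t.1) h1 (hQ t.2.2)).add
      (D.k3 (hP t.1) (hQ t.2.1) (hQ t.2.2))).of_eq (by net_k3)) fun S₈ i₈ ny => ?_
  refine Mach.step (fun p : (σ × σ) × Pr => K3 (I - D.P p.1.1) I (D.P p.1.2) +
      K3b (D.P p.1.1) (D.P p.1.2) I)
    (fun _ => K3 I I I) a₂ _ (fun p => i₈ _ _ (i₇ _ _ (m₂ p.1 p.2)))
    (fun p => (D.k3 h1 h1 (hQ p.1.2)).of_eq (by net_k3)) fun S₉ i₉ n₂ => ?_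
  refine Mach.step (fun _ : (σ × σ) × Pr => 0)
    (fun p : (σ × σ) × Pr => K3 I I I - K3 (D.P p.1.1) (D.P p.1.2) I) a₃ _
    (fun p => i₉ _ _ (i₈ _ _ (i₇ _ _ (i₆ _ _ (i₅ _ _ (i₄ _ _ (i₃ _ _ (i₂ _ _ (i₁ _ _
      (i₀ _ _ (h₃ p)))))))))))
    (fun p => ((D.k3 (hQ p.1.1) h1 h1).add (D.k3 (hP p.1.1) (hQ p.1.2) h1)).of_eq (by net_k3))
    fun T₀ j₀ n₃ => ?_
  -- stage 3
  refine D.layer1 (fun q : σ × σ => K3 I I I - K3 (D.P q.1) (D.P q.2) I)
    (fun q => K3c (D.P q.1) (D.P q.2)) fc T₀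
    (fun q T => x (q.1, q.2, T) - (y (q.1, q.2, T) + x (q.1, q.2, T)))
    (fun q T => y (q.1, q.2, T) + x (q.1, q.2, T)) (fun q p => a₃ (q, p))
    (fun q T => j₀ _ _ (i₉ _ _ (i₈ _ _ (nx (q.1, q.2, T)))))
    (fun q T => j₀ _ _ (i₉ _ _ (ny (q.1, q.2, T)))) (fun q p => n₃ (q, p))
    fun T₁ j₁ ox oy o₃ => ?_
  refine k T₁ (fun t => ?_) (fun t => ?_) (fun p => ?_) (fun p => ?_) (fun p => ?_)
  · have := oy (t.1, t.2.1) t.2.2
    rw [e2 t] at this
    simpa using this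
  · have := neg_mem (ox (t.1, t.2.1) t.2.2)
    rw [e1] at this
    have e : -(x (t.1, t.2.1, t.2.2) - (y (t.1, t.2.1, t.2.2) + x (t.1, t.2.1, t.2.2))) = y t := by
      abel
    exact e ▸ this
  · rw [zero_add]
    exact j₁ _ _ (j₀ _ _ (i₉ _ _ (i₈ _ _ (i₇ _ _ (i₆ _ _ (i₅ _ _ (l₁ p)))))))
  · rw [zero_add]
    exact j₁ _ _ (j₀ _ _ (n₂ p))
  · have := o₃ p.1 p.2
    rwa [e1] at this

/-- The wires of the network. -/
abbrev Wire (σ Pr : Type) : Type :=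
  ((σ × σ × σ) ⊕ (σ × σ × σ)) ⊕ (((σ × σ) × Pr) ⊕ ((σ × σ) × Pr) ⊕ ((σ × σ) × Pr))

omit [DecidableEq σ] in
lemma card_wire : Fintype.card (Wire σ Pr) =
    2 * Fintype.card σ ^ 3 + 3 * (Fintype.card σ ^ 2 * Fintype.card Pr) := by
  simp only [Fintype.card_sum, Fintype.card_prod]
  ring

theorem Design.wires : ∃ inL : Wire σ Pr → ZL (H × H × H), ∀ (S : M.St) (u : Wire σ Pr → U),
    (∀ w, u w ∈ M.Has S (inL w)) →
    (∀ T, (∀ w, u w ∈ M.Has T (inL w + K3 D.one D.one D.one)) → M.Goal T 0) →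
    M.Goal S (ncost (Fintype.card σ) (Fintype.card Pr) g) := by
  refine ⟨Sum.elim (Sum.elim (fun t => -D.P3 t) fun _ => 0) fun _ => 0, fun S u hu k => ?_⟩
  refine D.swap S (fun t => u (Sum.inl (Sum.inl t))) (fun t => u (Sum.inl (Sum.inr t)))
    (fun p => u (Sum.inr (Sum.inl p))) (fun p => u (Sum.inr (Sum.inr (Sum.inl p))))
    (fun p => u (Sum.inr (Sum.inr (Sum.inr p)))) (fun t => hu (Sum.inl (Sum.inl t)))
    (fun t => hu (Sum.inl (Sum.inr t))) (fun p => hu (Sum.inr (Sum.inl p)))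
    (fun p => hu (Sum.inr (Sum.inr (Sum.inl p)))) (fun p => hu (Sum.inr (Sum.inr (Sum.inr p))))
    fun T hx hy h₁ h₂ h₃ => k T ?_
  rintro ((t | t) | p | p | p)
  exacts [hx t, hy t, h₁ p, h₂ p, h₃ p]

end Crest.Agent.R326
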