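import Crest.Agent.R324.Recur
import Crest.Agent.R326.NetAbs

/-!
The two concrete designs on transversal triples.
-/

set_option autoImplicit false

namespace Crest.Agent.R326

open Matrix

section Triples

variable {b : ℕ}

/-- Indicator vector of a transversal triple. -/
def tz (S : Fin 3 → Fin b) : Fin 3 × Fin b → ℤ := fun p => if S p.1 = p.2 then 1 else 0

/-- The number of agreements. -/
def agree (S T : Fin 3 → Fin b) : ℤ := ∑ i, if S i = T i then 1 else 0

lemma tz_cases (S : Fin 3 → Fin b) (p : Fin 3 × Fin b) : tz S p = 0 ∨ tz S p = 1 := by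
  unfold tz; split_ifs <;> simp

lemma tz_dot (S T : Fin 3 → Fin b) : ∑ j, tz S j * tz T j = agree S T := by
  simp only [tz, agree, Fintype.sum_prod_type, ite_mul, one_mul, zero_mul,
    Finset.sum_ite_eq, Finset.mem_univ, if_true]
  simp only [eq_comm]

lemma tz_sum (S : Fin 3 → Fin b) : ∑ j, tz S j = 3 := by
  simp only [tz, Fintype.sum_prod_type, Finset.sum_ite_eq, Finset.mem_univ, if_true]
  simp

lemma agree_self (S : Fin 3 → Fin b) : agree S S = 3 := by simp [agree]

lemma agree_comm (S T : Fin 3 → Fin b) : agree S T = agree T S := by simp only [agree, eq_comm]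

lemma triple_eq_iff (S T : Fin 3 → Fin b) : T = S ↔ S 0 = T 0 ∧ S 1 = T 1 ∧ S 2 = T 2 := by
  constructor
  · rintro rfl; simp
  · rintro ⟨h0, h1, h2⟩
    funext j
    fin_cases j
    · exact h0.symm
    · exact h1.symm
    · exact h2.symm

lemma sum_pairs {σ : Type} [Fintype σ] [DecidableEq σ] (c : σ × σ → Prop) [DecidablePred c]
    (E : σ → σ → ℤ) (S T : σ) :
    ∑ p : {p : σ × σ // c p}, (if p.1.1 = S ∧ p.1.2 = T then E p.1.1 p.1.2 else 0) =
      if c (S, T) then E S T else 0 := by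
  split_ifs with h
  · rw [Finset.sum_eq_single (⟨(S, T), h⟩ : {p : σ × σ // c p})]
    · simp
    · rintro ⟨⟨S', T'⟩, h'⟩ _ hne
      rw [if_neg]
      rintro ⟨rfl, rfl⟩
      exact hne rfl
    · simp
  · refine Finset.sum_eq_zero ?_
    rintro ⟨⟨S', T'⟩, h'⟩ _
    rw [if_neg]
    rintro ⟨rfl, rfl⟩
    exact h h'

end Triples

section Bits

variable {H : Type} [Fintype H] [DecidableEq H]

/-- `A` is a sum of at most `r` integer matrices of rank one with entries at most `10`. -/
def LenB (A : ZL H) (r : ℕ) : Prop :=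
  ∃ (s : Finset H) (u v : H → H → ℤ), s.card ≤ r ∧
    (∀ j i, (u j i).natAbs ≤ 10 ∧ (v j i).natAbs ≤ 10) ∧ A = ∑ j ∈ s, vecMulVec (u j) (v j)

omit [Fintype H] [DecidableEq H] in
lemma LenB.k3 {U : Type} [AddCommGroup U] {M : Mach (ZL (H × H × H)) U}
    (hone : ∀ u v : H × H × H → ℤ, (∀ i, (u i).natAbs ≤ 1000 ∧ (v i).natAbs ≤ 1000) →
      M.Moves (vecMulVec u v) 1)
    {A B C : ZL H} {r s t : ℕ} (hA : LenB A r) (hB : LenB B s) (hC : LenB C t) :
    M.Moves (K3 A B C) (r * (s * t)) := by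
  obtain ⟨s₁, u₁, v₁, c₁, b₁, rfl⟩ := hA
  obtain ⟨s₂, u₂, v₂, c₂, b₂, rfl⟩ := hB
  obtain ⟨s₃, u₃, v₃, c₃, b₃, rfl⟩ := hC
  have bd : ∀ x y z : ℤ, x.natAbs ≤ 10 → y.natAbs ≤ 10 → z.natAbs ≤ 10 →
      (x * (y * z)).natAbs ≤ 1000 := by
    intro x y z hx hy hz
    rw [Int.natAbs_mul, Int.natAbs_mul]
    exact Nat.mul_le_mul hx (Nat.mul_le_mul hy hz)
  refine ((Mach.Moves.sum s₁ _ _ fun i _ => Mach.Moves.sum s₂ _ _ fun j _ =>
    Mach.Moves.sum s₃ _ _ fun k _ =>
      hone (fun a => u₁ i a.1 * (u₂ j a.2.1 * u₃ k a.2.2))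
        (fun a => v₁ i a.1 * (v₂ j a.2.1 * v₃ k a.2.2)) fun a =>
        ⟨bd _ _ _ (b₁ _ _).1 (b₂ _ _).1 (b₃ _ _).1,
          bd _ _ _ (b₁ _ _).2 (b₂ _ _).2 (b₃ _ _).2⟩).mono ?_).of_eq ?_
  · rw [mul_one]
    exact Nat.mul_le_mul c₁ (Nat.mul_le_mul c₂ c₃)
  · ext a b
    simp only [K3_apply, Matrix.sum_apply, vecMulVec_apply]
    rw [Finset.sum_mul]
    refine Finset.sum_congr rfl fun i _ => ?_
    rw [Finset.sum_mul, Finset.mul_sum]
    refine Finset.sum_congr rfl fun j _ => ?_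
    rw [Finset.mul_sum, Finset.mul_sum]
    exact Finset.sum_congr rfl fun k _ => by ring

lemma LenB.of_mul (A C : ZL H) (s : Finset H) (hs : ∀ j, j ∉ s → ∀ i, C j i = 0)
    (hA : ∀ i j, (A i j).natAbs ≤ 10) (hC : ∀ i j, (C i j).natAbs ≤ 10) (e : A * C = A) :
    LenB A s.card := by
  refine ⟨s, fun j i => A i j, fun j i => C j i, le_rfl, fun j i => ⟨hA _ _, hC _ _⟩, ?_⟩
  refine e.symm.trans ?_
  ext i k
  simp only [Matrix.mul_apply, Matrix.sum_apply, vecMulVec_apply]
  refine (Finset.sum_subset (Finset.subset_univ _) fun j _ hj => ?_).symm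
  rw [hs j hj, mul_zero]

lemma LenB.full (A : ZL H) (hA : ∀ i j, (A i j).natAbs ≤ 10) : LenB A (Fintype.card H) :=
  LenB.of_mul A 1 Finset.univ (by simp) hA
    (fun i j => by rw [Matrix.one_apply]; split_ifs <;> simp) (mul_one _)

lemma LenB.elim_one (A : ZL H) (hA : ∀ i j, (A i j).natAbs ≤ 10) (s : H → ℤ) (a : H)
    (hs : ∀ i, s i = 0 ∨ s i = 1) (h : A *ᵥ s = 0) (ha : s a = 1) :
    LenB A (Fintype.card H - 1) := by
  have := LenB.of_mul A (1 - vecMulVec s (Pi.single a 1)) {a}ᶜ (fun j hj i => ?_) hA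
    (fun i j => ?_) (by rw [mul_sub, mul_one, Matrix.mul_vecMulVec, h]; simp)
  · simpa [Finset.card_compl] using this
  · obtain rfl : j = a := by simpa using hj
    simp [vecMulVec_apply, ha, Matrix.one_apply, Pi.single_apply, eq_comm]
  · simp only [Matrix.sub_apply, vecMulVec_apply, Matrix.one_apply, Pi.single_apply]
    rcases hs i with h | h <;> rw [h] <;> split_ifs <;> simp

lemma LenB.elim_two (A : ZL H) (hA : ∀ i j, (A i j).natAbs ≤ 10) (s t : H → ℤ) (a b : H)
    (hs : ∀ i, s i = 0 ∨ s i = 1) (ht : ∀ i, t i = 0 ∨ t i = 1) (h : A *ᵥ s = 0)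
    (h' : A *ᵥ t = 0) (hsa : s a = 1) (hta : t a = 0) (hsb : s b = 0) (htb : t b = 1) :
    LenB A (Fintype.card H - 2) := by
  have hab : a ≠ b := by
    rintro rfl
    omega
  have := LenB.of_mul A (1 - vecMulVec s (Pi.single a 1) - vecMulVec t (Pi.single b 1)) {a, b}ᶜ
    (fun j hj i => ?_) hA (fun i j => ?_)
    (by rw [mul_sub, mul_sub, mul_one, Matrix.mul_vecMulVec, Matrix.mul_vecMulVec, h, h']; simp)
  · rwa [Finset.card_compl, Finset.card_pair hab] at this
  · have hj' : j = a ∨ j = b := by simpa [or_iff_not_imp_left] using hj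
    rcases hj' with rfl | rfl <;>
      simp [vecMulVec_apply, hsa, hta, hsb, htb, Matrix.one_apply, Pi.single_apply, eq_comm]
  · simp only [Matrix.sub_apply, vecMulVec_apply, Matrix.one_apply, Pi.single_apply]
    rcases hs i with h | h <;> rcases ht i with h' | h' <;> rw [h, h'] <;> split_ifs <;> simp

omit [Fintype H] [DecidableEq H] in
lemma LenB.rank_one (a : H) (u v : H → ℤ) (h : ∀ i, (u i).natAbs ≤ 10 ∧ (v i).natAbs ≤ 10) :
    LenB (vecMulVec u v) 1 :=
  ⟨{a}, fun _ => u, fun _ => v, by simp, fun _ => h, by simp⟩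

variable {b : ℕ}

/-- The label of a triple. -/
def PBn (S : Fin 3 → Fin b) : ZL (Fin 3 × Fin b) := vecMulVec (tz S) fun j => 3 * tz S j - 1

lemma PB_apply (S : Fin 3 → Fin b) (i j : Fin 3 × Fin b) :
    PBn S i j = tz S i * (3 * tz S j - 1) := rfl

lemma PB_mulVec (S T : Fin 3 → Fin b) : PBn S *ᵥ tz T = (3 * agree S T - 3) • tz S := by
  funext i
  simp only [Matrix.mulVec, dotProduct, PB_apply, mul_assoc, sub_mul, one_mul, Pi.smul_apply,
    smul_eq_mul]
  rw [← Finset.mul_sum, Finset.sum_sub_distrib, ← Finset.mul_sum, tz_dot, tz_sum]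
  ring

/-- Pairs with exactly one agreement. -/
abbrev BP (b : ℕ) : Type := {p : (Fin 3 → Fin b) × (Fin 3 → Fin b) // agree p.1 p.2 = 1}

/-- The design in characteristic two. -/
def designB {U : Type} [AddCommGroup U]
    (M : Mach (ZL ((Fin 3 × Fin b) × (Fin 3 × Fin b) × (Fin 3 × Fin b))) U) (g : ℕ)
    (hg : 3 * b = g + 2) (hh : ∀ z, M.h z = z) (h2 : ∀ z : U, z + z = 0)
    (hone : ∀ u v : (Fin 3 × Fin b) × (Fin 3 × Fin b) × (Fin 3 × Fin b) → ℤ,
      (∀ i, (u i).natAbs ≤ 1000 ∧ (v i).natAbs ≤ 1000) → M.Moves (vecMulVec u v) 1) :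
    Design M (Fin 3 → Fin b) (BP b) g where
  one := (6 : ℤ) • 1
  P := PBn
  src p := p.1.2
  tgt p := p.1.1
  E _ := 1
  G j T := tz T j
  R S j := tz S j
  Len := LenB
  k3 := LenB.k3 hone
  card := by simp [hg]
  h1 := by
    have := LenB.full ((6 : ℤ) • (1 : ZL (Fin 3 × Fin b))) fun i j => by
      simp only [Matrix.smul_apply, Matrix.one_apply]; split_ifs <;> simp
    simpa [hg] using this
  h1n := by
    have := LenB.full (-((6 : ℤ) • (1 : ZL (Fin 3 × Fin b)))) fun i j => by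
      simp only [Matrix.neg_apply, Matrix.smul_apply, Matrix.one_apply]; split_ifs <;> simp
    simpa [hg] using this
  hP S := LenB.rank_one (0, S 0) _ _ fun i => by rcases tz_cases S i with h | h <;> simp [h]
  hPP S := by
    rw [PBn, ← Matrix.add_vecMulVec]
    exact LenB.rank_one (0, S 0) _ _ fun i => by rcases tz_cases S i with h | h <;> simp [h]
  hQ S := by
    have := LenB.elim_one ((6 : ℤ) • (1 : ZL (Fin 3 × Fin b)) - PBn S) (fun i j => by
      simp only [Matrix.sub_apply, Matrix.smul_apply, Matrix.one_apply, PB_apply]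
      rcases tz_cases S i with h | h <;> rcases tz_cases S j with h' | h' <;> rw [h, h'] <;>
        split_ifs <;> simp) (tz S) (0, S 0) (tz_cases S) (by
      rw [Matrix.sub_mulVec, PB_mulVec, agree_self, Matrix.smul_mulVec, Matrix.one_mulVec]
      simp) (by simp [tz])
    simpa [hg] using this
  hPQ := by
    rintro ⟨⟨S, T⟩, hp⟩
    obtain ⟨i, hi⟩ : ∃ i, S i ≠ T i := by
      by_contra h
      push Not at h
      obtain rfl : S = T := funext h
      rw [agree_self] at hp
      omega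
    have hp' : agree T S = 1 := by rw [agree_comm]; exact hp
    have := LenB.elim_two ((6 : ℤ) • (1 : ZL (Fin 3 × Fin b)) - PBn S - PBn T) (fun i j => by
      simp only [Matrix.sub_apply, Matrix.smul_apply, Matrix.one_apply, PB_apply]
      rcases tz_cases S i with h | h <;> rcases tz_cases S j with h' | h' <;>
        rcases tz_cases T i with k | k <;> rcases tz_cases T j with k' | k' <;>
        rw [h, h', k, k'] <;> split_ifs <;> simp) (tz S) (tz T) (i, S i) (i, T i)
      (tz_cases S) (tz_cases T) (by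
        rw [Matrix.sub_mulVec, Matrix.sub_mulVec, PB_mulVec, PB_mulVec, agree_self, hp',
          Matrix.smul_mulVec, Matrix.one_mulVec]
        simp) (by
        rw [Matrix.sub_mulVec, Matrix.sub_mulVec, PB_mulVec, PB_mulVec, agree_self, hp,
          Matrix.smul_mulVec, Matrix.one_mulVec]
        simp) (by simp [tz]) (by simp [tz, hi.symm]) (by simp [tz, hi]) (by simp [tz])
    simpa [hg] using this
  key S T z := by
    rw [hh, hh, tz_dot, sum_pairs (fun p => agree p.1 p.2 = 1) (fun _ _ => 1) S T]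
    have e2 : ((1 : ℤ) + 1) • z = 0 := by rw [add_smul, one_smul, h2]
    have e3 : ((1 : ℤ) + 1 + 1) • z = z := by rw [add_smul, e2, one_smul, zero_add]
    simp only [agree, Fin.sum_univ_three, triple_eq_iff]
    by_cases h0 : S 0 = T 0 <;> by_cases h1 : S 1 = T 1 <;> by_cases h2 : S 2 = T 2 <;>
      simp only [h0, h1, h2, if_true, if_false, add_zero, zero_add, e2, e3, and_self, and_true,
        and_false] <;> simp

end Bits

section Bfly

/-- `A` is symmetric and, modulo two, a sum of at most `r` matrices `u uᵀ`. -/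
def LenS {H : Type} (A : ZL H) (r : ℕ) : Prop :=
  A.IsSymm ∧ R324.Len (A.map (Int.cast : ℤ → ZMod 2)) r

lemma LenS.moves {ι U : Type} [AddCommGroup U] {M : Mach (ZL ι) U}
    (hone : ∀ u : ι → ℤ, M.Moves (vecMulVec u u) 1)
    (hfree : ∀ N : ZL ι, N.IsSymm → M.Moves ((2 : ℤ) • N) 0) {A : ZL ι} {r : ℕ} (h : LenS A r) :
    M.Moves A r := by
  obtain ⟨hs, h⟩ := h
  generalize e : A.map (Int.cast : ℤ → ZMod 2) = A' at h
  induction h generalizing A with
  | zero r =>
    refine ((hfree (A.map fun c => c / 2) (hs.map _)).mono (Nat.zero_le _)).of_eq ?_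
    ext i j
    have : ((A i j : ℤ) : ZMod 2) = 0 := congrFun (congrFun e i) j
    have := (ZMod.intCast_zmod_eq_zero_iff_dvd _ _).1 this
    simp only [Matrix.smul_apply, Matrix.map_apply, smul_eq_mul]
    omega
  | step u _ ih =>
    refine ((ih (A := A - vecMulVec (fun i => ((u i).val : ℤ)) fun i => ((u i).val : ℤ))
      (hs.sub (Matrix.transpose_vecMulVec _ _)) ?_).add (hone fun i => ((u i).val : ℤ))).of_eq
      (by abel)
    ext i j
    have := congrFun (congrFun e i) j
    simp only [Matrix.map_apply, Matrix.add_apply, vecMulVec_apply] at this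
    simp [vecMulVec_apply, this]

lemma LenS.k3 {H : Type} {A B C : ZL H} {r s t : ℕ} (hA : LenS A r) (hB : LenS B s)
    (hC : LenS C t) : LenS (K3 A B C) (r * (s * t)) := by
  refine ⟨?_, (hA.2.k3 hB.2 hC.2).of_eq ?_⟩
  · ext a b
    simp only [Matrix.transpose_apply, K3_apply, hA.1.apply, hB.1.apply, hC.1.apply]
  · ext a b
    simp [K3_apply, R324.K3_apply]

variable {b : ℕ}

lemma cast_tz (S : Fin 3 → Fin b) (p : Fin 3 × Fin b) : ((tz S p : ℤ) : ZMod 2) = R324.tv S p := by
  unfold tz R324.tv; split_ifs <;> simp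

/-- The design with two invertible. -/
def designS {U : Type} [AddCommGroup U]
    (M : Mach (ZL ((Fin 3 × Fin b) × (Fin 3 × Fin b) × (Fin 3 × Fin b))) U) (g : ℕ) (hb : 3 ≤ b)
    (hg : 3 * b = g + 2) (hh : ∀ z, M.h (z + z) = z)
    (hone : ∀ u : (Fin 3 × Fin b) × (Fin 3 × Fin b) × (Fin 3 × Fin b) → ℤ,
      M.Moves (vecMulVec u u) 1)
    (hfree : ∀ N : ZL ((Fin 3 × Fin b) × (Fin 3 × Fin b) × (Fin 3 × Fin b)), N.IsSymm →
      M.Moves ((2 : ℤ) • N) 0) :
    Design M (Fin 3 → Fin b) (R324.OP b) g where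
  one := 1
  P S := vecMulVec (tz S) (tz S)
  src p := p.1.2
  tgt p := p.1.1
  E p := agree p.1.1 p.1.2 - 1
  G j T := tz T j
  R S j := tz S j - if j.1 = 0 then 1 else 0
  Len := LenS
  k3 hA hB hC := (hA.k3 hB hC).moves hone hfree
  card := by simp [hg]
  h1 := ⟨Matrix.isSymm_one, (R324.design g hb hg).h1.of_eq (by simp)⟩
  h1n := ⟨Matrix.isSymm_one.neg, (R324.design g hb hg).h1.neg.of_eq (by
    ext i j
    simp only [Matrix.map_apply, Matrix.neg_apply, Matrix.one_apply]
    split_ifs <;> simp)⟩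
  hP S := ⟨Matrix.transpose_vecMulVec _ _, (R324.Len.rank_one (R324.tv S)).of_eq (by
    ext i j
    simp [vecMulVec_apply, cast_tz])⟩
  hPP S := ⟨Matrix.IsSymm.add (Matrix.transpose_vecMulVec _ _) (Matrix.transpose_vecMulVec _ _),
    (R324.Len.zero 1).of_eq (by
      have h2 : ∀ z : ZMod 2, z + z = 0 := by decide
      ext i j
      simp [h2])⟩
  hQ S := ⟨Matrix.isSymm_one.sub (Matrix.transpose_vecMulVec _ _),
    ((R324.design g hb hg).hQ S).of_eq (by
      ext i j
      simp [R324.design, vecMulVec_apply, cast_tz, Matrix.one_apply])⟩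
  hPQ p := ⟨(Matrix.isSymm_one.sub (Matrix.transpose_vecMulVec _ _)).sub
      (Matrix.transpose_vecMulVec _ _),
    ((R324.design g hb hg).hPQ p).of_eq (by
      ext i j
      simp [R324.design, vecMulVec_apply, cast_tz, Matrix.one_apply])⟩
  key S T z := by
    have e1 : ∑ j : Fin 3 × Fin b, (tz S j - if j.1 = 0 then 1 else 0) * tz T j =
        agree S T - 1 := by
      simp only [sub_mul, Finset.sum_sub_distrib, tz_dot]
      simp [tz, Fintype.sum_prod_type]
    rw [e1, sum_pairs (fun p => R324.tv p.1 ⬝ᵥ R324.tv p.2 = 0) (fun S T => agree S T - 1) S T]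
    have e2 : M.h (((1 : ℤ) + 1 + 1 - 1) • z) = z := by
      rw [add_sub_cancel_right, add_smul, one_smul, hh]
    have e3 : (1 + 1 + 1 : ZMod 2) ≠ 0 := by decide
    have e4 : (1 + 1 : ZMod 2) = 0 := by decide
    simp only [agree, R324.tv_dot, Fin.sum_univ_three, triple_eq_iff]
    by_cases h0 : S 0 = T 0 <;> by_cases h1 : S 1 = T 1 <;> by_cases h2 : S 2 = T 2 <;>
      simp only [h0, h1, h2, if_true, if_false, add_zero, zero_add, e2, e3, e4, and_self, and_true,
        and_false] <;> simp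

end Bfly

end Crest.Agent.R326
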