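import Crest.Agent.R326.Defs
import Crest.Agent.R326.NetAbs

/-!
The interpretation of abstract labelled networks by programs.
-/

set_option autoImplicit false

namespace Crest.Agent.R326

open Crest.Agent.Lib.PT Crest.Agent.Lib.LT

section Sem

variable {A X : Type} [Enc X] {cur : A → P} {B : A → ℕ} {x : In B} {V : A → Type}
  [∀ a, AddCommGroup (V a)] {L : Type} [AddCommGroup L] {Φ : ∀ a, L → V a →+ V a}
  {hf : ∀ a, V a →+ V a} {rep : ∀ a, V a → X}

/-- The free operations of an interpretation. -/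
structure SemOK (cur : A → P) (x : In B) (Φ : ∀ a, L → V a →+ V a) (hf : ∀ a, V a →+ V a)
    (rep : ∀ a, V a → X) : Prop where
  map_zero : ∀ a z, Φ a 0 z = z
  map_add : ∀ a M N z, Φ a (M + N) z = Φ a M (Φ a N z)
  comm : ∀ a M z, Φ a M (hf a z) = hf a (Φ a M z)
  zero : CT cur x (fun a => rep a 0)
  add : ∀ (x' : In B) (u v : ∀ a, V a), CT cur x' x.val → CT cur x' (fun a => rep a (u a)) →
    CT cur x' (fun a => rep a (v a)) → CT cur x' (fun a => rep a (u a + v a))
  neg : ∀ (x' : In B) (u : ∀ a, V a), CT cur x' x.val → CT cur x' (fun a => rep a (u a)) →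
    CT cur x' (fun a => rep a (-u a))
  half : ∀ (x' : In B) (u : ∀ a, V a), CT cur x' x.val → CT cur x' (fun a => rep a (u a)) →
    CT cur x' (fun a => rep a (hf a (u a)))

/-- The machine of an interpretation. -/
def SemOK.mach (S : SemOK cur x Φ hf rep) (Q : A → ℕ) (z : A → List X) : Mach L (∀ a, V a) where
  St := {x' : In B // CT cur x' x.val}
  Has x' l :=
    { carrier := {u | CT cur x'.1 (fun a => rep a (Φ a l (u a)))}
      zero_mem' := (x'.2.trans S.zero).congr fun a => by simp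
      add_mem' := fun {u v} hu hv =>
        (S.add x'.1 (fun a => Φ a l (u a)) (fun a => Φ a l (v a)) x'.2 hu hv).congr
          fun a => by simp
      neg_mem' := fun {u} hu =>
        (S.neg x'.1 (fun a => Φ a l (u a)) x'.2 hu).congr fun a => by simp }
  Goal x' r := CTQ cur x'.1 (fun a => r * Q a) z
  h := AddMonoidHom.mk' (fun u a => hf a (u a)) fun u v => by funext a; simp
  has_h x' l u hu := (S.half x'.1 (fun a => Φ a l (u a)) x'.2 hu).congr fun a => by
    rw [← S.comm]; rfl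
  goal_mono _ _ _ h hr := h.mono fun _ => Nat.mul_le_mul_right _ hr

variable (S : SemOK cur x Φ hf rep) (Q : A → ℕ) (z : A → List X)

lemma SemOK.mem_has (x' : (S.mach Q z).St) (l : L) (u : ∀ a, V a) :
    u ∈ (S.mach Q z).Has x' l ↔ CT cur x'.1 (fun a => rep a (Φ a l (u a))) := Iff.rfl

lemma SemOK.h_apply (u : ∀ a, V a) (a : A) : (S.mach Q z).h u a = hf a (u a) := rfl

lemma SemOK.moves_one {d : L} (h : ∀ (x' : In B) (u : ∀ a, V a), CT cur x' x.val →
    CT cur x' (fun a => rep a (u a)) → CTQ cur x' Q (fun a => rep a (Φ a d (u a)))) :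
    (S.mach Q z).Moves d 1 := by
  intro x' l u r' hu k
  refine ((h x'.1 _ x'.2 hu).bind (Q' := fun a => r' * Q a) fun x₁ h₁ h₂ =>
    k ⟨x₁, h₁.trans x'.2⟩ (fun _ _ hb => h₁.trans hb) (h₂.congr fun a => ?_)).mono
    fun a => le_of_eq (by ring)
  rw [add_comm, S.map_add]

lemma SemOK.moves_free {d : L} (h : ∀ (x' : In B) (u : ∀ a, V a), CT cur x' x.val →
    CT cur x' (fun a => rep a (u a)) → CT cur x' (fun a => rep a (Φ a d (u a)))) :
    (S.mach Q z).Moves d 0 := by
  intro x' l u r' hu k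
  rw [zero_add]
  refine k x' (fun _ _ hb => hb) ((h x'.1 _ x'.2 hu).congr fun a => ?_)
  rw [add_comm, S.map_add]

lemma ct_arr_const {x' : In B} (f : A → ℕ → X) (n : ℕ)
    (h : ∀ w, w < n → CT cur x' (fun a => f a w)) : CT cur x' (fun a => arr n (f a)) := by
  induction n with
  | zero => exact CT.const []
  | succ n ih =>
    exact ((ih fun w hw => h w (by omega)).append ((h n (by omega)).cons (CT.const []))).congr
      fun a => arr_succ _ _

lemma SemOK.finish {W : Type} [Fintype W] (full : L) (data : ∀ a, ℕ → V a) {r : ℕ}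
    (hd : ∀ w, w < Fintype.card W → CT cur x (fun a => rep a (data a w)))
    (hz : z = fun a => arr (Fintype.card W) fun w => rep a (Φ a full (data a w)))
    (h : ∃ inL : W → L, ∀ (s : (S.mach Q z).St) (u : W → ∀ a, V a),
      (∀ w, u w ∈ (S.mach Q z).Has s (inL w)) →
      (∀ T, (∀ w, u w ∈ (S.mach Q z).Has T (inL w + full)) → (S.mach Q z).Goal T 0) →
      (S.mach Q z).Goal s r) :
    CTQ cur x (fun a => r * Q a) z := by
  subst hz
  obtain ⟨inL, h⟩ := h
  let e := Fintype.equivFin W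
  refine h ⟨x, CT.val cur x⟩ (fun w a => Φ a (-inL w) (data a (e w))) (fun w => ?_) fun T hT => ?_
  · refine (hd (e w) (e w).2).congr fun a => ?_
    rw [← S.map_add, add_neg_cancel, S.map_zero]
  · refine CT.toQ (ct_arr_const _ _ fun w hw => ?_) _
    refine CT.congr (hT (e.symm ⟨w, hw⟩)) fun a => ?_
    simp only [← S.map_add, Equiv.apply_symm_apply]
    congr 3
    abel

end Sem

lemma netNum_of (n : ℕ) (hn : n ≤ 32768 * 32768) :
    2 ^ 46 ≤ 2 * 32768 ^ 3 + 3 * (32768 ^ 2 * n) ∧ 2 * 32768 ^ 3 + 3 * (32768 ^ 2 * n) ≤ 2 ^ 62 ∧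
    2 * 32768 ^ 3 + 3 * (32768 ^ 2 * n) ≤ ncost 32768 n 94 ∧
    ncost 32768 n 94 + 2 ^ 42 ≤ (2 * 32768 ^ 3 + 3 * (32768 ^ 2 * n)) * 884736 := by
  have h := ncost_eq 32768 n 94
  generalize ncost 32768 n 94 = r at h
  norm_num at h hn ⊢
  omega

end Crest.Agent.R326
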