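import Crest.Agent.R326.Defs
import Crest.Agent.R326.NetSem
import Crest.Agent.R326.NetDes

/-!
The two labelled networks: `W` wires are moved by the full label with fewer than `W * m` rank-one
moves.
-/

set_option autoImplicit false

namespace Crest.Agent.R326

open Crest.Agent.Lib.PT Crest.Agent.Lib.LT

/-- The numerical data of a network: `W` wires, labels of size `m`, `r` rank-one moves. -/
structure NetNum (W m r : ℕ) : Prop where
  m_lo : 2 ^ 19 ≤ m
  m_hi : m ≤ 2 ^ 20
  W_lo : 2 ^ 46 ≤ W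
  W_hi : W ≤ 2 ^ 62
  r_lo : W ≤ r
  save : r + 2 ^ 42 ≤ W * m

lemma netNum_wire {b : ℕ} (hb : b = 32) (c : (Fin 3 → Fin b) × (Fin 3 → Fin b) → Prop)
    [Fintype {p // c p}] :
    NetNum (Fintype.card (Wire (Fin 3 → Fin b) {p // c p})) 884736
      (ncost (Fintype.card (Fin 3 → Fin b)) (Fintype.card {p // c p}) 94) := by
  have hv : Fintype.card (Fin 3 → Fin b) = 32768 := by simp [hb]
  have hn : Fintype.card {p // c p} ≤ 32768 * 32768 := by
    have := Fintype.card_subtype_le c
    rwa [Fintype.card_prod, hv] at this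
  rw [card_wire, hv]
  obtain ⟨h1, h2, h3, h4⟩ := netNum_of _ hn
  exact ⟨by norm_num, by norm_num, h1, h2, h3, h4⟩

lemma exists_label_equiv {b : ℕ} (hb : b = 32) :
    Nonempty (Fin 884736 ≃ (Fin 3 × Fin b) × (Fin 3 × Fin b) × (Fin 3 × Fin b)) :=
  ⟨(Fintype.equivFinOfCardEq (by simp [hb])).symm⟩

lemma K3_smul_one {H ι : Type} [DecidableEq H] [DecidableEq ι] (e : ι ≃ H × H × H) (c : ℤ) :
    (K3 (c • (1 : ZL H)) (c • 1) (c • 1)).submatrix e e = c ^ 3 • 1 := by
  rw [← Matrix.submatrix_one_equiv e]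
  ext i j
  simp only [Matrix.smul_apply, Matrix.submatrix_apply, K3_apply, Matrix.one_apply, Prod.ext_iff,
    smul_eq_mul]
  split_ifs <;> first | ring1 | tauto

/-- The network with scalars in characteristic two. -/
theorem net_bits : ∃ W m r K₀ : ℕ, NetNum W m r ∧
    ∀ (A X : Type) [Enc X] (cur : A → P) (B : A → ℕ) (x : In B) (Q : A → ℕ) (V : A → Type)
      [∀ a, AddCommGroup (V a)] (Φ : ∀ a, Matrix (Fin m) (Fin m) ℤ → V a →+ V a)
      (rep : ∀ a, V a → X) (data : ∀ a, ℕ → V a),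
      (∀ a (z : V a), z + z = 0) →
      (∀ a z, Φ a 0 z = z) → (∀ a M N z, Φ a (M + N) z = Φ a M (Φ a N z)) →
      CT cur x (fun a => rep a 0) →
      (∀ (x' : In B) (u v : ∀ a, V a), CT cur x' x.val → CT cur x' (fun a => rep a (u a)) →
        CT cur x' (fun a => rep a (v a)) → CT cur x' (fun a => rep a (u a + v a))) →
      (∀ (u v : Fin m → ℤ), (∀ i, (u i).natAbs ≤ K₀ ∧ (v i).natAbs ≤ K₀) →
        ∀ (x' : In B) (z : ∀ a, V a), CT cur x' x.val → CT cur x' (fun a => rep a (z a)) →
        CTQ cur x' Q (fun a => rep a (Φ a (Matrix.vecMulVec u v) (z a)))) →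
      (∀ w, w < W → CT cur x (fun a => rep a (data a w))) →
      CTQ cur x (fun a => r * Q a)
        (fun a => arr W (fun w => rep a (Φ a ((216 : ℤ) • 1) (data a w)))) := by
  obtain ⟨b, hb⟩ : ∃ b : ℕ, b = 32 := ⟨_, rfl⟩
  obtain ⟨e⟩ := exists_label_equiv hb
  refine ⟨_, _, _, 1000, netNum_wire hb (fun p => agree p.1 p.2 = 1), ?_⟩
  intro A X _ cur B x Q V _ Φ rep data h2 hz ha h0 hadd hone hd
  have S : SemOK cur x (fun a (l : ZL _) => Φ a (l.submatrix e e)) (fun _ => AddMonoidHom.id _)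
      rep :=
    { map_zero := hz
      map_add := fun a M N z => ha a _ _ z
      comm := fun _ _ _ => rfl
      zero := h0
      add := hadd
      neg := fun x' u _ hu => hu.congr fun a => by rw [neg_eq_of_add_eq_zero_left (h2 a (u a))]
      half := fun _ _ _ hu => hu }
  refine (S.finish Q _ (K3 ((6 : ℤ) • 1) ((6 : ℤ) • 1) ((6 : ℤ) • 1)) data hd rfl
    (designB (S.mach Q _) 94 (by omega) (fun _ => rfl) (fun z => funext fun a => h2 a (z a))
      fun u v huv => S.moves_one Q _ (hone (u ∘ e) (v ∘ e) fun i => huv (e i))).wires).congr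
    fun a => ?_
  rw [K3_smul_one]
  rfl

/-- The network with scalars in which two is invertible. -/
theorem net_bfly : ∃ W m r : ℕ, NetNum W m r ∧
    ∀ (A X : Type) [Enc X] (cur : A → P) (B : A → ℕ) (x : In B) (Q : A → ℕ) (V : A → Type)
      [∀ a, AddCommGroup (V a)] (Φ : ∀ a, Matrix (Fin m) (Fin m) ℤ → V a →+ V a)
      (half : ∀ a, V a →+ V a) (rep : ∀ a, V a → X) (data : ∀ a, ℕ → V a),
      (∀ a (z : V a), half a (z + z) = z) →
      (∀ a z, Φ a 0 z = z) → (∀ a M N z, Φ a (M + N) z = Φ a M (Φ a N z)) →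
      CT cur x (fun a => rep a 0) →
      (∀ (x' : In B) (u v : ∀ a, V a), CT cur x' x.val → CT cur x' (fun a => rep a (u a)) →
        CT cur x' (fun a => rep a (v a)) → CT cur x' (fun a => rep a (u a + v a))) →
      (∀ (x' : In B) (u : ∀ a, V a), CT cur x' x.val → CT cur x' (fun a => rep a (u a)) →
        CT cur x' (fun a => rep a (-u a))) →
      (∀ (x' : In B) (u : ∀ a, V a), CT cur x' x.val → CT cur x' (fun a => rep a (u a)) →
        CT cur x' (fun a => rep a (half a (u a)))) →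
      (∀ (N : Matrix (Fin m) (Fin m) ℤ), N.IsSymm →
        ∀ (x' : In B) (z : ∀ a, V a), CT cur x' x.val → CT cur x' (fun a => rep a (z a)) →
        CT cur x' (fun a => rep a (Φ a ((2 : ℤ) • N) (z a)))) →
      (∀ (u : Fin m → ℤ),
        ∀ (x' : In B) (z : ∀ a, V a), CT cur x' x.val → CT cur x' (fun a => rep a (z a)) →
        CTQ cur x' Q (fun a => rep a (Φ a (Matrix.vecMulVec u u) (z a)))) →
      (∀ w, w < W → CT cur x (fun a => rep a (data a w))) →
      CTQ cur x (fun a => r * Q a) (fun a => arr W (fun w => rep a (Φ a 1 (data a w)))) := by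
  obtain ⟨b, hb⟩ : ∃ b : ℕ, b = 32 := ⟨_, rfl⟩
  obtain ⟨e⟩ := exists_label_equiv hb
  refine ⟨_, _, _, netNum_wire hb (fun p => R324.tv p.1 ⬝ᵥ R324.tv p.2 = 0), ?_⟩
  intro A X _ cur B x Q V _ Φ half rep data h2 hz ha h0 hadd hneg hhalf hfree hone hd
  have S : SemOK cur x (fun a (l : ZL _) => Φ a (l.submatrix e e)) half rep :=
    { map_zero := hz
      map_add := fun a M N z => ha a _ _ z
      comm := fun a M z => by
        rw [← h2 a (Φ a _ (half a z)), ← map_add, ← map_add, h2]
      zero := h0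
      add := hadd
      neg := hneg
      half := hhalf }
  refine (S.finish Q _ (K3 1 1 1) data hd rfl
    (designS (S.mach Q _) 94 (by omega) (by omega) (fun z => funext fun a => h2 a (z a))
      (fun u => S.moves_one Q _ (hone (u ∘ e)))
      fun N hN => S.moves_free Q _ (hfree _ (hN.submatrix e))).wires).congr fun a => ?_
  have := K3_smul_one e 1
  simp only [one_smul, one_pow] at this
  rw [this]

end Crest.Agent.R326
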