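import Crest.Agent.R326.Prod

/-!
The choice of the parameters.
-/

set_option autoImplicit false

namespace Crest.Agent.R326

open Crest.Agent.Lib.PT Crest.Agent.Lib.LT Finset

/-- About the eighth root of the logarithm. -/
def eP (n : ℕ) : ℕ := 2 ^ (Nat.log 2 (Nat.log 2 n + 1) / 8)

/-- The dimension. -/
def dP (n : ℕ) : ℕ := 8 * eP n + 1

/-- The logarithm of the side. -/
def lP (n : ℕ) : ℕ := Nat.log 2 n / dP n - 1

/-- The chunk size. -/
def qP (n : ℕ) : ℕ := 4 * (n / 2 ^ (lP n * dP n) + 1)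

/-- The parameters for factors of `n` bits. -/
def par (n : ℕ) : GP :=
  ⟨dP n, lP n, 2 ^ (Nat.log 2 (qP n / (4 * dP n)) / 2), qP n,
    1 + ((2 ^ lP n - 2 ^ lP n / (2 * dP n)) / (dP n).factorial + 1) * (dP n).factorial,
    (dP n).factorial⟩

lemma eP_pow_le (n : ℕ) : eP n ^ 8 ≤ Nat.log 2 n + 1 := by
  unfold eP
  rw [← pow_mul]
  exact (Nat.pow_le_pow_right (by norm_num) (Nat.div_mul_le_self _ _)).trans
    (Nat.pow_log_le_self 2 (by omega))

lemma lt_eP_pow (n : ℕ) : Nat.log 2 n + 1 < (2 * eP n) ^ 8 := by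
  unfold eP
  rw [← pow_succ', ← pow_mul]
  exact (Nat.lt_pow_succ_log_self (by norm_num) _).trans_le
    (Nat.pow_le_pow_right (by norm_num) (by omega))

lemma pt_eP : PT eP := by
  unfold eP
  fun_prop

lemma pb_eP : PB eP :=
  (show PB fun n : ℕ => Nat.log 2 n + 1 by fun_prop).of_le fun n =>
    (Nat.le_self_pow (by norm_num) _).trans (eP_pow_le n)

lemma pt_par : PT par := by
  have h1 := pt_eP
  have h2 := pb_eP
  have hd : PT dP := by unfold dP; fun_prop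
  have hd' : PB dP := by unfold dP; fun_prop
  have hl : PT lP := by unfold lP; fun_prop
  have hl' : PB lP := by unfold lP; fun_prop
  have hq : PT qP := by unfold qP; fun_prop
  exact PT.gp_mk hd hl (by fun_prop) hq (by fun_prop) (by fun_prop)

lemma coprime_prog {d j a b : ℕ} (hab : a < b) (hb : b < d) :
    (1 + j * d.factorial + a * d.factorial).Coprime (1 + j * d.factorial + b * d.factorial) := by
  refine Nat.coprime_of_dvd fun r hr h₁ h₂ => ?_
  obtain ⟨k, rfl⟩ := Nat.exists_eq_add_of_lt hab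
  have h3 : r ∣ (k + 1) * d.factorial := by
    refine (Nat.dvd_add_right h₁).1 ?_
    convert h₂ using 1
    ring
  have h4 : r ∣ d.factorial := by
    rcases (Nat.Prime.dvd_mul hr).1 h3 with h | h
    · exact (hr.dvd_factorial).2 ((Nat.le_of_dvd (by omega) h).trans (by omega))
    · exact h
  rw [add_assoc, ← add_mul] at h₁
  exact hr.not_dvd_one ((Nat.dvd_add_left (h4.mul_left _)).1 h₁)

section facts

variable {n : ℕ} (h : 16 ≤ eP n)
include h

lemma dP_le : dP n ≤ 9 * eP n := by unfold dP; omega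

lemma dP_ge : 129 ≤ dP n := by unfold dP; omega

lemma dP_le_sq : dP n ≤ eP n ^ 2 := by unfold dP; nlinarith

lemma le_div_dP : eP n ^ 6 + 1 ≤ Nat.log 2 n / dP n := by
  rw [Nat.le_div_iff_mul_le (by have := dP_ge h; omega)]
  have h1 := eP_pow_le n
  have h2 := dP_le h
  generalize eP n = e at *
  have h3 : 1 ≤ e ^ 6 := Nat.one_le_pow _ _ (by omega)
  have h4 : 16 * 16 * e ^ 6 ≤ e * e * e ^ 6 := by gcongr
  have h5 : (e ^ 6 + 1) * dP n ≤ (e ^ 6 + 1) * (9 * e) := by gcongr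
  have h6 : 16 * (e * e ^ 6) ≤ e * (e * e ^ 6) := by gcongr
  have h7 : e ^ 8 = e * (e * e ^ 6) := by ring
  have h8 : 2 * e ≤ e * e ^ 6 := by
    have : 2 ≤ e ^ 6 := le_trans (by omega) (Nat.le_self_pow (by norm_num) e)
    nlinarith
  nlinarith

lemma cube_le_lP : dP n ^ 3 ≤ lP n := by
  have h1 := le_div_dP h
  have h2 : dP n ^ 3 ≤ eP n ^ 6 :=
    (Nat.pow_le_pow_left (dP_le_sq h) 3).trans (le_of_eq (by ring))
  unfold lP
  omega

lemma sq_le_lP : 129 * dP n ^ 2 ≤ lP n := by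
  have h1 := cube_le_lP h
  have h2 := dP_ge h
  calc _ ≤ dP n * dP n ^ 2 := by gcongr
    _ = dP n ^ 3 := by ring
    _ ≤ _ := h1

lemma lin_le_lP : 129 * dP n ≤ lP n :=
  le_trans (Nat.mul_le_mul_left _ (Nat.le_self_pow (by norm_num) _)) (sq_le_lP h)

lemma lP_succ : lP n + 1 = Nat.log 2 n / dP n := by
  have h1 := le_div_dP h
  unfold lP
  omega

lemma ld_le : lP n * dP n + dP n ≤ Nat.log 2 n := by
  rw [← Nat.succ_mul, Nat.succ_eq_add_one, lP_succ h]
  exact Nat.div_mul_le_self _ _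

lemma lt_ld : Nat.log 2 n < lP n * dP n + 2 * dP n := by
  have h1 := Nat.lt_mul_div_succ (Nat.log 2 n) (by have := dP_ge h; omega : 0 < dP n)
  rw [← lP_succ h] at h1
  linarith

lemma log_le_two_pow : Nat.log 2 n + 1 ≤ 2 ^ dP n := by
  have h1 : 2 * eP n ≤ 2 ^ eP n := by
    obtain ⟨k, hk⟩ : ∃ k, eP n = k + 1 := ⟨eP n - 1, by omega⟩
    rw [hk, pow_succ']
    exact Nat.mul_le_mul_left _ Nat.lt_two_pow_self
  calc _ ≤ (2 * eP n) ^ 8 := (lt_eP_pow n).le
    _ ≤ (2 ^ eP n) ^ 8 := Nat.pow_le_pow_left h1 8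
    _ ≤ _ := by rw [← pow_mul]; exact Nat.pow_le_pow_right (by norm_num) (by unfold dP; omega)

omit h in
lemma log_le_pow : Nat.log 2 n + 1 ≤ dP n ^ 8 :=
  (lt_eP_pow n).le.trans (Nat.pow_le_pow_left (by unfold dP; omega) 8)

lemma lP_le : lP n ≤ 32 * eP n ^ 7 := by
  have h1 := ld_le h
  have h2 := lt_eP_pow n
  have h3 : lP n * (8 * eP n) ≤ lP n * dP n := Nat.mul_le_mul_left _ (by unfold dP; omega)
  refine Nat.le_of_mul_le_mul_right (c := 8 * eP n) ?_ (by omega)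
  calc _ ≤ (2 * eP n) ^ 8 := by omega
    _ = _ := by ring

lemma ne_zero_of_eP : n ≠ 0 := by
  rintro rfl
  simp [eP] at h

lemma two_pow_le_n {k : ℕ} (hk : k ≤ Nat.log 2 n) : 2 ^ k ≤ n :=
  (Nat.pow_le_pow_right (by norm_num) hk).trans (Nat.pow_log_le_self 2 (ne_zero_of_eP h))

lemma qP_ge : 4 * 2 ^ dP n ≤ qP n := by
  have : 2 ^ dP n ≤ n / 2 ^ (lP n * dP n) := by
    rw [Nat.le_div_iff_mul_le (by positivity), ← pow_add]
    exact two_pow_le_n h (by have := ld_le h; omega)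
  unfold qP
  omega

lemma qP_le : qP n ≤ 2 ^ (2 * dP n + 2) := by
  have : n / 2 ^ (lP n * dP n) < 2 ^ (2 * dP n) := by
    rw [Nat.div_lt_iff_lt_mul (by positivity), ← pow_add]
    exact (Nat.lt_pow_succ_log_self (b := 2) (by norm_num) n).trans_le
      (Nat.pow_le_pow_right (by norm_num) (by have := lt_ld h; omega))
  unfold qP
  rw [pow_add]
  omega

lemma pP_le : (par n).p ≤ 2 ^ (2 * dP n + 6) := by
  have := qP_le h
  show 16 * qP n ≤ _
  rw [pow_add] at this ⊢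
  omega

omit h in
lemma le_qT : 4 * n ≤ qP n * 2 ^ (lP n * dP n) := by
  have := Nat.lt_mul_div_succ n (by positivity : 0 < 2 ^ (lP n * dP n))
  unfold qP
  linarith

lemma Tp_le : 2 ^ (lP n * dP n) * (par n).p ≤ 128 * n := by
  have h1 := Nat.mul_div_le n (2 ^ (lP n * dP n))
  have h2 : 2 ^ (lP n * dP n) ≤ n := two_pow_le_n h (by have := ld_le h; omega)
  show _ * (16 * (4 * (_ + 1))) ≤ _
  linarith

lemma par_fit : 2 * (dP n).size * dP n + 4 ≤ lP n := by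
  have h1 := sq_le_lP h
  have h2 := dP_ge h
  have h3 := size_le_self' (dP n)
  nlinarith

lemma par_gap : 16 * (dP n ^ 2 * (dP n).factorial) ≤ 2 ^ lP n := by
  have h2 := dP_ge h
  have h3 : dP n ^ dP n ≤ 2 ^ ((dP n).size * dP n) := by
    rw [pow_mul]
    exact Nat.pow_le_pow_left (Nat.lt_size_self _).le _
  have h4 : dP n ^ 2 ≤ dP n ^ dP n := Nat.pow_le_pow_right (by omega) (by omega)
  calc _ ≤ 16 * (2 ^ ((dP n).size * dP n) * 2 ^ ((dP n).size * dP n)) :=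
        Nat.mul_le_mul_left _ (Nat.mul_le_mul (h4.trans h3) ((Nat.factorial_le_pow _).trans h3))
    _ = 2 ^ (2 * (dP n).size * dP n + 4) := by ring
    _ ≤ _ := Nat.pow_le_pow_right (by norm_num) (par_fit h)

lemma par_s {a : ℕ} (ha : a < dP n) : 2 ^ lP n ≤ 4 * dP n * (2 ^ lP n - (par n).s a) ∧
    2 * dP n * (2 ^ lP n - (par n).s a) ≤ 2 ^ lP n := by
  have h1 := par_gap h
  have h2 := dP_ge h
  have e : (par n).s a = 1 + ((2 ^ lP n - 2 ^ lP n / (2 * dP n)) / (dP n).factorial + 1) *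
    (dP n).factorial + a * (dP n).factorial := rfl
  rw [e]
  have hD := Nat.factorial_pos (dP n)
  generalize (dP n).factorial = D at *
  generalize 2 ^ lP n = t at *
  generalize dP n = d at *
  have h3 := Nat.mul_div_le t (2 * d)
  have h4 := Nat.lt_mul_div_succ t (by omega : 0 < 2 * d)
  have h5 : t / (2 * d) ≤ t := Nat.div_le_self _ _
  generalize t / (2 * d) = k at *
  have h6 := Nat.mul_div_le (t - k) D
  have h7 := Nat.lt_mul_div_succ (t - k) hD
  generalize (t - k) / D = j at *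
  have h8 : (a + 1) * D ≤ d * D := Nat.mul_le_mul_right _ ha
  obtain ⟨r, hr⟩ : ∃ r, r = t - (1 + (j + 1) * D + a * D) := ⟨_, rfl⟩
  rw [← hr]
  have h9 : r ≤ k := by
    have : D * (j + 1) = (j + 1) * D := mul_comm _ _
    omega
  have h10 : k ≤ r + 1 + d * D := by
    have : (j + 1) * D = D * j + D := by ring
    have : (a + 1) * D = a * D + D := by ring
    omega
  refine ⟨?_, (Nat.mul_le_mul_left _ h9).trans h3⟩
  have h11 : 4 * d * k ≤ 4 * d * (r + 1 + d * D) := Nat.mul_le_mul_left _ h10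
  have h12 : d * 1 ≤ d ^ 2 * D := Nat.mul_le_mul (Nat.le_self_pow (by norm_num) _) hD
  nlinarith

lemma par_g : 4 * dP n * (par n).g ^ 2 ≤ qP n ∧ qP n ≤ 16 * dP n * (par n).g ^ 2 := by
  have h1 := qP_ge h
  have h2 := dP_ge h
  have h3 : dP n < 2 ^ dP n := Nat.lt_two_pow_self
  have h4 : qP n / (4 * dP n) ≠ 0 := (Nat.div_pos (by omega) (by omega)).ne'
  have h5 : (par n).g ^ 2 ≤ qP n / (4 * dP n) := by
    show (2 ^ _) ^ 2 ≤ _
    rw [← pow_mul]
    exact (Nat.pow_le_pow_right (by norm_num) (Nat.div_mul_le_self _ _)).trans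
      (Nat.pow_log_le_self 2 h4)
  have h6 : qP n / (4 * dP n) < (2 * (par n).g) ^ 2 := by
    show _ < (2 * 2 ^ _) ^ 2
    rw [← pow_succ', ← pow_mul]
    exact (Nat.lt_pow_succ_log_self (by norm_num) _).trans_le
      (Nat.pow_le_pow_right (by norm_num) (by omega))
  have h7 := Nat.mul_div_le (qP n) (4 * dP n)
  have h8 := Nat.lt_mul_div_succ (qP n) (by omega : 0 < 4 * dP n)
  refine ⟨(Nat.mul_le_mul_left _ h5).trans h7, ?_⟩
  calc _ ≤ 4 * dP n * (2 * (par n).g) ^ 2 := h8.le.trans (Nat.mul_le_mul_left _ h6)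
    _ = _ := by ring

theorem par_valid : (par n).Valid := by
  have hd := dP_ge h
  have hl := lin_le_lP h
  have hq := qP_ge h
  have hL := log_le_two_pow h
  have lt : ∀ a, a < dP n → (par n).s a < 2 ^ lP n := fun a ha => by
    by_contra hc
    have h1 := (par_s h ha).1
    rw [Nat.sub_eq_zero_of_le (not_lt.1 hc), mul_zero] at h1
    exact absurd h1 (not_le.2 (by positivity))
  refine ⟨fun a ha => ⟨?_, lt a ha, (par_s h ha).1, (par_s h ha).2, by show 1 ≤ dP n; omega, ?_, ?_,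
    ?_, ?_⟩, ⟨fun a _ => ?_, fun a ha => (lt a ha).le, fun a b ha hb hab => ?_⟩, ?_, par_fit h,
    (par_g h).1, ?_⟩
  · exact (Nat.even_pow' (by show lP n ≠ 0; omega)).2 even_two
  · show 2048 * dP n ^ 2 ≤ 16 * qP n
    have h1 : dP n ^ 2 ≤ (eP n ^ 2) ^ 2 := Nat.pow_le_pow_left (dP_le_sq h) 2
    have h2 : 16 ^ 4 ≤ eP n ^ 4 := Nat.pow_le_pow_left h 4
    have h3 := eP_pow_le n
    have h4 : 32 * (eP n ^ 2) ^ 2 ≤ eP n ^ 8 := by
      calc _ ≤ eP n ^ 4 * (eP n ^ 2) ^ 2 := Nat.mul_le_mul_right _ (by omega)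
        _ = _ := by ring
    omega
  · show 16 * qP n ≤ 256 * dP n * (par n).g ^ 2
    have := (par_g h).2
    linarith
  · show 4 * dP n * (par n).g ^ 2 ≤ 16 * qP n
    have := (par_g h).1
    omega
  · show 8 * (par n).p ≤ 2 ^ lP n
    calc _ ≤ 2 ^ 3 * 2 ^ (2 * dP n + 6) := Nat.mul_le_mul_left _ (pP_le h)
      _ ≤ _ := by rw [← pow_add]; exact Nat.pow_le_pow_right (by norm_num) (by omega)
  · exact lt_of_lt_of_le (Nat.add_pos_left Nat.one_pos _) (Nat.le_add_right _ _)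
  · rcases lt_or_gt_of_ne hab with hab | hab
    · exact coprime_prog hab hb
    · exact (coprime_prog hab ha).symm
  · show (8 * eP n + 1) % 8 = 1
    omega
  · show 4 * (lP n * dP n) ≤ qP n
    have := ld_le h
    omega

lemma N₁_le : 2 ^ 20 * (par n).p ^ 2 ≤ 2 ^ (4 * dP n + 32) := by
  calc _ ≤ 2 ^ 20 * (2 ^ (2 * dP n + 6)) ^ 2 := by gcongr; exact pP_le h
    _ = _ := by ring

lemma N₂_le : 64 * 2 ^ lP n * (par n).p ≤ 2 ^ (lP n + 2 * dP n + 12) := by
  calc _ ≤ 64 * 2 ^ lP n * 2 ^ (2 * dP n + 6) := by gcongr; exact pP_le h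
    _ = _ := by ring

lemma two_pow_lt_n {k : ℕ} (hk : k ≤ 2 * lP n) : 2 ^ k < n := by
  have h1 := ld_le h
  have h2 := dP_ge h
  have h3 : lP n * 2 ≤ lP n * dP n := Nat.mul_le_mul_left _ (by omega)
  exact (Nat.pow_lt_pow_right (by norm_num) (Nat.lt_succ_self k)).trans_le
    (two_pow_le_n h (by omega))

lemma N₁_lt : 2 ^ 20 * (par n).p ^ 2 < n :=
  (N₁_le h).trans_lt (two_pow_lt_n h (by have := lin_le_lP h; have := dP_ge h; omega))

lemma N₂_lt : 64 * 2 ^ lP n * (par n).p < n :=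
  (N₂_le h).trans_lt (two_pow_lt_n h (by have := lin_le_lP h; have := dP_ge h; omega))

end facts

/-! ### cost -/

/-- The cost per bit of a multiplication. -/
noncomputable def φn (n : ℕ) : ℕ := pw (1 - 1 / 2 ^ 182) (Nat.log 2 n)

lemma φn_pos (n : ℕ) : 0 < φn n := pw_pos _ _

lemma φn_mono {m n : ℕ} (h : m ≤ n) : φn m ≤ φn n := pw_mono (by norm_num) (Nat.log_mono_right h)

lemma pw_le_succ {τ : ℝ} (hτ : τ ≤ 1) (e : ℕ) : pw τ e ≤ e + 1 := by
  refine Nat.ceil_le.2 ?_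
  push_cast
  exact Real.rpow_le_self_of_one_le (by linarith [Nat.cast_nonneg (α := ℝ) e]) hτ

lemma φn_le {N k : ℕ} (h : N ≤ 2 ^ k) : φn N ≤ k + 1 :=
  (pw_le_succ (by norm_num) _).trans (Nat.succ_le_succ
    ((Nat.log_mono_right h).trans (Nat.log_pow (by norm_num) k).le))

lemma pw_le_two_mul {τ : ℝ} (hτ : 0 ≤ τ) (e : ℕ) : (pw τ e : ℝ) ≤ 2 * ((e : ℝ) + 1) ^ τ := by
  have h1 : 1 ≤ ((e : ℝ) + 1) ^ τ :=
    Real.one_le_rpow (by linarith [Nat.cast_nonneg (α := ℝ) e]) hτ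
  have h2 := Nat.ceil_lt_add_one (by linarith : 0 ≤ ((e : ℝ) + 1) ^ τ)
  unfold pw
  linarith

lemma mul_pw_le {τ κ : ℝ} (h0 : 0 ≤ τ) (hκ : 0 ≤ κ) (hτ : τ ≤ 1 - 8 * κ) {x y L : ℕ}
    (h₁ : x * y ≤ L + 1) (h₂ : L + 1 ≤ y ^ 8) : x * pw τ y ≤ 4 * pw (1 - κ) L := by
  have hy : 0 < y := by
    rcases Nat.eq_zero_or_pos y with rfl | hy
    · simp at h₂
    · exact hy
  have hy' : (1 : ℝ) ≤ y := by exact_mod_cast hy
  have h₁' : (x : ℝ) * y ≤ L + 1 := by exact_mod_cast h₁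
  have h₂' : (L : ℝ) + 1 ≤ y ^ 8 := by exact_mod_cast h₂
  have hL : (0 : ℝ) < L + 1 := by positivity
  have a1 : ((y : ℝ) + 1) ^ τ ≤ 2 * y ^ τ := by
    calc ((y : ℝ) + 1) ^ τ ≤ (2 * y) ^ τ := Real.rpow_le_rpow (by positivity) (by linarith) h0
      _ = 2 ^ τ * y ^ τ := Real.mul_rpow (by norm_num) (by positivity)
      _ ≤ _ := by
        gcongr
        exact Real.rpow_le_self_of_one_le (by norm_num) (by linarith)
  have a2 : (y : ℝ) ^ τ ≤ y * (L + 1) ^ (-κ) := by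
    calc (y : ℝ) ^ τ ≤ y ^ (1 + (8 : ℕ) * -κ) :=
          Real.rpow_le_rpow_of_exponent_le hy' (by push_cast; linarith)
      _ = y * (y ^ 8) ^ (-κ) := by
          rw [Real.rpow_add (by positivity), Real.rpow_one, Real.rpow_natCast_mul (by positivity)]
      _ ≤ _ := by
          gcongr ?_ * ?_
          exact Real.rpow_le_rpow_of_nonpos hL h₂' (by linarith)
  have a3 : ((L : ℝ) + 1) * (L + 1) ^ (-κ) ≤ pw (1 - κ) L := by
    rw [← Real.rpow_one_add' hL.le (by linarith), ← sub_eq_add_neg]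
    exact Nat.le_ceil _
  have a4 := pw_le_two_mul h0 y
  have a5 : (0 : ℝ) ≤ (L + 1) ^ (-κ) := by positivity
  have : (x : ℝ) * pw τ y ≤ 4 * pw (1 - κ) L := by
    calc (x : ℝ) * pw τ y ≤ x * (2 * (2 * (y * (L + 1) ^ (-κ)))) := by
          gcongr
          linarith
      _ = 4 * ((x * y) * (L + 1) ^ (-κ)) := by ring
      _ ≤ 4 * ((L + 1) * (L + 1) ^ (-κ)) := by gcongr
      _ ≤ _ := by gcongr
  exact_mod_cast this

/-- The relative cost of the recursive calls. -/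
noncomputable def ψn (n : ℕ) : ℕ :=
  (dP n + 1) * dP n ^ 3 * φn (2 ^ 20 * (par n).p ^ 2) + φn (64 * 2 ^ lP n * (par n).p)

lemma ψn_le {n : ℕ} (h : 16 ≤ eP n) : ψn n ≤ 600000 * eP n ^ 7 := by
  have h1 := φn_le (N₁_le h)
  have h2 := φn_le (N₂_le h)
  have h3 := dP_ge h
  have h4 := lin_le_lP h
  have h5 := lP_le h
  have h6 : dP n ^ 5 ≤ (9 * eP n) ^ 5 := Nat.pow_le_pow_left (dP_le h) 5
  have h7 : eP n ^ 5 ≤ eP n ^ 7 := Nat.pow_le_pow_right (by omega) (by norm_num)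
  have h8 : (dP n + 1) * dP n ^ 3 * φn (2 ^ 20 * (par n).p ^ 2) ≤ 10 * dP n ^ 5 := by
    calc _ ≤ (2 * dP n) * dP n ^ 3 * (5 * dP n) := by gcongr <;> omega
      _ = _ := by ring
  rw [mul_pow] at h6
  unfold ψn
  omega

lemma mul_le_φn {n C : ℕ} (h : C ^ 2 ≤ eP n) : C * eP n ^ 7 ≤ φn n := by
  have h1 : ((eP n : ℝ)) ^ 8 ≤ (Nat.log 2 n : ℝ) + 1 := by exact_mod_cast eP_pow_le n
  have h2 : (1 : ℝ) ≤ eP n := by exact_mod_cast Nat.one_le_two_pow
  have h3 : (C : ℝ) ≤ (eP n : ℝ) ^ (1 / 2 : ℝ) := by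
    rw [← Real.sqrt_eq_rpow]
    exact Real.le_sqrt_of_sq_le (by exact_mod_cast h)
  have : (C : ℝ) * (eP n : ℝ) ^ 7 ≤ φn n := by
    calc (C : ℝ) * (eP n : ℝ) ^ 7 ≤ (eP n : ℝ) ^ (1 / 2 : ℝ) * (eP n : ℝ) ^ 7 := by gcongr
      _ = (eP n : ℝ) ^ ((1 / 2 : ℝ) + (7 : ℕ)) := by
          rw [Real.rpow_add (by positivity), Real.rpow_natCast]
      _ ≤ (eP n : ℝ) ^ (((8 : ℕ) : ℝ) * (1 - 1 / 2 ^ 182)) :=
          Real.rpow_le_rpow_of_exponent_le h2 (by norm_num)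
      _ = ((eP n : ℝ) ^ 8) ^ (1 - 1 / 2 ^ 182 : ℝ) := Real.rpow_natCast_mul (by positivity) _ _
      _ ≤ ((Nat.log 2 n : ℝ) + 1) ^ (1 - 1 / 2 ^ 182 : ℝ) :=
          Real.rpow_le_rpow (by positivity) h1 (by norm_num)
      _ ≤ _ := Nat.le_ceil _
  exact_mod_cast this

lemma cost_le {n : ℕ} (h : 16 ≤ eP n) (c : ℕ) :
    (par n).cost (c * φn (2 ^ 20 * (par n).p ^ 2)) (c * φn (64 * 2 ^ lP n * (par n).p)) ≤
      1536 * ((n + 1) * φn n + c * ((n + 1) * ψn n)) := by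
  have h1 := ld_le h
  have h2 := log_le_pow (n := n)
  have h3 := dP_ge h
  have h4 := lin_le_lP h
  have a1 : dP n * pw τ₁ (lP n) ≤ 4 * φn n :=
    mul_pw_le (by norm_num [τ₁]) (by norm_num) (by norm_num [τ₁]) (by rw [mul_comm]; omega)
      (h2.trans (Nat.pow_le_pow_left (by omega) 8))
  have a2 : lP n * pw τ₂ (dP n) ≤ 4 * φn n :=
    mul_pw_le (by norm_num [τ₂]) (by norm_num) (by norm_num [τ₂]) (by omega) h2
  have a3 : (dP n + 1) * pw τ₁ (lP n) ≤ (2 * dP n) * pw τ₁ (lP n) := by gcongr; omega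
  have a4 : (dP n + 1) * (pw τ₁ (lP n) + dP n ^ 3 * (c * φn (2 ^ 20 * (par n).p ^ 2))) +
      (lP n * pw τ₂ (dP n) + c * φn (64 * 2 ^ lP n * (par n).p)) ≤ 12 * φn n + c * ψn n := by
    unfold ψn
    nlinarith
  calc _ ≤ (128 * n) * (12 * φn n + c * ψn n) := Nat.mul_le_mul (Tp_le h) a4
    _ ≤ (128 * (n + 1)) * (12 * φn n + 12 * (c * ψn n)) :=
        Nat.mul_le_mul (by omega) (by omega)
    _ = _ := by ring

/-- The family of parameters. -/
theorem par_fam {A : Type} {cur : A → P} {B n c : A → ℕ} (h : ∀ a, 16 ≤ eP (n a))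
    (hM : ∀ a N, N < n a → MulOK (cur a) N (c a * φn N))
    (hB : Dom (fun a => (n a + 1) * φn (n a) + c a * ((n a + 1) * ψn (n a))) B) :
    Fam cur B (fun a => par (n a)) (fun a => c a * φn (2 ^ 20 * (par (n a)).p ^ 2))
      (fun a => c a * φn (64 * 2 ^ lP (n a) * (par (n a)).p)) := by
  have hL : Sm (fun a => (par (n a)).p) (fun a => Nat.log 2 (n a) + 1) :=
    Sm.of_le_log_pow 8 (fun a => (par_valid (h a)).p_pos) (Dom.refl _) fun a =>
      log_le_pow.trans (Nat.pow_le_pow_left (Nat.le_log_of_pow_le (by norm_num) (by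
        have := qP_ge (h a)
        show _ ≤ 16 * qP (n a)
        omega)) 8)
  have hn : Sm (fun a => (par (n a)).p) (fun a => sz (n a)) :=
    hL.sz_of_lt_two_pow fun a => Nat.lt_pow_succ_log_self (by norm_num) _
  obtain ⟨c₀, k, hs⟩ := PB.sz pt_par
  refine ⟨fun a => par_valid (h a), fun a => hM a _ (N₁_lt (h a)), fun a => hM a _ (N₂_lt (h a)),
    Sm.add ((hL.const_mul 2).of_le fun a => ?_) (((hn.pow k).const_mul c₀).of_le fun a => hs _),
    ⟨fun a => 2 ^ (dP (n a) ^ 2), fun k => ⟨2 ^ (9 * k ^ 2), fun a => ?_⟩, fun a => ?_⟩,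
    (hB.const_mul 1536).le_trans fun a => cost_le (h a) _⟩
  · show lP (n a) * dP (n a) + lP (n a) + dP (n a) ≤ _
    have h1 := ld_le (h a)
    have h2 : lP (n a) ≤ lP (n a) * dP (n a) :=
      Nat.le_mul_of_pos_right _ (by have := dP_ge (h a); omega)
    omega
  · have h1 := dP_ge (h a)
    calc _ ≤ (2 ^ (2 * dP (n a) + 6)) ^ k := Nat.pow_le_pow_left (pP_le (h a)) k
      _ ≤ _ := by
        rw [← pow_mul, ← pow_add]
        refine Nat.pow_le_pow_right (by norm_num) ?_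
        have h2 : (2 * dP (n a) + 6) * k ≤ 3 * dP (n a) * k := by gcongr; omega
        zify at h2 ⊢
        nlinarith [sq_nonneg (3 * (k : ℤ) - dP (n a))]
  · refine Nat.pow_le_pow_right (by norm_num) ?_
    have h1 := dP_ge (h a)
    have h2 := sq_le_lP (h a)
    show _ ≤ lP (n a) * (dP (n a) - 1)
    exact le_trans (by omega) (Nat.le_mul_of_pos_right _ (by omega))

end Crest.Agent.R326
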