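import Crest.Agent.R326.Dft

/-!
The product of two numbers by three approximate Fourier transforms.
-/

set_option autoImplicit false

namespace Crest.Agent.R326

open Crest.Agent.Lib.PT Crest.Agent.Lib.LT Finset

/-- The length of the cyclic convolution. -/
def GP.S (π : GP) : ℕ := spre π.s π.d

/-- The digits in base `2 ^ q`. -/
def chunk (q u i : ℕ) : ℕ := u / 2 ^ (q * i) % 2 ^ q

/-- The scaled digits. -/
def inp (π : GP) (u i : ℕ) : GaussianInt := (⟨chunk π.q u i, 0⟩ : GaussianInt) * 2 ^ (6 * π.q)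

/-- The transform of the digits. -/
noncomputable def hat (π : GP) (u : ℕ) : (Fin π.d → ℕ) → GaussianInt :=
  dft π (spread π.s π.d (inp π u))

/-- The conjugate of the product of the transforms. -/
noncomputable def mid (π : GP) (u v : ℕ) (y : Fin π.d → ℕ) : GaussianInt :=
  star (fmul (6 * π.q) (hat π u y) (hat π v y))

/-- The scaled convolution, times `S`. -/
noncomputable def res (π : GP) (u v n : ℕ) : GaussianInt := dft π (mid π u v) (mi π.s π.d n)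

/-- The scaled inverse of `S`. -/
def inv (π : GP) : GaussianInt := ⟨(2 ^ π.p / π.S : ℕ), 0⟩

/-- Rounding. -/
def rnd (q : ℕ) (z : GaussianInt) : ℕ := ((z.re + (2 ^ (5 * q) : ℕ)) / 2 ^ (6 * q)).toNat

lemma chunk_lt (q u i : ℕ) : chunk q u i < 2 ^ q := Nat.mod_lt _ (by positivity)

lemma chunk_eq_zero {q u m i : ℕ} (hu : u < 2 ^ (q * m)) (hi : m ≤ i) : chunk q u i = 0 := by
  unfold chunk
  rw [Nat.div_eq_of_lt (hu.trans_le (Nat.pow_le_pow_right (by norm_num)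
    (Nat.mul_le_mul_left _ hi))), Nat.zero_mod]

lemma sum_chunk (q u m : ℕ) : ∑ i ∈ range m, chunk q u i * (2 ^ q) ^ i = u % 2 ^ (q * m) := by
  induction m with
  | zero => simp [Nat.mod_one]
  | succ m ih =>
    rw [Finset.sum_range_succ, ih, Nat.mul_succ, pow_add, Nat.mod_mul, ← pow_mul, chunk,
      mul_comm (_ % _)]

lemma cyc_eq_aconv {S m n : ℕ} {u v : ℕ → ℕ} (hu : ∀ i, m ≤ i → u i = 0) (hv : ∀ i, m ≤ i → v i = 0)
    (hm : m + m ≤ S) (hn : n < S) : cyc S u v n = aconv m m u v n := by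
  unfold cyc aconv
  rw [← Finset.sum_subset (Finset.range_subset_range.2 (by omega : m ≤ S))
    (fun i _ hi => by rw [hu i (by simpa using hi), zero_mul])]
  refine Finset.sum_congr rfl fun i hi => ?_
  have hi' := mem_range.1 hi
  rcases le_or_gt i n with h | h
  · rw [show n + S - i = n - i + S by omega, Nat.add_mod_right, Nat.mod_eq_of_lt (by omega)]
    split_ifs with h'
    · rfl
    · rw [hv _ (by omega), mul_zero]
  · rw [Nat.mod_eq_of_lt (by omega), hv _ (by omega), mul_zero, if_neg (by omega)]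

lemma sum_cyc {S q u v : ℕ} (hu : u < 2 ^ (q * (S / 2))) (hv : v < 2 ^ (q * (S / 2))) :
    ∑ n ∈ range S, cyc S (chunk q u) (chunk q v) n * 2 ^ (q * n) = u * v := by
  set m := S / 2 with hm
  have h := sum_mul_sum_eq_aconv m m (chunk q u) (chunk q v) (2 ^ q)
  rw [sum_chunk, sum_chunk, Nat.mod_eq_of_lt hu, Nat.mod_eq_of_lt hv] at h
  rw [h, Finset.sum_subset (Finset.range_subset_range.2 (by omega : m + m ≤ S)) (fun k _ hk => ?_)]
  · refine Finset.sum_congr rfl fun n hn => ?_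
    rw [cyc_eq_aconv (fun i hi => chunk_eq_zero hu hi) (fun i hi => chunk_eq_zero hv hi)
      (by omega) (mem_range.1 hn), pow_mul]
  · have hk' : m + m ≤ k := by simpa using hk
    unfold aconv
    rw [Finset.sum_eq_zero fun i hi => if_neg (by have := mem_range.1 hi; omega), zero_mul]

lemma cyc_le (S q u v n : ℕ) : cyc S (chunk q u) (chunk q v) n ≤ S * (2 ^ q * 2 ^ q) := by
  unfold cyc
  calc _ ≤ ∑ _i ∈ range S, 2 ^ q * 2 ^ q :=
        Finset.sum_le_sum fun i _ => Nat.mul_le_mul (chunk_lt _ _ _).le (chunk_lt _ _ _).le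
    _ = _ := by simp

namespace GP.Valid

variable {π : GP} (h : π.Valid)
include h

lemma S_pos : 0 < π.S := Finset.prod_pos fun a ha => h.mod.pos a (mem_range.1 ha)

lemma S_le : π.S ≤ (2 ^ π.ℓ) ^ π.d := by
  have := Finset.prod_le_pow_card (range π.d) π.s (2 ^ π.ℓ) fun a ha => h.mod.le a (mem_range.1 ha)
  rwa [card_range] at this

lemma le_two_S : 2 ^ (π.ℓ * π.d) ≤ 2 * π.S := by
  have hd : (1 : ℝ) ≤ π.d := by exact_mod_cast h.d_pos
  have h0 : (0 : ℝ) ≤ 1 + -(1 / (2 * π.d)) := by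
    have : 1 / (2 * (π.d : ℝ)) ≤ 1 := by rw [div_le_one (by positivity)]; linarith
    linarith
  have h1 : ∀ a ∈ range π.d, ((2 ^ π.ℓ : ℕ) : ℝ) * (1 + -(1 / (2 * π.d))) ≤ π.s a := by
    intro a ha
    have hv := h.line a (mem_range.1 ha)
    have h2 : 2 * π.d * (2 ^ π.ℓ - π.s a) ≤ 2 ^ π.ℓ := hv.gap_hi
    have h3 : π.s a ≤ 2 ^ π.ℓ := hv.lt.le
    generalize 2 ^ π.ℓ = t at h2 h3
    have h4 : (2 * π.d * (t - π.s a) : ℝ) ≤ t := by exact_mod_cast h2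
    have h5 : (t - π.s a : ℝ) ≤ t * (1 / (2 * π.d)) := by
      rw [mul_one_div, le_div_iff₀ (by positivity)]; linarith
    linarith
  have h2 := Finset.prod_le_prod (fun _ _ => by positivity) h1
  rw [Finset.prod_const, card_range, mul_pow, t_pow] at h2
  have h3 := one_add_mul_le_pow (a := -(1 / (2 * (π.d : ℝ)))) (by linarith) π.d
  have h4 : (π.d : ℝ) * -(1 / (2 * π.d)) = -(1 / 2) := by field_simp
  rw [h4] at h3
  have hT := h.T_ge
  have h5 : π.T ≤ 2 * (π.S : ℝ) := by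
    unfold GP.S spre
    push_cast
    nlinarith
  unfold GP.T at h5
  exact_mod_cast h5

lemma lt_chunks {n u : ℕ} (hn : 4 * n ≤ π.q * 2 ^ (π.ℓ * π.d)) (hu : u < 2 ^ n) :
    u < 2 ^ (π.q * (π.S / 2)) := by
  refine hu.trans_le (Nat.pow_le_pow_right (by norm_num) ?_)
  have h1 := h.le_two_S
  have h2 : 6 ≤ π.ℓ * π.d := h.six_le.trans (Nat.le_mul_of_pos_right _ h.d_pos)
  obtain ⟨e, he⟩ : ∃ e, π.ℓ * π.d = e + 2 := ⟨π.ℓ * π.d - 2, by omega⟩
  rw [he, pow_add] at hn h1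
  have h3 : 2 ^ e ≤ π.S / 2 := by omega
  have h4 := Nat.mul_le_mul_left π.q h3
  nlinarith

lemma S_le_T : (π.S : ℝ) ≤ π.T := by
  rw [← t_pow]
  exact_mod_cast h.S_le

end GP.Valid

variable {π : GP}

lemma coe_two_pow (π : GP) (k : ℕ) : (2 : ℂ) ^ (k * π.q) = ((π.Q ^ k : ℝ) : ℂ) := by
  unfold GP.Q
  rw [← pow_mul, mul_comm π.q]
  push_cast
  rfl

lemma coe_inp (π : GP) (u i : ℕ) :
    (inp π u i : ℂ) = (chunk π.q u i : ℂ) * ((π.Q ^ 6 : ℝ) : ℂ) := by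
  unfold inp
  rw [map_mul, ← one_mul (2 ^ _), coe_scale]
  simp [GaussianInt.toComplex_def₂, Complex.ext_iff]

lemma norm_inp (π : GP) (u i : ℕ) : ‖(inp π u i : ℂ)‖ ≤ π.Q ^ 7 := by
  have h0 : 0 ≤ π.Q := by unfold GP.Q; positivity
  have h1 : (chunk π.q u i : ℝ) ≤ π.Q := by
    unfold GP.Q
    exact_mod_cast (chunk_lt _ _ _).le
  rw [coe_inp, norm_mul, Complex.norm_natCast, Complex.norm_real,
    Real.norm_of_nonneg (by positivity), pow_succ' π.Q 6]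
  gcongr

lemma coe_cyc_inp (π : GP) (u v n : ℕ) :
    ((cyc π.S (inp π u) (inp π v) n : GaussianInt) : ℂ) =
      ((π.Q ^ 12 * cyc π.S (chunk π.q u) (chunk π.q v) n : ℝ) : ℂ) := by
  unfold cyc
  rw [map_sum]
  push_cast
  rw [Finset.mul_sum]
  refine Finset.sum_congr rfl fun i _ => ?_
  rw [map_mul, coe_inp, coe_inp]
  push_cast
  ring

/-- The exact transform. -/
noncomputable def FT (π : GP) (f : (Fin π.d → ℕ) → ℂ) : (Fin π.d → ℕ) → ℂ :=
  tens (2 ^ π.ℓ) (fun j => Fm (π.s j)) f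

lemma norm_FT_le {f : (Fin π.d → ℕ) → ℂ} {r : ℝ} (hf : ∀ y ∈ box π.d (2 ^ π.ℓ), ‖f y‖ ≤ r)
    (hr : 0 ≤ r) (y : Fin π.d → ℕ) : ‖FT π f y‖ ≤ π.T * r := by
  rw [← GP.Valid.t_pow]
  exact norm_tens_le (fun j => Fm_rowsum _ _ _) hf hr

lemma bd_spread (h : π.Valid) (u : ℕ) : Bd π (spread π.s π.d (inp π u)) (π.Q ^ 7) := fun y _ =>
  norm_spread_le (by have := h.Q_ge; positivity) (fun n _ => norm_inp π u n) y

lemma bd_spread' (h : π.Valid) (u : ℕ) : Bd π (spread π.s π.d (inp π u)) (π.Q ^ 12) :=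
  (bd_spread h u).mono (pow_le_pow_right₀ (by have := h.Q_ge; linarith) (by norm_num))

lemma bd_hat (h : π.Valid) (u : ℕ) : Bd π (hat π u) (2 * π.T * π.Q ^ 7) := fun y hy => by
  have hQ := h.Q_ge
  have hT := h.T_ge
  have h1 : ‖(hat π u y : ℂ) - FT π _ y‖ ≤ _ := dft_near h (bd_spread' h u) y hy
  have h2 := norm_FT_le (bd_spread h u) (by positivity) y
  have h3 : π.Q ^ 2 ≤ π.Q ^ 7 := pow_le_pow_right₀ (by linarith) (by norm_num)
  have h4 : 1 * π.Q ^ 7 ≤ π.T * π.Q ^ 7 := by gcongr; linarith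
  have := norm_le_norm_add_norm_sub' (hat π u y : ℂ)
    (FT π (fun y => (spread π.s π.d (inp π u) y : ℂ)) y)
  linarith

lemma bd_hat' (h : π.Valid) (u : ℕ) : Bd π (hat π u) (2 ^ π.p) := by
  have hQ := h.Q_ge
  have hT := h.T_ge
  refine (bd_hat h u).mono ?_
  have h1 := h.Q_succ 7
  have h2 : π.Q ^ (7 + 1) ≤ π.Q ^ 16 := pow_le_pow_right₀ (by linarith) (by norm_num)
  rw [GP.Valid.two_pow_p]
  nlinarith [mul_nonneg (by linarith : 0 ≤ π.T) (by positivity : 0 ≤ π.Q ^ 7)]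

lemma coe_star (z : GaussianInt) : ((star z : GaussianInt) : ℂ) = (starRingEnd ℂ) z :=
  GaussianInt.toComplex_star z

lemma bd_mid (h : π.Valid) (u v : ℕ) : Bd π (mid π u v) (π.Q ^ 12) := fun y hy => by
  have hQ := h.Q_ge
  have hT := h.T_ge
  have hTQ := h.T_le
  have h1 := norm_rshift_sub_le (6 * π.q) (hat π u y * hat π v y)
  have h2 : ‖((hat π u y * hat π v y : GaussianInt) : ℂ) / 2 ^ (6 * π.q)‖ ≤ π.Q ^ 10 := by
    rw [norm_div, map_mul, norm_mul, coe_two_pow, Complex.norm_real,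
      Real.norm_of_nonneg (by positivity), div_le_iff₀ (by positivity)]
    calc _ ≤ (2 * π.T * π.Q ^ 7) * (2 * π.T * π.Q ^ 7) :=
          mul_le_mul (bd_hat h u y hy) (bd_hat h v y hy) (norm_nonneg _) (by positivity)
      _ ≤ (π.Q * π.Q ^ 7) * (π.Q * π.Q ^ 7) := by gcongr <;> linarith
      _ = _ := by ring
  unfold mid fmul
  rw [coe_star, Complex.norm_conj]
  have h3 := norm_le_norm_add_norm_sub' (rshift (6 * π.q) (hat π u y * hat π v y) : ℂ)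
    (((hat π u y * hat π v y : GaussianInt) : ℂ) / 2 ^ (6 * π.q))
  have h4 : π.Q ≤ π.Q ^ 10 := h.Q_le_pow (by norm_num)
  have h5 : π.Q ≤ π.Q ^ 2 := h.Q_le_pow (by norm_num)
  calc _ ≤ 2 * π.Q ^ 10 := by linarith
    _ ≤ π.Q ^ 2 * π.Q ^ 10 := by gcongr; linarith
    _ = _ := by ring

lemma near_mid (h : π.Valid) (u v : ℕ) : Near π (fun y => (mid π u v y : ℂ))
    (fun y => (starRingEnd ℂ) (FT π (fun y => (spread π.s π.d (inp π u) y : ℂ)) y *
      FT π (fun y => (spread π.s π.d (inp π v) y : ℂ)) y) / ((π.Q ^ 6 : ℝ) : ℂ))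
    (4 * π.T * π.Q ^ 3) := fun y hy => by
  have hQ := h.Q_ge
  have hT := h.T_ge
  have h1 := norm_rshift_sub_le (6 * π.q) (hat π u y * hat π v y)
  have h2 : ‖(hat π u y : ℂ) - FT π _ y‖ ≤ _ := dft_near h (bd_spread' h u) y hy
  have h3 : ‖(hat π v y : ℂ) - FT π _ y‖ ≤ _ := dft_near h (bd_spread' h v) y hy
  have h4 := norm_FT_le (bd_spread h u) (by positivity) y
  have h5 := bd_hat h v y hy
  rw [map_mul, coe_two_pow] at h1
  simp only [mid, fmul, coe_star]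
  generalize FT π (fun y => (spread π.s π.d (inp π u) y : ℂ)) y = a at *
  generalize FT π (fun y => (spread π.s π.d (inp π v) y : ℂ)) y = b at *
  generalize (rshift (6 * π.q) (hat π u y * hat π v y) : ℂ) = z at *
  generalize (hat π u y : ℂ) = a' at *
  generalize (hat π v y : ℂ) = b' at *
  rw [← Complex.conj_ofReal (π.Q ^ 6), ← map_div₀, ← map_sub, Complex.norm_conj]
  have h6 : ‖a' * b' / ((π.Q ^ 6 : ℝ) : ℂ) - a * b / ((π.Q ^ 6 : ℝ) : ℂ)‖ ≤ 3 * π.T * π.Q ^ 3 := by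
    rw [← sub_div, norm_div, Complex.norm_real, Real.norm_of_nonneg (by positivity),
      div_le_iff₀ (by positivity), show a' * b' - a * b = (a' - a) * b' + a * (b' - b) by ring]
    refine (norm_add_le _ _).trans ?_
    rw [norm_mul, norm_mul]
    calc _ ≤ π.Q ^ 2 * (2 * π.T * π.Q ^ 7) + π.T * π.Q ^ 7 * π.Q ^ 2 := by gcongr
      _ = _ := by ring
  have h7 := norm_sub_le_norm_sub_add_norm_sub z (a' * b' / ((π.Q ^ 6 : ℝ) : ℂ))
    (a * b / ((π.Q ^ 6 : ℝ) : ℂ))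
  have h8 : π.Q ≤ π.Q ^ 3 := h.Q_le_pow (by norm_num)
  have h9 : 1 * π.Q ^ 3 ≤ π.T * π.Q ^ 3 := by gcongr; linarith
  linarith

lemma bd_dft_mid (h : π.Valid) (u v : ℕ) : Bd π (dft π (mid π u v)) (2 ^ π.p) := fun y hy => by
  have hQ := h.Q_ge
  have hT := h.T_ge
  have h1 : ‖(dft π (mid π u v) y : ℂ) - FT π _ y‖ ≤ _ := dft_near h (bd_mid h u v) y hy
  have h2 := norm_FT_le (bd_mid h u v) (by positivity) y
  have h3 : π.Q ^ 2 ≤ π.Q ^ 12 := pow_le_pow_right₀ (by linarith) (by norm_num)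
  have h4 : 1 * π.Q ^ 12 ≤ π.T * π.Q ^ 12 := by gcongr; linarith
  have := norm_le_norm_add_norm_sub' (dft π (mid π u v) y : ℂ)
    (FT π (fun y => (mid π u v y : ℂ)) y)
  have h5 := h.Q_succ 12
  have h6 : π.Q ^ (12 + 1) ≤ π.Q ^ 16 := pow_le_pow_right₀ (by linarith) (by norm_num)
  rw [GP.Valid.two_pow_p]
  nlinarith [mul_nonneg (by linarith : 0 ≤ π.T) (by positivity : 0 ≤ π.Q ^ 12)]

lemma norm_res (h : π.Valid) (u v n : ℕ) : ‖(res π u v n : ℂ)‖ ≤ 2 ^ π.p :=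
  bd_dft_mid h u v _ (mi_mem_box h.mod n)

lemma res_near (h : π.Valid) (u v : ℕ) {n : ℕ} (hn : n < π.S) :
    ‖(res π u v n : ℂ) -
      ((π.S * (π.Q ^ 6 * cyc π.S (chunk π.q u) (chunk π.q v) n) : ℝ) : ℂ)‖ ≤ π.Q ^ 4 := by
  have hQ := h.Q_ge
  have hT := h.T_ge
  have h1 := (dft_near h (bd_mid h u v)).trans ((near_mid h u v).tens (by positivity)
    (κ := fun j => Fm (π.s j)) fun j a _ => Fm_rowsum _ _ _) _ (mi_mem_box h.mod n)
  have h2 := crt_conv h.mod (inp π u) (inp π v) hn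
  have hq : ((π.Q ^ 6 : ℝ) : ℂ) ≠ 0 := by exact_mod_cast (by positivity : π.Q ^ 6 ≠ 0)
  have e : ∀ (f : (Fin π.d → ℕ) → ℂ) (c : ℂ) (y : Fin π.d → ℕ),
      tens (2 ^ π.ℓ) (fun j => Fm (π.s j)) (fun y => f y / c) y =
        tens (2 ^ π.ℓ) (fun j => Fm (π.s j)) f y / c := fun f c y => by
    simp only [tens, Finset.sum_div, mul_div_assoc]
  rw [e, GP.Valid.t_pow] at h1
  unfold FT at h1
  rw [h2] at h1
  have e' : ((spre π.s π.d : ℕ) : ℂ) *
      (starRingEnd ℂ) ((cyc (spre π.s π.d) (inp π u) (inp π v) n : GaussianInt) : ℂ) /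
        ((π.Q ^ 6 : ℝ) : ℂ) =
      ((π.S * (π.Q ^ 6 * cyc π.S (chunk π.q u) (chunk π.q v) n) : ℝ) : ℂ) := by
    rw [div_eq_iff hq, show spre π.s π.d = π.S from rfl, coe_cyc_inp, Complex.conj_ofReal]
    push_cast
    ring
  rw [e'] at h1
  refine le_trans h1 ?_
  have h3 := h.T_cube
  have t1 : 1 ≤ π.T := by linarith
  have t3 : π.T ^ 2 ≤ π.T ^ 3 := pow_le_pow_right₀ t1 (by norm_num)
  have t4 : 1 ≤ π.T ^ 2 := one_le_pow₀ t1
  have h4 : π.Q ^ 2 ≤ π.Q ^ 3 := pow_le_pow_right₀ (by linarith) (by norm_num)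
  have h5 : 1 * π.Q ^ 3 ≤ π.T ^ 2 * π.Q ^ 3 := by gcongr
  calc _ ≤ 5 * π.T ^ 2 * π.Q ^ 3 := by linarith
    _ ≤ π.Q * π.Q ^ 3 := by gcongr; linarith
    _ = _ := by ring

lemma inv_near (h : π.Valid) : ‖(inv π : ℂ) - 2 ^ π.p * (π.S : ℂ)⁻¹‖ ≤ 1 := by
  have hS : (0 : ℝ) < π.S := by exact_mod_cast h.S_pos
  have e : (inv π : ℂ) - 2 ^ π.p * (π.S : ℂ)⁻¹ =
      ((((2 ^ π.p / π.S : ℕ) : ℝ) - ((2 ^ π.p : ℕ) : ℝ) / π.S : ℝ) : ℂ) := by
    have : (inv π : ℂ) = ((2 ^ π.p / π.S : ℕ) : ℂ) := by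
      unfold inv
      generalize 2 ^ π.p / π.S = m
      simp [GaussianInt.toComplex_def₂, Complex.ext_iff]
    rw [this, div_eq_mul_inv]
    push_cast
    rfl
  rw [e, Complex.norm_real, Real.norm_eq_abs, abs_le]
  have h1 : ((2 ^ π.p / π.S : ℕ) : ℝ) ≤ ((2 ^ π.p : ℕ) : ℝ) / π.S := Nat.cast_div_le
  have h2 : ((2 ^ π.p : ℕ) : ℝ) / π.S < ((2 ^ π.p / π.S : ℕ) : ℝ) + 1 := by
    rw [div_lt_iff₀ hS]
    exact_mod_cast (Nat.div_lt_iff_lt_mul h.S_pos).1 (Nat.lt_succ_self _)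
  constructor <;> linarith

lemma norm_inv (π : GP) : ‖(inv π : ℂ)‖ ≤ 2 ^ π.p := by
  have : (inv π : ℂ) = ((2 ^ π.p / π.S : ℕ) : ℂ) := by
    unfold inv
    generalize 2 ^ π.p / π.S = m
    simp [GaussianInt.toComplex_def₂, Complex.ext_iff]
  rw [this, Complex.norm_natCast]
  exact_mod_cast Nat.div_le_self _ _

lemma norm_fmul_res (h : π.Valid) (u v n : ℕ) :
    ‖(fmul π.p (res π u v n) (inv π) : ℂ)‖ ≤ 2 ^ (2 * π.p) := by
  have h1 := norm_fmul_sub_le (norm_res h u v n) (inv_near h)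
  have h2 := norm_le_norm_add_norm_sub' (fmul π.p (res π u v n) (inv π) : ℂ)
    ((π.S : ℂ)⁻¹ * res π u v n)
  have hS : (1 : ℝ) ≤ π.S := by exact_mod_cast h.S_pos
  have h3 : ‖(π.S : ℂ)⁻¹ * res π u v n‖ ≤ 1 * 2 ^ π.p := by
    rw [norm_mul, _root_.norm_inv, Complex.norm_natCast]
    exact mul_le_mul (inv_le_one_of_one_le₀ hS) (norm_res h u v n) (norm_nonneg _) zero_le_one
  have hQ := h.Q_ge
  have h4 : π.Q ≤ π.Q ^ 16 := h.Q_le_pow (by norm_num)
  rw [mul_comm 2, pow_mul]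
  rw [GP.Valid.two_pow_p] at h3 ⊢
  nlinarith

theorem rnd_res (h : π.Valid) (u v : ℕ) {n : ℕ} (hn : n < π.S) :
    rnd π.q (fmul π.p (res π u v n) (inv π)) = cyc π.S (chunk π.q u) (chunk π.q v) n := by
  have hQ := h.Q_ge
  have h1 := norm_fmul_sub_le (norm_res h u v n) (inv_near h)
  have h2 := res_near h u v hn
  generalize cyc π.S (chunk π.q u) (chunk π.q v) n = c at h2 ⊢
  generalize fmul π.p (res π u v n) (inv π) = z at h1 ⊢
  generalize (res π u v n : ℂ) = w at h1 h2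
  have hS : (1 : ℝ) ≤ π.S := by exact_mod_cast h.S_pos
  have hS' : (π.S : ℂ) ≠ 0 := by exact_mod_cast h.S_pos.ne'
  have h3 : ‖(π.S : ℂ)⁻¹ * w - ((π.Q ^ 6 * c : ℝ) : ℂ)‖ ≤ 1 * π.Q ^ 4 := by
    rw [show (π.S : ℂ)⁻¹ * w - ((π.Q ^ 6 * c : ℝ) : ℂ) =
      (π.S : ℂ)⁻¹ * (w - ((π.S * (π.Q ^ 6 * c) : ℝ) : ℂ)) by push_cast; field_simp,
      norm_mul, _root_.norm_inv, Complex.norm_natCast]
    exact mul_le_mul (inv_le_one_of_one_le₀ hS) h2 (norm_nonneg _) zero_le_one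
  have h4 := (Complex.abs_re_le_norm _).trans
    ((norm_sub_le_norm_sub_add_norm_sub (z : ℂ) _ _).trans (add_le_add h1 h3))
  rw [Complex.sub_re, Complex.ofReal_re, ← GaussianInt.intCast_re, abs_le] at h4
  have q4 : π.Q ≤ π.Q ^ 4 := h.Q_le_pow (by norm_num)
  have q5 : 64 * π.Q ^ 4 ≤ π.Q ^ 5 := by rw [pow_succ' π.Q 4]; gcongr
  have q6 : 64 * π.Q ^ 5 ≤ π.Q ^ 6 := by rw [pow_succ' π.Q 5]; gcongr
  have e5 : π.Q ^ 5 = (((2 ^ (5 * π.q) : ℕ) : ℤ) : ℝ) := by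
    unfold GP.Q; rw [← pow_mul, mul_comm π.q]; push_cast; rfl
  have e6 : π.Q ^ 6 = ((2 ^ (6 * π.q) : ℤ) : ℝ) := by
    unfold GP.Q; rw [← pow_mul, mul_comm π.q]; push_cast; rfl
  have h5 : π.Q ^ 6 * c ≤ z.re + π.Q ^ 5 := by linarith [h4.1]
  have h6 : z.re + π.Q ^ 5 < π.Q ^ 6 * c + π.Q ^ 6 := by linarith [h4.2]
  rw [e5, e6] at h5 h6
  have h7 : 2 ^ (6 * π.q) * (c : ℤ) ≤ z.re + (2 ^ (5 * π.q) : ℕ) := by exact_mod_cast h5
  have h8 : z.re + (2 ^ (5 * π.q) : ℕ) < 2 ^ (6 * π.q) * (c : ℤ) + 2 ^ (6 * π.q) := by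
    exact_mod_cast h6
  unfold rnd
  have h9 : (z.re + (2 ^ (5 * π.q) : ℕ)) / 2 ^ (6 * π.q) = (c : ℤ) := by
    rw [Int.ediv_eq_iff_of_pos (by positivity)]
    constructor <;> linarith
  rw [h9, Int.toNat_natCast]

section ct

variable {A : Type} {cur : A → P} {B : A → ℕ} {x : In B} {π : A → GP} {μ₁ μ₂ : A → ℕ}

lemma Fam.cs (F : Fam cur B π μ₁ μ₂) (hπ : CT cur x π) : CS cur x π :=
  ⟨hπ, F.sm_sz.mono F.dom_p⟩

lemma Fam.cs_S (F : Fam cur B π μ₁ μ₂) (hπ : CT cur x π) : CS cur x (fun a => (π a).S) := by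
  have hd : CS cur x (fun a => un (π a).d) := ((F.cs hπ).pt GP.d (by fun_prop)).un
    ((F.sm.of_le fun _ => by omega).mono F.dom_p)
  refine ((F.cs hπ).pt₂ hd (fun π l => ∏ b ∈ range l.length, π.s b) ?_).congr fun a => by
    rw [length_un]; rfl
  unfold GP.s
  fun_prop

lemma Fam.ct_inv (F : Fam cur B π μ₁ μ₂) (hπ : CT cur x π) : CT cur x (fun a => inv (π a)) := by
  have hp : CS cur x (fun a => un (π a).p) :=
    ((F.cs hπ).pt (fun π => 16 * π.q) (by fun_prop)).un F.sm_p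
  have h := (hp.pt₂ (F.cs_S hπ) (fun l S => 2 ^ l.length / S) (by fun_prop)).ct
  refine (h.natCast.gmk (CT.const 0)).congr fun a => by rw [length_un]; rfl

lemma Fam.dom_S (F : Fam cur B π μ₁ μ₂) {w : A → ℕ} (k : ℕ) (hw : ∀ a, w a ≤ k * (π a).p) :
    Dom (fun a => ((π a).S + 1) * w a) B :=
  (F.dom₅.const_mul (2 * k)).le_trans fun a => by
    have h1 := (F.valid a).S_le
    have h2 := (F.valid a).S_pos
    rw [← pow_mul] at h1
    calc _ ≤ (2 * 2 ^ ((π a).ℓ * (π a).d)) * (k * (π a).p) :=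
          Nat.mul_le_mul (by omega) (hw a)
      _ = _ := by ring

lemma Fam.dom_mul (F : Fam cur B π μ₁ μ₂) {N : A → ℕ} (hN : ∀ a, N a ≤ (2 ^ (π a).ℓ) ^ (π a).d) :
    Dom (fun a => N a * (((π a).p + 1) * μ₁ a)) B :=
  (F.dom₄.const_mul 2).le_trans fun a => by
    have h1 := hN a
    have h2 := (F.valid a).p_pos
    rw [← pow_mul] at h1
    calc _ ≤ 2 ^ ((π a).ℓ * (π a).d) * ((2 * (π a).p) * μ₁ a) := by gcongr; omega
      _ = _ := by ring

lemma p_succ_le {π : GP} (h : π.Valid) : π.p + 1 ≤ 2 ^ 20 * π.p ^ 2 := by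
  have := h.p_pos
  nlinarith

lemma ct_hat (F : Fam cur B π μ₁ μ₂) (hπ : CT cur x π) {u : A → ℕ} (hu : CT cur x u) :
    CT cur x (fun a => tarr (π a).d (2 ^ (π a).ℓ) (hat (π a) (u a))) := by
  have h₁ := hu.digitsPow (F.cs_S hπ).ct (CT.gp_q hπ) (F.dom_S 1 fun a => by
    have := (F.valid a).q_pos; unfold GP.p; omega)
  have h₂ := h₁.arr_map_lt (f := fun n : ℕ => (⟨n, 0⟩ : GaussianInt))
    (LT.intro fun x hx => hx.natCast.gmk (CT.const 0))
  have h₃ : CT cur x (fun a => arr (π a).S (inp (π a) (u a))) := by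
    refine ct_tarr_map F hπ (fun a => (F.valid a).S_le) h₂ 1 (fun a i _ => ?_) fun x' h₁ h₂ =>
      h₁.gmul_two_pow ((CT.gp_q h₂).const_mul 6) (dom_mul_q _ 6)
    have h1 : chunk (π a).q (u a) i ≤ 2 ^ (1 * (π a).p) :=
      (chunk_lt _ _ _).le.trans (Nat.pow_le_pow_right (by norm_num) (by unfold GP.p; omega))
    show ‖((⟨(chunk (π a).q (u a) i : ℕ), 0⟩ : GaussianInt) : ℂ)‖ ≤ _
    generalize chunk (π a).q (u a) i = m at h1
    have : ((⟨(m : ℕ), 0⟩ : GaussianInt) : ℂ) = (m : ℂ) := by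
      simp [GaussianInt.toComplex_def₂, Complex.ext_iff]
    rw [this, Complex.norm_natCast]
    exact_mod_cast h1
  have h₄ := ct_spread GP.s pt_gp_s (p := fun a => (π a).p) h₃
    (hπ.pair ((CT.gp_d hπ).pair ((CT.gp_ℓ hπ).pair (CT.gp_p hπ)))) (fun a => (F.valid a).mod)
    (fun a n _ => (norm_inp _ _ _).trans (by
      rw [GP.Valid.two_pow_p]
      exact pow_le_pow_right₀ (by have := (F.valid a).Q_ge; linarith) (by norm_num)))
    F.sm F.dom₃
  exact ct_dft F hπ h₄ fun a => bd_spread' (F.valid a) _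

/-- One level of the multiplication algorithm. -/
theorem ct_prod (F : Fam cur B π μ₁ μ₂) (hπ : CT cur x π) {u v n : A → ℕ} (hu : CT cur x u)
    (hv : CT cur x v) (hn : ∀ a, 4 * n a ≤ (π a).q * 2 ^ ((π a).ℓ * (π a).d))
    (h₁ : ∀ a, u a < 2 ^ n a) (h₂ : ∀ a, v a < 2 ^ n a) : CT cur x (fun a => u a * v a) := by
  have box : ∀ a i, digs (π a).d (2 ^ (π a).ℓ) i ∈ box (π a).d (2 ^ (π a).ℓ) := fun a i =>
    digs_mem_box (by positivity) i
  have a₁ := CT.arr_fmul F.m₁ (fun a => (π a).p) (ct_hat F hπ hu) (ct_hat F hπ hv)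
    ((CT.gp_q hπ).const_mul 6) (fun a => by unfold GP.p; omega) (fun a => p_succ_le (F.valid a))
    (fun a i _ => bd_hat' (F.valid a) _ _ (box a i)) (fun a i _ => bd_hat' (F.valid a) _ _ (box a i))
    (F.dom_mul fun _ => le_rfl)
  have a₂ : CT cur x (fun a => tarr (π a).d (2 ^ (π a).ℓ) (mid (π a) (u a) (v a))) :=
    a₁.arr_map_lt (f := star) (LT.intro fun x hx => hx.gstar)
  have a₃ := ct_dft F hπ a₂ fun a => bd_mid (F.valid a) _ _
  have a₄ : CT cur x (fun a => arr (π a).S (res (π a) (u a) (v a))) :=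
    ct_collect GP.s pt_gp_s (p := fun a => (π a).p) a₃
      (hπ.pair ((CT.gp_d hπ).pair ((CT.gp_ℓ hπ).pair (CT.gp_p hπ)))) (fun a => (F.valid a).mod)
      (fun a => bd_dft_mid (F.valid a) _ _) F.sm F.dom₃
  have a₅ : CT cur x (fun a => arr (π a).S (fun _ => inv (π a))) :=
    ((F.cs_S hπ).ct.replicate (F.ct_inv hπ) ((F.dom_S (w := fun a => sz (inv (π a))) 39 fun a => by
      have := sz_gauss_le (norm_inv (π a))
      have := (F.valid a).p_pos
      omega).le_trans fun a => Nat.mul_le_mul_right _ (Nat.le_succ _))).congr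
      fun a => (replicate_eq_arr _ _).symm
  have a₆ := CT.arr_fmul F.m₁ (fun a => (π a).p) a₄ a₅ (CT.gp_p hπ) (fun _ => le_rfl)
    (fun a => p_succ_le (F.valid a)) (fun a i _ => norm_res (F.valid a) _ _ _)
    (fun a _ _ => norm_inv _) (F.dom_mul fun a => (F.valid a).S_le)
  have a₇ : CT cur x (fun a => arr (π a).S
      (cyc (π a).S (chunk (π a).q (u a)) (chunk (π a).q (v a)))) := by
    refine ct_tarr_map F hπ (fun a => (F.valid a).S_le) a₆ 2
      (fun a i _ => norm_fmul_res (F.valid a) _ _ _) fun x' h₁ h₂ => ?_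
    exact ((h₁.gre.intAdd (((CT.gp_q h₂).const_mul 5).two_pow
      (dom_mul_q _ 5)).natCast).int_div_two_pow ((CT.gp_q h₂).const_mul 6)
      (dom_mul_q _ 6)).toNat.congr fun q => (rnd_res (F.valid q.a) _ _ q.lt).symm
  refine (CT.ofDigitsPow (fun a => (π a).p) a₇ (CT.gp_q hπ) (fun a => (F.valid a).q_pos)
    (fun a i _ => ?_) (F.dom_S 2 fun a => by
      have := (F.valid a).q_pos; unfold GP.p; omega)).congr fun a =>
    (sum_cyc ((F.valid a).lt_chunks (hn a) (h₁ a)) ((F.valid a).lt_chunks (hn a) (h₂ a))).symm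
  have hv := F.valid a
  refine (cyc_le _ _ _ _ _).trans_lt ?_
  have h1 := hv.S_le
  rw [← pow_mul] at h1
  calc _ ≤ 2 ^ ((π a).ℓ * (π a).d) * (2 ^ (π a).q * 2 ^ (π a).q) := Nat.mul_le_mul_right _ h1
    _ < _ := by
      rw [← pow_add, ← pow_add]
      exact Nat.pow_lt_pow_right (by norm_num) (by
        have := hv.small; have := hv.q_pos; unfold GP.p; omega)

end ct

end Crest.Agent.R326
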