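import Crest.Agent.R326.ExpPi

/-!
The Poisson summation identity behind Gaussian resampling.
-/

set_option autoImplicit false

namespace Crest.Agent.R326

open Finset

/-- The centred representative of `m` modulo `s`. -/
def cidx (s m : ℕ) : ℤ := if 2 * m < s then m else (m : ℤ) - s

/-- The Fourier coefficients of the Gaussian window. -/
noncomputable def gh (r : RP) (n : ℤ) : ℝ := Real.exp (-Real.pi * r.g ^ 2 * (n : ℝ) ^ 2 / r.t ^ 2)

namespace RP.Valid
variable {r : RP} (hr : r.Valid)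
include hr

lemma p_pos : 2048 ≤ r.p := by
  have := hr.p_lo; have := hr.d_pos; nlinarith

lemma t_le : r.t ≤ 2 * r.s := by
  have h1 := hr.gap_hi
  have h2 : 2 * (r.t - r.s) ≤ 2 * r.d * (r.t - r.s) :=
    Nat.mul_le_mul_right _ (by have := hr.d_pos; omega)
  have := hr.lt
  omega

lemma s_pos : 0 < r.s := by have := hr.t_le; have := hr.t_pos; omega

lemma g_pos : 0 < r.g := by
  have h1 := hr.g_lo
  have h2 := hr.p_pos
  rcases Nat.eq_zero_or_pos r.g with h | h
  · rw [h] at h1; simp at h1; omega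
  · exact h

end RP.Valid

lemma hasSum_pow_natAbs {q : ℝ} (h0 : 0 ≤ q) (h1 : q < 1) :
    HasSum (fun i : ℤ => q ^ i.natAbs) ((1 + q) / (1 - q)) := by
  have a1 : HasSum (fun n : ℕ => q ^ n) (1 - q)⁻¹ := hasSum_geometric_of_lt_one h0 h1
  have a2 : HasSum (fun n : ℕ => q ^ (-((n : ℤ) + 1)).natAbs) (q * (1 - q)⁻¹) := by
    have e : (fun n : ℕ => q ^ (-((n : ℤ) + 1)).natAbs) = fun n : ℕ => q * q ^ n := by
      funext n
      rw [Int.natAbs_neg, show ((n : ℤ) + 1).natAbs = n + 1 by omega, pow_succ']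
    rw [e]
    exact a1.mul_left q
  have := HasSum.of_nat_of_neg_add_one (f := fun i : ℤ => q ^ i.natAbs) (by simpa using a1) a2
  convert this using 1
  have : 1 - q ≠ 0 := by linarith
  field_simp

lemma summable_gauss {a : ℝ} (ha : 0 < a) (x : ℝ) :
    Summable fun n : ℤ => Real.exp (-a * (x - n) ^ 2) := by
  have h1 := (hasSum_pow_natAbs (q := Real.exp (-1)) (Real.exp_pos _).le
    (Real.exp_lt_one_iff.2 (by norm_num))).summable.mul_left (Real.exp (|x| + 1 / (4 * a)))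
  refine Summable.of_nonneg_of_le (fun n => (Real.exp_pos _).le) (fun n => ?_) h1
  rw [← Real.exp_nat_mul, ← Real.exp_add, Real.exp_le_exp]
  have e1 : ((n.natAbs : ℕ) : ℝ) = |(n : ℝ)| := by rw [Nat.cast_natAbs, Int.cast_abs]
  have e2 : |(n : ℝ)| ≤ |x| + |x - n| := by
    have := abs_sub x (x - n)
    rwa [sub_sub_cancel] at this
  have e3 : |x - n| ≤ a * (x - n) ^ 2 + 1 / (4 * a) := by
    rw [← sq_abs (x - n)]
    have : a * |x - n| ^ 2 + 1 / (4 * a) - |x - n| = (2 * a * |x - n| - 1) ^ 2 / (4 * a) := by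
      field_simp; ring
    have h0 : 0 ≤ (2 * a * |x - n| - 1) ^ 2 / (4 * a) := by positivity
    linarith
  rw [e1]
  linarith

lemma tsum_int_eq_sum_tsum {t : ℕ} (ht : 0 < t) {F : ℤ → ℂ} (hF : Summable F) :
    ∑' n, F n = ∑ k ∈ range t, ∑' κ : ℤ, F (k + κ * t) := by
  haveI : NeZero t := ⟨ht.ne'⟩
  let e : Fin t × ℤ ≃ ℤ := (Equiv.prodComm _ _).trans (Int.divModEquiv t).symm
  have he : ∀ p : Fin t × ℤ, e p = (p.1 : ℕ) + p.2 * t := fun p => by
    simp [e, add_comm]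
  have hs : Summable fun p : Fin t × ℤ => F (e p) := (e.summable_iff (f := F)).2 hF
  rw [← e.tsum_eq F, hs.tsum_prod, tsum_fintype,
    ← Fin.sum_univ_eq_sum_range (fun k : ℕ => ∑' κ : ℤ, F (k + κ * t))]
  simp only [he]

namespace RS

lemma ee_add (x y : ℝ) : ee (x + y) = ee x * ee y := by
  unfold ee; rw [← Complex.exp_add]; congr 1; push_cast; ring

lemma ee_int (n : ℤ) : ee n = 1 := by
  unfold ee
  rw [show 2 * (Real.pi : ℂ) * Complex.I * ((n : ℝ) : ℂ) = n * (2 * Real.pi * Complex.I) by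
    push_cast; ring, Complex.exp_int_mul_two_pi_mul_I]

lemma ee_add_int (x : ℝ) (n : ℤ) : ee (x + n) = ee x := by rw [ee_add, ee_int, mul_one]

lemma ee_zero : ee 0 = 1 := by simp [ee]

end RS

open RS

theorem summable_gh {r : RP} (hr : r.Valid) (c : ℤ) : Summable fun i : ℤ => gh r (c + i * r.t) := by
  have hg : (0 : ℝ) < r.g := by exact_mod_cast hr.g_pos
  have ht : (0 : ℝ) < r.t := by exact_mod_cast hr.t_pos
  refine (summable_gauss (a := Real.pi * r.g ^ 2) (by positivity) (-(c / r.t))).congr fun i => ?_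
  unfold gh
  congr 1
  push_cast
  field_simp
  ring

/-- Resampling one frequency. -/
theorem Gm_ee {r : RP} (hr : r.Valid) {j : ℕ} (hj : j < r.s) (c : ℤ) :
    ∑ k ∈ range r.t, Gm r j k * ee (-((k : ℝ) * c / r.t)) =
      ∑' i : ℤ, (gh r (c + i * r.t) : ℂ) * ee (-((j : ℝ) * (c + i * r.t) / r.s)) := by
  have hg : (0 : ℝ) < r.g := by exact_mod_cast hr.g_pos
  have ht : (0 : ℝ) < r.t := by exact_mod_cast hr.t_pos
  have hs : (0 : ℝ) < r.s := by exact_mod_cast hr.s_pos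
  have hgC : (r.g : ℂ) ≠ 0 := by exact_mod_cast hr.g_pos.ne'
  have htC : (r.t : ℂ) ≠ 0 := by exact_mod_cast hr.t_pos.ne'
  have hsC : (r.s : ℂ) ≠ 0 := by exact_mod_cast hr.s_pos.ne'
  set x : ℝ := (r.t : ℝ) * j / r.s with hx
  let F : ℤ → ℂ := fun n =>
    (Real.exp (-(Real.pi / r.g ^ 2) * (x - n) ^ 2) : ℂ) * ee (-((n : ℝ) * c / r.t))
  have hF : Summable F := by
    refine Summable.of_norm ((summable_gauss (a := Real.pi / r.g ^ 2) (by positivity) x).congr
      fun n => ?_)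
    simp only [F]
    rw [norm_mul, norm_ee, mul_one, Complex.norm_real, Real.norm_of_nonneg (Real.exp_pos _).le]
  have h1 : ∑ k ∈ range r.t, Gm r j k * ee (-((k : ℝ) * c / r.t)) = 1 / (r.g : ℂ) * ∑' n, F n := by
    rw [tsum_int_eq_sum_tsum hr.t_pos hF, Finset.mul_sum]
    refine Finset.sum_congr rfl fun k _ => ?_
    unfold Gm
    rw [if_pos hj, Complex.ofReal_mul, Complex.ofReal_tsum, mul_assoc, ← tsum_mul_right]
    congr 1
    · push_cast; rfl
    · refine tsum_congr fun κ => ?_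
      simp only [F]
      congr 1
      · congr 2
        push_cast
        ring
      · rw [← ee_add_int _ (-(κ * c))]
        congr 1
        push_cast
        field_simp
        ring
  have ha : 0 < (((r.g : ℂ)⁻¹) ^ 2).re := by
    rw [show ((r.g : ℂ)⁻¹) ^ 2 = (((r.g : ℝ)⁻¹ ^ 2 : ℝ) : ℂ) by push_cast; rfl, Complex.ofReal_re]
    positivity
  have h2 := Complex.tsum_exp_neg_quadratic ha (x / r.g ^ 2 - Complex.I * c / r.t)
  have h3 : (((r.g : ℂ)⁻¹) ^ 2) ^ (1 / 2 : ℂ) = (r.g : ℂ)⁻¹ := by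
    rw [one_div]
    refine Complex.sq_cpow_two_inv ?_
    rw [show (r.g : ℂ)⁻¹ = (((r.g : ℝ)⁻¹ : ℝ) : ℂ) by push_cast; rfl, Complex.ofReal_re]
    positivity
  rw [h3] at h2
  have h4 : ∑' n, F n = Complex.exp (-(Real.pi * x ^ 2 / r.g ^ 2)) *
      ∑' n : ℤ, Complex.exp (-Real.pi * ((r.g : ℂ)⁻¹) ^ 2 * n ^ 2 +
        2 * Real.pi * (x / r.g ^ 2 - Complex.I * c / r.t) * n) := by
    rw [← tsum_mul_left]
    refine tsum_congr fun n => ?_
    simp only [F, ee]
    rw [Complex.ofReal_exp, ← Complex.exp_add, ← Complex.exp_add]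
    congr 1
    push_cast
    field_simp
    ring
  rw [h1, h4, h2, ← tsum_mul_left, ← tsum_mul_left, ← tsum_mul_left]
  refine tsum_congr fun n => ?_
  rw [mul_left_comm (Complex.exp _), ← mul_assoc, show 1 / (r.g : ℂ) * (1 / (r.g : ℂ)⁻¹) = 1 by
    field_simp, one_mul]
  unfold gh ee
  rw [Complex.ofReal_exp, ← Complex.exp_add, ← Complex.exp_add]
  congr 1
  rw [hx]
  push_cast
  field_simp
  ring_nf
  simp only [Complex.I_sq, Complex.I_pow_three, Complex.I_pow_four]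
  ring

theorem Gm_rowsum {r : RP} (hr : r.Valid) (j : ℕ) : ∑ k ∈ range r.t, ‖Gm r j k‖ ≤ 3 := by
  by_cases hj : j < r.s
  swap
  · simp [Gm, hj]
  have hg : (1 : ℝ) ≤ r.g := by exact_mod_cast hr.g_pos
  have ht : (0 : ℝ) < r.t := by exact_mod_cast hr.t_pos
  have h1 := Gm_ee hr hj 0
  have h2 : ∀ k, Gm r j k = (‖Gm r j k‖ : ℂ) := by
    intro k
    unfold Gm
    rw [if_pos hj, Complex.norm_real, Real.norm_of_nonneg]
    exact mul_nonneg (by positivity) (tsum_nonneg fun _ => (Real.exp_pos _).le)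
  have h3 : ((∑ k ∈ range r.t, ‖Gm r j k‖ : ℝ) : ℂ) =
      ∑ k ∈ range r.t, Gm r j k * ee (-((k : ℝ) * (0 : ℤ) / r.t)) := by
    push_cast
    refine Finset.sum_congr rfl fun k _ => ?_
    rw [← h2]
    simp [ee_zero]
  have h4 := hasSum_pow_natAbs (q := 1 / 2) (by norm_num) (by norm_num)
  have h5 : ‖∑' i : ℤ, (gh r (0 + i * r.t) : ℂ) * ee (-((j : ℝ) * ((0 : ℤ) + i * r.t) / r.s))‖ ≤
      (1 + 1 / 2) / (1 - 1 / 2) := by
    refine tsum_of_norm_bounded h4 fun i => ?_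
    rw [norm_mul, norm_ee, mul_one, Complex.norm_real, gh, Real.norm_of_nonneg (Real.exp_pos _).le]
    have e1 : (1 / 2 : ℝ) ^ i.natAbs = Real.exp (-(Real.log 2 * i.natAbs)) := by
      rw [Real.exp_neg, mul_comm, Real.exp_nat_mul, Real.exp_log (by norm_num)]
      simp
    rw [e1, Real.exp_le_exp]
    have e2 : -Real.pi * (r.g : ℝ) ^ 2 * (((0 + i * r.t : ℤ)) : ℝ) ^ 2 / (r.t : ℝ) ^ 2 =
        -(Real.pi * r.g ^ 2 * (i.natAbs : ℝ) ^ 2) := by
      rw [Nat.cast_natAbs, Int.cast_abs, sq_abs]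
      push_cast
      field_simp
      ring
    rw [e2, neg_le_neg_iff]
    have e3 : (i.natAbs : ℝ) ≤ (i.natAbs : ℝ) ^ 2 := by
      exact_mod_cast Nat.le_self_pow (by norm_num) _
    have e4 : Real.log 2 ≤ Real.pi * r.g ^ 2 := by
      have := Real.log_two_lt_d9
      have := Real.pi_gt_three
      nlinarith
    exact mul_le_mul e4 e3 (Nat.cast_nonneg _) (by positivity)
  rw [← h1, ← h3, Complex.norm_real] at h5
  refine (le_abs_self _).trans (h5.trans (by norm_num))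

end Crest.Agent.R326
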