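import Crest.Agent.R326.SwapD

/-!
Exchanging two address fields of equal size faster than one pass per bit.
-/

set_option autoImplicit false

namespace Crest.Agent.R326

open Crest.Agent.Lib.PT Crest.Agent.Lib.LT

lemma sw_log_le_size {b : ℕ} (hb : 2 ≤ b) (n : ℕ) : Nat.log b n ≤ n.size - 1 := by
  rw [← log2_eq_size_sub_one]
  exact Nat.log_anti_left (by norm_num) hb

lemma sw_pb_log {β : Type} [Enc β] {b : ℕ} (hb : 2 ≤ b) {n : β → ℕ} (hn : PT n) :
    PB (fun a => Nat.log b (n a)) :=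
  (PB.size hn).of_le fun _ => (sw_log_le_size hb _).trans (Nat.sub_le _ _)

lemma sw_pt_log {β : Type} [Enc β] {b : ℕ} (hb : 2 ≤ b) {n : β → ℕ} (hn : PT n) :
    PT (fun a => Nat.log b (n a)) := by
  have h : PT (fun n : ℕ => ∑ i ∈ Finset.range n.size,
      if b ^ min (i + 1) n.size ≤ n then 1 else 0) :=
    PT.sum_range (g := fun n i => if b ^ min (i + 1) n.size ≤ n then 1 else 0)
      (by fun_prop) (by fun_prop) (by fun_prop)
  refine (h.comp hn).congr fun a => ?_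
  generalize n a = n
  rcases Nat.eq_zero_or_pos n with rfl | h0
  · simp
  have h1 := sw_log_le_size hb n
  have h2 : ∀ i ∈ Finset.range n.size, (if b ^ min (i + 1) n.size ≤ n then 1 else 0) =
      if i < Nat.log b n then 1 else 0 := fun i hi => by
    rw [min_eq_left (Nat.succ_le_of_lt (Finset.mem_range.1 hi))]
    exact if_congr (Nat.le_log_iff_pow_le hb h0.ne').symm rfl rfl
  rw [Finset.sum_congr rfl h2, ← Finset.card_filter]
  have h3 : (Finset.range n.size).filter (fun i => i < Nat.log b n) = Finset.range (Nat.log b n) := by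
    ext i
    simp only [Finset.mem_filter, Finset.mem_range]
    omega
  rw [h3, Finset.card_range]

/-- Change of the radix of the two fields. -/
def reb (Q Q' U O i : ℕ) : ℕ :=
  mk5 Q' U O (i / (O * Q * U * Q)) (i / (O * Q * U) % Q) (i / (O * Q) % U) (i / O % Q) (i % O)

lemma reb_mk5 {Q Q' U O h x u y o : ℕ} (hx : x < Q) (hu : u < U) (hy : y < Q) (ho : o < O) :
    reb Q Q' U O (mk5 Q U O h x u y o) = mk5 Q' U O h x u y o := by
  rw [reb, mk5_o ho, mk5_y hy ho, mk5_u hu hy ho, mk5_x hx hu hy ho, mk5_h hx hu hy ho]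

/-- The padded array. -/
def padOut {α : Type} (Q Q' U O : ℕ) (f : ℕ → α) (j : ℕ) : Option α :=
  if j / (O * Q' * U) % Q' < Q ∧ j / O % Q' < Q then some (f (reb Q' Q U O j)) else none

section pad
variable {α : Type} {Q Q' U O H : ℕ}

lemma padOut_mk5 (f : ℕ → α) {h x u y o : ℕ} (hx : x < Q') (hu : u < U) (hy : y < Q')
    (ho : o < O) : padOut Q Q' U O f (mk5 Q' U O h x u y o) =
      if x < Q ∧ y < Q then some (f (mk5 Q U O h x u y o)) else none := by
  rw [padOut, mk5_x hx hu hy ho, mk5_y hy ho, reb_mk5 hx hu hy ho]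

lemma reb_strictMono (hQ : 0 < Q) (hU : 0 < U) (hO : 0 < O) (hQ' : Q ≤ Q') {i j : ℕ} (h : i < j) :
    reb Q Q' U O i < reb Q Q' U O j := by
  obtain ⟨h, x, u, y, o, hx, hu, hy, ho, rfl⟩ := exists_mk5 hQ hU hO i
  obtain ⟨h', x', u', y', o', hx', hu', hy', ho', rfl⟩ := exists_mk5 hQ hU hO j
  rw [reb_mk5 hx hu hy ho, reb_mk5 hx' hu' hy' ho']
  simp only [mk5, sw_lt_iff ho ho', sw_lt_iff hy hy', sw_eq_iff hy hy', sw_lt_iff hx hx',
    sw_eq_iff hx hx', sw_lt_iff hu hu', sw_eq_iff hu hu'] at h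
  simpa only [mk5, sw_lt_iff ho ho', sw_lt_iff (hy.trans_le hQ') (hy'.trans_le hQ'),
    sw_eq_iff (hy.trans_le hQ') (hy'.trans_le hQ'), sw_lt_iff (hx.trans_le hQ') (hx'.trans_le hQ'),
    sw_eq_iff (hx.trans_le hQ') (hx'.trans_le hQ'), sw_lt_iff hu hu', sw_eq_iff hu hu'] using h

lemma reb_lt (hQ : 0 < Q) (hU : 0 < U) (hO : 0 < O) (hQ' : Q ≤ Q') {i : ℕ}
    (h : i < H * Q * U * Q * O) : reb Q Q' U O i < H * Q' * U * Q' * O := by
  obtain ⟨h, x, u, y, o, hx, hu, hy, ho, rfl⟩ := exists_mk5 hQ hU hO i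
  rw [reb_mk5 hx hu hy ho, mk5_lt_iff (hx.trans_le hQ') hu (hy.trans_le hQ') ho]
  exact (mk5_lt_iff hx hu hy ho).1 h

lemma padOut_reb (hQ : 0 < Q) (hU : 0 < U) (hO : 0 < O) (hQ' : Q ≤ Q') (f : ℕ → α) (i : ℕ) :
    padOut Q Q' U O f (reb Q Q' U O i) = some (f i) := by
  obtain ⟨h, x, u, y, o, hx, hu, hy, ho, rfl⟩ := exists_mk5 hQ hU hO i
  rw [reb_mk5 hx hu hy ho, padOut_mk5 f (hx.trans_le hQ') hu (hy.trans_le hQ') ho, if_pos ⟨hx, hy⟩]

lemma padOut_none (hQ : 0 < Q) (hU : 0 < U) (hO : 0 < O) (hQ' : Q ≤ Q') (f : ℕ → α) {j : ℕ}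
    (hj : j < H * Q' * U * Q' * O) (h : ∀ i, i < H * Q * U * Q * O → reb Q Q' U O i ≠ j) :
    padOut Q Q' U O f j = none := by
  obtain ⟨h', x, u, y, o, hx, hu, hy, ho, rfl⟩ := exists_mk5 (hQ.trans_le hQ') hU hO j
  rw [padOut_mk5 f hx hu hy ho, if_neg]
  rintro ⟨hx', hy'⟩
  exact h _ ((mk5_lt_iff hx' hu hy' ho).2 ((mk5_lt_iff hx hu hy ho).1 hj)) (reb_mk5 hx' hu hy' ho)

lemma padOut_swap (hQ : 0 < Q) (hU : 0 < U) (hO : 0 < O) (hQ' : Q ≤ Q') (f : ℕ → α) (j : ℕ) :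
    padOut Q Q' U O f (swapIdx Q' U O j) = padOut Q Q' U O (fun i => f (swapIdx Q U O i)) j := by
  obtain ⟨h', x, u, y, o, hx, hu, hy, ho, rfl⟩ := exists_mk5 (hQ.trans_le hQ') hU hO j
  rw [swapIdx_mk5 hx hu hy ho, padOut_mk5 f hy hu hx ho, padOut_mk5 _ hx hu hy ho]
  by_cases h : x < Q ∧ y < Q
  · rw [if_pos h, if_pos h.symm, swapIdx_mk5 h.1 hu h.2 ho]
  · rw [if_neg h, if_neg fun h' => h h'.symm]

lemma sz_padOut_le [Enc α] (hQ : 0 < Q) (hU : 0 < U) (hO : 0 < O) (hQ' : Q ≤ Q') {f : ℕ → α}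
    {s : ℕ} (hf : ∀ i, i < H * Q * U * Q * O → sz (f i) ≤ s) {j : ℕ}
    (hj : j < H * Q' * U * Q' * O) : sz (padOut Q Q' U O f j) ≤ s + 2 := by
  obtain ⟨h', x, u, y, o, hx, hu, hy, ho, rfl⟩ := exists_mk5 (hQ.trans_le hQ') hU hO j
  rw [padOut_mk5 f hx hu hy ho]
  split_ifs with h
  · have := hf _ ((mk5_lt_iff h.1 hu h.2 ho).2 ((mk5_lt_iff hx hu hy ho).1 hj))
    rw [sz_some]; omega
  · rw [sz_none]; omega

end pad

/-- A bit string padded to length `R`. -/
def padBits (R : ℕ) (l : List Bool) : List Bool :=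
  List.replicate (R - (l.length + 1)) true ++ false :: l

lemma arr_padBits {R : ℕ} {l : List Bool} (h : l.length + 1 ≤ R) :
    arr R (fun c => (padBits R l).getD c false) = padBits R l := by
  have e : (padBits R l).length = R := by simp [padBits]; omega
  conv_rhs => rw [eq_arr_getD (padBits R l) false, e]

lemma unpadBits (R : ℕ) (l : List Bool) : ((padBits R l).dropWhile fun b => b).tail = l := by
  simp [padBits]

lemma sw_save {W m r : ℕ} (h : NetNum W m r) : ((r + 1 : ℕ) : ℝ) ≤ W * (m : ℝ) ^ τ₁ := by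
  have hm1 : (2 : ℝ) ^ 19 ≤ m := by exact_mod_cast h.m_lo
  have hm2 : (m : ℝ) ≤ 2 ^ 20 := by exact_mod_cast h.m_hi
  have hW2 : (W : ℝ) ≤ 2 ^ 62 := by exact_mod_cast h.W_hi
  have hW0 : (0 : ℝ) ≤ W := Nat.cast_nonneg _
  have hs : (r : ℝ) + 2 ^ 42 ≤ W * m := by exact_mod_cast h.save
  have hm0 : (0 : ℝ) < m := lt_of_lt_of_le (by norm_num) hm1
  have hlog : Real.log m ≤ 20 := by
    have h1 : Real.log m ≤ Real.log (2 ^ 20) := Real.log_le_log hm0 hm2
    have h2 : Real.log 2 ≤ 1 := by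
      have := Real.log_le_sub_one_of_pos (show (0 : ℝ) < 2 by norm_num)
      linarith
    rw [Real.log_pow] at h1
    push_cast at h1
    linarith
  have h1 : (m : ℝ) ^ τ₁ = m * Real.exp (-(Real.log m / 2 ^ 46)) := by
    rw [τ₁, Real.rpow_sub hm0, Real.rpow_one, Real.rpow_def_of_pos hm0, Real.exp_neg,
      div_eq_mul_inv]
    congr 3
    ring
  have h2 : 1 - 20 / 2 ^ 46 ≤ Real.exp (-(Real.log m / 2 ^ 46)) := by
    have := Real.add_one_le_exp (-(Real.log m / 2 ^ 46))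
    have h3 : Real.log m / 2 ^ 46 ≤ 20 / 2 ^ 46 := by gcongr
    linarith
  have h3 : (W : ℝ) * m ≤ 2 ^ 62 * 2 ^ 20 := by gcongr
  have h4 : (W : ℝ) * m * (1 - 20 / 2 ^ 46) ≤ W * m * Real.exp (-(Real.log m / 2 ^ 46)) := by
    gcongr
  rw [h1, ← mul_assoc]
  push_cast
  nlinarith

lemma sw_cost {W m r j k : ℕ} (h : NetNum W m r) (hj : m ^ j ≤ k) :
    (r + 1) ^ j ≤ W ^ j * pw τ₁ k := by
  have hτ : 0 ≤ τ₁ := by unfold τ₁; norm_num
  have h1 : (((r + 1) ^ j : ℕ) : ℝ) ≤ (W * (m : ℝ) ^ τ₁) ^ j := by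
    rw [Nat.cast_pow]
    exact pow_le_pow_left₀ (Nat.cast_nonneg _) (sw_save h) j
  have h2 : ((m : ℝ) ^ τ₁) ^ j = ((m ^ j : ℕ) : ℝ) ^ τ₁ := by
    rw [← Real.rpow_natCast, ← Real.rpow_mul (Nat.cast_nonneg _), mul_comm,
      Real.rpow_mul (Nat.cast_nonneg _), Real.rpow_natCast, Nat.cast_pow]
  have h3 : ((m ^ j : ℕ) : ℝ) ^ τ₁ ≤ ((k : ℝ) + 1) ^ τ₁ :=
    Real.rpow_le_rpow (Nat.cast_nonneg _) (by exact_mod_cast hj.trans (Nat.le_succ k)) hτ
  have h4 : ((k : ℝ) + 1) ^ τ₁ ≤ pw τ₁ k := Nat.le_ceil _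
  have h5 : (((r + 1) ^ j : ℕ) : ℝ) ≤ ((W ^ j * pw τ₁ k : ℕ) : ℝ) := by
    rw [mul_pow, h2] at h1
    rw [Nat.cast_mul, Nat.cast_pow W]
    exact h1.trans (mul_le_mul_of_nonneg_left (h3.trans h4) (by positivity))
  exact_mod_cast h5

variable {A α : Type} [Enc α] {cur : A → P} {B : A → ℕ} {x : In B}

/-- Exchange two address fields of size `Q` in an array of records of size at most `s`. -/
theorem ct_swap {N H Q U O s : A → ℕ} {f : A → ℕ → α}
    (hf : CT cur x (fun a => arr (N a) (f a)))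
    (hp : CT cur x (fun a => (Q a, U a, O a, s a)))
    (hN : ∀ a, N a = H a * Q a * U a * Q a * O a) (hpos : ∀ a, 0 < N a)
    (hsz : ∀ a i, i < N a → sz (f a i) ≤ s a) (hs : Sm s (fun a => sz (N a)))
    (hB : Dom (fun a => N a * s a * pw τ₁ (Q a).size) B) :
    CT cur x (fun a => arr (N a) (fun i => f a (swapIdx (Q a) (U a) (O a) i))) := by
  obtain ⟨W, m, r, K₀, num, net⟩ := net_bits
  obtain ⟨q, hqK, hq⟩ := Nat.exists_infinite_primes (max K₀ 216 + 1)
  have hW : 0 < W := lt_of_lt_of_le (by norm_num) num.W_lo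
  have hm : 2 ≤ m := le_trans (by norm_num) num.m_lo
  have hWm : W ≤ m ^ 4 := num.W_hi.trans
    (le_trans (by norm_num) (Nat.pow_le_pow_left num.m_lo 4))
  have hq2 := hq.two_le
  have hall : ∀ a, 0 < H a ∧ 0 < Q a ∧ 0 < U a ∧ 0 < O a := fun a => by
    have := hpos a
    rw [hN] at this
    simp only [Nat.pos_iff_ne_zero, mul_ne_zero_iff] at this ⊢
    tauto
  have hQ0 := fun a => (hall a).2.1
  have hU0 := fun a => (hall a).2.2.1
  have hO0 := fun a => (hall a).2.2.2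
  have C : Ctx B N s :=
    ⟨hs, hB.le_trans fun a => Nat.le_mul_of_pos_right _ (pw_pos _ _), hpos⟩
  have hle : ∀ a n, n ∣ N a → n ≤ N a := fun a n h => Nat.le_of_dvd (hpos a) h
  have hQle : ∀ a, Q a ≤ N a := fun a => hle a _ ⟨H a * U a * Q a * O a, by rw [hN]; ring⟩
  have hUle : ∀ a, U a ≤ N a := fun a => hle a _ ⟨H a * Q a * Q a * O a, by rw [hN]; ring⟩
  have hOle : ∀ a, O a ≤ N a := fun a => hle a _ ⟨H a * Q a * U a * Q a, by rw [hN]; ring⟩
  -- the parameters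
  obtain ⟨e, he⟩ : ∃ e : A → ℕ, ∀ a, e a = Nat.log q (Q a) + 1 := ⟨_, fun _ => rfl⟩
  obtain ⟨j, hj⟩ : ∃ j : A → ℕ, ∀ a, j a = Nat.log m (e a) := ⟨_, fun _ => rfl⟩
  obtain ⟨s₀, hs₀⟩ : ∃ s₀ : A → ℕ, ∀ a, s₀ a = (s a + 3) / W ^ j a + 1 := ⟨_, fun _ => rfl⟩
  obtain ⟨N', hN'⟩ : ∃ N' : A → ℕ, ∀ a, N' a = H a * q ^ e a * U a * q ^ e a * O a :=
    ⟨_, fun _ => rfl⟩
  have hQe : ∀ a, Q a ≤ q ^ e a := fun a => by
    rw [he]; exact (Nat.lt_pow_succ_log_self hq2 _).le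
  have hQe' : ∀ a, q ^ e a ≤ q * Q a := fun a => by
    rw [he, pow_succ, mul_comm]
    exact Nat.mul_le_mul_left _ (Nat.pow_log_le_self q (hQ0 a).ne')
  have he_size : ∀ a, e a ≤ (Q a).size := fun a => by
    have h1 := sw_log_le_size hq2 (Q a)
    have h2 := Nat.size_pos.2 (hQ0 a)
    rw [he]; omega
  have he_sz : ∀ a, e a ≤ sz (N a) := fun a => by
    have h1 := he_size a
    have h2 := Nat.size_le_size (hQle a)
    rw [sz_nat]; omega
  have hmj : ∀ a, m ^ j a ≤ e a := fun a => by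
    rw [hj]; exact Nat.pow_log_le_self m (by rw [he]; omega)
  have hmj' : ∀ a, e a < m ^ (j a + 1) := fun a => by
    rw [hj]; exact Nat.lt_pow_succ_log_self hm _
  have hWj : ∀ a, W ^ j a ≤ sz (N a) ^ 4 := fun a =>
    calc W ^ j a ≤ (m ^ 4) ^ j a := Nat.pow_le_pow_left hWm _
      _ = (m ^ j a) ^ 4 := by rw [← pow_mul, ← pow_mul, mul_comm]
      _ ≤ _ := Nat.pow_le_pow_left ((hmj a).trans (he_sz a)) 4
  have hRlo : ∀ a, s a + 3 ≤ W ^ j a * s₀ a := fun a => by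
    rw [hs₀]
    exact (Nat.lt_mul_div_succ _ (pow_pos hW _)).le
  have hRhi : ∀ a, W ^ j a * s₀ a ≤ s a + 3 + W ^ j a := fun a => by
    rw [hs₀, mul_add, mul_one]
    exact Nat.add_le_add_right (Nat.mul_div_le _ _) _
  have hRs : Dom (fun a => W ^ j a * s₀ a) s :=
    (((Dom.refl s).add (Dom.const 3 hs.pos)).add ((hs 4).le_trans hWj)).le_trans hRhi
  have hN'le : ∀ a, N' a ≤ q ^ 2 * N a := fun a => by
    have := hQe' a
    calc N' a = H a * q ^ e a * U a * q ^ e a * O a := hN' a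
      _ ≤ H a * (q * Q a) * U a * (q * Q a) * O a := by gcongr
      _ = _ := by rw [hN]; ring
  have hN'ge : ∀ a, N a ≤ N' a := fun a => by
    have := hQe a
    rw [hN, hN']; gcongr
  have hN'pos : ∀ a, 0 < N' a := fun a => (hpos a).trans_le (hN'ge a)
  have hs₀N : Sm s₀ (fun a => sz (N a)) := fun k => by
    obtain ⟨c, hc⟩ := hs (k + 4)
    refine ⟨c, fun a => Nat.le_of_mul_le_mul_right (c := sz (N a) ^ 4) ?_ (pow_pos (sz_pos _) _)⟩
    have h1 := hc a
    have h2 : s a ≤ sz (N a) ^ 4 * s₀ a :=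
      le_trans (by have := hRlo a; omega) (Nat.mul_le_mul_right _ (hWj a))
    calc sz (N a) ^ k * sz (N a) ^ 4 = sz (N a) ^ (k + 4) := (pow_add _ _ _).symm
      _ ≤ c * s a := h1
      _ ≤ c * (sz (N a) ^ 4 * s₀ a) := Nat.mul_le_mul_left _ h2
      _ = _ := by ring
  have hszN' : ∀ a, sz (N' a) ≤ sz (N a) + sz (q ^ 2) := fun a =>
    (sz_nat_mono (hN'le a)).trans ((sz_mul_le _ _).trans (by omega))
  have hs₀N' : Sm s₀ (fun a => sz (N' a)) := (hs₀N.add_const _).of_le hszN'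
  have hsN' : Sm s (fun a => sz (N' a)) := (hs.add_const _).of_le hszN'
  have C' : Ctx B N' s := ⟨hsN', (C.dom.const_mul (q ^ 2)).le_trans fun a => by
    rw [← mul_assoc]; exact Nat.mul_le_mul_right _ (hN'le a), hN'pos⟩
  -- computing the parameters
  have cQ : CS cur x Q := C.cs hp.fst hQle
  have cU : CS cur x U := C.cs hp.snd.fst hUle
  have cO : CS cur x O := C.cs hp.snd.snd.fst hOle
  have cs : CS cur x s := ⟨hp.snd.snd.snd, sm_sz_of_dom C.domR x.pos⟩
  have cN : CS cur x N := C.cs (hf.length.congr fun a => by simp) fun _ => le_rfl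
  have ce : CS cur x e :=
    (cQ.pt (fun n => Nat.log q n + 1) ((sw_pt_log hq2 PT.id).add (PT.const 1))).congr he
  have cQ' : CS cur x (fun a => q ^ e a) :=
    (cQ.pt (fun n => q ^ (Nat.log q n + 1)) ((PT.const q).pow
      ((sw_pt_log hq2 PT.id).add (PT.const 1)) ((sw_pb_log hq2 PT.id).add (PB.const 1)))).congr
      fun a => by rw [he]
  have cW : CS cur x (fun a => W ^ j a) :=
    (ce.pt (fun n => W ^ Nat.log m n) ((PT.const W).pow (sw_pt_log hm PT.id)
      (sw_pb_log hm PT.id))).congr fun a => by rw [hj]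
  have cR : CS cur x (fun a => W ^ j a * s₀ a) :=
    (cW.pt₂ cs (fun w s => w * ((s + 3) / w + 1)) (by fun_prop)).congr fun a => by rw [hs₀]
  have cN' : CS cur x N' :=
    (cN.pt₃ cQ cQ' (fun n u v => n / (u * u) * (v * v)) (by fun_prop)).congr fun a => by
      have h1 : N a = H a * U a * O a * (Q a * Q a) := by rw [hN]; ring
      rw [hN', h1, Nat.mul_div_cancel _ (Nat.mul_pos (hQ0 a) (hQ0 a))]; ring
  have hfs : Dom (fun t : Ix N => sz (f t.a t.i)) (fun t => s t.a) :=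
    Dom.of_le fun t => hsz _ _ t.lt
  -- the padded layout
  have hpar : Sm s (fun a => sz (Q a, q ^ e a, U a, O a)) := by
    have s1 := C.sm_le hQle
    have s2 := C'.sm_le (n := fun a => q ^ e a) fun a => Nat.le_of_dvd (hN'pos a)
      ⟨H a * U a * q ^ e a * O a, by rw [hN']; ring⟩
    have s3 := C.sm_le hUle
    have s4 := C.sm_le hOle
    exact ((s1.add (s2.add (s3.add s4))).add_const 3).of_le fun a => by
      simp only [sz_pair]; omega
  have h1 : CT cur x (fun a => arr (N a) fun i => (reb (Q a) (q ^ e a) (U a) (O a) i, f a i)) := by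
    refine CT.arr_mapU hf (cQ.ct.pair (cQ'.ct.pair (cU.ct.pair cO.ct))) s hfs hpar.dom hs.dom
      (fun x' h₁ h₂ h₃ => CT.pair ?_ h₁) C.dom
    refine (h₂.pair h₃).pt (f := fun p : (ℕ × ℕ × ℕ × ℕ) × ℕ =>
      reb p.1.1 p.1.2.1 p.1.2.2.1 p.1.2.2.2 p.2) (by unfold reb mk5; fun_prop) ?_
    exact (((hpar.add hs).comap Ix.a).add_const 1).of_le fun t => by
      have := sz_nat_mono t.lt.le
      rw [sz_pair]; omega
  have hkey₁ : ∀ a i i', i < i' → i' < N a →
      reb (Q a) (q ^ e a) (U a) (O a) i < reb (Q a) (q ^ e a) (U a) (O a) i' :=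
    fun a i i' h _ => reb_strictMono (hQ0 a) (hU0 a) (hO0 a) (hQe a) h
  have hkey₂ : ∀ a i, i < N a → reb (Q a) (q ^ e a) (U a) (O a) i < N' a := fun a i h => by
    rw [hN'] ; rw [hN] at h; exact reb_lt (hQ0 a) (hU0 a) (hO0 a) (hQe a) h
  have hkey₃ : ∀ a (g : ℕ → α) i, i < N' a →
      (∀ i', i' < N a → reb (Q a) (q ^ e a) (U a) (O a) i' ≠ i) →
      padOut (Q a) (q ^ e a) (U a) (O a) g i = none := fun a g i h h' => by
    rw [hN'] at h; rw [hN] at h'
    exact padOut_none (hQ0 a) (hU0 a) (hO0 a) (hQe a) g h h'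
  have h2 : CT cur x (fun a => arr (N' a) (padOut (Q a) (q ^ e a) (U a) (O a) (f a))) :=
    CT.arr_scatter h1 cN'.ct (((Dom.refl N').mul hsN'.dom).trans C'.dom) hkey₁ hkey₂
      (fun a i _ => padOut_reb (hQ0 a) (hU0 a) (hO0 a) (hQe a) _ i) (fun a => hkey₃ a (f a))
  have hszp : ∀ a i, i < N' a → sz (padOut (Q a) (q ^ e a) (U a) (O a) (f a) i) ≤ s a + 2 :=
    fun a i h => by
      rw [hN'] at h
      exact sz_padOut_le (hQ0 a) (hU0 a) (hO0 a) (hQe a) (fun i hi => hsz a i (by rwa [hN])) h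
  have hlen : ∀ a i, i < N' a →
      (enc (padOut (Q a) (q ^ e a) (U a) (O a) (f a) i)).ser.length + 1 ≤ W ^ j a * s₀ a :=
    fun a i h => by
      have h1 := hszp a i h
      have h2 := hRlo a
      rw [D.length_ser]
      unfold sz at h1
      omega
  -- serialisation
  have h3 : CT cur x (fun a => rep (N' a) (W ^ j a * s₀ a) (fun i => i) fun i c =>
      (padBits (W ^ j a * s₀ a)
        (enc (padOut (Q a) (q ^ e a) (U a) (O a) (f a) i)).ser).getD c false) := by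
    refine CT.arr_mapU h2 cR.ct s ⟨3, fun t => ?_⟩ (sm_sz_of_dom hRs hs.pos).dom hsN'.dom
      (fun x' h₁ h₂ _ => ?_) C'.dom
    · have h1 := hszp _ _ t.lt
      have h2 := hs.pos t.a
      simp only at h1 ⊢
      omega
    · refine (((h₂.sub (h₁.ser.length.add (CT.const 1))).replicate (CT.const true) ?_).append
        ((CT.const false).cons h₁.ser)).congr fun t => arr_padBits (hlen _ _ t.lt)
      exact ((hRs.comap Ix.a).mul_const _).le_trans fun t =>
        Nat.mul_le_mul_right _ (Nat.sub_le _ _)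
  -- the recursive routine
  have h4 := (swap_core (q := q) net hW num.r_lo (by omega) hq hqK hs₀N' hN'pos).ct
    (fun a => ⟨a, j a, H a, e a, U a, O a, fun i c => (padBits (W ^ j a * s₀ a)
      (enc (padOut (Q a) (q ^ e a) (U a) (O a) (f a) i)).ser).getD c false, hN' a, hmj' a⟩)
    (h3.pair (ce.ct.pair (cU.ct.pair (cO.ct.pair cR.ct)))) (by
      obtain ⟨c, hc⟩ := hRs
      refine (hB.const_mul (q ^ 2 * c)).le_trans fun a => ?_
      have h1 := sw_cost num ((hmj a).trans (he_size a))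
      calc N' a * s₀ a * (r + 1) ^ j a
          ≤ q ^ 2 * N a * s₀ a * (W ^ j a * pw τ₁ (Q a).size) := by
            have := hN'le a
            gcongr
        _ = q ^ 2 * N a * (W ^ j a * s₀ a) * pw τ₁ (Q a).size := by ring
        _ ≤ q ^ 2 * N a * (c * s a) * pw τ₁ (Q a).size := by
            have := hc a
            gcongr
        _ = _ := by ring)
  have hsw : ∀ a i, i < N' a → swapIdx (q ^ e a) (U a) (O a) i < N' a := fun a i h => by
    rw [hN'] at h ⊢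
    exact swapIdx_lt ((hQ0 a).trans_le (hQe a)) (hU0 a) (hO0 a) h
  have h5 : CT cur x (fun a => arr (N' a) fun i => padBits (W ^ j a * s₀ a)
      (enc (padOut (Q a) (q ^ e a) (U a) (O a) (f a) (swapIdx (q ^ e a) (U a) (O a) i))).ser) :=
    h4.congr fun a => arr_congr fun i hi => (arr_padBits (hlen a _ (hsw a i hi))).symm
  -- parsing
  have h6 : CT cur x (fun a => arr (N' a) fun i =>
      padOut (Q a) (q ^ e a) (U a) (O a) (f a) (swapIdx (q ^ e a) (U a) (O a) i)) := by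
    refine CT.arr_mapU h5 (CT.const ()) s ?_ (Dom.const 1 hs.pos) hsN'.dom
      (fun x' h₁ _ _ => ?_) C'.dom
    · refine (((hRs.comap Ix.a).const_mul 6).add (Dom.const 1 fun t => hs.pos t.a)).le_trans
        fun t => ?_
      rw [← arr_padBits (hlen _ _ (hsw _ _ t.lt)), sz_boolList, length_arr]
    · exact ((h₁.dropWhile_lt (LT.of_finite fun b : Bool => b)).tail.congr
        fun t => (unpadBits _ _).symm).parse
  refine h6.reduceOption.congr fun a => ?_
  simp only [padOut_swap (hQ0 a) (hU0 a) (hO0 a) (hQe a)]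
  exact (reduceOption_arr (hkey₁ a) (hkey₂ a)
    (fun i _ => padOut_reb (hQ0 a) (hU0 a) (hO0 a) (hQe a) _ i) (hkey₃ a _)).symm

end Crest.Agent.R326
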