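import Crest.Agent.R326.Net

/-!
Address arithmetic and cheap address permutations for the swap routine.
-/

set_option autoImplicit false

namespace Crest.Agent.R326

open Crest.Agent.Lib.PT Crest.Agent.Lib.LT

/-! ### mixed radix arithmetic -/

lemma sw_lt_iff {n a b a' b' : ℕ} (hb : b < n) (hb' : b' < n) :
    a * n + b < a' * n + b' ↔ a < a' ∨ (a = a' ∧ b < b') := by
  constructor
  · intro h
    rcases lt_trichotomy a a' with h1 | h1 | h1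
    · exact Or.inl h1
    · subst h1; exact Or.inr ⟨rfl, by omega⟩
    · have : (a' + 1) * n ≤ a * n := Nat.mul_le_mul_right _ h1
      rw [add_mul] at this; omega
  · rintro (h1 | ⟨rfl, h1⟩)
    · have : (a + 1) * n ≤ a' * n := Nat.mul_le_mul_right _ h1
      rw [add_mul] at this; omega
    · omega

lemma sw_div {n a b : ℕ} (hb : b < n) : (a * n + b) / n = a := by
  rw [add_comm, Nat.add_mul_div_right _ _ (by omega), Nat.div_eq_of_lt hb, zero_add]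

lemma sw_mod {n a b : ℕ} (hb : b < n) : (a * n + b) % n = b := by
  rw [add_comm, Nat.add_mul_mod_self_right, Nat.mod_eq_of_lt hb]

lemma sw_eq_iff {n a b a' b' : ℕ} (hb : b < n) (hb' : b' < n) :
    a * n + b = a' * n + b' ↔ a = a' ∧ b = b' := by
  constructor
  · intro h
    have h1 := congrArg (· / n) h
    have h2 := congrArg (· % n) h
    simp only [sw_div hb, sw_div hb', sw_mod hb, sw_mod hb'] at h1 h2
    exact ⟨h1, h2⟩
  · rintro ⟨rfl, rfl⟩; rfl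

lemma sw_lt_mul {n a b k : ℕ} (ha : a < k) (hb : b < n) : a * n + b < k * n := by
  have : (a + 1) * n ≤ k * n := Nat.mul_le_mul_right _ ha
  rw [add_mul] at this; omega

lemma sw_lt_mul_iff {n a b k : ℕ} (hb : b < n) : a * n + b < k * n ↔ a < k :=
  ⟨fun h => Nat.lt_of_mul_lt_mul_right (lt_of_le_of_lt (Nat.le_add_right _ _) h),
    fun h => sw_lt_mul h hb⟩

/-- Replace the digit of place `p` and radix `ρ` by `v`. -/
def upd (p ρ i v : ℕ) : ℕ := (i / (p * ρ) * ρ + v) * p + i % p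

lemma sw_decomp (p ρ i : ℕ) : i = (i / (p * ρ) * ρ + i / p % ρ) * p + i % p := by
  rw [← Nat.div_div_eq_div_mul, Nat.div_add_mod', Nat.div_add_mod']

lemma exists_mk3 {p ρ : ℕ} (hp : 0 < p) (hρ : 0 < ρ) (i : ℕ) :
    ∃ h d l, d < ρ ∧ l < p ∧ i = (h * ρ + d) * p + l :=
  ⟨_, _, _, Nat.mod_lt _ hρ, Nat.mod_lt _ hp, sw_decomp p ρ i⟩

lemma mk3_hi {p ρ h d l : ℕ} (hd : d < ρ) (hl : l < p) : ((h * ρ + d) * p + l) / (p * ρ) = h := by
  rw [← Nat.div_div_eq_div_mul, sw_div hl, sw_div hd]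

lemma mk3_dig {p ρ h d l : ℕ} (hd : d < ρ) (hl : l < p) : ((h * ρ + d) * p + l) / p % ρ = d := by
  rw [sw_div hl, sw_mod hd]

lemma upd_mk3 {p ρ h d l : ℕ} (hd : d < ρ) (hl : l < p) (v : ℕ) :
    upd p ρ ((h * ρ + d) * p + l) v = (h * ρ + v) * p + l := by
  rw [upd, mk3_hi hd hl, sw_mod hl]

lemma upd_dig {p ρ v : ℕ} (hp : 0 < p) (hv : v < ρ) (i : ℕ) : upd p ρ i v / p % ρ = v :=
  mk3_dig hv (Nat.mod_lt _ hp)

lemma upd_div {p ρ v p' : ℕ} (hp : 0 < p) (hv : v < ρ) (h : p * ρ ∣ p') (i : ℕ) :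
    upd p ρ i v / p' = i / p' := by
  obtain ⟨w, rfl⟩ := h
  rw [← Nat.div_div_eq_div_mul, ← Nat.div_div_eq_div_mul i (p * ρ), upd,
    mk3_hi hv (Nat.mod_lt _ hp)]

lemma upd_mod {p ρ v p' : ℕ} (hp : 0 < p) (h : p' ∣ p) (i : ℕ) :
    upd p ρ i v % p' = i % p' := by
  rw [← Nat.mod_mod_of_dvd _ h, upd, sw_mod (Nat.mod_lt _ hp), Nat.mod_mod_of_dvd _ h]

lemma upd_dig_above {p ρ v p' ρ' : ℕ} (hp : 0 < p) (hv : v < ρ) (h : p * ρ ∣ p') (i : ℕ) :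
    upd p ρ i v / p' % ρ' = i / p' % ρ' := by rw [upd_div hp hv h]

lemma upd_dig_below {p ρ v p' ρ' : ℕ} (hp : 0 < p) (h : p' * ρ' ∣ p) (i : ℕ) :
    upd p ρ i v / p' % ρ' = i / p' % ρ' := by
  rw [← Nat.mod_mul_right_div_self, upd_mod hp h, Nat.mod_mul_right_div_self]

/-- The address with five fields. -/
def mk5 (Q U O h x u y o : ℕ) : ℕ := (((h * Q + x) * U + u) * Q + y) * O + o

lemma exists_mk5 {Q U O : ℕ} (hQ : 0 < Q) (hU : 0 < U) (hO : 0 < O) (i : ℕ) :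
    ∃ h x u y o, x < Q ∧ u < U ∧ y < Q ∧ o < O ∧ i = mk5 Q U O h x u y o := by
  obtain ⟨h, y, o, hy, ho, rfl⟩ := exists_mk3 hO hQ i
  obtain ⟨h, x, u, hx, hu, rfl⟩ := exists_mk3 hU hQ h
  exact ⟨h, x, u, y, o, hx, hu, hy, ho, rfl⟩

section mk5
variable {Q U O h x u y o : ℕ}

lemma mk5_o (ho : o < O) : mk5 Q U O h x u y o % O = o := sw_mod ho

lemma mk5_y (hy : y < Q) (ho : o < O) : mk5 Q U O h x u y o / O % Q = y := mk3_dig hy ho

lemma mk5_u (hu : u < U) (hy : y < Q) (ho : o < O) : mk5 Q U O h x u y o / (O * Q) % U = u := by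
  rw [mk5, mk3_hi hy ho, sw_mod hu]

lemma mk5_x (hx : x < Q) (hu : u < U) (hy : y < Q) (ho : o < O) :
    mk5 Q U O h x u y o / (O * Q * U) % Q = x := by
  rw [mk5, ← Nat.div_div_eq_div_mul, mk3_hi hy ho, mk3_dig hx hu]

lemma mk5_h (hx : x < Q) (hu : u < U) (hy : y < Q) (ho : o < O) :
    mk5 Q U O h x u y o / (O * Q * U * Q) = h := by
  rw [mk5, mul_assoc (O * Q), ← Nat.div_div_eq_div_mul, mk3_hi hy ho, mk3_hi hx hu]

lemma swapIdx_mk5 (hx : x < Q) (hu : u < U) (hy : y < Q) (ho : o < O) :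
    swapIdx Q U O (mk5 Q U O h x u y o) = mk5 Q U O h y u x o := by
  rw [swapIdx, mk5_o ho, mk5_y hy ho, mk5_u hu hy ho, mk5_x hx hu hy ho, mk5_h hx hu hy ho, mk5]

lemma mk5_lt_iff {H : ℕ} (hx : x < Q) (hu : u < U) (hy : y < Q) (ho : o < O) :
    mk5 Q U O h x u y o < H * Q * U * Q * O ↔ h < H := by
  rw [mk5, sw_lt_mul_iff ho, sw_lt_mul_iff hy, sw_lt_mul_iff hu, sw_lt_mul_iff hx]

lemma upd_mk5_y (hy : y < Q) (ho : o < O) (v : ℕ) :
    upd O Q (mk5 Q U O h x u y o) v = mk5 Q U O h x u v o := upd_mk3 hy ho v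

lemma upd_mk5_x (hx : x < Q) (hu : u < U) (hy : y < Q) (ho : o < O) (v : ℕ) :
    upd (O * Q * U) Q (mk5 Q U O h x u y o) v = mk5 Q U O h v u y o := by
  have e : ∀ x, mk5 Q U O h x u y o = (h * Q + x) * (O * Q * U) + ((u * Q + y) * O + o) :=
    fun x => by rw [mk5]; ring
  have hl : (u * Q + y) * O + o < O * Q * U :=
    (sw_lt_mul (sw_lt_mul hu hy) ho).trans_eq (by ring)
  rw [e, e, upd_mk3 hx hl]

end mk5

section swapIdx
variable {Q U O : ℕ}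

lemma swapIdx_lt (hQ : 0 < Q) (hU : 0 < U) (hO : 0 < O) {H i : ℕ} (hi : i < H * Q * U * Q * O) :
    swapIdx Q U O i < H * Q * U * Q * O := by
  obtain ⟨h, x, u, y, o, hx, hu, hy, ho, rfl⟩ := exists_mk5 hQ hU hO i
  rw [swapIdx_mk5 hx hu hy ho, mk5_lt_iff hy hu hx ho]
  exact (mk5_lt_iff hx hu hy ho).1 hi

lemma swapIdx_swapIdx (hQ : 0 < Q) (hU : 0 < U) (hO : 0 < O) (i : ℕ) :
    swapIdx Q U O (swapIdx Q U O i) = i := by
  obtain ⟨h, x, u, y, o, hx, hu, hy, ho, rfl⟩ := exists_mk5 hQ hU hO i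
  rw [swapIdx_mk5 hx hu hy ho, swapIdx_mk5 hy hu hx ho]

lemma swapIdx_eq_upd (hQ : 0 < Q) (hU : 0 < U) (hO : 0 < O) (i : ℕ) :
    swapIdx Q U O i = upd (O * Q * U) Q (upd O Q i (i / (O * Q * U) % Q)) (i / O % Q) := by
  obtain ⟨h, x, u, y, o, hx, hu, hy, ho, rfl⟩ := exists_mk5 hQ hU hO i
  rw [swapIdx_mk5 hx hu hy ho, mk5_x hx hu hy ho, mk5_y hy ho, upd_mk5_y hy ho,
    upd_mk5_x hx hu hx ho]

lemma swapIdx_mul {Q₁ Q₂ : ℕ} (h₁ : 0 < Q₁) (h₂ : 0 < Q₂) (hU : 0 < U) (hO : 0 < O) (i : ℕ) :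
    swapIdx (Q₁ * Q₂) U O i = swapIdx Q₁ (Q₂ * U) (Q₂ * O) (swapIdx Q₂ (U * Q₁) O i) := by
  obtain ⟨h, x, u, y, o, hx, hu, hy, ho, rfl⟩ := exists_mk5 (Nat.mul_pos h₁ h₂) hU hO i
  obtain ⟨x₁, x₂, hx₂, rfl⟩ : ∃ x₁ x₂, x₂ < Q₂ ∧ x = x₁ * Q₂ + x₂ :=
    ⟨x / Q₂, x % Q₂, Nat.mod_lt _ h₂, (Nat.div_add_mod' _ _).symm⟩
  obtain ⟨y₁, y₂, hy₂, rfl⟩ : ∃ y₁ y₂, y₂ < Q₂ ∧ y = y₁ * Q₂ + y₂ :=
    ⟨y / Q₂, y % Q₂, Nat.mod_lt _ h₂, (Nat.div_add_mod' _ _).symm⟩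
  have hx₁ := (sw_lt_mul_iff hx₂).1 hx
  have hy₁ := (sw_lt_mul_iff hy₂).1 hy
  rw [swapIdx_mk5 hx hu hy ho]
  have e1 : mk5 (Q₁ * Q₂) U O h (x₁ * Q₂ + x₂) u (y₁ * Q₂ + y₂) o =
      mk5 Q₂ (U * Q₁) O (h * Q₁ + x₁) x₂ (u * Q₁ + y₁) y₂ o := by simp only [mk5]; ring
  have e2 : mk5 Q₂ (U * Q₁) O (h * Q₁ + x₁) y₂ (u * Q₁ + y₁) x₂ o =
      mk5 Q₁ (Q₂ * U) (Q₂ * O) h x₁ (y₂ * U + u) y₁ (x₂ * O + o) := by simp only [mk5]; ring
  rw [e1, swapIdx_mk5 hx₂ (sw_lt_mul hu hy₁) hy₂ ho, e2,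
    swapIdx_mk5 hx₁ (sw_lt_mul hy₂ hu) hy₁ (sw_lt_mul hx₂ ho)]
  simp only [mk5]; ring

end swapIdx

/-- Reversal inside the blocks of length `p`. -/
def rev (p i : ℕ) : ℕ := i / p * p + (p - 1 - i % p)

lemma rev_rev {p ρ : ℕ} (hp : 0 < p) (hρ : 0 < ρ) (i : ℕ) :
    rev (p * ρ) (rev p i) = upd p ρ i (ρ - 1 - i / p % ρ) := by
  obtain ⟨h, d, l, hd, hl, rfl⟩ := exists_mk3 hp hρ i
  rw [mk3_dig hd hl, upd_mk3 hd hl]
  obtain ⟨l', rfl⟩ : ∃ l', p = l + l' + 1 := ⟨p - l - 1, by omega⟩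
  obtain ⟨d', rfl⟩ : ∃ d', ρ = d + d' + 1 := ⟨ρ - d - 1, by omega⟩
  have e1 : rev (l + l' + 1) ((h * (d + d' + 1) + d) * (l + l' + 1) + l) =
      h * ((l + l' + 1) * (d + d' + 1)) + (d * (l + l' + 1) + l') := by
    rw [rev, sw_div hl, sw_mod hl, show l + l' + 1 - 1 - l = l' by omega]; ring
  have e2 : (l + l' + 1) * (d + d' + 1) = (d * (l + l' + 1) + l') + (d' * (l + l' + 1) + l) + 1 := by
    ring
  have hlt : d * (l + l' + 1) + l' < (l + l' + 1) * (d + d' + 1) := by omega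
  rw [e1, rev, sw_div hlt, sw_mod hlt, show d + d' + 1 - 1 - d = d' by omega,
    show (l + l' + 1) * (d + d' + 1) - 1 - (d * (l + l' + 1) + l') = d' * (l + l' + 1) + l by omega]
  ring

/-! ### moves -/

/-- An array of `N` records of `R` bits, read through the decoding of the addresses. -/
def rep {Ad : Type} (N R : ℕ) (dec : ℕ → Ad) (F : Ad → ℕ → Bool) : List (List Bool) :=
  arr N fun i => arr R (F (dec i))

variable {A γ : Type} [Enc γ] {cur : A → P} {B : A → ℕ} {x : In B} {N R Qc Qc' : A → ℕ}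

/-- The address map `τ` can be applied at oracle cost `Qc`. -/
def Mv (cur : A → P) {B : A → ℕ} (x : In B) (N R Qc : A → ℕ) {Ad : A → Type}
    (dec : ∀ a, ℕ → Ad a) (τ : ∀ a, Ad a → Ad a) : Prop :=
  ∀ (x' : In B) (F : ∀ a, Ad a → ℕ → Bool), CT cur x' x.val →
    CT cur x' (fun a => rep (N a) (R a) (dec a) (F a)) →
    CTQ cur x' Qc (fun a => rep (N a) (R a) (dec a) fun z => F a (τ a z))

/-- The standing hypotheses. -/
structure Ctx (B N R : A → ℕ) : Prop where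
  sm : Sm R (fun a => sz (N a))
  dom : Dom (fun a => N a * R a) B
  pos : ∀ a, 0 < N a

lemma Ctx.R_pos (C : Ctx B N R) (a : A) : 0 < R a := C.sm.pos a

lemma Ctx.domN (C : Ctx B N R) : Dom N B :=
  C.dom.le_trans fun a => Nat.le_mul_of_pos_right _ (C.R_pos a)

lemma Ctx.domR (C : Ctx B N R) : Dom R B :=
  C.dom.le_trans fun a => Nat.le_mul_of_pos_left _ (C.pos a)

lemma Ctx.smB (C : Ctx B N R) : Sm B (fun a => sz (N a)) := C.sm.mono C.domR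

lemma Ctx.sm_le (C : Ctx B N R) {n : A → ℕ} (h : ∀ a, n a ≤ N a) : Sm R (fun a => sz (n a)) :=
  C.sm.sz_of_le h

lemma Ctx.cs (C : Ctx B N R) {n : A → ℕ} (hn : CT cur x n) (h : ∀ a, n a ≤ N a) : CS cur x n :=
  ⟨hn, C.smB.sz_of_le h⟩

section Mv
variable {Ad : A → Type} {dec : ∀ a, ℕ → Ad a} {τ τ' : ∀ a, Ad a → Ad a}

lemma Mv.mono (h : Mv cur x N R Qc dec τ) (H : ∀ a, Qc a ≤ Qc' a) : Mv cur x N R Qc' dec τ :=
  fun x' F h₁ h₂ => (h x' F h₁ h₂).mono H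

lemma Mv.congr (h : Mv cur x N R Qc dec τ) (H : ∀ a z, τ' a z = τ a z) :
    Mv cur x N R Qc dec τ' := by
  rw [show τ' = τ from funext fun a => funext (H a)]; exact h

lemma Mv.id : Mv cur x N R (fun _ => 0) dec (fun _ z => z) := fun _ _ _ h₂ => h₂.toQ _

lemma Mv.comp (h : Mv cur x N R Qc dec τ) (h' : Mv cur x N R Qc' dec τ') :
    Mv cur x N R (fun a => Qc a + Qc' a) dec (fun a z => τ a (τ' a z)) :=
  fun x' F h₁ h₂ => (h x' F h₁ h₂).bind fun x'' h₃ h₄ =>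
    h' x'' (fun a z => F a (τ a z)) (h₃.trans h₁) h₄

lemma Mv.comp_left (h : Mv cur x N R (fun _ => 0) dec τ) (h' : Mv cur x N R Qc dec τ') :
    Mv cur x N R Qc dec (fun a z => τ a (τ' a z)) := (h.comp h').mono fun _ => by simp

lemma Mv.comp_right (h : Mv cur x N R Qc dec τ) (h' : Mv cur x N R (fun _ => 0) dec τ') :
    Mv cur x N R Qc dec (fun a z => τ a (τ' a z)) := (h.comp h').mono fun _ => by simp

lemma Mv.lift {σ : A → ℕ → ℕ} (h : Mv cur x N R Qc (fun _ i => i) σ)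
    (H : ∀ a i, i < N a → dec a (σ a i) = τ a (dec a i)) : Mv cur x N R Qc dec τ :=
  fun x' F h₁ h₂ => (h x' (fun a i => F a (dec a i)) h₁ h₂).congr fun a =>
    arr_congr fun i hi => by simp only [H a i hi]

lemma Mv.lower {σ : A → ℕ → ℕ} (h : Mv cur x N R Qc dec τ) (en : ∀ a, Ad a → ℕ)
    (H₁ : ∀ a i, i < N a → en a (dec a i) = i)
    (H₂ : ∀ a i, i < N a → en a (τ a (dec a i)) = σ a i) : Mv cur x N R Qc (fun _ i => i) σ :=
  fun x' F h₁ h₂ => (h x' (fun a z => F a (en a z)) h₁ (h₂.congr fun a =>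
    arr_congr fun i hi => by simp only [H₁ a i hi])).congr fun a =>
      arr_congr fun i hi => by simp only [H₂ a i hi]

/-- A permutation that is increasing on boundedly many colour classes. -/
lemma Mv.scatter (C : Ctx B N R) (c : ℕ) (π col : γ → ℕ → ℕ)
    (hπ : PT (fun q : γ × ℕ => π q.1 q.2)) (hcol : PT (fun q : γ × ℕ => col q.1 q.2))
    {par : A → γ} (hp : CT cur x par) (hs : Sm R (fun a => sz (par a)))
    (h₁ : ∀ a i, i < N a → π (par a) i < N a ∧ col (par a) i < c ∧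
      τ a (dec a (π (par a) i)) = dec a i)
    (h₂ : ∀ a i j, i < j → j < N a → col (par a) i = col (par a) j → π (par a) i < π (par a) j)
    (h₃ : ∀ a i j, i < N a → j < N a → π (par a) i = π (par a) j → i = j) :
    Mv cur x N R (fun _ => 0) dec τ := fun x' F hx hF =>
  (CT.permColour c π col hπ hcol (f := fun a i => arr (R a) (F a (dec a i)))
    (g := fun a i => arr (R a) (F a (τ a (dec a i)))) R hF (hx.trans hp) (hs.add C.sm)
    ⟨7, fun q => by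
      have := C.R_pos q.a
      simp only [sz_boolList, length_arr]; omega⟩
    C.dom (fun a i hi => ⟨(h₁ a i hi).1, (h₁ a i hi).2.1, by rw [(h₁ a i hi).2.2]⟩) h₂ h₃).toQ _

/-- Change one digit as a function of itself and of the higher part of the address. -/
lemma Mv.digit (C : Ctx B N R) (c : ℕ) (φ κ : γ → ℕ → ℕ → ℕ)
    (hφ : PT (fun q : γ × ℕ × ℕ => φ q.1 q.2.1 q.2.2))
    (hκ : PT (fun q : γ × ℕ × ℕ => κ q.1 q.2.1 q.2.2))
    {par : A → γ} (hp : CT cur x par) (hs : Sm R (fun a => sz (par a)))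
    {p ρ : A → ℕ} (hpp : CT cur x p) (hρ : CT cur x ρ) (hd : ∀ a, p a * ρ a ∣ N a)
    (h₁ : ∀ a h d, d < ρ a → φ (par a) h d < ρ a ∧ κ (par a) h d < c)
    (h₂ : ∀ a h d d', d < d' → d' < ρ a → κ (par a) h d = κ (par a) h d' →
      φ (par a) h d < φ (par a) h d')
    (h₃ : ∀ a h d d', d < ρ a → d' < ρ a → φ (par a) h d = φ (par a) h d' → d = d')
    (H : ∀ a i, i < N a → τ a (dec a (upd (p a) (ρ a) i
      (φ (par a) (i / (p a * ρ a)) (i / p a % ρ a)))) = dec a i) :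
    Mv cur x N R (fun _ => 0) dec τ := by
  have hpos : ∀ a, 0 < p a * ρ a := fun a => Nat.pos_of_dvd_of_pos (hd a) (C.pos a)
  have hp0 : ∀ a, 0 < p a := fun a => Nat.pos_of_mul_pos_right (hpos a)
  have hρ0 : ∀ a, 0 < ρ a := fun a => Nat.pos_of_mul_pos_left (hpos a)
  have hle : ∀ a, p a * ρ a ≤ N a := fun a => Nat.le_of_dvd (C.pos a) (hd a)
  refine Mv.scatter C c (γ := γ × ℕ × ℕ)
    (fun q i => upd q.2.1 q.2.2 i (φ q.1 (i / (q.2.1 * q.2.2)) (i / q.2.1 % q.2.2)))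
    (fun q i => κ q.1 (i / (q.2.1 * q.2.2)) (i / q.2.1 % q.2.2)) ?_ ?_
    (par := fun a => (par a, p a, ρ a)) (hp.pair (hpp.pair hρ)) ?_ (fun a i hi => ⟨?_, ?_, H a i hi⟩)
    (fun a i j hij hj => ?_) (fun a i j hi hj => ?_)
  · have h1 : PT (fun q : (γ × ℕ × ℕ) × ℕ =>
        φ q.1.1 (q.2 / (q.1.2.1 * q.1.2.2)) (q.2 / q.1.2.1 % q.1.2.2)) :=
      hφ.comp (f := fun q : (γ × ℕ × ℕ) × ℕ =>
        (q.1.1, q.2 / (q.1.2.1 * q.1.2.2), q.2 / q.1.2.1 % q.1.2.2)) (by fun_prop)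
    unfold upd
    fun_prop
  · exact hκ.comp (f := fun q : (γ × ℕ × ℕ) × ℕ =>
        (q.1.1, q.2 / (q.1.2.1 * q.1.2.2), q.2 / q.1.2.1 % q.1.2.2)) (by fun_prop)
  · have s1 := C.sm_le (n := p) fun a => (Nat.le_mul_of_pos_right _ (hρ0 a)).trans (hle a)
    have s2 := C.sm_le (n := ρ) fun a => (Nat.le_mul_of_pos_left _ (hp0 a)).trans (hle a)
    exact ((hs.add (s1.add s2)).add_const 2).of_le fun a => by simp only [sz_pair]; omega
  · obtain ⟨h, d, l, hd', hl, rfl⟩ := exists_mk3 (hp0 a) (hρ0 a) i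
    obtain ⟨K, hK⟩ := hd a
    have e : N a = K * ρ a * p a := by rw [hK]; ring
    simp only [mk3_hi hd' hl, mk3_dig hd' hl, upd_mk3 hd' hl]
    rw [e, sw_lt_mul_iff hl, sw_lt_mul_iff hd'] at hi
    rw [e, sw_lt_mul_iff hl, sw_lt_mul_iff (h₁ a h d hd').1]
    exact hi
  · exact (h₁ a _ _ (Nat.mod_lt _ (hρ0 a))).2
  · obtain ⟨h, d, l, hd', hl, rfl⟩ := exists_mk3 (hp0 a) (hρ0 a) i
    obtain ⟨h', d', l', hd'', hl', rfl⟩ := exists_mk3 (hp0 a) (hρ0 a) j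
    simp only [mk3_hi hd' hl, mk3_dig hd' hl, upd_mk3 hd' hl, mk3_hi hd'' hl', mk3_dig hd'' hl',
      upd_mk3 hd'' hl']
    intro hc
    rw [sw_lt_iff hl hl', sw_lt_iff hd' hd'', sw_eq_iff hd' hd''] at hij
    rw [sw_lt_iff hl hl', sw_lt_iff (h₁ a h d hd').1 (h₁ a h' d' hd'').1,
      sw_eq_iff (h₁ a h d hd').1 (h₁ a h' d' hd'').1]
    rcases hij with (h1 | ⟨rfl, h1⟩) | ⟨⟨rfl, rfl⟩, h1⟩
    · exact Or.inl (Or.inl h1)
    · exact Or.inl (Or.inr ⟨rfl, h₂ a h d d' h1 hd'' hc⟩)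
    · exact Or.inr ⟨⟨rfl, rfl⟩, h1⟩
  · obtain ⟨h, d, l, hd', hl, rfl⟩ := exists_mk3 (hp0 a) (hρ0 a) i
    obtain ⟨h', d', l', hd'', hl', rfl⟩ := exists_mk3 (hp0 a) (hρ0 a) j
    simp only [mk3_hi hd' hl, mk3_dig hd' hl, upd_mk3 hd' hl, mk3_hi hd'' hl', mk3_dig hd'' hl',
      upd_mk3 hd'' hl']
    rw [sw_eq_iff hl hl', sw_eq_iff (h₁ a h d hd').1 (h₁ a h' d' hd'').1]
    rintro ⟨⟨rfl, h1⟩, rfl⟩
    rw [h₃ a h d d' hd' hd'' h1]

end Mv

/-- Reversal of blocks. -/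
lemma mv_rev (C : Ctx B N R) {p : A → ℕ} (hp : CT cur x p) (hd : ∀ a, p a ∣ N a) :
    Mv cur x N R (fun _ => 0) (fun _ i => i) (fun a => rev (p a)) := by
  intro x' F hx hF
  have hle : ∀ a, p a ≤ N a := fun a => Nat.le_of_dvd (C.pos a) (hd a)
  have hN : CT cur x' N := hF.length.congr fun a => by simp [rep]
  have hk : CT cur x' (fun a => N a / p a) :=
    ((C.cs hN fun _ => le_rfl).pt₂ (C.cs (hx.trans hp) hle) (fun n p => n / p) (by fun_prop)).ct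
  have e : ∀ a, N a / p a * p a = N a := fun a => Nat.div_mul_cancel (hd a)
  have h1 := CT.arr_chunks (f := fun a i => arr (R a) (F a i)) hk (hx.trans hp)
    ((C.domN.const_mul 4).le_trans fun a => by
      have h1 := e a
      have h2 := hle a
      have h3 := Nat.div_le_self (N a) (p a)
      have h4 := C.pos a
      nlinarith)
    (hF.congr fun a => by rw [e]; rfl)
  have h2 := h1.arr_map_lt (f := List.reverse) (LT.intro fun _ h => h.reverse)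
  simp only [reverse_arr] at h2
  exact (h2.arr_flatten.congr fun a => by rw [e]; rfl).toQ _

/-- Reflection of one digit. -/
lemma mv_refl (C : Ctx B N R) {p ρ : A → ℕ} (hp : CT cur x p) (hρ : CT cur x ρ)
    (hd : ∀ a, p a * ρ a ∣ N a) :
    Mv cur x N R (fun _ => 0) (fun _ i => i)
      (fun a i => upd (p a) (ρ a) i (ρ a - 1 - i / p a % ρ a)) := by
  have hpos : ∀ a, 0 < p a * ρ a := fun a => Nat.pos_of_dvd_of_pos (hd a) (C.pos a)
  have hp0 : ∀ a, 0 < p a := fun a => Nat.pos_of_mul_pos_right (hpos a)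
  have hρ0 : ∀ a, 0 < ρ a := fun a => Nat.pos_of_mul_pos_left (hpos a)
  have hle : ∀ a, p a * ρ a ≤ N a := fun a => Nat.le_of_dvd (C.pos a) (hd a)
  have hpρ : CT cur x (fun a => p a * ρ a) :=
    ((C.cs hp fun a => (Nat.le_mul_of_pos_right _ (hρ0 a)).trans (hle a)).pt₂
      (C.cs hρ fun a => (Nat.le_mul_of_pos_left _ (hp0 a)).trans (hle a))
      (fun n p => n * p) (by fun_prop)).ct
  exact ((mv_rev C hpρ hd).comp_left
    (mv_rev C hp fun a => (Dvd.intro _ rfl).trans (hd a))).congr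
    fun a i => (rev_rev (hp0 a) (hρ0 a) i).symm

/-- Exchange of two fields of bounded size. -/
lemma mv_swap_small (C : Ctx B N R) (c : ℕ) {H Q U O : A → ℕ} (hQ : CT cur x Q) (hU : CT cur x U)
    (hO : CT cur x O) (hN : ∀ a, N a = H a * Q a * U a * Q a * O a) (hc : ∀ a, Q a ≤ c) :
    Mv cur x N R (fun _ => 0) (fun _ i => i) (fun a => swapIdx (Q a) (U a) (O a)) := by
  have hpos : ∀ a, 0 < H a ∧ 0 < Q a ∧ 0 < U a ∧ 0 < O a := fun a => by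
    have := C.pos a
    rw [hN] at this
    simp only [Nat.pos_iff_ne_zero, mul_ne_zero_iff] at this ⊢
    tauto
  have hdvd : ∀ a n, n ∣ N a → n ≤ N a := fun a n h => Nat.le_of_dvd (C.pos a) h
  refine Mv.scatter C (c * c) (γ := ℕ × ℕ × ℕ) (fun q => swapIdx q.1 q.2.1 q.2.2)
    (fun q i => i / (q.2.2 * q.1 * q.2.1) % q.1 * c + i / q.2.2 % q.1) ?_ (by fun_prop)
    (par := fun a => (Q a, U a, O a)) (hQ.pair (hU.pair hO)) ?_ (fun a i hi => ⟨?_, ?_, ?_⟩)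
    (fun a i j hij hj => ?_) (fun a i j hi hj h => ?_)
  · unfold swapIdx
    fun_prop
  · have s1 := C.sm_le (n := Q) fun a => hdvd a _ ⟨H a * U a * Q a * O a, by rw [hN]; ring⟩
    have s2 := C.sm_le (n := U) fun a => hdvd a _ ⟨H a * Q a * Q a * O a, by rw [hN]; ring⟩
    have s3 := C.sm_le (n := O) fun a => hdvd a _ ⟨H a * Q a * U a * Q a, by rw [hN]; ring⟩
    exact ((s1.add (s2.add s3)).add_const 2).of_le fun a => by simp only [sz_pair]; omega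
  · obtain ⟨-, h1, h2, h3⟩ := hpos a
    rw [hN] at hi ⊢
    exact swapIdx_lt h1 h2 h3 hi
  · obtain ⟨-, h1, h2, h3⟩ := hpos a
    exact sw_lt_mul ((Nat.mod_lt _ h1).trans_le (hc a)) ((Nat.mod_lt _ h1).trans_le (hc a))
  · obtain ⟨-, h1, h2, h3⟩ := hpos a
    exact swapIdx_swapIdx h1 h2 h3 i
  · obtain ⟨-, h1, h2, h3⟩ := hpos a
    obtain ⟨h, x, u, y, o, hx, hu, hy, ho, rfl⟩ := exists_mk5 h1 h2 h3 i
    obtain ⟨h', x', u', y', o', hx', hu', hy', ho', rfl⟩ := exists_mk5 h1 h2 h3 j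
    simp only [swapIdx_mk5 hx hu hy ho, swapIdx_mk5 hx' hu' hy' ho', mk5_x hx hu hy ho,
      mk5_x hx' hu' hy' ho', mk5_y hy ho, mk5_y hy' ho']
    rw [sw_eq_iff (hy.trans_le (hc a)) (hy'.trans_le (hc a))]
    rintro ⟨rfl, rfl⟩
    simp only [mk5, sw_lt_iff ho ho', sw_lt_iff hy hy, sw_eq_iff hy hy, sw_lt_iff hx hx,
      sw_eq_iff hx hx, sw_lt_iff hu hu', sw_eq_iff hu hu', lt_irrefl] at hij ⊢
    tauto
  · obtain ⟨-, h1, h2, h3⟩ := hpos a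
    have := congrArg (swapIdx (Q a) (U a) (O a)) h
    simpa only [swapIdx_swapIdx h1 h2 h3] using this

end Crest.Agent.R326
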