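import Crest.Agent.R326.SwapA

/-!
Linear address maps on two fields of `m` digits each.
-/

set_option autoImplicit false

namespace Crest.Agent.R326

open Crest.Agent.Lib.PT Crest.Agent.Lib.LT

/-- The place of a digit: `inl` are the digits of the upper field, `inr` those of the lower one. -/
def pl (m Q U O : ℕ) : Fin m ⊕ Fin m → ℕ :=
  Sum.elim (fun a => O * Q ^ m * U * Q ^ (a : ℕ)) (fun b => O * Q ^ (b : ℕ))

/-- The significance of a digit. -/
def rk (m : ℕ) : Fin m ⊕ Fin m → ℕ := Sum.elim (fun a => m + a) (fun b => b)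

/-- Decoded addresses. -/
abbrev Adr (m Q : ℕ) : Type := (ℕ × ℕ × ℕ) × (Fin m ⊕ Fin m → ZMod Q)

/-- Decoding of addresses. -/
def dec (m Q U O i : ℕ) : Adr m Q :=
  ((i / (O * Q ^ m * U * Q ^ m), i / (O * Q ^ m) % U, i % O),
    fun k => ((i / pl m Q U O k % Q : ℕ) : ZMod Q))

/-- Encoding of addresses. -/
def encA (m Q U O : ℕ) (z : Adr m Q) : ℕ :=
  mk5 (Q ^ m) U O z.1.1 (∑ a : Fin m, (z.2 (Sum.inl a)).val * Q ^ (a : ℕ)) z.1.2.1
    (∑ a : Fin m, (z.2 (Sum.inr a)).val * Q ^ (a : ℕ)) z.1.2.2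

section arith
variable {m Q U O : ℕ}

lemma rk_inj {k k' : Fin m ⊕ Fin m} (h : rk m k = rk m k') : k = k' := by
  rcases k with a | a <;> rcases k' with b | b <;> simp only [rk, Sum.elim_inl, Sum.elim_inr] at h
  · exact congrArg _ (Fin.ext (by omega))
  · have := b.2; omega
  · have := a.2; omega
  · exact congrArg _ (Fin.ext h)

lemma pow_mul_dvd {a b : ℕ} (h : a < b) : Q ^ a * Q ∣ Q ^ b := by
  rw [← pow_succ]; exact pow_dvd_pow _ h

lemma pl_dvd {k k' : Fin m ⊕ Fin m} (h : rk m k < rk m k') : pl m Q U O k * Q ∣ pl m Q U O k' := by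
  rcases k with a | a <;> rcases k' with b | b <;>
    simp only [rk, pl, Sum.elim_inl, Sum.elim_inr] at h ⊢
  · rw [mul_assoc]; exact mul_dvd_mul_left _ (pow_mul_dvd (by omega))
  · have := b.2; omega
  · rw [mul_assoc O, mul_assoc (O * _)]
    exact Dvd.dvd.mul_right (mul_dvd_mul_left _ (pow_mul_dvd a.2)) _
  · rw [mul_assoc]; exact mul_dvd_mul_left _ (pow_mul_dvd h)

lemma pl_dvd_top (k : Fin m ⊕ Fin m) : pl m Q U O k * Q ∣ O * Q ^ m * U * Q ^ m := by
  rcases k with a | a <;> simp only [pl, Sum.elim_inl, Sum.elim_inr]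
  · rw [mul_assoc]; exact mul_dvd_mul_left _ (pow_mul_dvd a.2)
  · rw [mul_assoc O, mul_assoc (O * _)]
    exact Dvd.dvd.mul_right (mul_dvd_mul_left _ (pow_mul_dvd a.2)) _

lemma pl_pos (hQ : 0 < Q) (hU : 0 < U) (hO : 0 < O) (k : Fin m ⊕ Fin m) : 0 < pl m Q U O k := by
  rcases k with a | a <;> simp only [pl, Sum.elim_inl, Sum.elim_inr] <;> positivity

lemma dec_upd (hQ : 0 < Q) (hU : 0 < U) (hO : 0 < O) (k : Fin m ⊕ Fin m) {v : ℕ} (hv : v < Q)
    (i : ℕ) : dec m Q U O (upd (pl m Q U O k) Q i v) =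
      ((dec m Q U O i).1, Function.update (dec m Q U O i).2 k (v : ZMod Q)) := by
  have hp := pl_pos (m := m) hQ hU hO k
  refine Prod.ext (Prod.ext ?_ (Prod.ext ?_ ?_)) (funext fun k' => ?_)
  · exact upd_div hp hv (pl_dvd_top k) i
  · rcases k with a | a
    · exact upd_dig_below hp (Dvd.intro _ rfl) i
    · refine upd_dig_above hp hv ?_ i
      simp only [pl, Sum.elim_inr]
      rw [mul_assoc]; exact mul_dvd_mul_left _ (pow_mul_dvd a.2)
  · refine upd_mod hp ?_ i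
    rcases k with a | a <;> simp only [pl, Sum.elim_inl, Sum.elim_inr]
    · exact ⟨Q ^ m * U * Q ^ (a : ℕ), by ring⟩
    · exact Dvd.intro _ rfl
  · by_cases h : k' = k
    · subst h
      simp only [dec, Function.update_self, upd_dig hp hv]
    · simp only [dec, Function.update_of_ne h]
      rcases lt_trichotomy (rk m k) (rk m k') with h1 | h1 | h1
      · rw [upd_dig_above hp hv (pl_dvd h1)]
      · exact absurd (rk_inj h1).symm h
      · rw [upd_dig_below hp (pl_dvd h1)]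

lemma sum_digits_fin (n : ℕ) : ∀ m : ℕ,
    ∑ a : Fin m, n / Q ^ (a : ℕ) % Q * Q ^ (a : ℕ) = n % Q ^ m := by
  intro m
  induction m with
  | zero => simp [Nat.mod_one]
  | succ m ih =>
    rw [Fin.sum_univ_castSucc]
    simp only [Fin.val_castSucc, Fin.val_last, ih]
    rw [pow_succ, Nat.mod_mul, mul_comm]

lemma sum_dec_inl (hQ : 0 < Q) (i : ℕ) :
    ∑ a : Fin m, ((dec m Q U O i).2 (Sum.inl a)).val * Q ^ (a : ℕ) =
      i / (O * Q ^ m * U) % Q ^ m := by
  rw [← sum_digits_fin]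
  refine Finset.sum_congr rfl fun a _ => ?_
  simp only [dec, pl, Sum.elim_inl]
  rw [ZMod.val_cast_of_lt (Nat.mod_lt _ hQ), Nat.div_div_eq_div_mul]

lemma sum_dec_inr (hQ : 0 < Q) (i : ℕ) :
    ∑ a : Fin m, ((dec m Q U O i).2 (Sum.inr a)).val * Q ^ (a : ℕ) = i / O % Q ^ m := by
  rw [← sum_digits_fin]
  refine Finset.sum_congr rfl fun a _ => ?_
  simp only [dec, pl, Sum.elim_inr]
  rw [ZMod.val_cast_of_lt (Nat.mod_lt _ hQ), Nat.div_div_eq_div_mul]

lemma encA_dec (hQ : 0 < Q) (hU : 0 < U) (hO : 0 < O) (i : ℕ) :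
    encA m Q U O (dec m Q U O i) = i := by
  rw [encA, sum_dec_inl hQ, sum_dec_inr hQ]
  obtain ⟨h, x, u, y, o, hx, hu, hy, ho, rfl⟩ := exists_mk5 (pow_pos hQ m) hU hO i
  simp only [dec, mk5_o ho, mk5_y hy ho, mk5_u hu hy ho, mk5_x hx hu hy ho, mk5_h hx hu hy ho]

lemma encA_swap_dec (hQ : 0 < Q) (i : ℕ) :
    encA m Q U O ((dec m Q U O i).1, fun k => (dec m Q U O i).2 k.swap) =
      swapIdx (Q ^ m) U O i := by
  rw [encA]
  simp only [Sum.swap_inl, Sum.swap_inr]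
  rw [sum_dec_inl hQ, sum_dec_inr hQ]
  rfl

end arith

variable {A : Type} {cur : A → P} {B : A → ℕ} {x : In B} {N R Qc Qc' H Q U O : A → ℕ} {m K : ℕ}

/-- The standing hypotheses for the two fields. -/
structure Ctx2 (cur : A → P) {B : A → ℕ} (x : In B) (N R : A → ℕ) (m K : ℕ) (H Q U O : A → ℕ) :
    Prop where
  C : Ctx B N R
  hN : ∀ a, N a = H a * Q a ^ m * U a * Q a ^ m * O a
  hQ : CT cur x Q
  hU : CT cur x U
  hO : CT cur x O
  m_pos : 0 < m
  cop : ∀ a c, 0 < c → c ≤ K → Nat.Coprime c (Q a)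

namespace Ctx2
variable (D : Ctx2 cur x N R m K H Q U O)
include D

lemma all_pos (a : A) : 0 < Q a ∧ 0 < U a ∧ 0 < O a := by
  have := D.C.pos a
  have hm := D.m_pos.ne'
  rw [D.hN] at this
  simp only [Nat.pos_iff_ne_zero, mul_ne_zero_iff, ne_eq, pow_eq_zero_iff hm] at this ⊢
  tauto

lemma Q_pos (a : A) : 0 < Q a := (D.all_pos a).1
lemma U_pos (a : A) : 0 < U a := (D.all_pos a).2.1
lemma O_pos (a : A) : 0 < O a := (D.all_pos a).2.2

lemma pl_dvd_N (k : Fin m ⊕ Fin m) (a : A) : pl m (Q a) (U a) (O a) k * Q a ∣ N a :=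
  (pl_dvd_top k).trans ⟨H a, by rw [D.hN]; ring⟩

lemma le_N {a : A} {n : ℕ} (h : n ∣ N a) : n ≤ N a := Nat.le_of_dvd (D.C.pos a) h

lemma Q_le (a : A) : Q a ≤ N a :=
  D.le_N ((Dvd.intro_left _ rfl).trans (D.pl_dvd_N (Sum.inl ⟨0, D.m_pos⟩) a))

lemma U_le (a : A) : U a ≤ N a := D.le_N ⟨H a * Q a ^ m * Q a ^ m * O a, by rw [D.hN]; ring⟩

lemma O_le (a : A) : O a ≤ N a := D.le_N ⟨H a * Q a ^ m * U a * Q a ^ m, by rw [D.hN]; ring⟩

lemma pl_le (k : Fin m ⊕ Fin m) (a : A) : pl m (Q a) (U a) (O a) k ≤ N a :=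
  D.le_N ((Dvd.intro _ rfl).trans (D.pl_dvd_N k a))

lemma ct₃ (f : ℕ → ℕ → ℕ → ℕ) (hf : PT (fun q : ℕ × ℕ × ℕ => f q.1 q.2.1 q.2.2)) :
    CT cur x (fun a => f (Q a) (U a) (O a)) :=
  ((D.C.cs D.hQ D.Q_le).pt₃ (D.C.cs D.hU D.U_le) (D.C.cs D.hO D.O_le) f hf).ct

lemma ct_pl (k : Fin m ⊕ Fin m) : CT cur x (fun a => pl m (Q a) (U a) (O a) k) := by
  refine D.ct₃ (fun Q U O => pl m Q U O k) ?_
  rcases k with a | a <;> simp only [pl, Sum.elim_inl, Sum.elim_inr] <;> fun_prop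

lemma dec_upd (a : A) (k : Fin m ⊕ Fin m) {v : ℕ} (hv : v < Q a) (i : ℕ) :
    dec m (Q a) (U a) (O a) (upd (pl m (Q a) (U a) (O a) k) (Q a) i v) =
      ((dec m (Q a) (U a) (O a) i).1,
        Function.update (dec m (Q a) (U a) (O a) i).2 k (v : ZMod (Q a))) :=
  R326.dec_upd (D.Q_pos a) (D.U_pos a) (D.O_pos a) k hv i

end Ctx2

/-- The map `T` of the digits can be applied at oracle cost `Qc`. -/
def ML (cur : A → P) {B : A → ℕ} (x : In B) (N R : A → ℕ) (m : ℕ) (Q U O Qc : A → ℕ)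
    (T : ∀ a, (Fin m ⊕ Fin m → ZMod (Q a)) → Fin m ⊕ Fin m → ZMod (Q a)) : Prop :=
  Mv cur x N R Qc (fun a => dec m (Q a) (U a) (O a)) (fun a z => (z.1, T a z.2))

/-- The map `T` of the digits and its inverse are cheap. -/
def Ch (cur : A → P) {B : A → ℕ} (x : In B) (N R : A → ℕ) (m : ℕ) (Q U O : A → ℕ)
    (T : ∀ a, (Fin m ⊕ Fin m → ZMod (Q a)) → Fin m ⊕ Fin m → ZMod (Q a)) : Prop :=
  ∃ T', (∀ a δ, T' a (T a δ) = δ) ∧ (∀ a δ, T a (T' a δ) = δ) ∧
    ML cur x N R m Q U O (fun _ => 0) T ∧ ML cur x N R m Q U O (fun _ => 0) T'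

section ML
variable {T T' T₁ T₂ E : ∀ a, (Fin m ⊕ Fin m → ZMod (Q a)) → Fin m ⊕ Fin m → ZMod (Q a)}

lemma ML.congr (h : ML cur x N R m Q U O Qc T) (H : ∀ a δ, T' a δ = T a δ) :
    ML cur x N R m Q U O Qc T' := Mv.congr h fun a z => by rw [H]

lemma ML.id : ML cur x N R m Q U O (fun _ => 0) (fun _ δ => δ) := Mv.id

lemma ML.comp_left (h : ML cur x N R m Q U O (fun _ => 0) T) (h' : ML cur x N R m Q U O Qc T') :
    ML cur x N R m Q U O Qc (fun a δ => T a (T' a δ)) := Mv.comp_left h h'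

lemma ML.comp_right (h : ML cur x N R m Q U O Qc T) (h' : ML cur x N R m Q U O (fun _ => 0) T') :
    ML cur x N R m Q U O Qc (fun a δ => T a (T' a δ)) := Mv.comp_right h h'

lemma Ch.ml (h : Ch cur x N R m Q U O T) : ML cur x N R m Q U O (fun _ => 0) T :=
  h.choose_spec.2.2.1

lemma Ch.congr (h : Ch cur x N R m Q U O T) (H : ∀ a δ, T' a δ = T a δ) :
    Ch cur x N R m Q U O T' := by
  rw [show T' = T from funext fun a => funext (H a)]; exact h

lemma Ch.id : Ch cur x N R m Q U O (fun _ δ => δ) :=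
  ⟨fun _ δ => δ, fun _ _ => rfl, fun _ _ => rfl, ML.id, ML.id⟩

lemma Ch.comp (h : Ch cur x N R m Q U O T) (h' : Ch cur x N R m Q U O T') :
    Ch cur x N R m Q U O (fun a δ => T a (T' a δ)) := by
  obtain ⟨S, h1, h2, h3, h4⟩ := h
  obtain ⟨S', h1', h2', h3', h4'⟩ := h'
  exact ⟨fun a δ => S' a (S a δ), fun a δ => by simp only [h1, h1'],
    fun a δ => by simp only [h2, h2'], h3.comp_left h3', h4'.comp_left h4⟩

lemma ML.conj₁ (h : ML cur x N R m Q U O Qc E) (h₁ : Ch cur x N R m Q U O T₁)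
    (h₂ : Ch cur x N R m Q U O T₂) (H : ∀ a δ, T₁ a (T a δ) = E a (T₂ a δ)) :
    ML cur x N R m Q U O Qc T := by
  obtain ⟨S, h1, -, -, h4⟩ := h₁
  exact (h4.comp_left (h.comp_right h₂.ml)).congr fun a δ => by rw [← H, h1]

lemma ML.conj₂ (h : ML cur x N R m Q U O Qc E) (h₁ : Ch cur x N R m Q U O T₁)
    (h₂ : Ch cur x N R m Q U O T₂) (H : ∀ a δ, T a (T₂ a δ) = T₁ a (E a δ)) :
    ML cur x N R m Q U O Qc T := by
  obtain ⟨S, -, h2, -, h4⟩ := h₂
  exact (h₁.ml.comp_left (h.comp_right h4)).congr fun a δ => by rw [← H, h2]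

end ML

section elem
variable (D : Ctx2 cur x N R m K H Q U O)
include D

/-- Subtract a function of the higher digits. -/
lemma ml_shift {γ : Type} [Enc γ] (k : Fin m ⊕ Fin m) (g : γ → ℕ → ℕ)
    (hg : PT (fun q : γ × ℕ => g q.1 q.2)) {par : A → γ} (hp : CT cur x par)
    (hs : Sm R (fun a => sz (par a))) (G : ∀ a, (Fin m ⊕ Fin m → ZMod (Q a)) → ZMod (Q a))
    (hG : ∀ a δ v, G a (Function.update δ k v) = G a δ)
    (hgG : ∀ a i, ((g (par a) (i / (pl m (Q a) (U a) (O a) k * Q a)) : ℕ) : ZMod (Q a)) =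
      G a (dec m (Q a) (U a) (O a) i).2) :
    ML cur x N R m Q U O (fun _ => 0) (fun a δ => Function.update δ k (δ k - G a δ)) := by
  refine Mv.digit D.C 2 (γ := γ × ℕ) (fun q h d => (d + g q.1 h % q.2) % q.2)
    (fun q h d => (d + g q.1 h % q.2) / q.2) ?_ ?_ (par := fun a => (par a, Q a))
    (hp.pair D.hQ) ?_ (D.ct_pl k) D.hQ (D.pl_dvd_N k) (fun a h d hd => ?_)
    (fun a h d d' hd hd' => ?_) (fun a h d d' hd hd' => ?_) (fun a i _ => ?_)
  · have h1 : PT (fun q : (γ × ℕ) × ℕ × ℕ => g q.1.1 q.2.1) :=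
      hg.comp (f := fun q : (γ × ℕ) × ℕ × ℕ => (q.1.1, q.2.1)) (by fun_prop)
    fun_prop
  · have h1 : PT (fun q : (γ × ℕ) × ℕ × ℕ => g q.1.1 q.2.1) :=
      hg.comp (f := fun q : (γ × ℕ) × ℕ × ℕ => (q.1.1, q.2.1)) (by fun_prop)
    fun_prop
  · exact ((hs.add (D.C.sm_le D.Q_le)).add_const 1).of_le fun a => by simp only [sz_pair]; omega
  · have h1 := Nat.mod_lt (g (par a) h) (D.Q_pos a)
    exact ⟨Nat.mod_lt _ (D.Q_pos a), (Nat.div_lt_iff_lt_mul (D.Q_pos a)).2 (by simp only; omega)⟩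
  · intro hc
    have h1 := Nat.div_add_mod (d + g (par a) h % Q a) (Q a)
    have h2 := Nat.div_add_mod (d' + g (par a) h % Q a) (Q a)
    simp only at hc ⊢
    rw [hc] at h1
    omega
  · intro hc
    exact Nat.ModEq.eq_of_lt_of_lt (Nat.ModEq.add_right_cancel' _ hc) hd hd'
  · simp only
    rw [D.dec_upd a k (Nat.mod_lt _ (D.Q_pos a))]
    simp only [Function.update_self, Function.update_idem, hG, ZMod.natCast_mod, Nat.cast_add, hgG,
      add_sub_cancel_right]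
    refine Prod.ext rfl ?_
    simp only
    rw [Function.update_eq_self_iff]
    simp [dec]

lemma ml_add {k k' : Fin m ⊕ Fin m} (h : rk m k < rk m k') (c : ℤ) :
    ML cur x N R m Q U O (fun _ => 0) (fun _ δ => Function.update δ k (δ k + c * δ k')) := by
  have hne : k' ≠ k := fun e => by rw [e] at h; omega
  have hw : CT cur x (fun a => pl m (Q a) (U a) (O a) k' / (pl m (Q a) (U a) (O a) k * Q a)) :=
    ((D.C.cs (D.ct_pl k') (D.pl_le k')).pt₃ (D.C.cs (D.ct_pl k) (D.pl_le k)) (D.C.cs D.hQ D.Q_le)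
      (fun u v w => u / (v * w)) (by fun_prop)).ct
  refine (ml_shift D k (γ := ℕ × ℕ)
    (fun q h => ((-c).toNat + (q.2 - 1) * c.toNat) * (h / q.1 % q.2)) (by fun_prop)
    (hw.pair D.hQ) ?_ (fun a δ => -(c * δ k')) (fun a δ v => by rw [Function.update_of_ne hne])
    (fun a i => ?_)).congr fun a δ => by rw [sub_neg_eq_add]
  · exact (((D.C.sm_le
      (n := fun a => pl m (Q a) (U a) (O a) k' / (pl m (Q a) (U a) (O a) k * Q a))
      fun a => (Nat.div_le_self _ _).trans (D.pl_le k' a)).add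
      (D.C.sm_le D.Q_le)).add_const 1).of_le fun a => by simp only [sz_pair]; omega
  · simp only
    rw [Nat.div_div_eq_div_mul, Nat.mul_div_cancel' (pl_dvd h)]
    have e : (c : ZMod (Q a)) = (c.toNat : ZMod (Q a)) - ((-c).toNat : ZMod (Q a)) := by
      conv_lhs => rw [← Int.toNat_sub_toNat_neg c, Int.cast_sub, Int.cast_natCast, Int.cast_natCast]
    rw [Nat.cast_mul, Nat.cast_add, Nat.cast_mul, Nat.cast_pred (D.Q_pos a), ZMod.natCast_self, e]
    simp only [dec]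
    ring

lemma ch_add {k k' : Fin m ⊕ Fin m} (h : rk m k < rk m k') (c : ℤ) :
    Ch cur x N R m Q U O (fun _ δ => Function.update δ k (δ k + c * δ k')) := by
  have hne : k' ≠ k := fun e => by rw [e] at h; omega
  refine ⟨_, fun a δ => ?_, fun a δ => ?_, ml_add D h c, ml_add D h (-c)⟩ <;>
    simp [Function.update_of_ne hne]

lemma ml_neg (k : Fin m ⊕ Fin m) :
    ML cur x N R m Q U O (fun _ => 0) (fun _ δ => Function.update δ k (-δ k)) := by
  have h1 : ML cur x N R m Q U O (fun _ => 0) (fun _ δ => Function.update δ k (-1 - δ k)) := by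
    refine (mv_refl D.C (D.ct_pl k) D.hQ (D.pl_dvd_N k)).lift fun a i _ => ?_
    have h0 := D.Q_pos a
    have h2 := Nat.mod_lt (i / pl m (Q a) (U a) (O a) k) h0
    rw [D.dec_upd a k (by omega), Nat.cast_sub (by omega), Nat.cast_pred h0, ZMod.natCast_self]
    simp [dec]
  have h2 := ml_shift D k (γ := Unit) (fun _ _ => 1) (by fun_prop) (par := fun _ => ())
    (CT.const ()) (Sm.const 1 D.C.R_pos) (fun _ _ => 1) (fun _ _ _ => rfl) (fun _ _ => by simp)
  refine (h1.comp_left h2).congr fun a δ => ?_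
  simp only [Function.update_self, Function.update_idem]
  congr 1
  ring

lemma ch_neg (k : Fin m ⊕ Fin m) :
    Ch cur x N R m Q U O (fun _ δ => Function.update δ k (-δ k)) := by
  refine ⟨_, fun a δ => ?_, fun a δ => ?_, ml_neg D k, ml_neg D k⟩ <;> simp

lemma ml_scale_inv (k : Fin m ⊕ Fin m) {c : ℕ} (h0 : 0 < c) (hK : c ≤ K) :
    ML cur x N R m Q U O (fun _ => 0)
      (fun a δ => Function.update δ k ((c : ZMod (Q a))⁻¹ * δ k)) := by
  refine Mv.digit D.C c (γ := ℕ) (fun q _ d => c * d % q) (fun q _ d => c * d / q)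
    (by fun_prop) (by fun_prop) D.hQ (D.C.sm_le D.Q_le) (D.ct_pl k) D.hQ (D.pl_dvd_N k)
    (fun a h d hd => ?_) (fun a h d d' hd hd' => ?_) (fun a h d d' hd hd' => ?_) (fun a i _ => ?_)
  · exact ⟨Nat.mod_lt _ (D.Q_pos a), (Nat.div_lt_iff_lt_mul (D.Q_pos a)).2
      (Nat.mul_lt_mul_of_pos_left hd h0)⟩
  · intro hc
    have h1 := Nat.div_add_mod (c * d) (Q a)
    have h2 := Nat.div_add_mod (c * d') (Q a)
    have h3 : c * d < c * d' := Nat.mul_lt_mul_of_pos_left hd h0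
    rw [hc] at h1
    omega
  · intro hc
    exact Nat.ModEq.eq_of_lt_of_lt
      (Nat.ModEq.cancel_left_of_coprime (D.cop a c h0 hK).symm hc) hd hd'
  · simp only
    rw [D.dec_upd a k (Nat.mod_lt _ (D.Q_pos a))]
    have hu : IsUnit (c : ZMod (Q a)) := (ZMod.isUnit_iff_coprime _ _).2 (D.cop a c h0 hK)
    simp only [Function.update_self, Function.update_idem, ZMod.natCast_mod, Nat.cast_mul,
      ← mul_assoc, ZMod.inv_mul_of_unit _ hu, one_mul]
    refine Prod.ext rfl ?_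
    simp only
    rw [Function.update_eq_self_iff]
    simp [dec]

omit D in
lemma scale_dvd {c q : ℕ} (h0 : 0 < c) (h : Nat.Coprime c q) (d : ℕ) :
    c ∣ d + (c - 1) * d * q ^ (c.totient - 1) % c * q := by
  have h1 : q ^ c.totient ≡ 1 [MOD c] := Nat.ModEq.pow_totient h.symm
  have h2 : q ^ (c.totient - 1) * q = q ^ c.totient := by
    rw [← pow_succ, Nat.sub_add_cancel (Nat.totient_pos.2 h0)]
  have h3 : d + (c - 1) * d * q ^ (c.totient - 1) % c * q ≡ d + (c - 1) * d * 1 [MOD c] := by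
    refine Nat.ModEq.add_left _ (((Nat.mod_modEq _ _).mul_right _).trans ?_)
    rw [mul_assoc, h2]
    exact h1.mul_left _
  have h4 : d + (c - 1) * d * 1 = c * d := by
    obtain ⟨c', rfl⟩ : ∃ c', c = c' + 1 := ⟨c - 1, by omega⟩
    rw [Nat.add_sub_cancel]; ring
  rw [h4] at h3
  exact (Nat.modEq_zero_iff_dvd).1 (h3.trans (Nat.modEq_zero_iff_dvd.2 (Dvd.intro _ rfl)))

lemma ml_scale (k : Fin m ⊕ Fin m) {c : ℕ} (h0 : 0 < c) (hK : c ≤ K) :
    ML cur x N R m Q U O (fun _ => 0)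
      (fun a δ => Function.update δ k ((c : ZMod (Q a)) * δ k)) := by
  have key : ∀ a d, c * ((d + (c - 1) * d * Q a ^ (c.totient - 1) % c * Q a) / c) =
      d + (c - 1) * d * Q a ^ (c.totient - 1) % c * Q a :=
    fun a d => Nat.mul_div_cancel' (scale_dvd h0 (D.cop a c h0 hK) d)
  refine Mv.digit D.C c (γ := ℕ)
    (fun q _ d => (d + (c - 1) * d * q ^ (c.totient - 1) % c * q) / c)
    (fun q _ d => (c - 1) * d * q ^ (c.totient - 1) % c)
    (by fun_prop) (by fun_prop) D.hQ (D.C.sm_le D.Q_le) (D.ct_pl k) D.hQ (D.pl_dvd_N k)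
    (fun a h d hd => ?_) (fun a h d d' hd hd' => ?_) (fun a h d d' hd hd' => ?_) (fun a i _ => ?_)
  · have h1 := Nat.mod_lt ((c - 1) * d * Q a ^ (c.totient - 1)) h0
    refine ⟨(Nat.div_lt_iff_lt_mul h0).2 ?_, h1⟩
    rw [add_comm, mul_comm (Q a) c]
    exact sw_lt_mul h1 hd
  · intro hc
    have h1 := key a d
    have h2 := key a d'
    rw [hc] at h1 ⊢
    refine Nat.lt_of_mul_lt_mul_left (a := c) ?_
    omega
  · intro hc
    have h1 := key a d
    have h2 := key a d'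
    rw [hc, h2] at h1
    have h3 := congrArg (· % Q a) h1
    simp only [Nat.add_mul_mod_self_right, Nat.mod_eq_of_lt hd, Nat.mod_eq_of_lt hd'] at h3
    exact h3.symm
  · simp only
    have hd := Nat.mod_lt (i / pl m (Q a) (U a) (O a) k) (D.Q_pos a)
    have h1 := Nat.mod_lt
      ((c - 1) * (i / pl m (Q a) (U a) (O a) k % Q a) * Q a ^ (c.totient - 1)) h0
    rw [D.dec_upd a k ((Nat.div_lt_iff_lt_mul h0).2 (by
      rw [add_comm, mul_comm (Q a) c]
      exact sw_lt_mul h1 hd))]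
    simp only [Function.update_self, Function.update_idem, ← Nat.cast_mul, key]
    refine Prod.ext rfl ?_
    simp only
    rw [Function.update_eq_self_iff]
    simp [dec]

lemma ch_scale_nat (k : Fin m ⊕ Fin m) {c : ℕ} (h0 : 0 < c) (hK : c ≤ K) :
    Ch cur x N R m Q U O (fun a δ => Function.update δ k ((c : ZMod (Q a)) * δ k)) := by
  have hu : ∀ a, IsUnit (c : ZMod (Q a)) := fun a =>
    (ZMod.isUnit_iff_coprime _ _).2 (D.cop a c h0 hK)
  refine ⟨_, fun a δ => ?_, fun a δ => ?_, ml_scale D k h0 hK, ml_scale_inv D k h0 hK⟩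
  · simp [← mul_assoc, ZMod.inv_mul_of_unit _ (hu a)]
  · simp [← mul_assoc, ZMod.mul_inv_of_unit _ (hu a)]

lemma ch_scale (k : Fin m ⊕ Fin m) {c : ℤ} (h0 : c ≠ 0) (hK : c.natAbs ≤ K) :
    Ch cur x N R m Q U O (fun a δ => Function.update δ k ((c : ZMod (Q a)) * δ k)) := by
  have h1 := ch_scale_nat D k (Int.natAbs_pos.2 h0) hK
  rcases Int.natAbs_eq c with e | e
  · exact h1.congr fun a δ => by conv_lhs => rw [e, Int.cast_natCast]
  · refine ((ch_neg D k).comp h1).congr fun a δ => ?_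
    conv_lhs => rw [e, Int.cast_neg, Int.cast_natCast]
    simp

/-- The exchange of two single digits. -/
lemma ml_swap (a₀ b₀ : Fin m)
    (hrec : ∀ H' U' O' : A → ℕ, (∀ a, N a = H' a * Q a * U' a * Q a * O' a) → CT cur x U' →
      CT cur x O' → Mv cur x N R Qc (fun _ i => i) (fun a => swapIdx (Q a) (U' a) (O' a))) :
    ML cur x N R m Q U O Qc (fun _ δ => Function.update
      (Function.update δ (Sum.inr b₀) (δ (Sum.inl a₀))) (Sum.inl a₀) (δ (Sum.inr b₀))) := by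
  have e1 : ∀ a, Q a ^ m = Q a ^ (m - 1 - a₀) * Q a * Q a ^ (a₀ : ℕ) := fun a => by
    rw [← pow_succ, ← pow_add]; congr 1; have := a₀.2; omega
  have e2 : ∀ a, Q a ^ m = Q a ^ (m - 1 - b₀) * Q a * Q a ^ (b₀ : ℕ) := fun a => by
    rw [← pow_succ, ← pow_add]; congr 1; have := b₀.2; omega
  refine (hrec (fun a => H a * Q a ^ (m - 1 - a₀))
    (fun a => Q a ^ (m - 1 - b₀) * U a * Q a ^ (a₀ : ℕ)) (fun a => O a * Q a ^ (b₀ : ℕ))
    (fun a => ?_) (D.ct₃ (fun Q U _ => Q ^ (m - 1 - b₀) * U * Q ^ (a₀ : ℕ)) (by fun_prop))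
    (D.ct₃ (fun Q _ O => O * Q ^ (b₀ : ℕ)) (by fun_prop))).lift fun a i _ => ?_
  · calc N a = H a * Q a ^ m * U a * Q a ^ m * O a := D.hN a
      _ = H a * (Q a ^ (m - 1 - a₀) * Q a * Q a ^ (a₀ : ℕ)) * U a *
          (Q a ^ (m - 1 - b₀) * Q a * Q a ^ (b₀ : ℕ)) * O a := by rw [← e1, ← e2]
      _ = _ := by ring
  · have h1 := D.Q_pos a
    have h2 := D.U_pos a
    have h3 := D.O_pos a
    have p1 : O a * Q a ^ (b₀ : ℕ) = pl m (Q a) (U a) (O a) (Sum.inr b₀) := rfl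
    have p2 : O a * Q a ^ (b₀ : ℕ) * Q a * (Q a ^ (m - 1 - b₀) * U a * Q a ^ (a₀ : ℕ)) =
        pl m (Q a) (U a) (O a) (Sum.inl a₀) := by
      show _ = O a * Q a ^ m * U a * Q a ^ (a₀ : ℕ)
      rw [e2]; ring
    rw [swapIdx_eq_upd h1 (by positivity) (by positivity), p2, p1,
      D.dec_upd a _ (Nat.mod_lt _ h1), D.dec_upd a _ (Nat.mod_lt _ h1)]
    rfl

end elem

end Crest.Agent.R326
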