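import Crest.Agent.R326.SwapB

/-!
One level of the swap routine: rank-one shears, the network, and the exchange of the fields.
-/

set_option autoImplicit false

namespace Crest.Agent.R326

open Crest.Agent.Lib.PT Crest.Agent.Lib.LT

variable {A : Type} {cur : A → P} {B : A → ℕ} {x : In B} {N R Qc H Q U O : A → ℕ} {m K : ℕ}

/-- The shear `(x, y) ↦ (x + M y, y)`. -/
def shear {m : ℕ} {Z : Type} [CommRing Z] (M : Matrix (Fin m) (Fin m) ℤ)
    (δ : Fin m ⊕ Fin m → Z) : Fin m ⊕ Fin m → Z :=
  Sum.elim (fun i => δ (Sum.inl i) + ∑ j, (M i j : Z) * δ (Sum.inr j)) (fun j => δ (Sum.inr j))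

lemma shear_zero {Z : Type} [CommRing Z] (δ : Fin m ⊕ Fin m → Z) : shear 0 δ = δ := by
  funext k
  rcases k with i | i <;> simp [shear]

lemma shear_add {Z : Type} [CommRing Z] (M M' : Matrix (Fin m) (Fin m) ℤ)
    (δ : Fin m ⊕ Fin m → Z) : shear (M + M') δ = shear M' (shear M δ) := by
  funext k
  rcases k with i | i <;> simp [shear, add_mul, Finset.sum_add_distrib, add_assoc]

section lin
variable (D : Ctx2 cur x N R m K H Q U O)
include D

lemma ch_unip (M : Fin m ⊕ Fin m → Fin m ⊕ Fin m → ℤ) (P : Fin m ⊕ Fin m → Prop)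
    (hM : ∀ k k', M k k' ≠ 0 → P k ∧ ¬ P k' ∧ rk m k < rk m k') :
    Ch cur x N R m Q U O (fun a δ k => δ k + ∑ k', (M k k' : ZMod (Q a)) * δ k') := by
  have key : ∀ S : Finset ((Fin m ⊕ Fin m) × (Fin m ⊕ Fin m)), Ch cur x N R m Q U O
      (fun a δ k => δ k + ∑ p ∈ S, if p.1 = k then (M p.1 p.2 : ZMod (Q a)) * δ p.2 else 0) := by
    intro S
    induction S using Finset.induction_on with
    | empty => exact Ch.id.congr fun a δ => by simp
    | insert p S hp ih =>
      obtain ⟨k₀, k₁⟩ := p
      by_cases h0 : M k₀ k₁ = 0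
      · exact ih.congr fun a δ => funext fun k => by simp [Finset.sum_insert hp, h0]
      · obtain ⟨h1, -, h3⟩ := hM _ _ h0
        refine (ih.comp (ch_add D h3 (M k₀ k₁))).congr fun a δ => funext fun k => ?_
        have e : ∀ p : (Fin m ⊕ Fin m) × (Fin m ⊕ Fin m), (M p.1 p.2 : ZMod (Q a)) *
            Function.update δ k₀ (δ k₀ + (M k₀ k₁ : ZMod (Q a)) * δ k₁) p.2 =
            (M p.1 p.2 : ZMod (Q a)) * δ p.2 := by
          intro p
          by_cases h4 : M p.1 p.2 = 0
          · simp [h4]
          · rw [Function.update_of_ne]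
            rintro rfl
            exact (hM _ _ h4).2.1 h1
        simp only [Finset.sum_insert hp, e]
        by_cases h5 : k₀ = k
        · subst h5; simp [add_assoc]
        · simp [h5, Function.update_of_ne (Ne.symm h5)]
  refine (key Finset.univ).congr fun a δ => funext fun k => ?_
  rw [Fintype.sum_prod_type, Finset.sum_comm]
  simp

lemma ch_scale_all {c : ℤ} (h0 : c ≠ 0) (hK : c.natAbs ≤ K) (S : Finset (Fin m ⊕ Fin m)) :
    Ch cur x N R m Q U O (fun a δ k => if k ∈ S then (c : ZMod (Q a)) * δ k else δ k) := by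
  induction S using Finset.induction_on with
  | empty => exact Ch.id.congr fun a δ => by simp
  | insert k₀ S hk ih =>
    refine (ih.comp (ch_scale D k₀ h0 hK)).congr fun a δ => funext fun k => ?_
    by_cases h : k = k₀
    · subst h; simp [hk]
    · simp [h]

/-- `y ↦ c y + x`. -/
lemma ch_yx {c : ℤ} (h0 : c ≠ 0) (hK : c.natAbs ≤ K) :
    Ch cur x N R m Q U O (fun a δ => Sum.elim (fun i => δ (Sum.inl i))
      (fun j => (c : ZMod (Q a)) * δ (Sum.inr j) + δ (Sum.inl j))) := by
  have h1 := ch_unip D (fun k k' => if k.isRight ∧ k' = k.swap then 1 else 0)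
    (fun k => k.isRight) (by
      intro k k' h
      have h' : k.isRight ∧ k' = k.swap := by
        by_contra h'
        exact h (if_neg h')
      obtain ⟨h2, rfl⟩ := h'
      rcases k with i | i
      · simp at h2
      · have := D.m_pos
        simp [rk]; omega)
  refine (h1.comp (ch_scale_all D h0 hK (Finset.univ.filter fun k => k.isRight))).congr
    fun a δ => funext fun k => ?_
  rcases k with i | i <;> simp

variable (hrec : ∀ H' U' O' : A → ℕ, (∀ a, N a = H' a * Q a * U' a * Q a * O' a) → CT cur x U' →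
  CT cur x O' → Mv cur x N R Qc (fun _ i => i) (fun a => swapIdx (Q a) (U' a) (O' a)))
include hrec

lemma ml_elem (a₀ b₀ : Fin m) : ML cur x N R m Q U O Qc
    (fun _ δ => Function.update δ (Sum.inl a₀) (δ (Sum.inl a₀) + δ (Sum.inr b₀))) := by
  have hr : rk m (Sum.inr b₀) < rk m (Sum.inl a₀) := by
    have := b₀.2
    simp only [rk, Sum.elim_inl, Sum.elim_inr]; omega
  refine (ml_swap D a₀ b₀ hrec).conj₁ ((ch_add D hr 1).comp (ch_neg D (Sum.inr b₀)))
    (ch_add D hr 1) fun a δ => funext fun k => ?_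
  by_cases h1 : k = Sum.inl a₀
  · subst h1; simp [add_comm]
  · by_cases h2 : k = Sum.inr b₀
    · subst h2; simp
    · simp [Function.update_of_ne h1, Function.update_of_ne h2]

lemma ml_row (a₀ : Fin m) {v : Fin m → ℤ} (hv : v ≠ 0) (hK : ∀ i, (v i).natAbs ≤ K) :
    ML cur x N R m Q U O Qc (fun a δ => Function.update δ (Sum.inl a₀)
      (δ (Sum.inl a₀) + ∑ j, (v j : ZMod (Q a)) * δ (Sum.inr j))) := by
  obtain ⟨b₀, hb₀, hmin⟩ := (Finset.univ.filter fun j => v j ≠ 0).exists_min_image (fun j => j)
    (by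
      obtain ⟨j, hj⟩ := Function.ne_iff.1 hv
      exact ⟨j, by simpa using hj⟩)
  simp only [Finset.mem_filter, Finset.mem_univ, true_and] at hb₀ hmin
  have h1 := ch_unip D (fun k k' => if k = Sum.inr b₀ then
    Sum.elim (fun _ => 0) (fun j => if j = b₀ then 0 else v j) k' else 0)
    (fun k => k = Sum.inr b₀) (by
      intro k k' h
      by_cases h2 : k = Sum.inr b₀
      · subst h2
        rcases k' with j | j
        · simp at h
        · simp only [if_true, Sum.elim_inr, ne_eq, ite_eq_left_iff, Classical.not_imp] at h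
          have h3 := lt_of_le_of_ne (hmin j h.2) (Ne.symm h.1)
          exact ⟨rfl, by simpa using h.1, h3⟩
      · simp [h2] at h)
  have h2 : Ch cur x N R m Q U O (fun a δ => Function.update δ (Sum.inr b₀)
      (∑ j, (v j : ZMod (Q a)) * δ (Sum.inr j))) := by
    refine (h1.comp (ch_scale D (Sum.inr b₀) hb₀ (hK b₀))).congr fun a δ => funext fun k => ?_
    by_cases h3 : k = Sum.inr b₀
    · subst h3
      simp only [Function.update_self, if_true, Fintype.sum_sum_type, Sum.elim_inl, Sum.elim_inr,
        Int.cast_zero, zero_mul, Finset.sum_const_zero, zero_add]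
      rw [← Finset.add_sum_erase _ _ (Finset.mem_univ b₀),
        ← Finset.add_sum_erase _ _ (Finset.mem_univ b₀)]
      simp only [if_true, Int.cast_zero, zero_mul, zero_add]
      congr 1
      refine Finset.sum_congr rfl fun j hj => ?_
      have h4 := Finset.ne_of_mem_erase hj
      rw [if_neg h4, Function.update_of_ne (by simpa using h4)]
    · simp [h3]
  refine (ml_elem D hrec a₀ b₀).conj₁ h2 h2 fun a δ => funext fun k => ?_
  by_cases h1 : k = Sum.inl a₀
  · subst h1; simp
  · by_cases h2 : k = Sum.inr b₀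
    · subst h2; simp
    · simp [Function.update_of_ne h1, Function.update_of_ne h2]

lemma ml_rank_one (u v : Fin m → ℤ) (hK : ∀ i, (u i).natAbs ≤ K ∧ (v i).natAbs ≤ K) :
    ML cur x N R m Q U O Qc (fun _ δ => shear (Matrix.vecMulVec u v) δ) := by
  have hid : ML cur x N R m Q U O Qc (fun _ δ => δ) := Mv.mono Mv.id fun _ => Nat.zero_le _
  by_cases hv : v = 0
  · subst hv
    exact hid.congr fun a δ => by
      rw [Matrix.vecMulVec_zero, shear_zero]
  by_cases hu : u = 0
  · subst hu
    exact hid.congr fun a δ => by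
      rw [Matrix.zero_vecMulVec, shear_zero]
  obtain ⟨a₀, ha₀, hmax⟩ := (Finset.univ.filter fun j => u j ≠ 0).exists_max_image (fun j => j)
    (by
      obtain ⟨j, hj⟩ := Function.ne_iff.1 hu
      exact ⟨j, by simpa using hj⟩)
  simp only [Finset.mem_filter, Finset.mem_univ, true_and] at ha₀ hmax
  have h1 := ch_unip D (fun k k' => if k' = Sum.inl a₀ then
    Sum.elim (fun i => if i = a₀ then 0 else u i) (fun _ => 0) k else 0)
    (fun k => k ≠ Sum.inl a₀) (by
      intro k k' h
      by_cases h2 : k' = Sum.inl a₀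
      · subst h2
        rcases k with j | j
        · simp only [if_true, Sum.elim_inl, ne_eq, ite_eq_left_iff, Classical.not_imp] at h
          have h3 : (j : ℕ) < a₀ := lt_of_le_of_ne (hmax j h.2) fun e => h.1 (Fin.ext e)
          refine ⟨by simpa using h.1, by simp, ?_⟩
          simp only [rk, Sum.elim_inl]; omega
        · simp at h
      · simp [h2] at h)
  have h2 : Ch cur x N R m Q U O (fun a δ => Sum.elim
      (fun i => (if i = a₀ then 0 else δ (Sum.inl i)) + (u i : ZMod (Q a)) * δ (Sum.inl a₀))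
      (fun j => δ (Sum.inr j))) := by
    refine ((ch_scale D (Sum.inl a₀) ha₀ (hK a₀).1).comp h1).congr fun a δ => funext fun k => ?_
    rcases k with i | i
    · by_cases h3 : i = a₀
      · subst h3; simp
      · simp [h3]
    · simp
  refine (ml_row D hrec a₀ hv fun i => (hK i).2).conj₂ h2 h2 fun a δ => funext fun k => ?_
  rcases k with i | i
  · by_cases h3 : i = a₀
    · subst h3
      simp [shear, Matrix.vecMulVec_apply, mul_add, Finset.mul_sum, mul_assoc]
    · simp [shear, Matrix.vecMulVec_apply, mul_add, Finset.mul_sum, mul_assoc, h3, add_assoc]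
  · simp [shear]

end lin

section arrays
variable {Ad : A → Type} {dc : ∀ a, ℕ → Ad a}

lemma ct_rep_slice {W : ℕ} (C : Ctx B N (fun a => W * R a)) (hR : CT cur x R)
    (hRs : Sm (fun a => W * R a) (fun a => sz (R a))) {F : ∀ a, Ad a → ℕ → Bool}
    (hF : CT cur x (fun a => rep (N a) (W * R a) (dc a) (F a))) {w : ℕ} (hw : w < W) :
    CT cur x (fun a => rep (N a) (R a) (dc a) fun z c => F a z (w * R a + c)) := by
  refine CT.arr_mapU (el := fun a i => arr (W * R a) (F a (dc a i))) hF hR (fun a => W * R a)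
    ⟨7, fun q => by
      have := C.R_pos q.a
      simp only [sz_boolList, length_arr] at this ⊢; omega⟩ hRs.dom C.sm.dom
    (fun x' h₁ h₂ _ => ?_) C.dom
  refine (h₂.take (Dom.of_le fun q => Nat.le_mul_of_pos_left _ (by omega))
    ((h₂.const_mul w).drop (Dom.of_le fun q => Nat.mul_le_mul_right _ hw.le) h₁)).congr fun q => ?_
  rw [drop_arr, take_arr, min_eq_left]
  rw [← Nat.sub_mul]
  exact Nat.le_mul_of_pos_left _ (by omega)

lemma ct_rep_zero {F : ∀ a, Ad a → ℕ → Bool}
    (hF : CT cur x (fun a => rep (N a) (R a) (dc a) (F a))) :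
    CT cur x (fun a => rep (N a) (R a) (dc a) fun _ _ => false) :=
  (CT.arr_map_lt (f := List.map fun _ : Bool => false)
    (LT.intro fun _ h => h.map_lt (LT.of_finite _)) hF).congr fun a => by simp [rep]

lemma ct_rep_xor {F G : ∀ a, Ad a → ℕ → Bool}
    (hF : CT cur x (fun a => rep (N a) (R a) (dc a) (F a)))
    (hG : CT cur x (fun a => rep (N a) (R a) (dc a) (G a))) :
    CT cur x (fun a => rep (N a) (R a) (dc a) fun z c => xor (F a z c) (G a z c)) :=
  (CT.arr_map_lt (f := fun p : List Bool × List Bool =>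
      (p.1.zip p.2).map fun q : Bool × Bool => xor q.1 q.2)
    (LT.intro fun _ h => (h.fst.zip h.snd).map_lt (LT.of_finite _)) (CT.arr_zip hF hG)).congr
    fun a => by simp [rep, zip_arr]

lemma ct_arr_get {β : Type} [Enc β] {W : ℕ} {g : A → ℕ → List β}
    (h : CT cur x (fun a => arr W (g a))) {w : ℕ} (hw : w < W) : CT cur x (fun a => g a w) := by
  refine (((CT.const w).drop (Dom.const w x.pos) h).headD (CT.const [])).congr fun a => ?_
  obtain ⟨t, rfl⟩ : ∃ t, W = w + (t + 1) := ⟨W - w - 1, by omega⟩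
  rw [drop_arr, Nat.add_sub_cancel_left, arr_succ']
  rfl

lemma ct_rep_join {W : ℕ} (hW : 0 < W) {F : ∀ a, Ad a → ℕ → Bool}
    (h : CT cur x (fun a => arr W fun w =>
      rep (N a) (R a) (dc a) fun z c => F a z (w * R a + c))) :
    CT cur x (fun a => rep (N a) (W * R a) (dc a) (F a)) := by
  have key : ∀ w, w ≤ W → CT cur x (fun a => rep (N a) (w * R a) (dc a) (F a)) := by
    intro w
    induction w with
    | zero =>
      intro _
      exact (CT.arr_map_lt (f := fun _ : List Bool => ([] : List Bool))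
        (LT.intro fun _ _ => CT.const _) (ct_arr_get h hW)).congr fun a => by simp [rep]
    | succ w ih =>
      intro hw
      exact (CT.arr_map_lt (f := fun p : List Bool × List Bool => p.1 ++ p.2)
        (LT.intro fun _ h => h.fst.append h.snd)
        (CT.arr_zip (ih (by omega)) (ct_arr_get h hw))).congr fun a => by
          simp only [rep, Nat.succ_mul, arr_add]
  exact key W le_rfl

end arrays

/-- The statement of the network for bits. -/
def NetBits (W m r K₀ : ℕ) : Prop :=
  ∀ (A X : Type) [Enc X] (cur : A → P) (B : A → ℕ) (x : In B) (Q : A → ℕ) (V : A → Type)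
    [∀ a, AddCommGroup (V a)] (Φ : ∀ a, Matrix (Fin m) (Fin m) ℤ → V a →+ V a)
    (rep : ∀ a, V a → X) (data : ∀ a, ℕ → V a),
    (∀ a (z : V a), z + z = 0) →
    (∀ a z, Φ a 0 z = z) → (∀ a M N z, Φ a (M + N) z = Φ a M (Φ a N z)) →
    CT cur x (fun a => rep a 0) →
    (∀ (x' : In B) (u v : ∀ a, V a), CT cur x' x.val → CT cur x' (fun a => rep a (u a)) →
      CT cur x' (fun a => rep a (v a)) → CT cur x' (fun a => rep a (u a + v a))) →
    (∀ (u v : Fin m → ℤ), (∀ i, (u i).natAbs ≤ K₀ ∧ (v i).natAbs ≤ K₀) →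
      ∀ (x' : In B) (z : ∀ a, V a), CT cur x' x.val → CT cur x' (fun a => rep a (z a)) →
      CTQ cur x' Q (fun a => rep a (Φ a (Matrix.vecMulVec u v) (z a)))) →
    (∀ w, w < W → CT cur x (fun a => rep a (data a w))) →
    CTQ cur x (fun a => r * Q a)
      (fun a => arr W (fun w => rep a (Φ a ((216 : ℤ) • 1) (data a w))))

/-- The action of the shears on the arrays. -/
def shearHom (m Q : ℕ) (M : Matrix (Fin m) (Fin m) ℤ) :
    (Adr m Q → ℕ → Bool) →+ (Adr m Q → ℕ → Bool) where
  toFun F z := F (z.1, shear M z.2)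
  map_zero' := rfl
  map_add' _ _ := rfl

theorem swap_step {W r K₀ : ℕ} (net : NetBits W m r K₀) (hW : 0 < W) (hK₀ : K₀ ≤ K) (hK : 216 ≤ K)
    (D : Ctx2 cur x N R m K H Q U O) (D' : Ctx2 cur x N (fun a => W * R a) m K H Q U O)
    (hR : CT cur x R) (hRs : Sm (fun a => W * R a) (fun a => sz (R a)))
    (hrec : ∀ H' U' O' : A → ℕ, (∀ a, N a = H' a * Q a * U' a * Q a * O' a) → CT cur x U' →
      CT cur x O' → Mv cur x N R Qc (fun _ i => i) (fun a => swapIdx (Q a) (U' a) (O' a))) :
    Mv cur x N (fun a => W * R a) (fun a => r * Qc a) (fun _ i => i)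
      (fun a => swapIdx (Q a ^ m) (U a) (O a)) := by
  have h1 : ML cur x N (fun a => W * R a) m Q U O (fun a => r * Qc a)
      (fun _ δ => shear ((216 : ℤ) • 1) δ) := by
    intro x' F hx hF
    have hsl := fun w hw => ct_rep_slice (w := w) D'.C (hx.trans hR) hRs hF hw
    refine (net A (List (List Bool)) cur B x' Qc (fun a => Adr m (Q a) → ℕ → Bool)
      (fun a => shearHom m (Q a))
      (fun a G => rep (N a) (R a) (dec m (Q a) (U a) (O a)) G)
      (fun a w z c => F a z (w * R a + c)) (fun a z => ?_) (fun a z => ?_) (fun a M M' z => ?_)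
      (ct_rep_zero (hsl 0 hW)) (fun x'' u v _ hu hv => ct_rep_xor hu hv)
      (fun u v huv x'' z hx' hz => ml_rank_one D hrec u v
        (fun i => ⟨(huv i).1.trans hK₀, (huv i).2.trans hK₀⟩) x'' z (hx'.trans hx) hz)
      hsl).bind₀ fun x'' _ h => ct_rep_join hW h
    · funext y c
      exact Bool.xor_self _
    · funext y
      simp [shearHom, shear_zero]
    · funext y
      simp [shearHom, shear_add]
  have h2 : ML cur x N (fun a => W * R a) m Q U O (fun a => r * Qc a)
      (fun _ δ k => δ k.swap) := by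
    refine h1.conj₂ (ch_yx D' (c := -216) (by norm_num) (by simpa using hK))
      (ch_yx D' (c := 216) (by norm_num) (by simpa using hK)) fun a δ => funext fun k => ?_
    rcases k with i | i
    · simp [shear, Matrix.one_apply, add_comm]
    · simp [shear, Matrix.one_apply]
  exact Mv.lower h2 (fun a => encA m (Q a) (U a) (O a))
    (fun a i _ => encA_dec (D.Q_pos a) (D.U_pos a) (D.O_pos a) i)
    (fun a i _ => encA_swap_dec (D.Q_pos a) i)

end Crest.Agent.R326
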