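import Crest.Agent.R326.SwapC

/-!
The recursive swap routine on padded arrays of bit records.
-/

set_option autoImplicit false

namespace Crest.Agent.R326

open Crest.Agent.Lib.PT Crest.Agent.Lib.LT

variable {A : Type} {cur : A → P} {B : A → ℕ} {x : In B}

lemma sm_sz_of_dom {n : A → ℕ} (h : Dom n B) (hB : ∀ a, 0 < B a) : Sm B (fun a => sz (n a)) := by
  have h1 : Sm (fun a => n a + 1) (fun a => Nat.log 2 (n a + 1)) := Sm.log _ fun _ => Nat.succ_pos _
  refine (h1.add_const 1).mono (h.add (Dom.const 1 hB)) |>.sz_of_lt_two_pow fun a => ?_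
  exact (Nat.lt_succ_self _).trans (Nat.lt_pow_succ_log_self (by norm_num) _)

lemma exp_le_sz {q e N : ℕ} (hq : 2 ≤ q) (h : q ^ e ≤ N) : e ≤ sz N := by
  have h1 : 2 ^ e ≤ N := (Nat.pow_le_pow_left hq e).trans h
  have h2 := Nat.lt_size.2 h1
  rw [sz_nat]; omega

lemma Ctx.ct_pow {N R e : A → ℕ} (C : Ctx B N R) {q : ℕ} (hq : 2 ≤ q) (he : CT cur x e)
    (h : ∀ a, q ^ e a ≤ N a) : CT cur x (fun a => q ^ e a) := by
  have h1 : Sm B e := C.smB.of_le fun a => exp_le_sz hq (h a)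
  have h2 : CS cur x e := ⟨he, h1.sz_self⟩
  exact ((h2.un h1).pt (fun u => q ^ u.length) (by fun_prop)).ct.congr fun a => by simp

lemma sz_rep_le {Ad : Type} (N R : ℕ) (dc : ℕ → Ad) (F : Ad → ℕ → Bool) :
    sz (rep N R dc F) ≤ N * (6 * R + 2) + 1 :=
  sz_arr_le (M := 6 * R + 1) fun i _ => by simp [sz_boolList]

lemma Ctx.dom_rep {N R : A → ℕ} (C : Ctx B N R) {Ad : A → Type} (dc : ∀ a, ℕ → Ad a)
    (F : ∀ a, Ad a → ℕ → Bool) : Dom (fun a => sz (rep (N a) (R a) (dc a) (F a))) B :=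
  (C.dom.const_mul 9).le_trans fun a => by
    have h1 := sz_rep_le (N a) (R a) (dc a) (F a)
    have h2 := C.pos a
    have h3 := C.R_pos a
    nlinarith [Nat.mul_pos h2 h3]

theorem swap_big {W m r K₀ q : ℕ} (net : NetBits W m r K₀) (hW : 0 < W) (hm : 0 < m)
    (hq : q.Prime) (hqK : max K₀ 216 < q) {N R Qc H e U O : A → ℕ}
    (C : Ctx B N (fun a => W * R a)) (hs : Sm R (fun a => sz (N a)))
    (he : CT cur x e) (hU : CT cur x U) (hO : CT cur x O) (hR : CT cur x R)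
    (hN : ∀ a, N a = H a * q ^ e a * U a * q ^ e a * O a)
    (hrec : ∀ H' U' O' : A → ℕ,
      (∀ a, N a = H' a * q ^ (e a / m) * U' a * q ^ (e a / m) * O' a) → CT cur x U' →
      CT cur x O' → Mv cur x N R Qc (fun _ i => i)
        (fun a => swapIdx (q ^ (e a / m)) (U' a) (O' a))) :
    Mv cur x N (fun a => W * R a) (fun a => r * Qc a) (fun _ i => i)
      (fun a => swapIdx (q ^ e a) (U a) (O a)) := by
  have hq0 := hq.pos
  have e1 : ∀ a, q ^ e a = q ^ (e a % m) * (q ^ (e a / m)) ^ m := fun a => by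
    rw [← pow_mul, ← pow_add, Nat.mod_add_div']
  have hle : ∀ a n, n ∣ N a → n ≤ N a := fun a n h => Nat.le_of_dvd (C.pos a) h
  have hqe : ∀ a, q ^ e a ≤ N a := fun a => hle a _ ⟨H a * U a * q ^ e a * O a, by rw [hN]; ring⟩
  have hUle : ∀ a, U a ≤ N a := fun a => hle a _ ⟨H a * q ^ e a * q ^ e a * O a, by rw [hN]; ring⟩
  have hOle : ∀ a, O a ≤ N a := fun a => hle a _ ⟨H a * q ^ e a * U a * q ^ e a, by rw [hN]; ring⟩
  have hecs : CS cur x e := C.cs he fun a => (Nat.lt_pow_self hq.one_lt).le.trans (hqe a)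
  have h1le : ∀ a, q ^ (e a % m) ≤ N a := fun a =>
    (Nat.pow_le_pow_right hq0 (Nat.mod_le _ _)).trans (hqe a)
  have h2le : ∀ a, q ^ (e a / m) ≤ N a := fun a =>
    (Nat.pow_le_pow_right hq0 (Nat.div_le_self _ _)).trans (hqe a)
  have hQ₁ := C.ct_pow hq.two_le (hecs.pt (fun e => e % m) (by fun_prop)).ct h1le
  have hQ₂ := C.ct_pow hq.two_le (hecs.pt (fun e => e / m) (by fun_prop)).ct h2le
  have C' : Ctx B N R := ⟨hs, C.dom.le_trans fun a =>
    Nat.mul_le_mul_left _ (Nat.le_mul_of_pos_left _ hW), C.pos⟩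
  have hU' : CT cur x (fun a => U a * q ^ (e a % m)) :=
    ((C.cs hU hUle).pt₂ (C.cs hQ₁ h1le) (fun u v => u * v) (by fun_prop)).ct
  have hN' : ∀ a, N a = H a * q ^ (e a % m) * (q ^ (e a / m)) ^ m * (U a * q ^ (e a % m)) *
      (q ^ (e a / m)) ^ m * O a := fun a => by rw [hN, e1]; ring
  have hcop : ∀ a c, 0 < c → c ≤ max K₀ 216 → Nat.Coprime c (q ^ (e a / m)) := fun a c h0 hc =>
    Nat.Coprime.pow_right _ (Nat.Coprime.symm ((Nat.Prime.coprime_iff_not_dvd hq).2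
      fun h => absurd (Nat.le_of_dvd h0 h) (by omega)))
  have hbig := swap_step net hW (le_max_left _ _) (le_max_right _ _)
    ⟨C', hN', hQ₂, hU', hO, hm, hcop⟩ ⟨C, hN', hQ₂, hU', hO, hm, hcop⟩ hR
    (sm_sz_of_dom (Dom.of_le fun a => Nat.le_mul_of_pos_left _ hW) C.R_pos) hrec
  have hsmall := mv_swap_small C (q ^ m) (H := H) hQ₁
    ((C.cs hQ₂ h2le).pt₂ (C.cs hU hUle) (fun u v => u ^ m * v) (by fun_prop)).ct
    ((C.cs hQ₂ h2le).pt₂ (C.cs hO hOle) (fun u v => u ^ m * v) (by fun_prop)).ct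
    (fun a => by rw [hN, e1]; ring)
    (fun a => Nat.pow_le_pow_right hq0 (Nat.mod_lt _ hm).le)
  refine (hsmall.comp_left hbig).congr fun a i => ?_
  have hUp : 0 < U a := Nat.pos_of_dvd_of_pos ⟨H a * q ^ e a * q ^ e a * O a, by rw [hN]; ring⟩
    (C.pos a)
  have hOp : 0 < O a := Nat.pos_of_dvd_of_pos ⟨H a * q ^ e a * U a * q ^ e a, by rw [hN]; ring⟩
    (C.pos a)
  rw [e1, swapIdx_mul (by positivity) (by positivity) hUp hOp]

/-- The instances of the recursive routine. -/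
structure SG {A : Type} (N : A → ℕ) (m q : ℕ) : Type where
  /-- the outer instance -/
  a : A
  /-- the depth -/
  j : ℕ
  /-- the size of the top field -/
  H : ℕ
  /-- the number of digits -/
  e : ℕ
  /-- the size of the middle field -/
  U : ℕ
  /-- the size of the bottom field -/
  O : ℕ
  /-- the records -/
  f : ℕ → ℕ → Bool
  hN : N a = H * q ^ e * U * q ^ e * O
  he : e < m ^ (j + 1)

/-- The input of the recursive routine. -/
def SG.inp {N : A → ℕ} {m q : ℕ} (W : ℕ) (s₀ : A → ℕ) (g : SG N m q) :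
    List (List Bool) × ℕ × ℕ × ℕ × ℕ :=
  (rep (N g.a) (W ^ g.j * s₀ g.a) (fun i => i) g.f, g.e, g.U, g.O, W ^ g.j * s₀ g.a)

/-- The output of the recursive routine. -/
def SG.out {N : A → ℕ} {m q : ℕ} (W : ℕ) (s₀ : A → ℕ) (g : SG N m q) : List (List Bool) :=
  rep (N g.a) (W ^ g.j * s₀ g.a) (fun i => i) fun i => g.f (swapIdx (q ^ g.e) g.U g.O i)

section core
variable {W m r K₀ q : ℕ} {N s₀ : A → ℕ}

lemma SG.ctx (hW : 0 < W) (hs : Sm s₀ (fun a => sz (N a))) (hpos : ∀ a, 0 < N a) {A' : Type}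
    (g : A' → SG N m q) : Ctx (fun t => N (g t).a * (W ^ (g t).j * s₀ (g t).a))
      (fun t => N (g t).a) (fun t => W ^ (g t).j * s₀ (g t).a) :=
  ⟨(hs.comap _).mono (Dom.of_le fun _ => Nat.le_mul_of_pos_left _ (pow_pos hW _)),
    Dom.refl _, fun _ => hpos _⟩

lemma SG.q_le (hpos : ∀ a, 0 < N a) (g : SG N m q) : q ^ g.e ≤ N g.a :=
  Nat.le_of_dvd (hpos _) ⟨g.H * g.U * q ^ g.e * g.O, by rw [g.hN]; ring⟩

lemma SG.U_le (hpos : ∀ a, 0 < N a) (g : SG N m q) : g.U ≤ N g.a :=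
  Nat.le_of_dvd (hpos _) ⟨g.H * q ^ g.e * q ^ g.e * g.O, by rw [g.hN]; ring⟩

lemma SG.O_le (hpos : ∀ a, 0 < N a) (g : SG N m q) : g.O ≤ N g.a :=
  Nat.le_of_dvd (hpos _) ⟨g.H * q ^ g.e * g.U * q ^ g.e, by rw [g.hN]; ring⟩

lemma SG.e_le (hq : q.Prime) (hpos : ∀ a, 0 < N a) (g : SG N m q) : g.e ≤ N g.a :=
  (Nat.lt_pow_self hq.one_lt).le.trans (g.q_le hpos)

lemma core_small (hW : 0 < W) (hq : q.Prime) (hs : Sm s₀ (fun a => sz (N a)))
    (hpos : ∀ a, 0 < N a) {A' : Type} (g : A' → SG N m q) {cur : A' → P}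
    {x : In (fun t => N (g t).a * (W ^ (g t).j * s₀ (g t).a))}
    (hx : CT cur x (fun t => (g t).inp W s₀)) (he : ∀ t, (g t).e < m) :
    CTQ cur x (fun _ => 0) (fun t => (g t).out W s₀) :=
  mv_swap_small (SG.ctx hW hs hpos g) (q ^ m) (H := fun t => (g t).H)
    ((SG.ctx hW hs hpos g).ct_pow hq.two_le hx.snd.fst fun t => (g t).q_le hpos)
    hx.snd.snd.fst hx.snd.snd.snd.fst (fun t => (g t).hN)
    (fun t => Nat.pow_le_pow_right hq.pos (he t).le) x (fun t => (g t).f) (CT.val _ _) hx.fst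

lemma core_big (net : NetBits W m r K₀) (hW : 0 < W) (hm : 0 < m) (hq : q.Prime)
    (hqK : max K₀ 216 < q) (hs : Sm s₀ (fun a => sz (N a)))
    (hpos : ∀ a, 0 < N a) {A' : Type} (g : A' → SG N m q) {cur : A' → P} (c : A' → ℕ)
    {x : In (fun t => N (g t).a * (W ^ (g t).j * s₀ (g t).a))}
    (hx : CT cur x (fun t => (g t).inp W s₀)) (hj : ∀ t, (g t).j - 1 + 1 = (g t).j)
    (ok : ∀ t (g' : SG N m q), g'.j < (g t).j → Impl (cur t) (cur t) (enc (g'.inp W s₀))
      (enc (g'.out W s₀)) (c t * (N g'.a * s₀ g'.a * (r + 1) ^ g'.j))) :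
    CTQ cur x (fun t => r * (c t * (N (g t).a * s₀ (g t).a * (r + 1) ^ ((g t).j - 1))))
      (fun t => (g t).out W s₀) := by
  have C := SG.ctx hW hs hpos g
  have eR : ∀ t, W * (W ^ ((g t).j - 1) * s₀ (g t).a) = W ^ (g t).j * s₀ (g t).a := fun t => by
    conv_rhs => rw [← hj t, pow_succ]
    ring
  have hs₁ : Sm (fun t => W ^ ((g t).j - 1) * s₀ (g t).a) (fun t => sz (N (g t).a)) :=
    (hs.comap _).mono (Dom.of_le fun g => Nat.le_mul_of_pos_left _ (pow_pos hW _))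
  have C₂ : Ctx (fun t => N (g t).a * (W ^ (g t).j * s₀ (g t).a)) (fun t => N (g t).a)
      (fun t => W * (W ^ ((g t).j - 1) * s₀ (g t).a)) :=
    ⟨hs₁.mono (Dom.of_le fun g => Nat.le_mul_of_pos_left _ hW),
      Dom.of_le fun t => by rw [eR], fun g => hpos _⟩
  have C₃ : Ctx (fun t => N (g t).a * (W ^ (g t).j * s₀ (g t).a)) (fun t => N (g t).a)
      (fun t => W ^ ((g t).j - 1) * s₀ (g t).a) :=
    ⟨hs₁, C₂.dom.le_trans fun g => Nat.mul_le_mul_left _ (Nat.le_mul_of_pos_left _ hW),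
      fun g => hpos _⟩
  have hRcs : CS cur x (fun t => W ^ (g t).j * s₀ (g t).a) :=
    ⟨hx.snd.snd.snd.snd, sm_sz_of_dom C.domR x.pos⟩
  have hR' : CT cur x (fun t => W ^ ((g t).j - 1) * s₀ (g t).a) :=
    (hRcs.pt (fun n => n / W) (by fun_prop)).ct.congr fun t => by
      rw [← eR, Nat.mul_div_cancel_left _ hW]
  have he : CT cur x (fun t => (g t).e) := hx.snd.fst
  have hem := ((C.cs he fun t => (g t).e_le hq hpos).pt (fun e => e / m) (by fun_prop)).ct
  have hF : CT cur x (fun t => rep (N (g t).a) (W * (W ^ ((g t).j - 1) * s₀ (g t).a))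
      (fun i => i) (g t).f) := hx.fst.congr fun t => by rw [eR]; rfl
  refine (swap_big net hW hm hq hqK C₂ hs₁
    (Qc := fun t => c t * (N (g t).a * s₀ (g t).a * (r + 1) ^ ((g t).j - 1)))
    (H := fun t => (g t).H) he hx.snd.snd.fst hx.snd.snd.snd.fst hR' (fun t => (g t).hN)
    (fun H' U' O' hN' hU' hO' x' F hx' hF' => ?_) x (fun t => (g t).f) (CT.val _ _) hF).congr
      fun t => by simp only [eR]; rfl
  refine CTQ.call (hF'.pair ((hx'.trans hem).pair ((hx'.trans hU').pair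
    ((hx'.trans hO').pair (hx'.trans hR'))))) (fun t => ?_) (C₃.dom_rep _ _)
  have h1 := hj t
  exact ok t ⟨(g t).a, (g t).j - 1, H' t, (g t).e / m, U' t, O' t, F t, hN' t, by
    rw [h1, Nat.div_lt_iff_lt_mul hm, ← pow_succ]; exact (g t).he⟩ (by
    show (g t).j - 1 < (g t).j
    omega)

theorem swap_core (net : NetBits W m r K₀) (hW : 0 < W) (hWr : W ≤ r)
    (hm : 0 < m) (hq : q.Prime) (hqK : max K₀ 216 < q)
    (hs : Sm s₀ (fun a => sz (N a))) (hpos : ∀ a, 0 < N a) :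
    Closed (fun g : SG N m q => g.inp W s₀) (fun g => g.out W s₀)
      (fun g => N g.a * s₀ g.a * (r + 1) ^ g.j) := by
  have C := SG.ctx hW hs hpos (fun g : SG N m q => g)
  have hBpos : ∀ g : SG N m q, 0 < N g.a * (W ^ g.j * s₀ g.a) := fun g =>
    Nat.mul_pos (hpos _) (C.R_pos g)
  refine Closed.fix SG.j _ (fun g : SG N m q => N g.a * (W ^ g.j * s₀ g.a))
    (fun c g => if g.e < m then 0 else r * (c * (N g.a * s₀ g.a * (r + 1) ^ (g.j - 1)))) ?_
    (fun x hx => ?_) (fun c => ⟨c * W, fun g => ?_⟩)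
  · have d1 := C.dom_rep (fun _ i => i) SG.f
    have d2 := (C.smB.sz_of_le (SG.e_le hq hpos)).dom
    have d3 := (C.smB.sz_of_le (SG.U_le hpos)).dom
    have d4 := (C.smB.sz_of_le (SG.O_le hpos)).dom
    have d5 := (sm_sz_of_dom C.domR hBpos).dom
    exact ((d1.add (d2.add (d3.add (d4.add d5)))).add (Dom.const 4 hBpos)).le_trans fun g => by
      simp only [SG.inp, sz_pair]; omega
  · refine CTQ.byCases (R := fun g => g.a.e < m) (hx.snd.fst.decide_lt (CT.const m)) ?_ ?_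
    · exact (core_small hW hq hs hpos _ (hx.comap Subtype.val) fun t => t.2).mono
        fun _ => Nat.zero_le _
    · refine (core_big net hW hm hq hqK hs hpos _ (fun t => t.1.c) (hx.comap Subtype.val)
        (fun t => ?_) fun t => t.1.ok).mono fun t => by rw [if_neg t.2]
      have h1 := t.1.a.he
      have h2 := t.2
      rcases Nat.eq_zero_or_pos t.1.a.j with h | h
      · rw [h] at h1; simp at h1; omega
      · omega
  · split_ifs with h0
    · have h1 : W ^ g.j ≤ (r + 1) ^ g.j := Nat.pow_le_pow_left (by omega) _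
      have h2 : c ≤ c * W := Nat.le_mul_of_pos_right _ hW
      rw [add_zero]
      refine Nat.mul_le_mul h2 ?_
      rw [mul_assoc, mul_comm (s₀ _)]
      exact Nat.mul_le_mul_left _ (Nat.mul_le_mul_right _ h1)
    · have h3 := g.he
      obtain ⟨j, hj⟩ : ∃ j, g.j = j + 1 := ⟨g.j - 1, by
        rcases Nat.eq_zero_or_pos g.j with h | h
        · rw [h] at h3; simp at h3; omega
        · omega⟩
      have h1 : W ^ j ≤ (r + 1) ^ j := Nat.pow_le_pow_left (by omega) j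
      simp only [hj, Nat.add_sub_cancel, pow_succ]
      have h2 := Nat.mul_le_mul_left (c * W * (N g.a * s₀ g.a)) h1
      nlinarith

end core

end Crest.Agent.R326
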