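import Crest.Agent.R326.Params
import Crest.Agent.Lib.LT.Compile
import Crest.Agent.Lib.PT.Bridge
import Crest.Prelude.Def_IntMul

/-!
The recursion, and the passage to bit strings.
-/

set_option autoImplicit false

namespace Crest.Agent.R326

open Crest.Agent.Lib.PT Crest.Agent.Lib.LT Finset

/-- The number of bits of a pair of factors. -/
def nb (a : ℕ × ℕ) : ℕ := max a.1.size a.2.size

/-- The cost of a multiplication. -/
noncomputable def Tm (n : ℕ) : ℕ := (n + 1) * φn n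

lemma lt_Tm (n : ℕ) : n < Tm n := Nat.le_mul_of_pos_right _ (φn_pos n)

lemma Tm_mono {m n : ℕ} (h : m ≤ n) : Tm m ≤ Tm n :=
  Nat.mul_le_mul (Nat.succ_le_succ h) (φn_mono h)

lemma lt_nb₁ (a : ℕ × ℕ) : a.1 < 2 ^ nb a := Nat.size_le.1 (le_max_left _ _)

lemma lt_nb₂ (a : ℕ × ℕ) : a.2 < 2 ^ nb a := Nat.size_le.1 (le_max_right _ _)

lemma sz_le_nb (a : ℕ × ℕ) : sz a ≤ 12 * nb a + 3 := by
  have h1 := sz_nat_le_of_lt_two_pow (lt_nb₁ a)
  have h2 := sz_nat_le_of_lt_two_pow (lt_nb₂ a)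
  rw [sz_prod]
  omega

/-- Instances of the recursion. -/
abbrev MRec : Type := Rec (fun a : ℕ × ℕ => a) (fun a => a.1 * a.2) nb (fun a => Tm (nb a))

lemma MRec.mulOK (r : MRec) (N : ℕ) (h : N < nb r.a) : MulOK r.cur N (r.c * φn N) := by
  intro n u v hn hu hv
  have h1 : nb (u, v) ≤ n := max_le (Nat.size_le.2 hu) (Nat.size_le.2 hv)
  refine (r.ok (u, v) (by omega)).mono ?_
  have h2 : φn (nb (u, v)) ≤ φn N := φn_mono (h1.trans hn)
  calc r.c * ((nb (u, v) + 1) * φn (nb (u, v))) ≤ r.c * ((n + 1) * φn N) := by gcongr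
    _ = _ := by ring

theorem closed_mul :
    Closed (fun a : ℕ × ℕ => a) (fun a => a.1 * a.2) (fun a => Tm (nb a)) := by
  have hin : Dom (fun a : ℕ × ℕ => sz a) (fun a => Tm (nb a)) :=
    ⟨12, fun a => by have := sz_le_nb a; have := lt_Tm (nb a); dsimp only; omega⟩
  refine Closed.fix nb _ (fun a => Tm (nb a)) (fun c a => c * Tm (nb a) / 2) hin
    (fun x hx => ?_) fun C => ⟨2 * C, fun a => by rw [mul_assoc]; omega⟩
  have hn : CT Rec.cur x (fun r : MRec => nb r.a) := hx.fst.size.max hx.snd.size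
  have sm : Sm (fun r : MRec => Tm (nb r.a)) (fun r => sz (nb r.a)) :=
    ((Sm.log _ x.pos).add_const 1).sz_of_lt_two_pow fun r =>
      (lt_Tm _).trans (Nat.lt_pow_succ_log_self (by norm_num) _)
  have hπ := hn.pt pt_par sm
  have hd : Dom (fun r : {r : MRec // 16 ≤ eP (nb r.a)} => Tm (nb r.1.a))
      (fun r => Tm (nb r.1.a) + r.1.c * ((nb r.1.a + 1) * ψn (nb r.1.a))) :=
    Dom.of_le fun _ => Nat.le_add_right _ _
  have main := ct_prod (par_fam (A := {r : MRec // 16 ≤ eP (nb r.a)}) (n := fun r => nb r.1.a)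
    (c := fun r => r.1.c) (fun r => r.2) (fun r => r.1.mulOK) (Dom.refl _))
    ((hπ.comap Subtype.val).mono hd) ((hx.fst.comap Subtype.val).mono hd)
    ((hx.snd.comap Subtype.val).mono hd) (fun r => le_qT) (fun r => lt_nb₁ _) (fun r => lt_nb₂ _)
  obtain ⟨C, hC⟩ := CT.split main (x.comap Subtype.val) (fun _ => rfl)
    ((hin.comap fun r : {r : MRec // 16 ≤ eP (nb r.a)} => r.1.a).le_trans fun r => by
      have := sz_mul_le r.1.a.1 r.1.a.2
      rw [sz_prod]
      omega)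
  refine CTQ.byCases (R := fun r : MRec => (2 * C * 600000) ^ 2 + 16 ≤ eP (nb r.a))
    ((CT.const _).decide_le (hn.pt pt_eP sm)) ?_ ?_
  · refine (hC.comap fun r : {r : MRec // (2 * C * 600000) ^ 2 + 16 ≤ eP (nb r.a)} =>
      ⟨r.1, le_trans (Nat.le_add_left _ _) r.2⟩).mono fun r => ?_
    have h1 := ψn_le (le_trans (Nat.le_add_left _ _) r.2)
    have h2 := mul_le_φn (le_trans (Nat.le_add_right _ _) r.2)
    rw [Nat.le_div_iff_mul_le (by norm_num)]
    calc _ = r.1.c * ((nb r.1.a + 1) * (2 * C * ψn (nb r.1.a))) := by ring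
      _ ≤ r.1.c * ((nb r.1.a + 1) * (2 * C * (600000 * eP (nb r.1.a) ^ 7))) := by gcongr
      _ ≤ r.1.c * ((nb r.1.a + 1) * φn (nb r.1.a)) := by rw [← mul_assoc (2 * C)]; gcongr
  · refine ((hx.comap Subtype.val).pt (f := fun a : ℕ × ℕ => a.1 * a.2) (by fun_prop)
      ((Sm.const (12 * 2 ^ (2 * ((2 * C * 600000) ^ 2 + 16)) ^ 8 + 3)
        (x.comap Subtype.val).pos).of_le fun r => ?_)).toQ _
    have h1 := sz_le_nb r.1.a
    have h2 : nb r.1.a ≤ 2 ^ (2 * ((2 * C * 600000) ^ 2 + 16)) ^ 8 :=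
      (Nat.lt_pow_succ_log_self (b := 2) (by norm_num) _).le.trans
        (Nat.pow_le_pow_right (by norm_num) ((lt_eP_pow _).le.trans
          (Nat.pow_le_pow_left (Nat.mul_le_mul_left _ (not_le.1 r.2).le) 8)))
    omega

open Crest.LogicCS.IntMul

lemma bitsVal_eq (l : List Bool) : bitsVal l = ofBits l.reverse := by
  unfold bitsVal ofBits
  rw [List.foldr_reverse]
  congr 1
  funext acc b
  cases b <;> simp [Nat.bit]

lemma bitsVal_lt (l : List Bool) : bitsVal l < 2 ^ l.length := by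
  rw [bitsVal_eq, ← List.length_reverse]
  generalize l.reverse = m
  induction m with
  | nil => simp
  | cons b m ih => cases b <;> simp [Nat.bit, pow_succ] <;> omega

theorem closed_mulOutput :
    Closed EqLenPair.enc mulOutput (fun a => Tm (EqLenPair.enc a).length) := by
  have hl : ∀ a : EqLenPair, (EqLenPair.enc a).length = 2 * a.1.1.length := fun a => by
    have := a.2
    rw [EqLenPair.enc, length_pairEnc]
    omega
  refine Closed.intro ⟨10, fun a => ?_⟩ fun x hx => ?_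
  · have h1 := sz_list_le (EqLenPair.enc a) 9 fun s _ => by rcases s with b | b <;> simp
    have h2 := lt_Tm (EqLenPair.enc a).length
    dsimp only
    omega
  have h₁ : CT Prod.fst x (fun q : P × EqLenPair => bitsVal q.2.1.1) :=
    (hx.map_lt (LT.of_finite Sum.getLeft?)).reduceOption.reverse.ofBits.congr fun q => by
      rw [bitsVal_eq, List.reduceOption, List.filterMap_map]
      exact congrArg (fun p : List Bool × List Bool => ofBits p.1.reverse)
        (unpair_pairEnc q.2.1).symm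
  have h₂ : CT Prod.fst x (fun q : P × EqLenPair => bitsVal q.2.1.2) :=
    (hx.map_lt (LT.of_finite Sum.getRight?)).reduceOption.reverse.ofBits.congr fun q => by
      rw [bitsVal_eq, List.reduceOption, List.filterMap_map]
      exact congrArg (fun p : List Bool × List Bool => ofBits p.2.reverse)
        (unpair_pairEnc q.2.1).symm
  have h₃ := closed_mul.ct (fun q : P × EqLenPair => (bitsVal q.2.1.1, bitsVal q.2.1.2))
    (h₁.pair h₂) (Dom.of_le fun q => Tm_mono (by
      have h1 := Nat.size_le.2 (bitsVal_lt q.2.1.1)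
      have h2 := Nat.size_le.2 (bitsVal_lt q.2.1.2)
      have h3 := q.2.2
      rw [hl]
      exact max_le (h1.trans (by omega)) (h2.trans (by omega))))
  exact (h₃.fixBits hx.length (Dom.of_le fun q => (lt_Tm _).le)).reverse.congr fun q => by
    rw [hl]; rfl

lemma Tm_le (N : ℕ) :
    Tm N ≤ 8 * ⌈(N : ℝ) * (Real.logb 2 N) ^ (1 - 1 / (2 : ℝ) ^ 182)⌉₊ + 8 := by
  rcases lt_or_ge N 2 with h | h
  · have h1 : φn N ≤ 1 + 1 := φn_le (k := 1) (by omega)
    have h2 : Tm N ≤ 2 * 2 := Nat.mul_le_mul (by omega) h1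
    omega
  · have hN : (2 : ℝ) ≤ N := by exact_mod_cast h
    have h1 : 1 ≤ Real.logb 2 N := by
      rw [Real.le_logb_iff_rpow_le (by norm_num) (by linarith), Real.rpow_one]
      exact hN
    have h2 : (Nat.log 2 N : ℝ) ≤ Real.logb 2 N := by exact_mod_cast Real.natLog_le_logb N 2
    have h3 := pw_le_two_mul (τ := 1 - 1 / 2 ^ 182) (by norm_num) (Nat.log 2 N)
    have h4 : ((Nat.log 2 N : ℝ) + 1) ^ (1 - 1 / 2 ^ 182 : ℝ) ≤
        2 * Real.logb 2 N ^ (1 - 1 / 2 ^ 182 : ℝ) := by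
      calc _ ≤ (2 * Real.logb 2 N) ^ (1 - 1 / 2 ^ 182 : ℝ) :=
            Real.rpow_le_rpow (by positivity) (by linarith) (by norm_num)
        _ = 2 ^ (1 - 1 / 2 ^ 182 : ℝ) * Real.logb 2 N ^ (1 - 1 / 2 ^ 182 : ℝ) :=
            Real.mul_rpow (by norm_num) (by linarith)
        _ ≤ _ := by
          gcongr
          exact Real.rpow_le_self_of_one_le (by norm_num) (by norm_num)
    have h5 := Nat.le_ceil ((N : ℝ) * (Real.logb 2 N) ^ (1 - 1 / (2 : ℝ) ^ 182))
    have h6 : (0 : ℝ) ≤ Real.logb 2 N ^ (1 - 1 / 2 ^ 182 : ℝ) := by positivity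
    have : (Tm N : ℝ) ≤ 8 * ⌈(N : ℝ) * (Real.logb 2 N) ^ (1 - 1 / (2 : ℝ) ^ 182)⌉₊ := by
      unfold Tm φn
      push_cast
      calc _ ≤ (2 * (N : ℝ)) * (2 * (2 * Real.logb 2 N ^ (1 - 1 / 2 ^ 182 : ℝ))) := by
            gcongr <;> linarith
        _ ≤ _ := by linarith
    have : Tm N ≤ 8 * ⌈(N : ℝ) * (Real.logb 2 N) ^ (1 - 1 / (2 : ℝ) ^ 182)⌉₊ := by
      exact_mod_cast this
    omega

theorem timeBound_mul : ∃ c : ℕ, Crest.DTime.TimeBoundComputable EqLenPair.enc
    (Computability.encodingList Bool).encode mulOutput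
    (fun N => c * ⌈(N : ℝ) * (Real.logb 2 N) ^ (1 - 1 / (2 : ℝ) ^ 182)⌉₊ + c) := by
  obtain ⟨K, M, hM⟩ := Closed.timeBoundComputable EqLenPair.enc
    (Computability.encodingList Bool).encode mulOutput Tm lt_Tm closed_mulOutput
  refine ⟨8 * K, M, fun n => (hM n).trans ?_⟩
  exact (Nat.mul_le_mul_left K (Tm_le n)).trans (le_of_eq (by ring))

end Crest.Agent.R326
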