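import Crest.Agent.R326.XorSort

/-!
Flipping selected address bits, controlled by higher selected bits, with four swaps.
-/

set_option autoImplicit false

namespace Crest.Agent.R326

open Crest.Agent.Lib.PT Crest.Agent.Lib.LT Finset

section pt

variable {β γ : Type} [Enc β] [Enc γ] {n π₀ ℓ k i w j : β → ℕ} {par : β → γ}
  {z : γ → ℕ → ℕ → Bool}

lemma pt_xsl (hn : PT n) (bn : PB n) (hk : PT k) (hi : PT i) :
    PT (fun b => xsl (n b) (k b) (i b)) :=
  hi.div ((PT.const 2).pow (hn.sub (hk.size.mul hk)) (bn.sub _))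

lemma pt_xm (hn : PT n) (bn : PB n) (hk : PT k) (hi : PT i) :
    PT (fun b => xm (n b) (k b) (i b)) :=
  hi.mod ((PT.const 2).pow (hn.sub (hk.size.mul hk)) (bn.sub _))

lemma pt_xmid (hn : PT n) (bn : PB n) (hπ : PT π₀) (bπ : PB π₀) (hℓ : PT ℓ) (bℓ : PB ℓ)
    (hk : PT k) (bk : PB k) (hi : PT i) :
    PT (fun b => xmid (n b) (π₀ b) (ℓ b) (k b) (i b)) :=
  (pt_xm hn bn hk hi).div ((PT.const 2).pow (hπ.add (hℓ.mul hk)) (bπ.add (bℓ.mul bk)))

lemma pt_xseg (hπ : PT π₀) (bπ : PB π₀) (hℓ : PT ℓ) (bℓ : PB ℓ) (hi : PT i) (hj : PT j)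
    (bj : PB j) : PT (fun b => xseg (π₀ b) (ℓ b) (i b) (j b)) :=
  (hi.div ((PT.const 2).pow (hπ.add (hℓ.mul hj)) (bπ.add (bℓ.mul bj)))).mod
    ((PT.const 2).pow hℓ bℓ)

lemma pt_xlo (hπ : PT π₀) (bπ : PB π₀) (hi : PT i) : PT (fun b => xlo (π₀ b) (i b)) :=
  hi.mod ((PT.const 2).pow hπ bπ)

lemma pt_rho (hk : PT k) : PT (fun b => 2 ^ (k b).size) :=
  (PT.const 2).pow hk.size (PB.size hk)

lemma pt_xwd (hk : PT k) (hw : PT w) (hj : PT j) (bj : PB j) :
    PT (fun b => xwd (k b) (w b) (j b)) :=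
  (hw.div ((pt_rho hk).pow hj bj)).mod (pt_rho hk)

lemma pt_xβ (hℓ : PT ℓ) (bℓ : PB ℓ) (hk : PT k) : PT (fun b => xβ (ℓ b) (k b)) :=
  ((PT.const 2).pow hℓ bℓ).add ((PT.const 2).mul (pt_rho hk))

lemma pt_xQ (hk : PT k) (bk : PB k) : PT (fun b => xQ (k b)) :=
  ((pt_rho hk).add (PT.const 1)).pow hk bk

lemma pt_xW (hk : PT k) (bk : PB k) : PT (fun b => xW (k b)) :=
  (PT.const 2).pow (hk.size.mul hk) ((PB.size hk).mul bk)

lemma pt_xU₀ (hn : PT n) (bn : PB n) (hk : PT k) : PT (fun b => xU₀ (n b) (k b)) :=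
  (PT.const 2).pow (hn.sub (hk.size.mul hk)) (bn.sub _)

lemma pt_xU₁ (hn : PT n) (bn : PB n) (hπ : PT π₀) (bπ : PB π₀) (hℓ : PT ℓ) (bℓ : PB ℓ)
    (hk : PT k) (bk : PB k) : PT (fun b => xU₁ (n b) (π₀ b) (ℓ b) (k b)) :=
  (((PT.const 2).pow ((hn.sub (hk.size.mul hk)).sub (hπ.add (hℓ.mul hk)))
    ((bn.sub _).sub _)).mul ((pt_xβ hℓ bℓ hk).pow hk bk)).mul ((PT.const 2).pow hπ bπ)

lemma pt_K3 {U Q a b c : β → ℕ} (hU : PT U) (hQ : PT Q) (ha : PT a) (hb : PT b) (hc : PT c) :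
    PT (fun e => XK3 (U e) (Q e) (a e) (b e) (c e)) :=
  (((ha.mul hU).add hb).mul hQ).add hc

/-- Digit sums; the index is clipped so that it is polynomially bounded. -/
lemma pt_dg {r : β → ℕ} {g : β → ℕ → ℕ} (hr : PT r) (hk : PT k) (bk : PB k)
    (hg : PT (fun p : β × ℕ => g p.1 (min p.2 (k p.1)))) : PT (fun b => xdg (r b) (k b) (g b)) := by
  have h1 : PT (fun p : β × ℕ => min p.2 (k p.1)) :=
    PT.min (by fun_prop) (hk.comp (f := Prod.fst) (by fun_prop))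
  have h2 : PB (fun p : β × ℕ => min p.2 (k p.1)) :=
    PB.min_right _ (bk.comp (f := Prod.fst) (by fun_prop))
  refine (PT.sum_range (g := fun b j => g b (min j (k b)) * r b ^ min j (k b)) hk bk
    (hg.mul ((hr.comp (f := Prod.fst) (by fun_prop)).pow h1 h2))).congr fun b => ?_
  exact sum_congr rfl fun j hj => by rw [min_eq_left (mem_range.1 hj).le]

lemma pt_z (hz : PT (fun q : γ × ℕ × ℕ => z q.1 q.2.1 q.2.2)) (hp : PT par) (hi : PT i)
    (hj : PT j) : PT (fun b => (z (par b) (i b) (j b)).toNat) :=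
  (hz.comp (hp.pair (hi.pair hj))).toNat

lemma pt_xum1 (hz : PT (fun q : γ × ℕ × ℕ => z q.1 q.2.1 q.2.2)) (hp : PT par)
    (hn : PT n) (bn : PB n) (hπ : PT π₀) (bπ : PB π₀) (hℓ : PT ℓ) (bℓ : PB ℓ)
    (hk : PT k) (bk : PB k) (hi : PT i) (hw : PT w) :
    PT (fun b => xum1 (n b) (π₀ b) (ℓ b) (k b) (z (par b)) (i b) (w b)) := by
  have e : PT (Prod.fst : β × ℕ → β) := by fun_prop
  have h1 : PT (fun p : β × ℕ => min p.2 (k p.1)) := PT.min (by fun_prop) (hk.comp e)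
  have h2 : PB (fun p : β × ℕ => min p.2 (k p.1)) := PB.min_right _ (bk.comp e)
  refine pt_K3 ((pt_xβ hℓ bℓ hk).pow hk bk) ((PT.const 2).pow hπ bπ)
    (pt_xmid hn bn hπ bπ hℓ bℓ hk bk hi) (pt_dg (pt_xβ hℓ bℓ hk) hk bk ?_) (pt_xlo hπ bπ hi)
  exact (pt_xseg (hπ.comp e) (bπ.comp e) (hℓ.comp e) (bℓ.comp e) (hi.comp e) h1 h2).add
    (((PT.const 2).mul (pt_z hz (hp.comp e) (hi.comp e) h1)).mul
      (pt_xwd (hk.comp e) (hw.comp e) h1 h2))

lemma pt_xw1 (hπ : PT π₀) (bπ : PB π₀) (hℓ : PT ℓ) (bℓ : PB ℓ)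
    (hk : PT k) (bk : PB k) (hi : PT i) (hw : PT w) :
    PT (fun b => xw1 (π₀ b) (ℓ b) (k b) (i b) (w b)) := by
  have e : PT (Prod.fst : β × ℕ → β) := by fun_prop
  have h1 : PT (fun p : β × ℕ => min p.2 (k p.1)) := PT.min (by fun_prop) (hk.comp e)
  have h2 : PB (fun p : β × ℕ => min p.2 (k p.1)) := PB.min_right _ (bk.comp e)
  refine pt_dg (g := fun b j => xwd (k b) (w b) j + xseg (π₀ b) (ℓ b) (i b) j % 2)
    ((pt_rho hk).add (PT.const 1)) hk bk ?_
  exact (pt_xwd (hk.comp e) (hw.comp e) h1 h2).add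
    ((pt_xseg (hπ.comp e) (bπ.comp e) (hℓ.comp e) (bℓ.comp e) (hi.comp e) h1 h2).mod (PT.const 2))

lemma pt_xm2 (hz : PT (fun q : γ × ℕ × ℕ => z q.1 q.2.1 q.2.2)) (hp : PT par)
    (hn : PT n) (bn : PB n) (hπ : PT π₀) (bπ : PB π₀) (hℓ : PT ℓ) (bℓ : PB ℓ)
    (hk : PT k) (bk : PB k) (hi : PT i) :
    PT (fun b => xm2 (n b) (π₀ b) (ℓ b) (k b) (z (par b)) (i b)) := by
  have e : PT (Prod.fst : β × ℕ → β) := by fun_prop
  have h1 : PT (fun p : β × ℕ => min p.2 (k p.1)) := PT.min (by fun_prop) (hk.comp e)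
  have h2 : PB (fun p : β × ℕ => min p.2 (k p.1)) := PB.min_right _ (bk.comp e)
  refine pt_K3 (((PT.const 2).pow hℓ bℓ).pow hk bk) ((PT.const 2).pow hπ bπ)
    (pt_xmid hn bn hπ bπ hℓ bℓ hk bk hi) (pt_dg ((PT.const 2).pow hℓ bℓ) hk bk ?_)
    (pt_xlo hπ bπ hi)
  have h3 := pt_xseg (hπ.comp e) (bπ.comp e) (hℓ.comp e) (bℓ.comp e) (hi.comp e) h1 h2
  have h4 := pt_z hz (hp.comp e) (hi.comp e) h1
  exact (h3.add h4).sub (((PT.const 2).mul h4).mul (h3.mod (PT.const 2)))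

end pt

/-- The parameters, with the exponents in unary. -/
abbrev XP (γ : Type) : Type := γ × List Unit × List Unit × List Unit × List Unit

lemma flatten_chunks {α : Type} (l : List α) (L W : ℕ) :
    (arr W (fun w => (l.drop (w * L)).take L)).flatten = l.take (W * L) := by
  induction W with
  | zero => simp
  | succ W ih => rw [arr_succ, List.flatten_append, ih, add_mul, one_mul, List.take_add]; simp

lemma arr_perm_of_invol {N W : ℕ} {σ : ℕ → ℕ} (hW : 0 < W) (h₁ : ∀ i, i < N → σ i < N)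
    (h₂ : ∀ i, σ (σ i) = i) :
    (arr (N * W) (fun p => (σ (p / W), p % W))).Perm (arr (N * W) (fun p => (p / W, p % W))) := by
  have nd : ∀ τ : ℕ → ℕ, Function.Injective τ →
      (arr (N * W) (fun p => (τ (p / W), p % W))).Nodup := by
    intro τ hτ
    refine List.Nodup.map (fun p q e => ?_) List.nodup_range
    simp only [Prod.mk.injEq] at e
    rw [← Nat.div_add_mod p W, ← Nat.div_add_mod q W, hτ e.1, e.2]
  refine (List.perm_ext_iff_of_nodup (nd σ (Function.LeftInverse.injective h₂))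
    (nd id Function.injective_id)).2 fun t => ?_
  simp only [mem_arr]
  constructor
  · rintro ⟨p, hp, rfl⟩
    have h3 := Nat.mod_lt p hW
    have h4 := h₁ _ ((Nat.div_lt_iff_lt_mul hW).2 hp)
    exact ⟨σ (p / W) * W + p % W, K2_lt h4 h3, by rw [K2_div h3, K2_mod h3]; rfl⟩
  · rintro ⟨p, hp, rfl⟩
    have h3 := Nat.mod_lt p hW
    have h4 := h₁ _ ((Nat.div_lt_iff_lt_mul hW).2 hp)
    exact ⟨σ (p / W) * W + p % W, K2_lt h4 h3, by rw [K2_div h3, K2_mod h3, h₂]; rfl⟩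

lemma pairwise_arr {θ : Type} {N : ℕ} {g : ℕ → θ} {r : θ → θ → Prop}
    (h : ∀ p q, p < q → q < N → r (g p) (g q)) : (arr N g).Pairwise r := by
  rw [List.pairwise_iff_getElem]
  intro p q _ hq hpq
  rw [getElem_arr, getElem_arr]
  exact h p q hpq (by simpa using hq)

variable {A α γ : Type} [Enc α] [Enc γ] {cur : A → P} {B : A → ℕ} {x : In B}

/-- The address permutation `i ↦ i ^^^ mask (z i)`, where `z i j` depends only on the selected
bits of `i` above the `j`-th one.  The records are lists of `R` entries of size at most `s`. -/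
theorem ct_xor (z : γ → ℕ → ℕ → Bool) (hz : PT (fun q : γ × ℕ × ℕ => z q.1 q.2.1 q.2.2))
    {n π₀ ℓ k R s s₀ : A → ℕ} {par : A → γ} {f : A → ℕ → ℕ → α}
    (hf : CT cur x (fun a => arr (2 ^ n a) (fun i => arr (R a) (f a i))))
    (hp : CT cur x (fun a => (par a, n a, π₀ a, ℓ a, k a, R a, s a)))
    (hdep : ∀ a i i' j, j < k a → (∀ j', j < j' → j' < k a →
      i.testBit (π₀ a + ℓ a * j') = i'.testBit (π₀ a + ℓ a * j')) → z (par a) i j = z (par a) i' j)
    (hinv : ∀ a i j, j < k a →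
      z (par a) (i ^^^ mask (π₀ a) (ℓ a) (k a) (z (par a) i)) j = z (par a) i j)
    (hfit : ∀ a, π₀ a + ℓ a * k a + (k a).size * k a ≤ n a)
    (hgap : ∀ a, 2 * (k a).size + 2 ≤ ℓ a)
    (hR : ∀ a, s₀ a * 2 ^ ((k a).size * k a) ≤ R a)
    (hs₀ : Sm s₀ (fun a => n a + ℓ a + sz (par a) + sz (R a) + sz (s a)))
    (hsz : ∀ a i c, i < 2 ^ n a → c < R a → sz (f a i c) ≤ s a)
    (hB : Dom (fun a => 2 ^ n a * R a * s a * pw τ₁ (k a * ((k a).size + 1) + 1)) B) :
    CT cur x (fun a => arr (2 ^ n a) (fun i => arr (R a)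
      (f a (i ^^^ mask (π₀ a) (ℓ a) (k a) (z (par a) i))))) := by
  have H : ∀ a, XOK (n a) (π₀ a) (ℓ a) (k a) (z (par a)) :=
    fun a => ⟨hdep a, hinv a, hfit a, hgap a⟩
  have hs0 : ∀ a, 0 < s₀ a := hs₀.pos
  let W : A → ℕ := fun a => xW (k a)
  let L : A → ℕ := fun a => R a / W a + 1
  let S : A → ℕ := fun a => (s a + 1) * L a + 12 * n a + 7
  have hW0 : ∀ a, 0 < W a := fun a => xW_pos _
  have hWR : ∀ a, s₀ a * W a ≤ R a := hR
  have hWR' : ∀ a, W a ≤ R a := fun a => (Nat.le_mul_of_pos_left _ (hs0 a)).trans (hWR a)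
  have hR0 : ∀ a, 0 < R a := fun a => (hW0 a).trans_le (hWR' a)
  have hs1 : ∀ a, 0 < s a := fun a => (sz_pos _).trans_le (hsz a 0 0 (by positivity) (hR0 a))
  have hWL : ∀ a, W a * L a ≤ 2 * R a := fun a => by
    have h1 := Nat.mul_div_le (R a) (W a)
    have h2 := hWR' a
    simp only [L, mul_add, mul_one]
    omega
  have hWL' : ∀ a, R a ≤ W a * L a := fun a => (Nat.lt_mul_div_succ _ (hW0 a)).le
  have hs₀L : ∀ a, s₀ a ≤ L a := fun a =>
    ((Nat.le_div_iff_mul_le (hW0 a)).2 (hWR a)).trans (Nat.le_succ _)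
  have hs₀S : Dom s₀ S := Dom.of_le fun a => by
    have := hs₀L a
    have h2 : L a ≤ (s a + 1) * L a := Nat.le_mul_of_pos_left _ (Nat.succ_pos _)
    simp only [S]
    omega
  have hs₀R : ∀ a, s₀ a ≤ R a * s a := fun a =>
    ((Nat.le_mul_of_pos_right _ (hW0 a)).trans (hWR a)).trans (Nat.le_mul_of_pos_right _ (hs1 a))
  have hRRs : ∀ a, R a ≤ R a * s a := fun a => Nat.le_mul_of_pos_right _ (hs1 a)
  have hB₀ : Dom (fun a => 2 ^ n a * (R a * s a)) B :=
    hB.le_trans fun a => by rw [← mul_assoc]; exact Nat.le_mul_of_pos_right _ (pw_pos _ _)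
  have hs₀B : Dom s₀ B :=
    hB₀.le_trans fun a => (hs₀R a).trans (Nat.le_mul_of_pos_left _ (by positivity))
  have hkn : ∀ a, k a ≤ n a := fun a => by
    have h1 := hfit a
    have h2 : k a ≤ ℓ a * k a := Nat.le_mul_of_pos_left _ (H a).one_le
    omega
  have hπn : ∀ a, π₀ a ≤ n a := fun a => by have := hfit a; omega
  have hWn : ∀ a, W a ≤ 2 ^ n a := fun a => by
    rw [← (H a).xW_mul_xU₀]; exact Nat.le_mul_of_pos_right _ (xU₀_pos _ _)
  have hns : Sm s₀ n := hs₀.of_le fun a => by omega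
  have hWS : Dom (fun a => W a * S a) (fun a => R a * s a) := by
    have h1 : Dom (fun a => W a * ((s a + 1) * L a)) (fun a => R a * s a) :=
      ⟨4, fun a => by
        have := hs1 a
        calc W a * ((s a + 1) * L a) = W a * L a * (s a + 1) := by ring
          _ ≤ 2 * R a * (2 * s a) := Nat.mul_le_mul (hWL a) (by omega)
          _ = _ := by ring⟩
    have h2 : Dom (fun a => W a * (12 * n a + 7)) (fun a => R a * s a) :=
      ((Dom.refl W).mul ((hns.const_mul 12).add_const 7).dom).trans_le fun a => by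
        rw [mul_comm]; exact (hWR a).trans (hRRs a)
    exact (h1.add h2).le_trans fun a => le_of_eq (by simp only [S]; ring)
  have hMS : Dom (fun a => 2 ^ n a * W a * S a) B :=
    (((Dom.refl fun a => 2 ^ n a).mul hWS).trans hB₀).le_trans fun a => le_of_eq (mul_assoc _ _ _)
  have hτ : (0 : ℝ) ≤ τ₁ := by unfold τ₁; norm_num
  have hBsw : ∀ U : A → ℕ, (∀ a, U a ≤ 3 * xU₀ (n a) (k a)) →
      Dom (fun a => xQ (k a) * U a * xQ (k a) * S a * pw τ₁ (xQ (k a)).size) B := by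
    intro U hU
    have h1 : Dom (fun a => 2 ^ n a * (W a * S a) * pw τ₁ (k a * ((k a).size + 1) + 1)) B :=
      (((Dom.refl fun a => 2 ^ n a).mul hWS).mul (Dom.refl _)).trans
        (hB.le_trans fun a => le_of_eq (by rw [← mul_assoc]))
    refine (h1.const_mul 27).le_trans fun a => ?_
    rw [← mul_assoc 27]
    refine Nat.mul_le_mul ?_ (pw_mono hτ (size_xQ_le _))
    calc xQ (k a) * U a * xQ (k a) * S a
        ≤ 3 * W a * (3 * xU₀ (n a) (k a)) * (3 * W a) * S a :=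
          Nat.mul_le_mul_right _ (Nat.mul_le_mul (Nat.mul_le_mul (xQ_le _) (hU a)) (xQ_le _))
      _ = 27 * (W a * xU₀ (n a) (k a) * (W a * S a)) := by ring
      _ = _ := by rw [(H a).xW_mul_xU₀]
  -- the parameters
  let pp : A → XP γ := fun a => (par a, un (n a), un (π₀ a), un (ℓ a), un (k a))
  have hsm : Sm s₀ (fun a => sz (pp a)) := ((hs₀.const_mul 6).add_const 8).of_le fun a => by
    have := hkn a
    have := hπn a
    simp only [pp, sz_pair, sz_un]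
    omega
  have hnB : Dom n B := hns.dom.trans hs₀B
  have hn : CT cur x n := hp.snd.fst
  have hℓB : Dom ℓ B := (hs₀.dom.trans hs₀B).le_trans fun a => by omega
  have hpp : CT cur x pp :=
    hp.fst.pair ((hn.un hnB).pair ((hp.snd.snd.fst.un (hnB.le_trans hπn)).pair
      ((hp.snd.snd.snd.fst.un hℓB).pair
        (hp.snd.snd.snd.snd.fst.un (hnB.le_trans hkn)))))
  have hppS : CS cur x pp := ⟨hpp, hsm.mono hs₀B⟩
  have hRS : CS cur x R := ⟨hp.snd.snd.snd.snd.snd.fst, (hs₀.mono hs₀B).of_le fun a => by omega⟩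
  have hsS : CS cur x s := ⟨hp.snd.snd.snd.snd.snd.snd, (hs₀.mono hs₀B).of_le fun a => by omega⟩
  have hnS : CS cur x n := ⟨hn, (hns.mono hs₀B).sz_self⟩
  have hW : CS cur x W := (hppS.pt (fun q : XP γ => xW q.2.2.2.2.length)
    (pt_xW (by fun_prop) (by fun_prop))).congr fun a => by simp [pp, W]
  have hQ : CS cur x (fun a => xQ (k a)) := (hppS.pt (fun q : XP γ => xQ q.2.2.2.2.length)
    (pt_xQ (by fun_prop) (by fun_prop))).congr fun a => by simp [pp]
  have hU₀ : CS cur x (fun a => xU₀ (n a) (k a)) :=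
    (hppS.pt (fun q : XP γ => xU₀ q.2.1.length q.2.2.2.2.length)
      (pt_xU₀ (by fun_prop) (by fun_prop) (by fun_prop))).congr fun a => by simp [pp]
  have hU₁ : CS cur x (fun a => xU₁ (n a) (π₀ a) (ℓ a) (k a)) :=
    (hppS.pt (fun q : XP γ => xU₁ q.2.1.length q.2.2.1.length q.2.2.2.1.length q.2.2.2.2.length)
      (pt_xU₁ (by fun_prop) (by fun_prop) (by fun_prop) (by fun_prop) (by fun_prop) (by fun_prop)
        (by fun_prop) (by fun_prop))).congr fun a => by simp [pp]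
  have hL : CS cur x L := hRS.pt₂ hW (fun r w => r / w + 1) (by fun_prop)
  have hS : CS cur x S := hsS.pt₃ hL hnS (fun s l n => (s + 1) * l + 12 * n + 7) (by fun_prop)
  have hsmS : ∀ U : A → ℕ, (∀ a, U a ≤ 3 * xU₀ (n a) (k a)) →
      Sm S (fun a => sz (pp a) + sz (xQ (k a)) + sz (U a) + (12 * n a + 3)) := by
    intro U hU
    refine Sm.mono ?_ hs₀S
    have h1 : ∀ V : A → ℕ, (∀ a, V a ≤ 3 * 2 ^ n a) → Sm s₀ (fun a => sz (V a)) := fun V hV =>
      (hns.add_const 2).sz_of_lt_two_pow fun a => by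
        have := hV a
        have : 0 < 2 ^ n a := by positivity
        rw [pow_add]; omega
    refine ((hsm.add (h1 _ fun a => ?_)).add (h1 _ fun a => ?_)).add
      ((hns.const_mul 12).add_const 3)
    · exact (xQ_le _).trans (Nat.mul_le_mul_left _ (hWn a))
    · refine (hU a).trans (Nat.mul_le_mul_left _ ?_)
      rw [← (H a).xW_mul_xU₀]; exact Nat.le_mul_of_pos_left _ (xW_pos _)
  have hU₀le : ∀ a, xU₀ (n a) (k a) ≤ 3 * xU₀ (n a) (k a) := fun a => by omega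
  have hU₁le : ∀ a, xU₁ (n a) (π₀ a) (ℓ a) (k a) ≤ 3 * xU₀ (n a) (k a) := fun a => (H a).xU₁_le
  -- the slices
  let val : A → ℕ × ℕ → List α := fun a t => ((arr (R a) (f a t.1)).drop (t.2 * L a)).take (L a)
  have hval : ∀ a (t : ℕ × ℕ), t.1 < 2 ^ n a → sz (val a t) ≤ (s a + 1) * L a + 1 := by
    intro a t ht
    refine (sz_list_le _ (s a) fun e he => ?_).trans ?_
    · obtain ⟨c, hc, rfl⟩ := mem_arr.1 (List.mem_of_mem_drop (List.mem_of_mem_take he))
      exact hsz a _ c ht hc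
    · exact Nat.succ_le_succ (Nat.mul_le_mul_left _ (List.length_take_le _ _))
  have htag : ∀ a (t : ℕ × ℕ), t.1 < 2 ^ n a → t.2 < W a → sz t ≤ 12 * n a + 3 := by
    intro a t h1 h2
    have e1 := sz_nat_le_of_lt_two_pow h1
    have e2 := sz_nat_le_of_lt_two_pow (h2.trans_le (hWn a))
    rw [sz_prod]; omega
  have hszN : Sm s₀ (fun a => sz (2 ^ n a)) := (hns.add_const 1).sz_of_lt_two_pow fun a =>
    Nat.pow_lt_pow_right (by norm_num) (Nat.lt_succ_self _)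
  have h1 : CT cur x (fun a => arr (2 ^ n a) (fun i => arr (W a) (fun w => val a (i, w)))) := by
    refine CT.arr_mapU hf (hW.ct.pair hL.ct) (fun a => R a * s a) ⟨3, fun q => ?_⟩ ⟨27, fun a => ?_⟩
      (hszN.dom.trans_le hs₀R)
      (fun x' h₁ h₂ _ => CT.chunks h₂.fst h₂.snd ⟨8, fun q => ?_⟩ h₁) hB₀
    · have e1 := sz_arr_le (fun c hc => hsz q.a q.i c q.lt hc)
      have e2 := hRRs q.a
      have e3 := hR0 q.a
      rw [mul_add] at e1
      beta_reduce
      omega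
    · have e1 := sz_nat_le_self (W a)
      have e2 := sz_nat_le_self (L a)
      have e3 := hWR' a
      have e4 : L a ≤ W a * L a := Nat.le_mul_of_pos_left _ (hW0 a)
      have e5 := hWL a
      have e6 := hRRs a
      have e7 := hR0 a
      simp only [sz_pair]
      omega
    · have e1 := hWL q.a
      have e2 := hRRs q.a
      have e3 := hW0 q.a
      have e4 : 0 < L q.a := Nat.succ_pos _
      calc (W q.a + 1) * (L q.a + 1) ≤ (2 * W q.a) * (2 * L q.a) :=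
            Nat.mul_le_mul (by omega) (by omega)
        _ = 4 * (W q.a * L q.a) := by ring
        _ ≤ 8 * (R q.a * s q.a) := by omega
  let l₀ : A → List (ℕ × ℕ) := fun a => arr (2 ^ n a * W a) (fun p => (p / W a, p % W a))
  have hl₀m : ∀ a, ∀ t ∈ l₀ a, t.1 < 2 ^ n a ∧ t.2 < W a := by
    intro a t ht
    obtain ⟨p, hp, rfl⟩ := mem_arr.1 ht
    exact ⟨(Nat.div_lt_iff_lt_mul (hW0 a)).2 hp, Nat.mod_lt _ (hW0 a)⟩
  have hszM : Sm s₀ (fun a => sz (2 ^ n a * W a)) :=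
    (hszN.const_mul 2).of_le fun a => by
      have e1 := sz_mul_le (2 ^ n a) (W a)
      have e2 := sz_nat_mono (hWn a)
      omega
  have hszW : Sm s₀ (fun a => sz (W a)) := hszN.sz_of_le hWn
  have h2 : CT cur x (fun a => (l₀ a).map (fun t => (t, val a t))) := by
    refine (CT.arr_mapU (out := fun a p => ((p / W a, p % W a), val a (p / W a, p % W a)))
      h1.arr_flatten hW.ct S (Dom.of_le fun q => ?_) (hszW.dom.trans hs₀S) (hszM.dom.trans hs₀S)
      (fun x' h₁ h₂ h₃ => CT.pair ?_ h₁) hMS).congr fun a => by simp [l₀]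
    · have := hval q.a (q.i / W q.a, q.i % W q.a) ((Nat.div_lt_iff_lt_mul (hW0 q.a)).2 q.lt)
      simp only [S]
      omega
    · refine (h₃.pair h₂).pt (f := fun q : ℕ × ℕ => (q.1 / q.2, q.1 % q.2)) (by fun_prop) ?_
      refine ((((hszM.add hszW).add_const 1).mono hs₀S).comap Ix.a).of_le fun q => ?_
      have := sz_nat_mono q.lt.le
      simp only [sz_pair]
      omega
  -- one round
  have round : ∀ (top um bot : XP γ → ℕ × ℕ → ℕ),
      PT (fun q : XP γ × ℕ × ℕ => top q.1 q.2) → PT (fun q : XP γ × ℕ × ℕ => um q.1 q.2) →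
      PT (fun q : XP γ × ℕ × ℕ => bot q.1 q.2) →
      ∀ (U : A → ℕ) (top' um' bot' : A → ℕ × ℕ → ℕ) (l : A → List (ℕ × ℕ)),
      (∀ a t, top (pp a) t = top' a t) → (∀ a t, um (pp a) t = um' a t) →
      (∀ a t, bot (pp a) t = bot' a t) →
      CS cur x U → (∀ a, 0 < U a) → (∀ a, U a ≤ 3 * xU₀ (n a) (k a)) →
      (∀ a (t : ℕ × ℕ), t.1 < 2 ^ n a → t.2 < W a →
        top' a t < xQ (k a) ∧ um' a t < U a ∧ bot' a t < xQ (k a)) →
      (∀ a, (l a).Perm (l₀ a)) →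
      (∀ a, (l a).Pairwise (fun t t' => XK3 (U a) (xQ (k a)) (top' a t) (um' a t) (bot' a t) <
        XK3 (U a) (xQ (k a)) (top' a t') (um' a t') (bot' a t'))) →
      CT cur x (fun a => (l a).map (fun t => (t, val a t))) →
      ∃ l' : A → List (ℕ × ℕ), (∀ a, (l' a).Perm (l₀ a)) ∧
        (∀ a, (l' a).Pairwise (fun t t' => XK3 (U a) (xQ (k a)) (bot' a t) (um' a t) (top' a t) <
          XK3 (U a) (xQ (k a)) (bot' a t') (um' a t') (top' a t'))) ∧
        CT cur x (fun a => (l' a).map (fun t => (t, val a t))) := by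
    intro top um bot htop hum hbot U top' um' bot' l e₁ e₂ e₃ hU hU0 hUle hb hperm hs hl
    have hm : ∀ a, ∀ t ∈ l a, t.1 < 2 ^ n a ∧ t.2 < W a := fun a t ht =>
      hl₀m a t ((hperm a).subset ht)
    obtain ⟨l', p₁, p₂, p₃⟩ := ct_swapSort top um bot htop hum hbot (tb := fun a => 12 * n a + 3)
      hl hpp hQ.ct hU.ct hS.ct
      (fun a t ht => by rw [e₁, e₂, e₃]; exact hb a t (hm a t ht).1 (hm a t ht).2)
      (fun a => by simpa only [e₁, e₂, e₃] using hs a) (fun a => xQ_pos _) hU0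
      (fun a t ht => by
        have e1 := hval a t (hm a t ht).1
        have e2 := htag a t (hm a t ht).1 (hm a t ht).2
        simp only [sz_pair, S]
        omega)
      (fun a t ht => htag a t (hm a t ht).1 (hm a t ht).2) (hsmS U hUle) (hBsw U hUle)
    exact ⟨l', fun a => (p₁ a).trans (hperm a), fun a => by simpa only [e₁, e₂, e₃] using p₂ a, p₃⟩
  have kw : PT (fun q : XP γ × ℕ × ℕ => q.2.2) := by fun_prop
  have ksl : PT (fun q : XP γ × ℕ × ℕ => xsl q.1.2.1.length q.1.2.2.2.2.length q.2.1) :=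
    pt_xsl (by fun_prop) (by fun_prop) (by fun_prop) (by fun_prop)
  have km : PT (fun q : XP γ × ℕ × ℕ => xm q.1.2.1.length q.1.2.2.2.2.length q.2.1) :=
    pt_xm (by fun_prop) (by fun_prop) (by fun_prop) (by fun_prop)
  have kum1 : PT (fun q : XP γ × ℕ × ℕ => xum1 q.1.2.1.length q.1.2.2.1.length
      q.1.2.2.2.1.length q.1.2.2.2.2.length (z q.1.1) q.2.1 q.2.2) :=
    pt_xum1 hz (by fun_prop) (by fun_prop) (by fun_prop) (by fun_prop) (by fun_prop)
      (by fun_prop) (by fun_prop) (by fun_prop) (by fun_prop) (by fun_prop) (by fun_prop)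
  have kw1 : PT (fun q : XP γ × ℕ × ℕ => xw1 q.1.2.2.1.length
      q.1.2.2.2.1.length q.1.2.2.2.2.length q.2.1 q.2.2) :=
    pt_xw1 (by fun_prop) (by fun_prop) (by fun_prop) (by fun_prop) (by fun_prop)
      (by fun_prop) (by fun_prop) (by fun_prop)
  have km2 : PT (fun q : XP γ × ℕ × ℕ => xm2 q.1.2.1.length q.1.2.2.1.length
      q.1.2.2.2.1.length q.1.2.2.2.2.length (z q.1.1) q.2.1) :=
    pt_xm2 hz (by fun_prop) (by fun_prop) (by fun_prop) (by fun_prop) (by fun_prop)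
      (by fun_prop) (by fun_prop) (by fun_prop) (by fun_prop) (by fun_prop)
  have bsl : ∀ a (t : ℕ × ℕ), t.1 < 2 ^ n a → xsl (n a) (k a) t.1 < xQ (k a) := fun a t ht =>
    ((H a).xsl_lt ht).trans_le (xW_le_xQ _)
  have bw : ∀ a (t : ℕ × ℕ), t.2 < W a → t.2 < xQ (k a) := fun a t ht =>
    ht.trans_le (xW_le_xQ _)
  obtain ⟨l₁, p₁, s₁, c₁⟩ := round
    (fun p t => xsl p.2.1.length p.2.2.2.2.length t.1)
    (fun p t => xm p.2.1.length p.2.2.2.2.length t.1) (fun _ t => t.2) ksl km kw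
    (fun a => xU₀ (n a) (k a)) (fun a t => xsl (n a) (k a) t.1) (fun a t => xm (n a) (k a) t.1)
    (fun _ t => t.2) l₀ (fun a t => by simp [pp]) (fun a t => by simp [pp]) (fun _ _ => rfl)
    hU₀ (fun a => xU₀_pos _ _) hU₀le (fun a t h h' => ⟨bsl a t h, xm_lt _ _ _, bw a t h'⟩)
    (fun a => List.Perm.refl _)
    (fun a => pairwise_arr fun p q hpq _ => stage1 (Nat.mod_lt _ (hW0 a)) (Nat.mod_lt _ (hW0 a))
      (by rwa [Nat.div_add_mod', Nat.div_add_mod'])) h2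
  have m₁ : ∀ a, ∀ t ∈ l₁ a, t.1 < 2 ^ n a ∧ t.2 < W a := fun a t ht =>
    hl₀m a t ((p₁ a).subset ht)
  obtain ⟨l₂, p₂, s₂, c₂⟩ := round (fun _ t => t.2)
    (fun p t => xum1 p.2.1.length p.2.2.1.length p.2.2.2.1.length p.2.2.2.2.length (z p.1) t.1 t.2)
    (fun p t => xsl p.2.1.length p.2.2.2.2.length t.1) kw kum1 ksl
    (fun a => xU₁ (n a) (π₀ a) (ℓ a) (k a)) (fun _ t => t.2)
    (fun a t => xum1 (n a) (π₀ a) (ℓ a) (k a) (z (par a)) t.1 t.2)
    (fun a t => xsl (n a) (k a) t.1) l₁ (fun _ _ => rfl) (fun a t => by simp [pp])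
    (fun a t => by simp [pp]) hU₁ (fun a => xU₁_pos _ _ _ _) hU₁le
    (fun a t h h' => ⟨bw a t h', (H a).xum1_lt _ _, bsl a t h⟩) p₁
    (fun a => (s₁ a).imp_of_mem fun {t t'} ht ht' h =>
      (H a).stage2 (m₁ a t ht).1 (m₁ a t' ht').1 h) c₁
  have m₂ : ∀ a, ∀ t ∈ l₂ a, t.1 < 2 ^ n a ∧ t.2 < W a := fun a t ht =>
    hl₀m a t ((p₂ a).subset ht)
  obtain ⟨l₃, p₃, s₃, c₃⟩ := round (fun p t => xsl p.2.1.length p.2.2.2.2.length t.1)
    (fun p t => xum1 p.2.1.length p.2.2.1.length p.2.2.2.1.length p.2.2.2.2.length (z p.1) t.1 t.2)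
    (fun p t => xw1 p.2.2.1.length p.2.2.2.1.length p.2.2.2.2.length t.1 t.2) ksl kum1 kw1
    (fun a => xU₁ (n a) (π₀ a) (ℓ a) (k a)) (fun a t => xsl (n a) (k a) t.1)
    (fun a t => xum1 (n a) (π₀ a) (ℓ a) (k a) (z (par a)) t.1 t.2)
    (fun a t => xw1 (π₀ a) (ℓ a) (k a) t.1 t.2) l₂ (fun a t => by simp [pp])
    (fun a t => by simp [pp]) (fun a t => by simp [pp]) hU₁ (fun a => xU₁_pos _ _ _ _) hU₁le
    (fun a t h _ => ⟨bsl a t h, (H a).xum1_lt _ _, xw1_lt _ _ _ _ _⟩) p₂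
    (fun a => (s₂ a).imp_of_mem fun {t t'} ht ht' h =>
      (H a).stage3 (m₂ a t ht).2 (m₂ a t' ht').2 h) c₂
  have m₃ : ∀ a, ∀ t ∈ l₃ a, t.1 < 2 ^ n a ∧ t.2 < W a := fun a t ht =>
    hl₀m a t ((p₃ a).subset ht)
  obtain ⟨l₄, p₄, s₄, c₄⟩ := round
    (fun p t => xw1 p.2.2.1.length p.2.2.2.1.length p.2.2.2.2.length t.1 t.2)
    (fun p t => xm2 p.2.1.length p.2.2.1.length p.2.2.2.1.length p.2.2.2.2.length (z p.1) t.1)
    (fun p t => xsl p.2.1.length p.2.2.2.2.length t.1) kw1 km2 ksl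
    (fun a => xU₀ (n a) (k a)) (fun a t => xw1 (π₀ a) (ℓ a) (k a) t.1 t.2)
    (fun a t => xm2 (n a) (π₀ a) (ℓ a) (k a) (z (par a)) t.1)
    (fun a t => xsl (n a) (k a) t.1) l₃ (fun a t => by simp [pp])
    (fun a t => by simp [pp]) (fun a t => by simp [pp]) hU₀ (fun a => xU₀_pos _ _) hU₀le
    (fun a t h _ => ⟨xw1_lt _ _ _ _ _, (H a).xm2_lt _, bsl a t h⟩) p₃
    (fun a => (s₃ a).imp_of_mem fun {t t'} ht ht' h =>
      (H a).stage4 (m₃ a t ht).1 (m₃ a t' ht').1 h) c₃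
  have m₄ : ∀ a, ∀ t ∈ l₄ a, t.1 < 2 ^ n a ∧ t.2 < W a := fun a t ht =>
    hl₀m a t ((p₄ a).subset ht)
  let σ : A → ℕ → ℕ := fun a => xσ (π₀ a) (ℓ a) (k a) (z (par a))
  have e₄ : ∀ a, l₄ a = arr (2 ^ n a * W a) (fun p => (σ a (p / W a), p % W a)) := by
    intro a
    refine List.Perm.eq_of_pairwise (le := fun t t' : ℕ × ℕ =>
      σ a t.1 * W a + t.2 < σ a t'.1 * W a + t'.2) (fun _ _ _ _ h h' => by omega)
      ((s₄ a).imp_of_mem fun {t t'} ht ht' h => (H a).stage5 (m₄ a t ht).2 (m₄ a t' ht').2 h)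
      (pairwise_arr fun p q hpq _ => ?_)
      ((p₄ a).trans (arr_perm_of_invol (hW0 a) (fun i hi => (H a).xσ_lt hi) (H a).xσ_xσ).symm)
    simp only [σ, (H a).xσ_xσ]
    rwa [Nat.div_add_mod', Nat.div_add_mod']
  have h5 : CT cur x (fun a => arr (2 ^ n a * W a)
      (fun p => val a (σ a (p / W a), p % W a))) :=
    (c₄.map_lt (f := Prod.snd) (LT.intro fun _ h => h.snd)).congr fun a => by
      rw [e₄]; simp
  have h6 := CT.arr_chunks (hn.two_pow hnB) hW.ct ((hMS.const_mul 4).le_trans fun a => by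
    have e1 : 0 < 2 ^ n a := by positivity
    have e2 := hW0 a
    have e3 : 0 < S a := Nat.succ_pos _
    calc (2 ^ n a + 1) * (W a + 1) ≤ (2 * 2 ^ n a) * (2 * W a) :=
          Nat.mul_le_mul (by omega) (by omega)
      _ = 4 * (2 ^ n a * W a) := by ring
      _ ≤ _ := Nat.mul_le_mul_left _ (Nat.le_mul_of_pos_right _ e3)) h5
  refine (h6.arr_map_lt (f := List.flatten) (LT.intro fun _ h => h.flatten)).congr
    fun a => arr_congr fun i _ => ?_
  rw [arr_congr (g := fun w => val a (σ a i, w)) fun w hw => by rw [K2_div hw, K2_mod hw]]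
  simp only [val]
  rw [flatten_chunks, List.take_of_length_le (by simpa using hWL' a)]
  rfl

end Crest.Agent.R326
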