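import Crest.Agent.R326.Defs

/-!
Order-preserving relabellings of addresses: the arithmetic behind the four swaps.
-/

set_option autoImplicit false

namespace Crest.Agent.R326

open Crest.Agent.Lib.PT Crest.Agent.Lib.LT Finset

/-- Three fields in mixed radix. -/
def XK3 (U Q a b c : ℕ) : ℕ := (a * U + b) * Q + c

lemma K2_lt_iff {U a b a' b' : ℕ} (hb : b < U) (hb' : b' < U) :
    a * U + b < a' * U + b' ↔ a < a' ∨ (a = a' ∧ b < b') := by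
  constructor
  · intro h
    rcases lt_trichotomy a a' with h1 | h1 | h1
    · exact Or.inl h1
    · subst h1; exact Or.inr ⟨rfl, by omega⟩
    · exfalso
      have : (a' + 1) * U ≤ a * U := Nat.mul_le_mul_right _ h1
      rw [add_mul] at this
      omega
  · rintro (h | ⟨rfl, h⟩)
    · have : (a + 1) * U ≤ a' * U := Nat.mul_le_mul_right _ h
      rw [add_mul] at this
      omega
    · omega

lemma K2_eq_iff {U a b a' b' : ℕ} (hb : b < U) (hb' : b' < U) :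
    a * U + b = a' * U + b' ↔ a = a' ∧ b = b' := by
  constructor
  · intro h
    have h1 := (K2_lt_iff (a := a) (a' := a') hb hb').not.1 (by omega)
    have h2 := (K2_lt_iff (a := a') (a' := a) hb' hb).not.1 (by omega)
    omega
  · rintro ⟨rfl, rfl⟩; rfl

lemma K2_lt {A U a b : ℕ} (ha : a < A) (hb : b < U) : a * U + b < A * U := by
  have : (a + 1) * U ≤ A * U := Nat.mul_le_mul_right _ ha
  rw [add_mul] at this
  omega

lemma K3_lt {A U Q a b c : ℕ} (ha : a < A) (hb : b < U) (hc : c < Q) :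
    XK3 U Q a b c < A * U * Q := K2_lt (K2_lt ha hb) hc

lemma K3_eq_iff {U Q a b c a' b' c' : ℕ} (hb : b < U) (hb' : b' < U) (hc : c < Q)
    (hc' : c' < Q) : XK3 U Q a b c = XK3 U Q a' b' c' ↔ a = a' ∧ b = b' ∧ c = c' := by
  unfold XK3
  rw [K2_eq_iff hc hc', K2_eq_iff hb hb', and_assoc]

lemma K2_div {U a b : ℕ} (hb : b < U) : (a * U + b) / U = a := by
  rw [add_comm, Nat.add_mul_div_right _ _ (by omega), Nat.div_eq_of_lt hb, zero_add]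

lemma K2_mod {U a b : ℕ} (hb : b < U) : (a * U + b) % U = b := by
  rw [add_comm, Nat.add_mul_mod_self_right, Nat.mod_eq_of_lt hb]

lemma swapIdx_K3 {U Q a b c : ℕ} (ha : a < Q) (hb : b < U) (hc : c < Q) :
    swapIdx Q U 1 (XK3 U Q a b c) = XK3 U Q c b a := by
  have h1 : XK3 U Q a b c / Q = a * U + b := K2_div hc
  have h2 : XK3 U Q a b c % Q = c := K2_mod hc
  have h3 : XK3 U Q a b c / (Q * U) = a := by
    rw [← Nat.div_div_eq_div_mul, h1, K2_div hb]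
  have h4 : XK3 U Q a b c / (Q * U * Q) = 0 := Nat.div_eq_of_lt (K3_lt ha hb hc)
  unfold swapIdx
  simp only [one_mul, mul_one, Nat.div_one, Nat.mod_one, add_zero]
  rw [h1, h2, h3, h4, K2_mod hb, Nat.mod_eq_of_lt ha]
  simp [XK3]

lemma exists_K3 {U Q j : ℕ} (hj : j < Q * U * Q) :
    ∃ a b c, a < Q ∧ b < U ∧ c < Q ∧ j = XK3 U Q a b c := by
  have hQ : 0 < Q := Nat.pos_of_mul_pos_left (lt_of_le_of_lt (Nat.zero_le _) hj)
  have hU : 0 < U := by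
    rcases Nat.eq_zero_or_pos U with rfl | h
    · simp at hj
    · exact h
  refine ⟨j / Q / U, j / Q % U, j % Q, ?_, Nat.mod_lt _ hU, Nat.mod_lt _ hQ, ?_⟩
  · rw [Nat.div_lt_iff_lt_mul hU, Nat.div_lt_iff_lt_mul hQ]; exact hj
  · unfold XK3
    rw [Nat.div_add_mod', Nat.div_add_mod']

/-- The pair `(x', y')` is ordered like the pair `(x, y)`. -/
def Same (x y x' y' : ℕ) : Prop := (x < y → x' < y') ∧ (x = y → x' = y')

lemma Same.refl (x y : ℕ) : Same x y x y := ⟨id, id⟩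

lemma same_K2 {U U' a b a' b' A B A' B' : ℕ} (hb : b < U) (hb' : b' < U) (hB : B < U')
    (hB' : B' < U') (h₁ : Same a a' A A') (h₂ : a = a' → Same b b' B B') :
    Same (a * U + b) (a' * U + b') (A * U' + B) (A' * U' + B') := by
  constructor
  · rw [K2_lt_iff hb hb', K2_lt_iff hB hB']
    rintro (h | ⟨h, h'⟩)
    · exact Or.inl (h₁.1 h)
    · exact Or.inr ⟨h₁.2 h, (h₂ h).1 h'⟩
  · rw [K2_eq_iff hb hb', K2_eq_iff hB hB']
    rintro ⟨h, h'⟩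
    exact ⟨h₁.2 h, (h₂ h).2 h'⟩

lemma same_K3 {U Q U' Q' a b c a' b' c' A B C A' B' C' : ℕ} (hb : b < U) (hb' : b' < U)
    (hc : c < Q) (hc' : c' < Q) (hB : B < U') (hB' : B' < U') (hC : C < Q') (hC' : C' < Q')
    (h₁ : Same a a' A A') (h₂ : a = a' → Same b b' B B') (h₃ : a = a' → b = b' → Same c c' C C') :
    Same (XK3 U Q a b c) (XK3 U Q a' b' c') (XK3 U' Q' A B C) (XK3 U' Q' A' B' C') :=
  same_K2 hc hc' hC hC' (same_K2 hb hb' hB hB' h₁ h₂) fun h =>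
    h₃ ((K2_eq_iff hb hb').1 h).1 ((K2_eq_iff hb hb').1 h).2

/-- The number with the given digits. -/
def xdg (β k : ℕ) (a : ℕ → ℕ) : ℕ := ∑ j ∈ range k, a j * β ^ j

lemma xdg_lt {β k : ℕ} {a : ℕ → ℕ} (h : ∀ j, j < k → a j < β) : xdg β k a < β ^ k :=
  sum_digits_lt k h

lemma dg_succ (β k : ℕ) (a : ℕ → ℕ) : xdg β (k + 1) a = a k * β ^ k + xdg β k a := by
  unfold xdg
  rw [sum_range_succ, add_comm]

lemma dg_congr {β k : ℕ} {a b : ℕ → ℕ} (h : ∀ j, j < k → a j = b j) : xdg β k a = xdg β k b :=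
  sum_congr rfl fun j hj => by rw [h j (mem_range.1 hj)]

lemma dg_inj {β k : ℕ} {a b : ℕ → ℕ} (ha : ∀ j, j < k → a j < β) (hb : ∀ j, j < k → b j < β)
    (h : xdg β k a = xdg β k b) {j : ℕ} (hj : j < k) : a j = b j := by
  have hβ : 0 < β := lt_of_le_of_lt (Nat.zero_le _) (ha j hj)
  rw [← sum_digits_div_mod hβ j k ha hj, ← sum_digits_div_mod hβ j k hb hj]
  exact congrArg (fun v => v / β ^ j % β) h

lemma dg_digits (β k x : ℕ) : xdg β k (fun j => x / β ^ j % β) = x % β ^ k := by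
  induction k with
  | zero => simp [xdg, Nat.mod_one]
  | succ k ih => rw [dg_succ, ih, Nat.mod_pow_succ]; ring

lemma same_dg {β β' : ℕ} (k : ℕ) {a b a' b' : ℕ → ℕ} (ha : ∀ j, j < k → a j < β)
    (hb : ∀ j, j < k → b j < β) (ha' : ∀ j, j < k → a' j < β') (hb' : ∀ j, j < k → b' j < β')
    (h : ∀ j, j < k → (∀ j', j < j' → j' < k → a j' = b j') → Same (a j) (b j) (a' j) (b' j)) :
    Same (xdg β k a) (xdg β k b) (xdg β' k a') (xdg β' k b') := by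
  induction k with
  | zero => simp [xdg, Same]
  | succ k ih =>
    simp only [dg_succ]
    refine same_K2 (xdg_lt fun j hj => ha j (by omega)) (xdg_lt fun j hj => hb j (by omega))
      (xdg_lt fun j hj => ha' j (by omega)) (xdg_lt fun j hj => hb' j (by omega))
      (h k (by omega) fun j' h1 h2 => by omega) fun e => ?_
    refine ih (fun j hj => ha j (by omega)) (fun j hj => hb j (by omega))
      (fun j hj => ha' j (by omega)) (fun j hj => hb' j (by omega)) fun j hj h' => ?_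
    refine h j (by omega) fun j' h1 h2 => ?_
    rcases Nat.lt_succ_iff_lt_or_eq.1 h2 with h3 | rfl
    · exact h' j' h1 h3
    · exact e

lemma add_pow_le_three_mul {a b k : ℕ} (ha : 0 < a) (h : k * b ≤ a) : (a + b) ^ k ≤ 3 * a ^ k := by
  have ha' : (0 : ℝ) < a := by exact_mod_cast ha
  have h' : (k : ℝ) * b ≤ a := by exact_mod_cast h
  have h1 : ((a : ℝ) + b) = a * ((b : ℝ) / a + 1) := by field_simp; ring
  have h2 : ((b : ℝ) / a + 1) ^ k ≤ 3 := by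
    calc ((b : ℝ) / a + 1) ^ k ≤ Real.exp ((b : ℝ) / a) ^ k :=
          pow_le_pow_left₀ (by positivity) (Real.add_one_le_exp _) k
      _ = Real.exp (k * ((b : ℝ) / a)) := (Real.exp_nat_mul _ _).symm
      _ ≤ Real.exp 1 := by
          apply Real.exp_le_exp.2
          rw [← mul_div_assoc, div_le_one ha']
          exact h'
      _ ≤ 3 := Real.exp_one_lt_three.le
  have h3 : ((a : ℝ) + b) ^ k ≤ 3 * (a : ℝ) ^ k := by
    rw [h1, mul_pow, mul_comm]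
    exact mul_le_mul_of_nonneg_right h2 (by positivity)
  exact_mod_cast h3

/-! ### the fields of an address -/

/-- The number with the bits `z j` at the positions `π₀ + ℓ * j`, `j < k`. -/
def mask (π₀ ℓ k : ℕ) (z : ℕ → Bool) : ℕ := ∑ j ∈ range k, (z j).toNat * 2 ^ (π₀ + ℓ * j)

/-- the top field -/
def xsl (n k i : ℕ) : ℕ := i / 2 ^ (n - k.size * k)
/-- everything below the top field -/
def xm (n k i : ℕ) : ℕ := i % 2 ^ (n - k.size * k)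
/-- the field between the top field and the segments -/
def xmid (n π₀ ℓ k i : ℕ) : ℕ := xm n k i / 2 ^ (π₀ + ℓ * k)
/-- the segments -/
def xseg (π₀ ℓ i j : ℕ) : ℕ := i / 2 ^ (π₀ + ℓ * j) % 2 ^ ℓ
/-- the bottom field -/
def xlo (π₀ i : ℕ) : ℕ := i % 2 ^ π₀
/-- the digits of the slice number -/
def xwd (k w j : ℕ) : ℕ := w / (2 ^ k.size) ^ j % 2 ^ k.size
/-- the radix of the modified segments -/
def xβ (ℓ k : ℕ) : ℕ := 2 ^ ℓ + 2 * 2 ^ k.size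
/-- the size of the outer fields -/
def xQ (k : ℕ) : ℕ := (2 ^ k.size + 1) ^ k
/-- the number of slices -/
def xW (k : ℕ) : ℕ := 2 ^ (k.size * k)
/-- the size of the plain middle field -/
def xU₀ (n k : ℕ) : ℕ := 2 ^ (n - k.size * k)
/-- the size of the extended middle field -/
def xU₁ (n π₀ ℓ k : ℕ) : ℕ := 2 ^ (n - k.size * k - (π₀ + ℓ * k)) * xβ ℓ k ^ k * 2 ^ π₀
/-- modified segments -/
def xu1 (π₀ ℓ k : ℕ) (z : ℕ → ℕ → Bool) (i w j : ℕ) : ℕ :=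
  xseg π₀ ℓ i j + 2 * (z i j).toNat * xwd k w j
/-- the extended middle field -/
def xum1 (n π₀ ℓ k : ℕ) (z : ℕ → ℕ → Bool) (i w : ℕ) : ℕ :=
  XK3 (xβ ℓ k ^ k) (2 ^ π₀) (xmid n π₀ ℓ k i) (xdg (xβ ℓ k) k (xu1 π₀ ℓ k z i w)) (xlo π₀ i)
/-- the modified slice number -/
def xw1 (π₀ ℓ k i w : ℕ) : ℕ :=
  xdg (2 ^ k.size + 1) k (fun j => xwd k w j + xseg π₀ ℓ i j % 2)
/-- the final segments -/
def xu2 (π₀ ℓ : ℕ) (z : ℕ → ℕ → Bool) (i j : ℕ) : ℕ :=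
  xseg π₀ ℓ i j + (z i j).toNat - 2 * (z i j).toNat * (xseg π₀ ℓ i j % 2)
/-- the final middle field -/
def xm2 (n π₀ ℓ k : ℕ) (z : ℕ → ℕ → Bool) (i : ℕ) : ℕ :=
  XK3 ((2 ^ ℓ) ^ k) (2 ^ π₀) (xmid n π₀ ℓ k i) (xdg (2 ^ ℓ) k (xu2 π₀ ℓ z i)) (xlo π₀ i)
/-- the permutation of the addresses -/
def xσ (π₀ ℓ k : ℕ) (z : ℕ → ℕ → Bool) (i : ℕ) : ℕ := i ^^^ mask π₀ ℓ k (z i)

/-- The hypotheses on the parameters. -/
structure XOK (n π₀ ℓ k : ℕ) (z : ℕ → ℕ → Bool) : Prop where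
  dep : ∀ i i' j, j < k → (∀ j', j < j' → j' < k →
    i.testBit (π₀ + ℓ * j') = i'.testBit (π₀ + ℓ * j')) → z i j = z i' j
  inv : ∀ i j, j < k → z (i ^^^ mask π₀ ℓ k (z i)) j = z i j
  fit : π₀ + ℓ * k + k.size * k ≤ n
  gap : 2 * k.size + 2 ≤ ℓ

section fields

variable {n π₀ ℓ k : ℕ} {z : ℕ → ℕ → Bool}

lemma xW_eq (k : ℕ) : xW k = (2 ^ k.size) ^ k := pow_mul _ _ _

lemma xW_pos (k : ℕ) : 0 < xW k := by unfold xW; positivity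

lemma xW_le_xQ (k : ℕ) : xW k ≤ xQ k := by
  rw [xW_eq]; exact Nat.pow_le_pow_left (Nat.le_succ _) _

lemma xQ_le (k : ℕ) : xQ k ≤ 3 * xW k := by
  rw [xW_eq]
  exact add_pow_le_three_mul (by positivity) (by simpa using (Nat.lt_size_self k).le)

lemma xQ_pos (k : ℕ) : 0 < xQ k := by unfold xQ; positivity

lemma size_xQ_le (k : ℕ) : (xQ k).size ≤ k * (k.size + 1) + 1 := by
  rw [Nat.size_le]
  have h1 : 2 ^ k.size + 1 ≤ 2 ^ (k.size + 1) := by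
    have : 0 < 2 ^ k.size := by positivity
    rw [pow_succ]; omega
  calc xQ k ≤ (2 ^ (k.size + 1)) ^ k := Nat.pow_le_pow_left h1 _
    _ = 2 ^ (k * (k.size + 1)) := by rw [← pow_mul, mul_comm]
    _ < _ := Nat.pow_lt_pow_right (by norm_num) (Nat.lt_succ_self _)

lemma xU₀_pos (n k : ℕ) : 0 < xU₀ n k := by unfold xU₀; positivity

lemma xU₁_pos (n π₀ ℓ k : ℕ) : 0 < xU₁ n π₀ ℓ k := by unfold xU₁ xβ; positivity

lemma XOK.xW_mul_xU₀ (H : XOK n π₀ ℓ k z) : xW k * xU₀ n k = 2 ^ n := by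
  have := H.fit
  unfold xW xU₀
  rw [← pow_add]
  congr 1
  omega

lemma XOK.xU₁_le (H : XOK n π₀ ℓ k z) : xU₁ n π₀ ℓ k ≤ 3 * xU₀ n k := by
  have h0 := H.fit
  have h1 : xβ ℓ k ^ k ≤ 3 * (2 ^ ℓ) ^ k := by
    apply add_pow_le_three_mul (by positivity)
    have h2 := (Nat.lt_size_self k).le
    calc k * (2 * 2 ^ k.size) ≤ 2 ^ k.size * (2 * 2 ^ k.size) := Nat.mul_le_mul_right _ h2
      _ = 2 ^ (2 * k.size + 1) := by ring
      _ ≤ 2 ^ ℓ := Nat.pow_le_pow_right (by norm_num) (by have := H.gap; omega)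
  unfold xU₁ xU₀
  calc 2 ^ (n - k.size * k - (π₀ + ℓ * k)) * xβ ℓ k ^ k * 2 ^ π₀
      ≤ 2 ^ (n - k.size * k - (π₀ + ℓ * k)) * (3 * (2 ^ ℓ) ^ k) * 2 ^ π₀ :=
        Nat.mul_le_mul_right _ (Nat.mul_le_mul_left _ h1)
    _ = 3 * 2 ^ (n - k.size * k - (π₀ + ℓ * k) + ℓ * k + π₀) := by
        rw [← pow_mul, pow_add, pow_add]; ring
    _ = _ := by congr 2; omega

lemma XOK.xsl_lt (H : XOK n π₀ ℓ k z) {i : ℕ} (hi : i < 2 ^ n) : xsl n k i < xW k := by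
  rw [← H.xW_mul_xU₀] at hi
  exact (Nat.div_lt_iff_lt_mul (xU₀_pos n k)).2 hi

lemma xm_lt (n k i : ℕ) : xm n k i < xU₀ n k := Nat.mod_lt _ (xU₀_pos n k)

lemma xsl_add_xm (n k i : ℕ) : xsl n k i * xU₀ n k + xm n k i = i := Nat.div_add_mod' _ _

lemma XOK.xmid_lt (H : XOK n π₀ ℓ k z) (i : ℕ) :
    xmid n π₀ ℓ k i < 2 ^ (n - k.size * k - (π₀ + ℓ * k)) := by
  have h0 := H.fit
  unfold xmid
  rw [Nat.div_lt_iff_lt_mul (by positivity), ← pow_add]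
  have := xm_lt n k i
  unfold xU₀ at this
  rwa [show n - k.size * k - (π₀ + ℓ * k) + (π₀ + ℓ * k) = n - k.size * k by omega]

lemma xseg_lt (π₀ ℓ i j : ℕ) : xseg π₀ ℓ i j < 2 ^ ℓ := Nat.mod_lt _ (by positivity)

lemma xlo_lt (π₀ i : ℕ) : xlo π₀ i < 2 ^ π₀ := Nat.mod_lt _ (by positivity)

lemma xwd_lt (k w j : ℕ) : xwd k w j < 2 ^ k.size := Nat.mod_lt _ (by positivity)

lemma xu1_lt (π₀ ℓ k : ℕ) (z : ℕ → ℕ → Bool) (i w j : ℕ) : xu1 π₀ ℓ k z i w j < xβ ℓ k := by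
  have h1 := xseg_lt π₀ ℓ i j
  have h2 := xwd_lt k w j
  unfold xu1 xβ
  cases z i j <;> simp <;> omega

lemma XOK.xum1_lt (H : XOK n π₀ ℓ k z) (i w : ℕ) : xum1 n π₀ ℓ k z i w < xU₁ n π₀ ℓ k :=
  K3_lt (H.xmid_lt i) (xdg_lt fun j _ => xu1_lt _ _ _ _ _ _ j) (xlo_lt _ _)

lemma xw1_digit_lt (π₀ ℓ k i w j : ℕ) : xwd k w j + xseg π₀ ℓ i j % 2 < 2 ^ k.size + 1 := by
  have := xwd_lt k w j
  omega

lemma xw1_lt (π₀ ℓ k i w : ℕ) : xw1 π₀ ℓ k i w < xQ k :=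
  xdg_lt fun j _ => xw1_digit_lt _ _ _ _ _ j

lemma dg_xwd {k w : ℕ} (hw : w < xW k) : xdg (2 ^ k.size) k (xwd k w) = w := by
  have := dg_digits (2 ^ k.size) k w
  rw [← xW_eq, Nat.mod_eq_of_lt hw] at this
  exact this

lemma XOK.xm_eq (H : XOK n π₀ ℓ k z) (i : ℕ) : xm n k i =
    XK3 ((2 ^ ℓ) ^ k) (2 ^ π₀) (xmid n π₀ ℓ k i) (xdg (2 ^ ℓ) k (xseg π₀ ℓ i)) (xlo π₀ i) := by
  have h0 := H.fit
  have h1 : xdg (2 ^ ℓ) k (xseg π₀ ℓ i) = i / 2 ^ π₀ % (2 ^ ℓ) ^ k := by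
    rw [← dg_digits]
    refine dg_congr fun j _ => ?_
    unfold xseg
    rw [Nat.div_div_eq_div_mul, ← pow_mul, ← pow_add]
  have h2 : xm n k i % 2 ^ (π₀ + ℓ * k) = i % 2 ^ (π₀ + ℓ * k) :=
    Nat.mod_mod_of_dvd _ (pow_dvd_pow _ (by omega))
  have h3 : i % 2 ^ (π₀ + ℓ * k) = i % 2 ^ π₀ + 2 ^ π₀ * (i / 2 ^ π₀ % (2 ^ ℓ) ^ k) := by
    rw [pow_add, pow_mul, Nat.mod_mul]
  have h4 := Nat.div_add_mod' (xm n k i) (2 ^ (π₀ + ℓ * k))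
  rw [h1]
  unfold XK3 xmid xlo
  rw [h2, h3] at h4
  have h5 : 2 ^ (π₀ + ℓ * k) = 2 ^ π₀ * (2 ^ ℓ) ^ k := by rw [pow_add, pow_mul]
  generalize xm n k i / 2 ^ (π₀ + ℓ * k) = q at h4 ⊢
  rw [h5] at h4
  linarith

lemma mask_eq (π₀ ℓ k : ℕ) (y : ℕ → Bool) :
    mask π₀ ℓ k y = xdg (2 ^ ℓ) k (fun j => (y j).toNat) * 2 ^ π₀ := by
  unfold mask xdg
  rw [sum_mul]
  refine sum_congr rfl fun j _ => ?_
  rw [pow_add, pow_mul]; ring

lemma toNat_lt_two_pow (hℓ : 1 ≤ ℓ) (b : Bool) : b.toNat < 2 ^ ℓ := by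
  have h1 : 2 ^ 1 ≤ 2 ^ ℓ := Nat.pow_le_pow_right (by norm_num) hℓ
  have := Bool.toNat_le b
  omega

lemma mask_lt (hℓ : 1 ≤ ℓ) (π₀ k : ℕ) (y : ℕ → Bool) : mask π₀ ℓ k y < 2 ^ (π₀ + ℓ * k) := by
  rw [mask_eq, add_comm, pow_add, pow_mul]
  exact Nat.mul_lt_mul_of_pos_right (xdg_lt fun j _ => toNat_lt_two_pow hℓ _) (by positivity)

lemma XOK.one_le (H : XOK n π₀ ℓ k z) : 1 ≤ ℓ := by have := H.gap; omega

lemma XOK.xσ_lt (H : XOK n π₀ ℓ k z) {i : ℕ} (hi : i < 2 ^ n) : xσ π₀ ℓ k z i < 2 ^ n := by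
  have h0 := H.fit
  exact Nat.xor_lt_two_pow hi ((mask_lt H.one_le _ _ _).trans_le
    (Nat.pow_le_pow_right (by norm_num) (by omega)))

lemma XOK.xσ_xσ (H : XOK n π₀ ℓ k z) (i : ℕ) : xσ π₀ ℓ k z (xσ π₀ ℓ k z i) = i := by
  have h : mask π₀ ℓ k (z (xσ π₀ ℓ k z i)) = mask π₀ ℓ k (z i) :=
    sum_congr rfl fun j hj => by rw [show z (xσ π₀ ℓ k z i) j = z i j from H.inv i j (mem_range.1 hj)]
  rw [xσ, h, xσ, Nat.xor_assoc, Nat.xor_self, Nat.xor_zero]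

lemma XOK.xsl_xσ (H : XOK n π₀ ℓ k z) (i : ℕ) : xsl n k (xσ π₀ ℓ k z i) = xsl n k i := by
  have h0 := H.fit
  unfold xsl xσ
  rw [Nat.xor_div_two_pow, Nat.div_eq_of_lt ((mask_lt H.one_le _ _ _).trans_le
    (Nat.pow_le_pow_right (by norm_num) (by omega))), Nat.xor_zero]

lemma XOK.xmid_xσ (H : XOK n π₀ ℓ k z) (i : ℕ) :
    xmid n π₀ ℓ k (xσ π₀ ℓ k z i) = xmid n π₀ ℓ k i := by
  unfold xmid xm xσ
  rw [Nat.xor_mod_two_pow, Nat.xor_div_two_pow,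
    Nat.div_eq_of_lt ((Nat.mod_le _ _).trans_lt (mask_lt H.one_le _ _ _)), Nat.xor_zero]

lemma xlo_xσ (i : ℕ) : xlo π₀ (xσ π₀ ℓ k z i) = xlo π₀ i := by
  unfold xlo xσ
  rw [Nat.xor_mod_two_pow, mask_eq, Nat.mul_mod_left, Nat.xor_zero]

lemma xor_toNat (u : ℕ) (b : Bool) : u ^^^ b.toNat = u + b.toNat - 2 * b.toNat * (u % 2) := by
  cases b
  · simp
  · rcases Nat.even_or_odd u with h | h
    · rw [Bool.toNat_true, Nat.xor_one_of_even h, Nat.even_iff.1 h]; simp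
    · rw [Bool.toNat_true, Nat.xor_one_of_odd h, Nat.odd_iff.1 h]; omega

lemma XOK.xseg_xσ (H : XOK n π₀ ℓ k z) (i : ℕ) {j : ℕ} (hj : j < k) :
    xseg π₀ ℓ (xσ π₀ ℓ k z i) j = xu2 π₀ ℓ z i j := by
  have h : mask π₀ ℓ k (z i) / 2 ^ (π₀ + ℓ * j) % 2 ^ ℓ = (z i j).toNat := by
    rw [mask_eq, pow_add, ← Nat.div_div_eq_div_mul, Nat.mul_div_cancel _ (by positivity), pow_mul]
    exact sum_digits_div_mod (by positivity) j k (c := fun j => (z i j).toNat)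
      (fun j _ => toNat_lt_two_pow H.one_le _) hj
  unfold xu2
  rw [← xor_toNat]
  unfold xseg xσ
  rw [Nat.xor_div_two_pow, Nat.xor_mod_two_pow, h]

lemma XOK.xm_xσ (H : XOK n π₀ ℓ k z) (i : ℕ) : xm n k (xσ π₀ ℓ k z i) = xm2 n π₀ ℓ k z i := by
  rw [H.xm_eq, H.xmid_xσ, xlo_xσ, dg_congr fun j hj => H.xseg_xσ i hj]
  rfl

lemma XOK.xu2_lt (H : XOK n π₀ ℓ k z) (i : ℕ) {j : ℕ} (hj : j < k) : xu2 π₀ ℓ z i j < 2 ^ ℓ := by
  rw [← H.xseg_xσ i hj]; exact xseg_lt _ _ _ _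

lemma XOK.xm2_lt (H : XOK n π₀ ℓ k z) (i : ℕ) : xm2 n π₀ ℓ k z i < xU₀ n k := by
  rw [← H.xm_xσ]; exact xm_lt _ _ _

lemma XOK.z_eq (H : XOK n π₀ ℓ k z) {i i' j : ℕ} (hj : j < k)
    (h : ∀ j', j < j' → j' < k → xseg π₀ ℓ i j' % 2 = xseg π₀ ℓ i' j' % 2) : z i j = z i' j := by
  refine H.dep i i' j hj fun j' h1 h2 => ?_
  have h3 := h j' h1 h2
  have h4 : (2 : ℕ) ∣ 2 ^ ℓ := dvd_pow_self 2 (by have := H.one_le; omega)
  unfold xseg at h3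
  rw [Nat.mod_mod_of_dvd _ h4, Nat.mod_mod_of_dvd _ h4] at h3
  rw [Nat.testBit_eq_decide_div_mod_eq, Nat.testBit_eq_decide_div_mod_eq, h3]

lemma xu1_mod_two (π₀ ℓ k : ℕ) (z : ℕ → ℕ → Bool) (i w j : ℕ) :
    xu1 π₀ ℓ k z i w j % 2 = xseg π₀ ℓ i j % 2 := by
  unfold xu1
  rw [mul_assoc, Nat.add_mul_mod_self_left]

variable {i i' w w' : ℕ}

lemma stage1 (hw : w < xW k) (hw' : w' < xW k) (h : i * xW k + w < i' * xW k + w') :
    XK3 (xU₀ n k) (xQ k) (xsl n k i) (xm n k i) w <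
      XK3 (xU₀ n k) (xQ k) (xsl n k i') (xm n k i') w' := by
  unfold XK3
  rw [xsl_add_xm, xsl_add_xm]
  exact (same_K2 hw hw' (hw.trans_le (xW_le_xQ k)) (hw'.trans_le (xW_le_xQ k)) (Same.refl _ _)
    fun _ => Same.refl _ _).1 h

lemma XOK.stage2 (H : XOK n π₀ ℓ k z) (hi : i < 2 ^ n) (hi' : i' < 2 ^ n)
    (h : XK3 (xU₀ n k) (xQ k) w (xm n k i) (xsl n k i) <
      XK3 (xU₀ n k) (xQ k) w' (xm n k i') (xsl n k i')) :
    XK3 (xU₁ n π₀ ℓ k) (xQ k) w (xum1 n π₀ ℓ k z i w) (xsl n k i) <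
      XK3 (xU₁ n π₀ ℓ k) (xQ k) w' (xum1 n π₀ ℓ k z i' w') (xsl n k i') := by
  have h1 := (H.xsl_lt hi).trans_le (xW_le_xQ k)
  have h2 := (H.xsl_lt hi').trans_le (xW_le_xQ k)
  refine (same_K3 (xm_lt _ _ _) (xm_lt _ _ _) h1 h2 (H.xum1_lt _ _) (H.xum1_lt _ _) h1 h2
    (Same.refl _ _) (fun e => ?_) fun _ _ => Same.refl _ _).1 h
  subst e
  rw [H.xm_eq, H.xm_eq]
  refine same_K3 (xdg_lt fun j _ => xseg_lt _ _ _ j) (xdg_lt fun j _ => xseg_lt _ _ _ j)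
    (xlo_lt _ _) (xlo_lt _ _) (xdg_lt fun j _ => xu1_lt _ _ _ _ _ _ j)
    (xdg_lt fun j _ => xu1_lt _ _ _ _ _ _ j) (xlo_lt _ _) (xlo_lt _ _) (Same.refl _ _)
    (fun _ => ?_) fun _ _ => Same.refl _ _
  refine same_dg k (fun j _ => xseg_lt _ _ _ j) (fun j _ => xseg_lt _ _ _ j)
    (fun j _ => xu1_lt _ _ _ _ _ _ j) (fun j _ => xu1_lt _ _ _ _ _ _ j) fun j hj h' => ?_
  have e := H.z_eq (i := i) (i' := i') hj fun j' a b => by rw [h' j' a b]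
  unfold xu1
  rw [e]
  constructor <;> intro <;> omega

lemma XOK.xu1_eq (H : XOK n π₀ ℓ k z) (h : xum1 n π₀ ℓ k z i w = xum1 n π₀ ℓ k z i' w') {j : ℕ}
    (hj : j < k) : xu1 π₀ ℓ k z i w j = xu1 π₀ ℓ k z i' w' j := by
  have _ := H
  unfold xum1 at h
  rw [K3_eq_iff (xdg_lt fun j _ => xu1_lt _ _ _ _ _ _ j) (xdg_lt fun j _ => xu1_lt _ _ _ _ _ _ j)
    (xlo_lt _ _) (xlo_lt _ _)] at h
  exact dg_inj (fun j _ => xu1_lt _ _ _ _ _ _ j) (fun j _ => xu1_lt _ _ _ _ _ _ j) h.2.1 hj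

lemma XOK.stage3 (H : XOK n π₀ ℓ k z) (hw : w < xW k) (hw' : w' < xW k)
    (h : XK3 (xU₁ n π₀ ℓ k) (xQ k) (xsl n k i) (xum1 n π₀ ℓ k z i w) w <
      XK3 (xU₁ n π₀ ℓ k) (xQ k) (xsl n k i') (xum1 n π₀ ℓ k z i' w') w') :
    XK3 (xU₁ n π₀ ℓ k) (xQ k) (xsl n k i) (xum1 n π₀ ℓ k z i w) (xw1 π₀ ℓ k i w) <
      XK3 (xU₁ n π₀ ℓ k) (xQ k) (xsl n k i') (xum1 n π₀ ℓ k z i' w') (xw1 π₀ ℓ k i' w') := by
  refine (same_K3 (H.xum1_lt _ _) (H.xum1_lt _ _) (hw.trans_le (xW_le_xQ k))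
    (hw'.trans_le (xW_le_xQ k)) (H.xum1_lt _ _) (H.xum1_lt _ _) (xw1_lt _ _ _ _ _)
    (xw1_lt _ _ _ _ _) (Same.refl _ _) (fun _ => Same.refl _ _) fun _ e => ?_).1 h
  have key := same_dg k (fun j _ => xwd_lt k w j) (fun j _ => xwd_lt k w' j)
    (fun j _ => xw1_digit_lt π₀ ℓ k i w j) (fun j _ => xw1_digit_lt π₀ ℓ k i' w' j)
    (fun j hj _ => by
      have e1 := H.xu1_eq e hj
      have e2 := xu1_mod_two π₀ ℓ k z i w j
      have e3 := xu1_mod_two π₀ ℓ k z i' w' j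
      rw [e1, e3] at e2
      constructor <;> intro <;> omega)
  rwa [dg_xwd hw, dg_xwd hw'] at key

lemma XOK.stage4 (H : XOK n π₀ ℓ k z) (hi : i < 2 ^ n) (hi' : i' < 2 ^ n)
    (h : XK3 (xU₁ n π₀ ℓ k) (xQ k) (xw1 π₀ ℓ k i w) (xum1 n π₀ ℓ k z i w) (xsl n k i) <
      XK3 (xU₁ n π₀ ℓ k) (xQ k) (xw1 π₀ ℓ k i' w') (xum1 n π₀ ℓ k z i' w') (xsl n k i')) :
    XK3 (xU₀ n k) (xQ k) (xw1 π₀ ℓ k i w) (xm2 n π₀ ℓ k z i) (xsl n k i) <
      XK3 (xU₀ n k) (xQ k) (xw1 π₀ ℓ k i' w') (xm2 n π₀ ℓ k z i') (xsl n k i') := by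
  have h1 := (H.xsl_lt hi).trans_le (xW_le_xQ k)
  have h2 := (H.xsl_lt hi').trans_le (xW_le_xQ k)
  refine (same_K3 (H.xum1_lt _ _) (H.xum1_lt _ _) h1 h2 (H.xm2_lt _) (H.xm2_lt _) h1 h2
    (Same.refl _ _) (fun e => ?_) fun _ _ => Same.refl _ _).1 h
  refine same_K3 (xdg_lt fun j _ => xu1_lt _ _ _ _ _ _ j) (xdg_lt fun j _ => xu1_lt _ _ _ _ _ _ j)
    (xlo_lt _ _) (xlo_lt _ _) (xdg_lt fun j hj => H.xu2_lt _ hj)
    (xdg_lt fun j hj => H.xu2_lt _ hj) (xlo_lt _ _) (xlo_lt _ _) (Same.refl _ _)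
    (fun _ => ?_) fun _ _ => Same.refl _ _
  refine same_dg k (fun j _ => xu1_lt _ _ _ _ _ _ j) (fun j _ => xu1_lt _ _ _ _ _ _ j)
    (fun j hj => H.xu2_lt _ hj) (fun j hj => H.xu2_lt _ hj) fun j hj h' => ?_
  have e1 := H.z_eq (i := i) (i' := i') hj fun j' a b => by
    rw [← xu1_mod_two π₀ ℓ k z i w, h' j' a b, xu1_mod_two]
  have e2 : xwd k w j + xseg π₀ ℓ i j % 2 = xwd k w' j + xseg π₀ ℓ i' j % 2 :=
    dg_inj (fun j _ => xw1_digit_lt π₀ ℓ k i w j) (fun j _ => xw1_digit_lt π₀ ℓ k i' w' j) e hj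
  unfold xu1 xu2
  rw [e1]
  cases z i' j
  · simp only [Bool.toNat_false]
    constructor <;> intro <;> omega
  · simp only [Bool.toNat_true]
    constructor <;> intro <;> omega

lemma XOK.stage5 (H : XOK n π₀ ℓ k z) (hw : w < xW k) (hw' : w' < xW k)
    (h : XK3 (xU₀ n k) (xQ k) (xsl n k i) (xm2 n π₀ ℓ k z i) (xw1 π₀ ℓ k i w) <
      XK3 (xU₀ n k) (xQ k) (xsl n k i') (xm2 n π₀ ℓ k z i') (xw1 π₀ ℓ k i' w')) :
    xσ π₀ ℓ k z i * xW k + w < xσ π₀ ℓ k z i' * xW k + w' := by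
  unfold XK3 at h
  rw [← H.xm_xσ, ← H.xm_xσ, ← H.xsl_xσ i, ← H.xsl_xσ i', xsl_add_xm, xsl_add_xm] at h
  refine (same_K2 (xw1_lt _ _ _ _ _) (xw1_lt _ _ _ _ _) hw hw' (Same.refl _ _) fun e => ?_).1 h
  have e' : i = i' := by rw [← H.xσ_xσ i, e, H.xσ_xσ]
  subst e'
  have key := same_dg k (fun j _ => xw1_digit_lt π₀ ℓ k i w j)
    (fun j _ => xw1_digit_lt π₀ ℓ k i w' j) (fun j _ => xwd_lt k w j) (fun j _ => xwd_lt k w' j)
    (fun j hj _ => by constructor <;> intro <;> omega)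
  rwa [dg_xwd hw, dg_xwd hw'] at key

end fields

end Crest.Agent.R326
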