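import Crest.Agent.R326.Swap
import Crest.Agent.R326.XorMath

/-!
Re-sorting a tagged list with one swap.
-/

set_option autoImplicit false

namespace Crest.Agent.R326

open Crest.Agent.Lib.PT Crest.Agent.Lib.LT Finset

variable {A α γ : Type} [Enc α] [Enc γ] {cur : A → P} {B : A → ℕ} {x : In B}

lemma length_le_of_pairwise_lt {θ : Type} {l : List θ} {κ : θ → ℕ} {N : ℕ}
    (hs : l.Pairwise (fun t t' => κ t < κ t')) (hN : ∀ t ∈ l, κ t < N) : l.length ≤ N := by
  have h1 : (l.map κ).Nodup := by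
    rw [List.Nodup, List.pairwise_map]
    exact hs.imp fun h => h.ne
  have h2 : l.map κ ⊆ List.range N := by
    intro v hv
    obtain ⟨t, ht, rfl⟩ := List.mem_map.1 hv
    exact List.mem_range.2 (hN t ht)
  simpa using (List.subperm_of_subset h1 h2).length_le

/-- A list sorted by the key `(top, mid, bot)` is sorted by the key `(bot, mid, top)`. -/
theorem ct_swapSort (top um bot : γ → ℕ × ℕ → ℕ)
    (htop : PT (fun q : γ × ℕ × ℕ => top q.1 q.2)) (hum : PT (fun q : γ × ℕ × ℕ => um q.1 q.2))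
    (hbot : PT (fun q : γ × ℕ × ℕ => bot q.1 q.2))
    {l : A → List (ℕ × ℕ)} {val : A → ℕ × ℕ → α} {par : A → γ} {Q U S tb : A → ℕ}
    (hl : CT cur x (fun a => (l a).map (fun t => (t, val a t))))
    (hp : CT cur x par) (hQ : CT cur x Q) (hU : CT cur x U) (hS : CT cur x S)
    (hb : ∀ a, ∀ t ∈ l a, top (par a) t < Q a ∧ um (par a) t < U a ∧ bot (par a) t < Q a)
    (hs : ∀ a, (l a).Pairwise (fun t t' =>
      XK3 (U a) (Q a) (top (par a) t) (um (par a) t) (bot (par a) t) <
        XK3 (U a) (Q a) (top (par a) t') (um (par a) t') (bot (par a) t')))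
    (hQ0 : ∀ a, 0 < Q a) (hU0 : ∀ a, 0 < U a)
    (hsz : ∀ a, ∀ t ∈ l a, sz (t, val a t) + 2 ≤ S a) (htb : ∀ a, ∀ t ∈ l a, sz t ≤ tb a)
    (hsm : Sm S (fun a => sz (par a) + sz (Q a) + sz (U a) + tb a))
    (hB : Dom (fun a => Q a * U a * Q a * S a * pw τ₁ (Q a).size) B) :
    ∃ l' : A → List (ℕ × ℕ), (∀ a, (l' a).Perm (l a)) ∧
      (∀ a, (l' a).Pairwise (fun t t' =>
        XK3 (U a) (Q a) (bot (par a) t) (um (par a) t) (top (par a) t) <
          XK3 (U a) (Q a) (bot (par a) t') (um (par a) t') (top (par a) t'))) ∧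
      CT cur x (fun a => (l' a).map (fun t => (t, val a t))) := by
  classical
  let κ : A → ℕ × ℕ → ℕ := fun a t =>
    XK3 (U a) (Q a) (top (par a) t) (um (par a) t) (bot (par a) t)
  let κ' : A → ℕ × ℕ → ℕ := fun a t =>
    XK3 (U a) (Q a) (bot (par a) t) (um (par a) t) (top (par a) t)
  let N : A → ℕ := fun a => Q a * U a * Q a
  have hκ : ∀ a, ∀ t ∈ l a, κ a t < N a := fun a t ht =>
    K3_lt (hb a t ht).1 (hb a t ht).2.1 (hb a t ht).2.2
  have hκ' : ∀ a, ∀ t ∈ l a, κ' a t < N a := fun a t ht =>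
    K3_lt (hb a t ht).2.2 (hb a t ht).2.1 (hb a t ht).1
  have hsw : ∀ a, ∀ t ∈ l a, swapIdx (Q a) (U a) 1 (κ' a t) = κ a t := fun a t ht =>
    swapIdx_K3 (hb a t ht).2.2 (hb a t ht).2.1 (hb a t ht).1
  have hlen : ∀ a, (l a).length ≤ N a := fun a => length_le_of_pairwise_lt (hs a) (hκ a)
  have hN0 : ∀ a, 0 < N a := fun a => Nat.mul_pos (Nat.mul_pos (hQ0 a) (hU0 a)) (hQ0 a)
  have hB₀ : Dom (fun a => N a * S a) B :=
    hB.le_trans fun a => Nat.le_mul_of_pos_right _ (pw_pos _ _)
  have hSB : Dom S B := hB₀.le_trans fun a => Nat.le_mul_of_pos_left _ (hN0 a)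
  have hNB : Dom N B := hB₀.le_trans fun a => Nat.le_mul_of_pos_right _ (hsm.pos a)
  have hsmN : Sm S (fun a => sz (N a)) := (hsm.const_mul 2).of_le fun a => by
    have h1 := sz_mul_le (Q a * U a) (Q a)
    have h2 := sz_mul_le (Q a) (U a)
    simp only [N]
    omega
  have hN : CT cur x N :=
    (hQ.pair hU).pt (f := fun q : ℕ × ℕ => q.1 * q.2 * q.1) (by fun_prop)
      (((hsm.mono hSB).add_const 1).of_le fun a => by simp only [sz_pair]; omega)
  -- the sorted list
  let l' : A → List (ℕ × ℕ) := fun a => (l a).mergeSort (fun t t' => decide (κ' a t ≤ κ' a t'))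
  have hperm : ∀ a, (l' a).Perm (l a) := fun a => List.mergeSort_perm _ _
  have hinj : ∀ a, ∀ t ∈ l a, ∀ t' ∈ l a, κ' a t = κ' a t' → κ a t = κ a t' := by
    intro a t ht t' ht' e
    rw [← hsw a t ht, ← hsw a t' ht', e]
  have hs' : ∀ a, (l' a).Pairwise (fun t t' => κ' a t < κ' a t') := by
    intro a
    have h1 : (l' a).Pairwise (fun t t' => decide (κ' a t ≤ κ' a t') = true) :=
      List.pairwise_mergeSort (le := fun t t' => decide (κ' a t ≤ κ' a t'))
        (fun _ _ _ h h' => by simp only [decide_eq_true_eq] at *; omega)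
        (fun _ _ => by simp only [Bool.or_eq_true, decide_eq_true_eq]; omega) _
    have h2 : (l a).Pairwise (fun t t' => κ' a t ≠ κ' a t') :=
      (hs a).imp_of_mem fun {t t'} ht ht' h e => h.ne (hinj a t ht t' ht' e)
    have h3 : (l' a).Pairwise (fun t t' => κ' a t ≠ κ' a t') :=
      h2.perm (hperm a).symm fun h => h.symm
    refine (h1.and h3).imp fun h => ?_
    have := h.1
    have := h.2
    simp only [decide_eq_true_eq] at *
    omega
  refine ⟨l', hperm, hs', ?_⟩
  -- attach the keys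
  have h1 : CT cur x (fun a => ((l a).map (fun t => (t, val a t))).map
      (fun e => (κ a e.1, e))) := by
    refine hl.map (par := fun a => (par a, Q a, U a)) (f := fun a e => (κ a e.1, e))
      (hp.pair (hQ.pair hU)) (fun a _ => S a) ?_ (fun x' h₁ h₂ => ?_) ?_
    · refine Dom.add (Dom.of_le fun q => ?_)
        (((hsm.add_const 2).dom.comap Mem.a).le_trans fun q => by simp only [sz_pair]; omega)
      obtain ⟨t, ht, e⟩ := List.mem_map.1 q.mem
      have := hsz q.a t ht
      rw [← e]; omega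
    · refine CT.pair ?_ h₁
      refine (h₂.pair h₁.fst).pt (f := fun q : (γ × ℕ × ℕ) × ℕ × ℕ =>
        XK3 q.1.2.2 q.1.2.1 (top q.1.1 q.2) (um q.1.1 q.2) (bot q.1.1 q.2)) ?_ ?_
      · have e1 : PT (fun q : (γ × ℕ × ℕ) × ℕ × ℕ => top q.1.1 q.2) :=
          htop.comp (f := fun q : (γ × ℕ × ℕ) × ℕ × ℕ => (q.1.1, q.2)) (by fun_prop)
        have e2 : PT (fun q : (γ × ℕ × ℕ) × ℕ × ℕ => um q.1.1 q.2) :=
          hum.comp (f := fun q : (γ × ℕ × ℕ) × ℕ × ℕ => (q.1.1, q.2)) (by fun_prop)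
        have e3 : PT (fun q : (γ × ℕ × ℕ) × ℕ × ℕ => bot q.1.1 q.2) :=
          hbot.comp (f := fun q : (γ × ℕ × ℕ) × ℕ × ℕ => (q.1.1, q.2)) (by fun_prop)
        unfold XK3
        exact (((e1.mul (by fun_prop)).add e2).mul (by fun_prop)).add e3
      · refine ((hsm.add_const 3).comap Mem.a).of_le fun q => ?_
        obtain ⟨t, ht, e⟩ := List.mem_map.1 q.mem
        have := htb q.a t ht
        have e' : q.e.1 = t := by rw [← e]
        simp only [sz_pair, e']
        omega
    · refine hB₀.le_trans fun a => ?_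
      simp only [List.map_const', List.sum_replicate, smul_eq_mul, List.length_map]
      exact Nat.mul_le_mul_right _ (hlen a)
  -- scatter
  let L : A → List (ℕ × (ℕ × ℕ) × α) := fun a => ((l a).map (fun t => (t, val a t))).map
      (fun e => (κ a e.1, e))
  have hLs : ∀ a, (L a).Pairwise (fun p q => p.1 < q.1) := by
    intro a
    simp only [L, List.pairwise_map]
    exact hs a
  have hLm : ∀ a p, p ∈ L a ↔ ∃ t ∈ l a, (κ a t, t, val a t) = p := by
    intro a p
    simp [L]
  have h2 : CT cur x (fun a => arr (N a) (fun j => (L a).lookup j)) :=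
    CT.scatter' h1 hN hNB hLs
      (fun a p hp => by
        obtain ⟨t, ht, rfl⟩ := (hLm a p).1 hp
        exact hκ a t ht)
      (fun a p hp => lookup_of_mem (hLs a) hp)
      (fun a j _ h => List.lookup_eq_none_iff.2 fun p hp => by simpa using (h p hp).symm)
  have hlook : ∀ a, ∀ t ∈ l a, (L a).lookup (κ a t) = some (t, val a t) := fun a t ht =>
    lookup_of_mem (hLs a) ((hLm a _).2 ⟨t, ht, rfl⟩)
  have hlook' : ∀ a j, (∀ t ∈ l a, κ a t ≠ j) → (L a).lookup j = none := by
    intro a j h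
    refine List.lookup_eq_none_iff.2 fun p hp => ?_
    obtain ⟨t, ht, rfl⟩ := (hLm a p).1 hp
    simpa using (h t ht).symm
  -- swap
  have h3 := ct_swap (H := fun _ => 1) (O := fun _ => 1) (s := S) h2
    (hQ.pair (hU.pair ((CT.const 1).pair hS))) (fun a => by simp [N]) hN0
    (fun a j _ => by
      by_cases h : ∃ t ∈ l a, κ a t = j
      · obtain ⟨t, ht, rfl⟩ := h
        rw [hlook a t ht, sz_some]
        exact hsz a t ht
      · push Not at h
        rw [hlook' a j h, sz_none]
        exact hsm.pos a) hsmN hB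
  refine h3.reduceOption.congr fun a => ?_
  have hmem : ∀ i, i < (l' a).length → (l' a).getD i (0, 0) ∈ l a := by
    intro i hi
    rw [List.getD_eq_getElem _ _ hi]
    exact (hperm a).subset (List.getElem_mem hi)
  rw [reduceOption_arr (n := (l' a).length) (key := fun i => κ' a ((l' a).getD i (0, 0)))
    (f := fun i => ((l' a).getD i (0, 0), val a ((l' a).getD i (0, 0))))]
  · conv_lhs => rw [eq_arr_getD (l' a) (0, 0), map_arr]
  · intro i j hij hj
    rw [List.getD_eq_getElem _ _ hj, List.getD_eq_getElem _ _ (hij.trans hj)]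
    exact List.pairwise_iff_getElem.1 (hs' a) i j _ _ hij
  · exact fun i hi => hκ' a _ (hmem i hi)
  · intro i hi
    rw [hsw a _ (hmem i hi), hlook a _ (hmem i hi)]
  · intro j hj h
    refine hlook' a _ fun t ht e => ?_
    obtain ⟨i, hi, rfl⟩ := List.getElem_of_mem ((hperm a).symm.subset ht)
    refine h i hi ?_
    rw [List.getD_eq_getElem _ _ hi]
    obtain ⟨u, v, w, hu, hv, hw, rfl⟩ := exists_K3 hj
    rw [swapIdx_K3 hu hv hw] at e
    have hb' := hb a _ ht
    have e' := (K3_eq_iff hb'.2.1 hv hb'.2.2 hu).1 e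
    simp only [κ']
    rw [e'.1, e'.2.1, e'.2.2]

end Crest.Agent.R326
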